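import Crest.Agent.R181.AEBase

/-!
# Base change from `ℂ` to the division ring `D`
-/

set_option autoImplicit false

namespace Crest.Agent.R181.AE

open Module Finset
open Crest.Agent.R181.Mon (Ch KD zd zsp pc mem_zsp mem_pc valued chains)

variable {n : ℕ} {D : Type*} [DivisionRing D] [Algebra ℂ D]

/-- The inclusion of the complex polynomials. -/
noncomputable def iota (D : Type*) [DivisionRing D] [Algebra ℂ D] {n : ℕ} :
    MvPolynomial (Fin n) ℂ →+* PD D n :=
  AddMonoidAlgebra.mapRingHom _ (algebraMap ℂ D)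

theorem coeff_iota (g : MvPolynomial (Fin n) ℂ) (m : Fin n →₀ ℕ) :
    (iota D g).coeff m = algebraMap ℂ D (MvPolynomial.coeff m g) :=
  AddMonoidAlgebra.coeff_mapRingHom ..

theorem iota_smul (c : ℂ) (g : MvPolynomial (Fin n) ℂ) :
    iota D (c • g) = algebraMap ℂ D c • iota D g := by
  ext m
  rw [coeff_iota, MvPolynomial.coeff_smul, AddMonoidAlgebra.coeff_smul, Finsupp.smul_apply,
    coeff_iota, smul_eq_mul, smul_eq_mul, map_mul]

theorem iota_X (t : Fin n) : iota D (MvPolynomial.X t) = Xs D t := by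
  ext m
  rw [coeff_iota, MvPolynomial.coeff_X]
  unfold Xs
  rw [AddMonoidAlgebra.coeff_single, Finsupp.single_apply]
  split_ifs <;> simp

/-- Apply a linear functional coefficientwise. -/
noncomputable def lam (l : D →ₗ[ℂ] ℂ) : PD D n →+ MvPolynomial (Fin n) ℂ where
  toFun f := AddMonoidAlgebra.ofCoeff (f.coeff.mapRange l (map_zero l))
  map_zero' := by
    ext m
    change l 0 = 0
    exact map_zero l
  map_add' f g := by
    ext m
    change l (f.coeff m + g.coeff m) = l (f.coeff m) + l (g.coeff m)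
    exact map_add l _ _

theorem coeff_lam (l : D →ₗ[ℂ] ℂ) (f : PD D n) (m : Fin n →₀ ℕ) :
    MvPolynomial.coeff m (lam l f) = l (f.coeff m) := rfl

theorem lam_smul_iota (l : D →ₗ[ℂ] ℂ) (d : D) (g : MvPolynomial (Fin n) ℂ) :
    lam l (d • iota D g) = l d • g := by
  ext m
  rw [coeff_lam, AddMonoidAlgebra.coeff_smul, Finsupp.smul_apply, coeff_iota,
    MvPolynomial.coeff_smul, smul_eq_mul, ← Algebra.commutes, ← Algebra.smul_def, map_smul,
    smul_eq_mul, smul_eq_mul, mul_comm]

theorem lam_smul (l : D →ₗ[ℂ] ℂ) (d : D) (f : PD D n) :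
    lam l (d • f) = lam (l ∘ₗ LinearMap.mulLeft ℂ d) f := by
  ext m
  rw [coeff_lam, coeff_lam]
  rfl

theorem lam_mul_Xs (l : D →ₗ[ℂ] ℂ) (f : PD D n) (t : Fin n) :
    lam l (f * Xs D t) = MvPolynomial.X t * lam l f := by
  ext m
  rw [coeff_lam, coeff_mul_Xs, MvPolynomial.coeff_X_mul']
  split_ifs
  · rw [coeff_lam]
  · exact map_zero l

/-- The extension of a subspace. -/
noncomputable def exD (D : Type*) [DivisionRing D] [Algebra ℂ D] {n : ℕ}
    (I : Submodule ℂ (MvPolynomial (Fin n) ℂ)) : Submodule D (PD D n) :=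
  Submodule.span D (iota D '' (I : Set (MvPolynomial (Fin n) ℂ)))

theorem lam_mem_of_mem_exD (I : Submodule ℂ (MvPolynomial (Fin n) ℂ)) {f : PD D n}
    (hf : f ∈ exD D I) : ∀ l : D →ₗ[ℂ] ℂ, lam l f ∈ I := by
  unfold exD at hf
  induction hf using Submodule.span_induction with
  | mem x hx =>
    obtain ⟨g, hg, rfl⟩ := hx
    intro l
    have := lam_smul_iota (n := n) l 1 g
    rw [one_smul] at this
    rw [this]
    exact I.smul_mem _ hg
  | zero => intro l; rw [map_zero]; exact I.zero_mem
  | add x y _ _ hx hy => intro l; rw [map_add]; exact I.add_mem (hx l) (hy l)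
  | smul a x _ hx => intro l; rw [lam_smul]; exact hx _

/-- Every element is a finite combination of elements with complex coefficients. -/
theorem exists_finset_sum {κ : Type*} (B : Basis κ ℂ D) (f : PD D n) :
    ∃ S : Finset κ, ∀ S' : Finset κ, S ⊆ S' →
      f = ∑ k ∈ S', B k • iota D (lam (B.coord k) f) := by
  classical
  refine ⟨f.coeff.support.biUnion (fun m => (B.repr (f.coeff m)).support), fun S' hS' => ?_⟩
  ext m
  have h1 : (∑ k ∈ S', B k • iota D (lam (B.coord k) f)).coeff m =
      ∑ k ∈ S', (B.repr (f.coeff m) k) • B k := by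
    rw [AddMonoidAlgebra.coeff_sum, Finsupp.finsetSum_apply]
    refine Finset.sum_congr rfl fun k _ => ?_
    rw [AddMonoidAlgebra.coeff_smul, Finsupp.smul_apply, coeff_iota, coeff_lam, smul_eq_mul,
      ← Algebra.commutes, ← Algebra.smul_def]
    rfl
  rw [h1]
  by_cases hm : m ∈ f.coeff.support
  · have h2 : (B.repr (f.coeff m)).support ⊆ S' := by
      intro k hk
      apply hS'
      rw [Finset.mem_biUnion]
      exact ⟨m, hm, hk⟩
    conv_lhs => rw [← B.linearCombination_repr (f.coeff m)]
    rw [Finsupp.linearCombination_apply, Finsupp.sum_of_support_subset _ h2]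
    intro i _
    rw [zero_smul]
  · have h2 : f.coeff m = 0 := by simpa using hm
    rw [h2, map_zero]
    simp

theorem mem_span_of_lam (Z : Submodule ℂ (MvPolynomial (Fin n) ℂ)) (f : PD D n)
    (h : ∀ l : D →ₗ[ℂ] ℂ, lam l f ∈ Z) : f ∈ exD D Z := by
  obtain ⟨S, hS⟩ := exists_finset_sum (Basis.ofVectorSpace ℂ D) f
  rw [hS S Finset.Subset.rfl]
  exact Submodule.sum_mem _ fun k _ => Submodule.smul_mem _ _
    (Submodule.subset_span ⟨_, h _, rfl⟩)

/-- Chains. -/
noncomputable def iotaC (D : Type*) [DivisionRing D] [Algebra ℂ D] {n : ℕ} (f : Ch n) : ChD D n :=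
  fun T => iota D (f T)

/-- Chains. -/
noncomputable def lamC (l : D →ₗ[ℂ] ℂ) (f : ChD D n) : Ch n := fun T => lam l (f T)

theorem mem_span_of_lamC (Z : Submodule ℂ (Ch n)) (f : ChD D n)
    (h : ∀ l : D →ₗ[ℂ] ℂ, lamC l f ∈ Z) :
    f ∈ Submodule.span D (iotaC D '' (Z : Set (Ch n))) := by
  classical
  have h1 := fun T => exists_finset_sum (Basis.ofVectorSpace ℂ D) (f T)
  choose S hS using h1
  have h2 : f = ∑ k ∈ Finset.univ.biUnion S, Basis.ofVectorSpace ℂ D k •
      iotaC D (lamC ((Basis.ofVectorSpace ℂ D).coord k) f) := by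
    funext T
    rw [Finset.sum_apply]
    exact hS T _ (fun k hk => Finset.mem_biUnion.2 ⟨T, Finset.mem_univ _, hk⟩)
  rw [h2]
  exact Submodule.sum_mem _ fun k _ => Submodule.smul_mem _ _
    (Submodule.subset_span ⟨_, h _, rfl⟩)

/-- Dimension of the extension of a finite dimensional space. -/
theorem finrank_span_image {V VD : Type*} [AddCommGroup V] [Module ℂ V] [AddCommGroup VD]
    [Module D VD] (io : V → VD) (io_add : ∀ v w, io (v + w) = io v + io w)
    (io_smul : ∀ (c : ℂ) v, io (c • v) = algebraMap ℂ D c • io v)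
    (la : (D →ₗ[ℂ] ℂ) → VD →+ V) (hla : ∀ l d v, la l (d • io v) = l d • v)
    (Z : Submodule ℂ V) [FiniteDimensional ℂ Z] :
    finrank D (Submodule.span D (io '' (Z : Set V))) = finrank ℂ Z := by
  classical
  set b := Module.finBasis ℂ Z
  have hzero : io 0 = 0 := by
    have := io_smul 0 0
    rwa [zero_smul, map_zero, zero_smul] at this
  have hsum : ∀ (s : Finset (Fin (finrank ℂ Z))) (g : Fin (finrank ℂ Z) → V),
      io (∑ i ∈ s, g i) = ∑ i ∈ s, io (g i) := by
    intro s g
    induction s using Finset.induction_on with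
    | empty => simpa using hzero
    | insert a s ha ih => rw [Finset.sum_insert ha, Finset.sum_insert ha, io_add, ih]
  have h1 : Submodule.span D (io '' (Z : Set V)) =
      Submodule.span D (Set.range fun i => io (b i : V)) := by
    apply le_antisymm
    · rw [Submodule.span_le]
      rintro _ ⟨z, hz, rfl⟩
      have h2 : z = ∑ i, b.repr ⟨z, hz⟩ i • (b i : V) := by
        have := congrArg Subtype.val (b.sum_repr ⟨z, hz⟩)
        rw [AddSubmonoidClass.coe_finsetSum] at this
        exact this.symm
      rw [h2, hsum]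
      refine Submodule.sum_mem _ fun i _ => ?_
      rw [io_smul]
      exact Submodule.smul_mem _ _ (Submodule.subset_span ⟨i, rfl⟩)
    · apply Submodule.span_mono
      rintro _ ⟨i, rfl⟩
      exact ⟨_, (b i).2, rfl⟩
  have h2 : LinearIndependent D fun i => io (b i : V) := by
    rw [Fintype.linearIndependent_iff]
    intro g hg i
    rw [← Module.forall_dual_apply_eq_zero_iff ℂ]
    intro l
    have h3 : la l (∑ i, g i • io (b i : V)) = 0 := by rw [hg, map_zero]
    rw [map_sum] at h3
    simp only [hla] at h3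
    have h4 : ∑ i, l (g i) • b i = 0 := by
      apply Subtype.ext
      rw [AddSubmonoidClass.coe_finsetSum]
      simpa using h3
    exact Fintype.linearIndependent_iff.1 b.linearIndependent _ h4 i
  rw [h1, finrank_span_eq_card h2, Fintype.card_fin]

theorem iotaC_add (f g : Ch n) : iotaC D (f + g) = iotaC D f + iotaC D g := by
  funext T
  exact map_add _ _ _

theorem iotaC_smul (c : ℂ) (f : Ch n) : iotaC D (c • f) = algebraMap ℂ D c • iotaC D f := by
  funext T
  exact iota_smul _ _

/-- Apply a linear functional coefficientwise. -/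
noncomputable def lamC' (l : D →ₗ[ℂ] ℂ) : ChD D n →+ Ch n where
  toFun := lamC l
  map_zero' := by funext T; exact map_zero _
  map_add' f g := by funext T; exact map_add _ _ _

theorem lamC_smul_iotaC (l : D →ₗ[ℂ] ℂ) (d : D) (f : Ch n) :
    lamC' l (d • iotaC D f) = l d • f := by
  funext T
  exact lam_smul_iota _ _ _

theorem KD_lamC (l : D →ₗ[ℂ] ℂ) (f : ChD D n) (U : Finset (Fin n)) :
    KD (lamC l f) U = lam l (KR (Xs D) f U) := by
  rw [Mon.KD_apply, KR_apply, map_sum]
  refine Finset.sum_congr rfl fun t _ => ?_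
  rw [sgz_smul_eq, map_zsmul, lam_mul_Xs]
  rfl

theorem KR_iotaC (f : Ch n) (U : Finset (Fin n)) :
    KR (Xs D) (iotaC D f) U = iota D (KD f U) := by
  rw [Mon.KD_apply, KR_apply, map_sum]
  refine Finset.sum_congr rfl fun t _ => ?_
  rw [sgz_smul_eq, map_zsmul, map_mul, iota_X, Xs_comm]
  rfl

theorem zspD_exD (I : Submodule ℂ (MvPolynomial (Fin n) ℂ)) (p j : ℕ) :
    zspD (Xs D) (exD D I) p j = Submodule.span D (iotaC D '' (zsp I p j : Set (Ch n))) := by
  apply le_antisymm
  · rintro f ⟨hf1, hf2⟩
    apply mem_span_of_lamC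
    intro l
    rw [mem_zsp]
    constructor
    · intro T m hm
      apply hf1 T m
      intro h0
      apply hm
      change l ((f T).coeff m) = 0
      rw [h0, map_zero]
    · intro U
      rw [KD_lamC]
      exact lam_mem_of_mem_exD I (hf2 U) l
  · rw [Submodule.span_le]
    rintro _ ⟨f, hf, rfl⟩
    refine ⟨?_, fun U => ?_⟩
    · intro T m hm
      apply hf.1 T m
      intro h0
      apply hm
      change (iota D (f T)).coeff m = 0
      rw [coeff_iota, h0, map_zero]
    · rw [KR_iotaC]
      exact Submodule.subset_span ⟨_, hf.2 U, rfl⟩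

/-- Base change for `zd`. -/
theorem zdD_exD (I : Submodule ℂ (MvPolynomial (Fin n) ℂ)) (p j : ℕ) :
    zdD (Xs D) (exD D I) p j = zd I p j := by
  unfold zdD zd
  rw [zspD_exD]
  exact finrank_span_image (iotaC D) iotaC_add iotaC_smul lamC' lamC_smul_iotaC _

theorem pcD_exD (I : Submodule ℂ (MvPolynomial (Fin n) ℂ)) (d : ℕ) :
    pcD (exD D I) d = Submodule.span D (iota D '' (pc I d : Set (MvPolynomial (Fin n) ℂ))) := by
  apply le_antisymm
  · rintro f ⟨hf1, hf2⟩
    apply mem_span_of_lam
    intro l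
    rw [mem_pc]
    constructor
    · intro m hm
      apply hf1 m
      intro h0
      apply hm
      rw [coeff_lam, h0, map_zero]
    · exact lam_mem_of_mem_exD I hf2 l
  · rw [Submodule.span_le]
    rintro _ ⟨f, hf, rfl⟩
    have hf' := mem_pc.1 hf
    refine ⟨?_, ?_⟩
    · intro m hm
      apply hf'.1 m
      intro h0
      apply hm
      rw [coeff_iota, h0, map_zero]
    · exact Submodule.subset_span ⟨_, hf'.2, rfl⟩

/-- Base change for the Hilbert function. -/
theorem finrank_pcD_exD (I : Submodule ℂ (MvPolynomial (Fin n) ℂ)) (d : ℕ) :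
    finrank D (pcD (exD D I) d) = finrank ℂ (pc I d) := by
  rw [pcD_exD]
  exact finrank_span_image (iota D) (fun v w => map_add _ v w) iota_smul lam lam_smul_iota _

/-- The submodule spanned by the monomials with exponents in `J`. -/
def monD (D : Type*) [DivisionRing D] {n : ℕ} (J : Set (Fin n →₀ ℕ)) : Submodule D (PD D n) where
  carrier := {f | ∀ m, f.coeff m ≠ 0 → m ∈ J}
  add_mem' := by
    intro f g hf hg m h
    rw [AddMonoidAlgebra.coeff_add, Finsupp.add_apply] at h
    by_cases h1 : f.coeff m = 0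
    · exact hg m (by rwa [h1, zero_add] at h)
    · exact hf m h1
  zero_mem' := by
    intro m h
    exact absurd rfl h
  smul_mem' := by
    intro a f hf m h
    rw [AddMonoidAlgebra.coeff_smul, Finsupp.smul_apply, smul_eq_mul] at h
    exact hf m (right_ne_zero_of_mul h)

omit [Algebra ℂ D] in
theorem mem_monD {J : Set (Fin n →₀ ℕ)} {f : PD D n} :
    f ∈ monD D J ↔ ∀ m, f.coeff m ≠ 0 → m ∈ J := Iff.rfl

theorem exD_monId (J : Set (Fin n →₀ ℕ)) : exD D (Mon.monId J) = monD D J := by
  apply le_antisymm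
  · unfold exD
    rw [Submodule.span_le]
    rintro _ ⟨g, hg, rfl⟩
    intro m hm
    apply hg m
    intro h0
    apply hm
    rw [coeff_iota, h0, map_zero]
  · intro f hf
    apply mem_span_of_lam
    intro l
    rw [Mon.mem_monId]
    intro m hm
    apply hf m
    intro h0
    apply hm
    rw [coeff_lam, h0, map_zero]

/-- The extension of an ideal is closed under the right multiplication by constants. -/
theorem exD_mul_Cs (I : Submodule ℂ (MvPolynomial (Fin n) ℂ)) {f : PD D n} (hf : f ∈ exD D I)
    (d : D) : f * Cs d ∈ exD D I := by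
  unfold exD at hf
  induction hf using Submodule.span_induction with
  | mem x hx =>
    obtain ⟨g, hg, rfl⟩ := hx
    have : iota D g * Cs d = d • iota D g := by
      ext m
      rw [coeff_mul_Cs, AddMonoidAlgebra.coeff_smul, Finsupp.smul_apply, coeff_iota, smul_eq_mul,
        Algebra.commutes]
    rw [this]
    exact Submodule.smul_mem _ _ (Submodule.subset_span ⟨g, hg, rfl⟩)
  | zero => rw [zero_mul]; exact Submodule.zero_mem _
  | add x y _ _ hx hy => rw [add_mul]; exact Submodule.add_mem _ hx hy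
  | smul a x _ hx => rw [smul_mul']; exact Submodule.smul_mem _ _ hx

theorem exD_mul_Xs (I : Submodule ℂ (MvPolynomial (Fin n) ℂ))
    (hI : ∀ t, ∀ f ∈ I, MvPolynomial.X t * f ∈ I) {f : PD D n} (hf : f ∈ exD D I)
    (t : Fin n) : f * Xs D t ∈ exD D I := by
  unfold exD at hf
  induction hf using Submodule.span_induction with
  | mem x hx =>
    obtain ⟨g, hg, rfl⟩ := hx
    have : iota D g * Xs D t = iota D (MvPolynomial.X t * g) := by
      rw [map_mul, iota_X, Xs_comm]
    rw [this]
    exact Submodule.subset_span ⟨_, hI t g hg, rfl⟩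
  | zero => rw [zero_mul]; exact Submodule.zero_mem _
  | add x y _ _ hx hy => rw [add_mul]; exact Submodule.add_mem _ hx hy
  | smul a x _ hx => rw [smul_mul']; exact Submodule.smul_mem _ _ hx

end Crest.Agent.R181.AE
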