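import Crest.Agent.R181.MonMain

/-!
# Koszul chains over a division ring

`PD D n` is the ring of polynomials in `n` central variables over the division ring `D`, viewed
as a left `D`-module.  For a family `a : Fin n → PD D n` the map `KR a` is the Koszul
differential attached to the right multiplications by the `a t`.
-/

set_option autoImplicit false

namespace Crest.Agent.R181.AE

open Module Finset
open Crest.Agent.R181.Mon (e1 key key_injective key_add_lt degS mem_degS degree_e1 e1_insert)

/-- Polynomials in `n` central variables over `D`. -/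
abbrev PD (D : Type*) [Semiring D] (n : ℕ) := AddMonoidAlgebra D (Fin n →₀ ℕ)

/-- Koszul chains with values in `PD D n`. -/
abbrev ChD (D : Type*) [Semiring D] (n : ℕ) := Finset (Fin n) → PD D n

variable {n : ℕ}

/-- The Koszul sign. -/
def sgz (U : Finset (Fin n)) (t : Fin n) : ℤ := (-1) ^ (U.filter (· < t)).card

theorem sgz_mul_self (U : Finset (Fin n)) (t : Fin n) : sgz U t * sgz U t = 1 := by
  unfold sgz
  rw [← pow_add, ← two_mul, pow_mul]
  norm_num

theorem sgz_smul_sgz_smul {V : Type*} [AddCommGroup V] (U : Finset (Fin n)) (t : Fin n) (v : V) :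
    sgz U t • sgz U t • v = v := by
  rw [smul_smul, sgz_mul_self, one_smul]

theorem sgz_smul_eq_zero {V : Type*} [AddCommGroup V] {U : Finset (Fin n)} {t : Fin n} {v : V} :
    sgz U t • v = 0 ↔ v = 0 := by
  constructor
  · intro h
    rw [← sgz_smul_sgz_smul U t v, h, smul_zero]
  · rintro rfl
    rw [smul_zero]

theorem sgz_smul_eq {V : Type*} [AddCommGroup V] [Module ℂ V] (U : Finset (Fin n)) (t : Fin n)
    (v : V) : Mon.sg U t • v = sgz U t • v := by
  rw [← Int.cast_smul_eq_zsmul ℂ]
  congr 1
  unfold Mon.sg sgz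
  push_cast
  rfl

theorem sgz_swap_aux {U : Finset (Fin n)} {s t : Fin n} (hs : s ∉ U) (hst : s < t) :
    sgz U t * sgz (insert t U) s = -(sgz U s * sgz (insert s U) t) := by
  have h1 : sgz (insert t U) s = sgz U s := by
    unfold sgz
    rw [Finset.filter_insert, if_neg (not_lt.2 hst.le)]
  have h2 : sgz (insert s U) t = - sgz U t := by
    unfold sgz
    rw [Finset.filter_insert, if_pos hst, Finset.card_insert_of_notMem, pow_succ]
    · ring
    · simp [hs]
  rw [h1, h2]; ring

theorem sgz_swap {U : Finset (Fin n)} {s t : Fin n} (hs : s ∉ U) (ht : t ∉ U) (hst : s ≠ t) :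
    sgz U t * sgz (insert t U) s = -(sgz U s * sgz (insert s U) t) := by
  rcases lt_or_gt_of_ne hst with h | h
  · exact sgz_swap_aux hs h
  · rw [sgz_swap_aux ht h, neg_neg]

variable {D : Type*} [DivisionRing D]

open AddMonoidAlgebra in
/-- The variables. -/
noncomputable def Xs (D : Type*) [DivisionRing D] {n : ℕ} (t : Fin n) : PD D n :=
  single (Finsupp.single t 1) 1

/-- Constants -/
noncomputable def Cs (d : D) : PD D n := AddMonoidAlgebra.single 0 d

theorem coeff_mul_Xs (f : PD D n) (t : Fin n) (m : Fin n →₀ ℕ) :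
    (f * Xs D t).coeff m = if t ∈ m.support then f.coeff (m - Finsupp.single t 1) else 0 := by
  split_ifs with h
  · have h1 : m = (m - Finsupp.single t 1) + Finsupp.single t 1 := by
      rw [tsub_add_cancel_of_le]
      rw [Finsupp.single_le_iff]
      have := Finsupp.mem_support_iff.1 h
      omega
    conv_lhs => rw [h1]
    unfold Xs
    rw [AddMonoidAlgebra.coeff_mul_single_add, mul_one]
  · unfold Xs
    apply AddMonoidAlgebra.coeff_mul_single_of_forall_add_ne
    rintro d rfl
    apply h
    simp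

theorem Xs_comm (t : Fin n) (f : PD D n) : Xs D t * f = f * Xs D t :=
  (AddMonoidAlgebra.single_commute (fun m' => AddCommute.all _ _) (fun r => Commute.one_left r) f)

theorem coeff_mul_Cs (f : PD D n) (d : D) (m : Fin n →₀ ℕ) :
    (f * Cs d).coeff m = f.coeff m * d := AddMonoidAlgebra.coeff_mul_single_zero ..

theorem Cs_mul (f : PD D n) (d : D) : Cs d * f = d • f := by
  ext m
  rw [Cs, AddMonoidAlgebra.coeff_single_zero_mul]
  rfl

theorem smul_mul' (d : D) (f g : PD D n) : (d • f) * g = d • (f * g) := smul_mul_assoc _ _ _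

/-- The Koszul differential attached to the right multiplications by `a`. -/
noncomputable def KR (a : Fin n → PD D n) : ChD D n →ₗ[D] ChD D n where
  toFun f U := ∑ t ∈ Uᶜ, sgz U t • (f (insert t U) * a t)
  map_add' f g := by
    funext U
    simp only [Pi.add_apply, add_mul, smul_add, Finset.sum_add_distrib]
  map_smul' d f := by
    funext U
    simp only [Pi.smul_apply, RingHom.id_apply, Finset.smul_sum, smul_mul']
    exact Finset.sum_congr rfl fun t _ => smul_comm _ _ _

theorem KR_apply (a : Fin n → PD D n) (f : ChD D n) (U : Finset (Fin n)) :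
    KR a f U = ∑ t ∈ Uᶜ, sgz U t • (f (insert t U) * a t) := rfl

/-- Chains of bidegree `(p, j)`. -/
def chD (D : Type*) [DivisionRing D] (n p j : ℕ) : Submodule D (ChD D n) where
  carrier := {f | ∀ T m, (f T).coeff m ≠ 0 → T.card = p ∧ m.degree + p = j}
  add_mem' := by
    intro f g hf hg T m h
    rw [Pi.add_apply, AddMonoidAlgebra.coeff_add, Finsupp.add_apply] at h
    by_cases h1 : (f T).coeff m = 0
    · exact hg T m (by rwa [h1, zero_add] at h)
    · exact hf T m h1
  zero_mem' := by
    intro T m h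
    exact absurd rfl h
  smul_mem' := by
    intro a f hf T m h
    rw [Pi.smul_apply, AddMonoidAlgebra.coeff_smul, Finsupp.smul_apply, smul_eq_mul] at h
    exact hf T m (right_ne_zero_of_mul h)

theorem mem_chD {p j : ℕ} {f : ChD D n} :
    f ∈ chD D n p j ↔ ∀ T m, (f T).coeff m ≠ 0 → T.card = p ∧ m.degree + p = j := Iff.rfl

/-- The degree piece of a submodule. -/
def pcD (J : Submodule D (PD D n)) (d : ℕ) : Submodule D (PD D n) where
  carrier := {f | (∀ m, f.coeff m ≠ 0 → m.degree = d) ∧ f ∈ J}
  add_mem' := by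
    rintro f g ⟨hf, hf'⟩ ⟨hg, hg'⟩
    refine ⟨fun m h => ?_, J.add_mem hf' hg'⟩
    rw [AddMonoidAlgebra.coeff_add, Finsupp.add_apply] at h
    by_cases h1 : f.coeff m = 0
    · exact hg m (by rwa [h1, zero_add] at h)
    · exact hf m h1
  zero_mem' := ⟨fun m h => absurd rfl h, J.zero_mem⟩
  smul_mem' := by
    rintro a f ⟨hf, hf'⟩
    refine ⟨fun m h => ?_, J.smul_mem a hf'⟩
    rw [AddMonoidAlgebra.coeff_smul, Finsupp.smul_apply, smul_eq_mul] at h
    exact hf m (right_ne_zero_of_mul h)

theorem mem_pcD {J : Submodule D (PD D n)} {d : ℕ} {f : PD D n} :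
    f ∈ pcD J d ↔ (∀ m, f.coeff m ≠ 0 → m.degree = d) ∧ f ∈ J := Iff.rfl

theorem finiteDimensional_of_suppP (Z : Submodule D (PD D n))
    (s : Finset (Fin n →₀ ℕ)) (h : ∀ f ∈ Z, ∀ m, f.coeff m ≠ 0 → m ∈ s) :
    FiniteDimensional D Z := by
  let φ : Z →ₗ[D] (s → D) :=
    { toFun := fun f x => f.1.coeff x.1
      map_add' := fun f g => rfl
      map_smul' := fun a f => rfl }
  refine FiniteDimensional.of_injective φ ?_
  rw [injective_iff_map_eq_zero]
  intro f hf
  ext m
  by_contra h2
  have h2' : f.1.coeff m ≠ 0 := h2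
  have hm : m ∈ s := h f.1 f.2 m h2'
  have := congrFun hf ⟨m, hm⟩
  exact h2 this

theorem finiteDimensional_of_suppC (Z : Submodule D (ChD D n))
    (s : Finset (Fin n →₀ ℕ)) (h : ∀ f ∈ Z, ∀ T m, (f T).coeff m ≠ 0 → m ∈ s) :
    FiniteDimensional D Z := by
  let φ : Z →ₗ[D] (Finset (Fin n) × s → D) :=
    { toFun := fun f x => (f.1 x.1).coeff x.2.1
      map_add' := fun f g => rfl
      map_smul' := fun a f => rfl }
  refine FiniteDimensional.of_injective φ ?_
  rw [injective_iff_map_eq_zero]
  intro f hf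
  ext T m
  by_contra h2
  have h2' : (f.1 T).coeff m ≠ 0 := h2
  have hm : m ∈ s := h f.1 f.2 T m h2'
  have := congrFun hf (T, ⟨m, hm⟩)
  exact h2 this

instance (J : Submodule D (PD D n)) (d : ℕ) : FiniteDimensional D (pcD J d) :=
  finiteDimensional_of_suppP _ (degS n d) (fun _ hf m hm => mem_degS.2 (hf.1 m hm))

instance (p j : ℕ) : FiniteDimensional D (chD D n p j) :=
  finiteDimensional_of_suppC _ (degS n (j - p)) (fun f hf T m hm => by
    have := hf T m hm
    rw [mem_degS]; omega)

/-- Chains of bidegree `(p, j)` whose differential is `J`-valued. -/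
noncomputable def zspD (a : Fin n → PD D n) (J : Submodule D (PD D n)) (p j : ℕ) :
    Submodule D (ChD D n) where
  carrier := {f | f ∈ chD D n p j ∧ ∀ U, KR a f U ∈ J}
  add_mem' := by
    rintro f g ⟨hf, hf'⟩ ⟨hg, hg'⟩
    exact ⟨(chD D n p j).add_mem hf hg, fun U => by
      rw [map_add]; exact J.add_mem (hf' U) (hg' U)⟩
  zero_mem' := ⟨(chD D n p j).zero_mem, fun U => by rw [map_zero]; exact J.zero_mem⟩
  smul_mem' := by
    rintro d f ⟨hf, hf'⟩
    exact ⟨(chD D n p j).smul_mem d hf, fun U => by
      rw [map_smul]; exact J.smul_mem d (hf' U)⟩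

theorem mem_zspD {a : Fin n → PD D n} {J : Submodule D (PD D n)} {p j : ℕ} {f : ChD D n} :
    f ∈ zspD a J p j ↔ f ∈ chD D n p j ∧ ∀ U, KR a f U ∈ J := Iff.rfl

instance (a : Fin n → PD D n) (J : Submodule D (PD D n)) (p j : ℕ) :
    FiniteDimensional D (zspD a J p j) :=
  Submodule.finiteDimensional_of_le (fun _ hf => hf.1 : zspD a J p j ≤ chD D n p j)

/-- Dimension of the space of chains of bidegree `(p, j)` with `J`-valued differential. -/
noncomputable def zdD (a : Fin n → PD D n) (J : Submodule D (PD D n)) (p j : ℕ) : ℕ :=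
  finrank D (zspD a J p j)

end Crest.Agent.R181.AE
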