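import Crest.Agent.R181.AEPsi

/-!
# Comparison of the Koszul complexes of the variables and of the `M i`
-/

set_option autoImplicit false

namespace Crest.Agent.R181.AE

open Module Finset
open Crest.Agent.R181.Mon (degS mem_degS)

variable {n : ℕ} {D : Type*} [DivisionRing D]

/-- The matrices of the comparison map. -/
noncomputable def phi (c : Fin n → Fin n → D) : ℕ → Finset (Fin n) → Finset (Fin n) → D
  | 0, T, U => if T = ∅ ∧ U = ∅ then 1 else 0
  | (k + 1), T, U => if h : T.Nonempty then
      sgz (T.erase (T.max' h)) (T.max' h) • ∑ s ∈ U, sgz (U.erase s) s •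
        (phi c k (T.erase (T.max' h)) (U.erase s) * c (T.max' h) s) else 0

/-- Auxiliary rows. -/
noncomputable def rr (c : Fin n → Fin n → D) (k : ℕ) (i : Fin n) (W U : Finset (Fin n)) : D :=
  ∑ s ∈ U, sgz (U.erase s) s • (phi c k W (U.erase s) * c i s)

theorem phi_succ (c : Fin n → Fin n → D) (k : ℕ) (T U : Finset (Fin n)) (h : T.Nonempty) :
    phi c (k + 1) T U = sgz (T.erase (T.max' h)) (T.max' h) •
      rr c k (T.max' h) (T.erase (T.max' h)) U := by
  rw [phi, dif_pos h]
  rfl

theorem phi_card (c : Fin n → Fin n → D) (k : ℕ) (T U : Finset (Fin n)) (h : phi c k T U ≠ 0) :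
    U.card = k := by
  induction k generalizing T U with
  | zero =>
    rw [phi] at h
    split_ifs at h with h1
    · rw [h1.2, Finset.card_empty]
    · exact absurd rfl h
  | succ k ih =>
    rw [phi] at h
    split_ifs at h with h1
    · have h2 : (∑ s ∈ U, sgz (U.erase s) s •
        (phi c k (T.erase (T.max' h1)) (U.erase s) * c (T.max' h1) s)) ≠ 0 := by
        intro h0
        apply h
        rw [h0, smul_zero]
      obtain ⟨s, hs, h3⟩ := Finset.exists_ne_zero_of_sum_ne_zero h2
      have h4 : phi c k (T.erase (T.max' h1)) (U.erase s) * c (T.max' h1) s ≠ 0 := by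
        intro h0
        apply h3
        rw [h0, smul_zero]
      have h5 := ih _ _ (left_ne_zero_of_mul h4)
      rw [Finset.card_erase_of_mem hs] at h5
      have h6 := Finset.card_pos.2 ⟨s, hs⟩
      omega
    · exact absurd rfl h

theorem pair_eq_iff {i t a b : Fin n} :
    (Finsupp.single i 1 + Finsupp.single t 1 : Fin n →₀ ℕ) =
      Finsupp.single a 1 + Finsupp.single b 1 ↔ (i = a ∧ t = b) ∨ (i = b ∧ t = a) := by
  rw [Finsupp.single_add_single_eq_single_add_single one_ne_zero one_ne_zero]
  constructor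
  · rintro (⟨h1, h2⟩ | ⟨-, h1, h2⟩ | ⟨h, -, -⟩)
    · exact Or.inl ⟨h1, h2⟩
    · exact Or.inr ⟨h1, h2⟩
    · omega
  · rintro (⟨h1, h2⟩ | ⟨h1, h2⟩)
    · exact Or.inl ⟨h1, h2⟩
    · exact Or.inr (Or.inl ⟨rfl, h1, h2⟩)

/-- A quadratic form with given coefficients. -/
noncomputable def quad (S : Finset (Fin n)) (r : Fin n → Fin n → D) : PD D n :=
  ∑ t ∈ S, ∑ i, AddMonoidAlgebra.single (Finsupp.single i 1 + Finsupp.single t 1) (r i t)

theorem coeff_quad (S : Finset (Fin n)) (r : Fin n → Fin n → D) (m : Fin n →₀ ℕ) :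
    (quad S r).coeff m = ∑ t ∈ S, ∑ i,
      (if Finsupp.single i 1 + Finsupp.single t 1 = m then r i t else 0) := by
  unfold quad
  rw [AddMonoidAlgebra.coeff_sum, Finsupp.finsetSum_apply]
  refine Finset.sum_congr rfl fun t _ => ?_
  rw [AddMonoidAlgebra.coeff_sum, Finsupp.finsetSum_apply]
  refine Finset.sum_congr rfl fun i _ => ?_
  rw [AddMonoidAlgebra.coeff_single, Finsupp.single_apply]

theorem coeff_quad_ne (S : Finset (Fin n)) (r : Fin n → Fin n → D) {a b : Fin n} (hab : a ≠ b) :
    (quad S r).coeff (Finsupp.single a 1 + Finsupp.single b 1) =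
      (if b ∈ S then r a b else 0) + (if a ∈ S then r b a else 0) := by
  rw [coeff_quad]
  have h1 : ∀ t ∈ S, ∑ i, (if (Finsupp.single i 1 + Finsupp.single t 1 : Fin n →₀ ℕ) =
      Finsupp.single a 1 + Finsupp.single b 1 then r i t else 0) =
      (if b = t then r a b else 0) + (if a = t then r b a else 0) := by
    intro t _
    have h2 : ∀ i ∈ (Finset.univ : Finset (Fin n)),
        (if (Finsupp.single i 1 + Finsupp.single t 1 : Fin n →₀ ℕ) =
        Finsupp.single a 1 + Finsupp.single b 1 then r i t else 0) =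
        (if a = i then (if b = t then r a b else 0) else 0) +
        (if b = i then (if a = t then r b a else 0) else 0) := by
      intro i _
      by_cases h3 : i = a ∧ t = b
      · obtain ⟨rfl, rfl⟩ := h3
        rw [if_pos rfl, if_pos rfl, if_pos rfl, if_neg hab.symm, add_zero]
      · by_cases h4 : i = b ∧ t = a
        · obtain ⟨rfl, rfl⟩ := h4
          rw [if_pos (add_comm _ _), if_neg hab, if_pos rfl, if_pos rfl, zero_add]
        · rw [if_neg]
          · have h5 : (if a = i then (if b = t then r a b else 0) else 0) = 0 := by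
              split_ifs with h5 h6
              · exact absurd ⟨h5.symm, h6.symm⟩ h3
              · rfl
              · rfl
            have h6 : (if b = i then (if a = t then r b a else 0) else 0) = 0 := by
              split_ifs with h5 h6
              · exact absurd ⟨h5.symm, h6.symm⟩ h4
              · rfl
              · rfl
            rw [h5, h6, add_zero]
          · rw [pair_eq_iff]
            rintro (h | h)
            · exact h3 h
            · exact h4 h
    rw [Finset.sum_congr rfl h2, Finset.sum_add_distrib, Finset.sum_ite_eq, Finset.sum_ite_eq,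
      if_pos (Finset.mem_univ _), if_pos (Finset.mem_univ _)]
  rw [Finset.sum_congr rfl h1, Finset.sum_add_distrib, Finset.sum_ite_eq, Finset.sum_ite_eq]

theorem coeff_quad_self (S : Finset (Fin n)) (r : Fin n → Fin n → D) (a : Fin n) :
    (quad S r).coeff (Finsupp.single a 1 + Finsupp.single a 1) = if a ∈ S then r a a else 0 := by
  rw [coeff_quad]
  have h1 : ∀ t ∈ S, ∑ i, (if (Finsupp.single i 1 + Finsupp.single t 1 : Fin n →₀ ℕ) =
      Finsupp.single a 1 + Finsupp.single a 1 then r i t else 0) =
      (if a = t then r a a else 0) := by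
    intro t _
    have h2 : ∀ i ∈ (Finset.univ : Finset (Fin n)),
        (if (Finsupp.single i 1 + Finsupp.single t 1 : Fin n →₀ ℕ) =
        Finsupp.single a 1 + Finsupp.single a 1 then r i t else 0) =
        (if a = i then (if a = t then r a a else 0) else 0) := by
      intro i _
      by_cases h3 : i = a ∧ t = a
      · obtain ⟨rfl, rfl⟩ := h3
        rw [if_pos rfl, if_pos rfl, if_pos rfl]
      · rw [if_neg]
        · split_ifs with h5 h6
          · exact absurd ⟨h5.symm, h6.symm⟩ h3
          · rfl
          · rfl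
        · rw [pair_eq_iff]
          rintro (h | h)
          · exact h3 h
          · exact h3 h
    rw [Finset.sum_congr rfl h2, Finset.sum_ite_eq, if_pos (Finset.mem_univ _)]
  rw [Finset.sum_congr rfl h1, Finset.sum_ite_eq]

variable (M : Fin n → PD D n) (hc : ∀ i k, M i * M k = M k * M i)
  (c : Fin n → Fin n → D) (hs : ∀ s, Xs D s = ∑ i, c i s • M i)

theorem Psi_quad (S : Finset (Fin n)) (r : Fin n → Fin n → D) :
    Psi M hc (quad S r) = ∑ t ∈ S, (∑ i, r i t • M i) * M t := by
  unfold quad
  rw [map_sum]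
  refine Finset.sum_congr rfl fun t _ => ?_
  rw [map_sum, Finset.sum_mul]
  refine Finset.sum_congr rfl fun i _ => ?_
  rw [Psi_single, Em_add_single, smul_mul']
  have : Em M hc (Finsupp.single i 1) = M i := by
    have := Em_add_single M hc 0 i
    rwa [zero_add, Em_zero, one_mul] at this
  rw [this]

theorem quad_mem_hd (S : Finset (Fin n)) (r : Fin n → Fin n → D) : quad S r ∈ hd D n 2 := by
  unfold quad
  refine Submodule.sum_mem _ fun t _ => Submodule.sum_mem _ fun i _ => single_mem_hd ?_ _
  rw [map_add, Finsupp.degree_single, Finsupp.degree_single]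

include hs in
theorem sum_Xs_eq (k : ℕ) (W U : Finset (Fin n)) :
    ∑ s ∈ U, sgz (U.erase s) s • (phi c k W (U.erase s) • Xs D s) =
      ∑ i, rr c k i W U • M i := by
  simp only [hs, rr, Finset.sum_smul, Finset.smul_sum]
  rw [Finset.sum_comm]
  refine Finset.sum_congr rfl fun i _ => Finset.sum_congr rfl fun s _ => ?_
  rw [smul_smul, smul_assoc]

/-- The main compatibility. -/
def Star (k : ℕ) : Prop := ∀ W U : Finset (Fin n), W.card = k →
  ∑ t ∈ Wᶜ, sgz W t • (phi c (k + 1) (insert t W) U • M t) =
    ∑ s ∈ U, sgz (U.erase s) s • (phi c k W (U.erase s) • Xs D s)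

/-- first auxiliary claim -/
def ClA (c : Fin n → Fin n → D) (k : ℕ) : Prop := ∀ W U : Finset (Fin n), W.card = k →
  ∀ i ∈ W, rr c k i W U = 0

/-- second auxiliary claim -/
def ClB (c : Fin n → Fin n → D) (k : ℕ) : Prop := ∀ T U : Finset (Fin n), T.card = k + 1 →
  ∀ i ∈ T, phi c (k + 1) T U = sgz (T.erase i) i • rr c k i (T.erase i) U

include hs in
theorem star_of_AB (k : ℕ) (hA : ClA c k) (hB : ClB c k) : Star M c k := by
  intro W U hW
  rw [sum_Xs_eq M c hs]
  have h1 : ∀ t ∈ Wᶜ, sgz W t • (phi c (k + 1) (insert t W) U • M t) = rr c k t W U • M t := by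
    intro t ht
    have htW : t ∉ W := by simpa using ht
    have h2 := hB (insert t W) U (by rw [Finset.card_insert_of_notMem htW, hW]) t
      (Finset.mem_insert_self _ _)
    rw [Finset.erase_insert htW] at h2
    rw [h2, smul_assoc, sgz_smul_sgz_smul]
  rw [Finset.sum_congr rfl h1]
  refine Finset.sum_subset (Finset.subset_univ _) fun i _ hi => ?_
  have hiW : i ∈ W := by simpa using hi
  rw [hA W U hW i hiW, zero_smul]

/-- Antisymmetric sums vanish. -/
theorem sum_antisymm {A : Type*} [AddCommGroup A] (U : Finset (Fin n))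
    (F : Fin n → Fin n → A) (hF : ∀ s s', F s s' = F s' s) :
    ∑ s ∈ U, sgz (U.erase s) s • ∑ s' ∈ U.erase s,
      sgz ((U.erase s).erase s') s' • F s s' = 0 := by
  have h1 : ∀ s ∈ U, sgz (U.erase s) s • ∑ s' ∈ U.erase s,
      sgz ((U.erase s).erase s') s' • F s s' = ∑ s' ∈ U.erase s,
      (sgz (U.erase s) s * sgz ((U.erase s).erase s') s') • F s s' := by
    intro s _
    rw [Finset.smul_sum]
    refine Finset.sum_congr rfl fun s' _ => ?_
    rw [smul_smul]
  rw [Finset.sum_congr rfl h1, Finset.sum_sigma']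
  refine Finset.sum_involution (fun x _ => ⟨x.2, x.1⟩) ?_ ?_ ?_ ?_
  · rintro ⟨s, s'⟩ hx
    rw [Finset.mem_sigma] at hx
    obtain ⟨h2, h3⟩ := hx
    simp only [Finset.mem_erase] at h2 h3
    have h4 : (U.erase s).erase s' = (U.erase s').erase s := Finset.erase_right_comm
    have h5 : U.erase s = insert s' ((U.erase s).erase s') :=
      (Finset.insert_erase (Finset.mem_erase.2 h3)).symm
    have h6 : U.erase s' = insert s ((U.erase s).erase s') := by
      rw [h4]
      exact (Finset.insert_erase (Finset.mem_erase.2 ⟨h3.1.symm, h2⟩)).symm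
    have h7 := sgz_swap (U := (U.erase s).erase s') (s := s) (t := s') (by simp) (by simp)
      h3.1.symm
    rw [← h5, ← h6] at h7
    simp only
    rw [hF s' s, ← add_smul, ← h4, mul_comm (sgz (U.erase s) s), h7,
      mul_comm (sgz (U.erase s') s'), neg_add_cancel, zero_smul]
  · rintro ⟨s, s'⟩ hx _ h
    rw [Finset.mem_sigma] at hx
    obtain ⟨h2, h3⟩ := hx
    simp only [Sigma.mk.injEq] at h
    simp only [Finset.mem_erase] at h3
    exact h3.1 h.1
  · rintro ⟨s, s'⟩ hx
    rw [Finset.mem_sigma] at hx ⊢
    obtain ⟨h2, h3⟩ := hx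
    simp only [Finset.mem_erase] at h2 h3 ⊢
    exact ⟨h3.2, h3.1.symm, h2⟩
  · rintro ⟨s, s'⟩ _
    rfl

include hc hs in
theorem quad_eq_zero (hM : ∀ i, M i ∈ hd D n 1) (k : ℕ) (hS : Star M c k)
    (W U : Finset (Fin n)) (hW : W.card = k) :
    quad Wᶜ (fun i t => sgz W t • rr c (k + 1) i (insert t W) U) = 0 := by
  refine Psi_injOn M hc c hs hM (quad_mem_hd _ _) ?_
  rw [Psi_quad]
  have h1 : ∀ t ∈ Wᶜ, (∑ i, (sgz W t • rr c (k + 1) i (insert t W) U) • M i) * M t =
      ∑ s ∈ U, sgz (U.erase s) s • (Xs D s *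
        (sgz W t • (phi c (k + 1) (insert t W) (U.erase s) • M t))) := by
    intro t _
    have h2 : ∑ i, (sgz W t • rr c (k + 1) i (insert t W) U) • M i =
        sgz W t • ∑ i, rr c (k + 1) i (insert t W) U • M i := by
      rw [Finset.smul_sum]
      exact Finset.sum_congr rfl fun i _ => smul_assoc _ _ _
    rw [h2, ← sum_Xs_eq M c hs, Finset.smul_sum, Finset.sum_mul]
    refine Finset.sum_congr rfl fun s _ => ?_
    rw [smul_comm, smul_mul_assoc, mul_smul_comm, smul_mul_assoc, smul_mul', Xs_comm,
      Xs_comm s (_ • M t), smul_mul']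
  rw [Finset.sum_congr rfl h1, Finset.sum_comm]
  have h3 : ∀ s ∈ U, ∑ t ∈ Wᶜ, sgz (U.erase s) s • (Xs D s *
        (sgz W t • (phi c (k + 1) (insert t W) (U.erase s) • M t))) =
      sgz (U.erase s) s • ∑ s' ∈ U.erase s, sgz ((U.erase s).erase s') s' •
        (phi c k W ((U.erase s).erase s') • (Xs D s * Xs D s')) := by
    intro s _
    rw [← Finset.smul_sum, ← Finset.mul_sum, hS W (U.erase s) hW, Finset.mul_sum]
    congr 1
    refine Finset.sum_congr rfl fun s' _ => ?_
    rw [mul_smul_comm]
    congr 1
    rw [Xs_comm, smul_mul', Xs_comm s]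
  rw [Finset.sum_congr rfl h3]
  exact sum_antisymm U (fun s s' => phi c k W ((U.erase s).erase s') • (Xs D s * Xs D s'))
    (by intro s s'; rw [Finset.erase_right_comm, Xs_comm])

theorem clA_zero : ClA c 0 := by
  intro W U hW i hi
  rw [Finset.card_eq_zero.1 hW] at hi
  simp at hi

theorem clB_zero : ClB c 0 := by
  intro T U hT i hi
  obtain ⟨t, rfl⟩ := Finset.card_eq_one.1 hT
  rw [Finset.mem_singleton] at hi
  subst hi
  rw [phi_succ c 0 {i} U (Finset.singleton_nonempty i)]
  simp only [Finset.max'_singleton]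

include hc hs in
theorem AB_succ (hM : ∀ i, M i ∈ hd D n 1) (k : ℕ) (hA : ClA c k) (hB : ClB c k) :
    ClA c (k + 1) ∧ ClB c (k + 1) := by
  have hS := star_of_AB M c hs k hA hB
  have hQ := quad_eq_zero M hc c hs hM k hS
  constructor
  · intro W U hW i hi
    have h1 := hQ (W.erase i) U (by rw [Finset.card_erase_of_mem hi, hW]; rfl)
    have h2 := coeff_quad_self (W.erase i)ᶜ
      (fun i' t => sgz (W.erase i) t • rr c (k + 1) i' (insert t (W.erase i)) U) i
    rw [h1, if_pos (by simp), Finset.insert_erase hi] at h2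
    exact sgz_smul_eq_zero.1 h2.symm
  · intro T U hT i hi
    have hne : T.Nonempty := ⟨i, hi⟩
    rw [phi_succ c (k + 1) T U hne]
    set b := T.max' hne with hb
    have hbT : b ∈ T := T.max'_mem hne
    by_cases hib : b = i
    · rw [hib]
    set W := (T.erase i).erase b with hW
    have hbi : b ∈ T.erase i := Finset.mem_erase.2 ⟨hib, hbT⟩
    have h1 := hQ W U (by
      rw [hW, Finset.card_erase_of_mem hbi, Finset.card_erase_of_mem hi, hT]; rfl)
    have h2 := coeff_quad_ne Wᶜ
      (fun i' t => sgz W t • rr c (k + 1) i' (insert t W) U) hib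
    have hbW : b ∉ W := by rw [hW]; simp
    have hiW : i ∉ W := by rw [hW]; simp
    have h3 : insert b W = T.erase i := by rw [hW, Finset.insert_erase hbi]
    have h4 : insert i W = T.erase b := by
      rw [hW, Finset.erase_right_comm]
      exact Finset.insert_erase (Finset.mem_erase.2 ⟨fun h => hib h.symm, hi⟩)
    rw [h1, if_pos (by simpa using hiW), if_pos (by simpa using hbW), h3, h4] at h2
    have h5 : sgz W i • rr c (k + 1) b (T.erase b) U =
        -(sgz W b • rr c (k + 1) i (T.erase i) U) := by
      rw [eq_neg_iff_add_eq_zero]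
      exact h2.symm
    have h6 := sgz_swap (U := W) (s := b) (t := i) hbW hiW hib
    rw [h3, h4] at h6
    -- multiply
    have h7 : rr c (k + 1) b (T.erase b) U =
        -(sgz W i • sgz W b • rr c (k + 1) i (T.erase i) U) := by
      rw [← smul_neg, ← h5, sgz_smul_sgz_smul]
    rw [h7, smul_neg, smul_smul, mul_comm, h6, neg_smul, neg_neg, mul_comm, ← smul_smul,
      sgz_smul_sgz_smul]

include hc hs in
theorem AB_all (hM : ∀ i, M i ∈ hd D n 1) (k : ℕ) : ClA c k ∧ ClB c k := by
  induction k with
  | zero => exact ⟨clA_zero c, clB_zero c⟩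
  | succ k ih => exact AB_succ M hc c hs hM k ih.1 ih.2

include hc hs in
theorem star_all (hM : ∀ i, M i ∈ hd D n 1) (k : ℕ) : Star M c k :=
  star_of_AB M c hs k (AB_all M hc c hs hM k).1 (AB_all M hc c hs hM k).2

theorem mul_zsmul_comm' (z : ℤ) (f g : PD D n) : z • (f * g) = f * (z • g) :=
  (mul_smul_comm z f g).symm

theorem sum_erase_eq {A : Type*} [AddCommMonoid A]
    (g : Finset (Fin n) → Fin n → Finset (Fin n) → A) :
    ∑ U, ∑ s ∈ U, g (U.erase s) s U = ∑ V, ∑ s ∈ Vᶜ, g V s (insert s V) := by
  rw [Finset.sum_sigma', Finset.sum_sigma']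
  refine Finset.sum_bij' (fun x _ => ⟨x.1.erase x.2, x.2⟩) (fun x _ => ⟨insert x.2 x.1, x.2⟩)
    ?_ ?_ ?_ ?_ ?_
  · rintro ⟨U, s⟩ hx
    simp
  · rintro ⟨V, s⟩ hx
    simp
  · rintro ⟨U, s⟩ hx
    simp only [Finset.mem_sigma, Finset.mem_univ, true_and] at hx
    simp only [Finset.insert_erase hx]
  · rintro ⟨V, s⟩ hx
    simp only [Finset.mem_sigma, Finset.mem_univ, true_and, Finset.mem_compl] at hx
    simp only [Finset.erase_insert hx]
  · rintro ⟨U, s⟩ hx
    simp only [Finset.mem_sigma, Finset.mem_univ, true_and] at hx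
    simp only [Finset.insert_erase hx]

/-- The comparison map. -/
noncomputable def Theta (c : Fin n → Fin n → D) (k : ℕ) : ChD D n →ₗ[D] ChD D n where
  toFun f T := if T.card = k then ∑ U, f U * Cs (phi c k T U) else 0
  map_add' f g := by
    funext T
    simp only [Pi.add_apply, add_mul, Finset.sum_add_distrib]
    split_ifs <;> simp
  map_smul' a f := by
    funext T
    simp only [Pi.smul_apply, RingHom.id_apply, smul_mul']
    split_ifs
    · rw [Finset.smul_sum]
    · rw [smul_zero]

theorem Theta_apply (k : ℕ) (f : ChD D n) (T : Finset (Fin n)) :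
    Theta c k f T = if T.card = k then ∑ U, f U * Cs (phi c k T U) else 0 := rfl

include hc hs in
theorem KR_Theta (hM : ∀ i, M i ∈ hd D n 1) (k : ℕ) (f : ChD D n) :
    KR M (Theta c (k + 1) f) = Theta c k (KR (Xs D) f) := by
  funext W
  rw [KR_apply, Theta_apply]
  split_ifs with hW
  · have h1 : ∀ t ∈ Wᶜ, sgz W t • (Theta c (k + 1) f (insert t W) * M t) =
        ∑ U, f U * (sgz W t • (phi c (k + 1) (insert t W) U • M t)) := by
      intro t ht
      have htW : t ∉ W := by simpa using ht
      rw [Theta_apply, if_pos (by rw [Finset.card_insert_of_notMem htW, hW]), Finset.sum_mul,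
        Finset.smul_sum]
      refine Finset.sum_congr rfl fun U _ => ?_
      rw [mul_assoc, Cs_mul, mul_zsmul_comm']
    rw [Finset.sum_congr rfl h1, Finset.sum_comm]
    have h2 : ∀ U ∈ (Finset.univ : Finset (Finset (Fin n))),
        ∑ t ∈ Wᶜ, f U * (sgz W t • (phi c (k + 1) (insert t W) U • M t)) =
        ∑ s ∈ U, sgz (U.erase s) s • (f U * Xs D s * Cs (phi c k W (U.erase s))) := by
      intro U _
      rw [← Finset.mul_sum, star_all M hc c hs hM k W U hW, Finset.mul_sum]
      refine Finset.sum_congr rfl fun s _ => ?_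
      rw [mul_smul_comm, mul_assoc, Xs_comm, Cs_mul]
    rw [Finset.sum_congr rfl h2, sum_erase_eq (fun V s U =>
      sgz V s • (f U * Xs D s * Cs (phi c k W V)))]
    refine Finset.sum_congr rfl fun V _ => ?_
    rw [KR_apply, Finset.sum_mul]
    refine Finset.sum_congr rfl fun s _ => ?_
    rw [smul_mul_assoc]
  · refine Finset.sum_eq_zero fun t ht => ?_
    have htW : t ∉ W := by simpa using ht
    rw [Theta_apply, if_neg (by rw [Finset.card_insert_of_notMem htW]; omega), zero_mul,
      smul_zero]

include hc hs in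
theorem phi_inj (hM : ∀ i, M i ∈ hd D n 1) (k : ℕ) (v : Finset (Fin n) → D)
    (hv : ∀ U, v U ≠ 0 → U.card = k)
    (h : ∀ T : Finset (Fin n), T.card = k → ∑ U, v U * phi c k T U = 0) : v = 0 := by
  induction k generalizing v with
  | zero =>
    have h1 := h ∅ rfl
    funext U
    by_contra hne
    have h2 := Finset.card_eq_zero.1 (hv U hne)
    subst h2
    apply hne
    change v ∅ = 0
    rw [← h1, Finset.sum_eq_single ∅]
    · rw [phi, if_pos ⟨rfl, rfl⟩, mul_one]
    · intro U _ hU
      rw [phi, if_neg (fun h => hU h.2), mul_zero]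
    · intro h3
      exact absurd (Finset.mem_univ _) h3
  | succ k ih =>
    set f : ChD D n := fun U => Cs (v U) with hf
    have h1 : Theta c (k + 1) f = 0 := by
      funext T
      rw [Theta_apply]
      split_ifs with hT
      · have h2 : ∀ U ∈ (Finset.univ : Finset (Finset (Fin n))),
            f U * Cs (phi c (k + 1) T U) = AddMonoidAlgebra.singleAddHom 0
              (v U * phi c (k + 1) T U) := by
          intro U _
          simp only [hf, Cs, AddMonoidAlgebra.single_mul_single, add_zero,
            AddMonoidAlgebra.singleAddHom_apply]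
        rw [Finset.sum_congr rfl h2, ← map_sum, h T hT, map_zero]
        rfl
      · rfl
    have h2 : Theta c k (KR (Xs D) f) = 0 := by
      rw [← KR_Theta M hc c hs hM k f, h1, map_zero]
    have h3 : ∀ m : Fin n →₀ ℕ, (fun V => (KR (Xs D) f V).coeff m) = 0 := by
      intro m
      refine ih _ ?_ ?_
      · intro V hV
        rw [coeff_KR] at hV
        obtain ⟨t, ht, h4⟩ := Finset.exists_ne_zero_of_sum_ne_zero hV
        have htV : t ∉ V := by simpa using ht
        have h5 : v (insert t V) ≠ 0 := by
          intro h0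
          apply h4
          have : f (insert t V) = 0 := by
            simp only [hf, h0, Cs, AddMonoidAlgebra.single_zero]
          rw [this]
          simp
        have h6 := hv _ h5
        rw [Finset.card_insert_of_notMem htV] at h6
        omega
      · intro T hT
        have h4 := congrArg (fun g : PD D n => g.coeff m) (congrFun h2 T)
        simp only [Theta_apply, if_pos hT, AddMonoidAlgebra.coeff_sum,
          Finsupp.finsetSum_apply, coeff_mul_Cs] at h4
        exact h4
    funext U
    by_contra hne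
    have hU := hv U hne
    obtain ⟨s, hsU⟩ : U.Nonempty := by
      rw [← Finset.card_pos, hU]; omega
    have h4 := congrFun (h3 (Finsupp.single s 1)) (U.erase s)
    simp only [coeff_KR, Pi.zero_apply] at h4
    rw [Finset.sum_eq_single s] at h4
    · rw [sgz_smul_eq_zero, Finset.insert_erase hsU, if_pos (by simp), tsub_self] at h4
      simp only [hf, Cs, AddMonoidAlgebra.coeff_single, Finsupp.single_eq_same] at h4
      exact hne h4
    · intro t _ hts
      rw [if_neg, smul_zero]
      rw [Finsupp.mem_support_iff, not_not, Finsupp.single_eq_of_ne hts]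
    · intro h5
      simp at h5

theorem Theta_mem_chD {k j : ℕ} {f : ChD D n} (hf : f ∈ chD D n k j) :
    Theta c k f ∈ chD D n k j := by
  intro T m hm
  rw [Theta_apply] at hm
  split_ifs at hm with hT
  · rw [AddMonoidAlgebra.coeff_sum, Finsupp.finsetSum_apply] at hm
    obtain ⟨U, _, h1⟩ := Finset.exists_ne_zero_of_sum_ne_zero hm
    rw [coeff_mul_Cs] at h1
    exact ⟨hT, (hf U m (left_ne_zero_of_mul h1)).2⟩
  · exact absurd rfl hm

theorem KR_chD_zero (a : Fin n → PD D n) {j : ℕ} {f : ChD D n} (hf : f ∈ chD D n 0 j) :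
    KR a f = 0 := by
  funext U
  rw [KR_apply]
  refine Finset.sum_eq_zero fun t ht => ?_
  have : f (insert t U) = 0 := by
    ext m
    by_contra h
    have := (hf (insert t U) m h).1
    rw [Finset.card_eq_zero] at this
    exact Finset.insert_ne_empty _ _ this
  rw [this, zero_mul, smul_zero]

include hc hs in
/-- Comparison of the two Koszul complexes. -/
theorem zdD_Xs_le (hM : ∀ i, M i ∈ hd D n 1) (J : Submodule D (PD D n))
    (hJ : ∀ f ∈ J, ∀ d : D, f * Cs d ∈ J) (p j : ℕ) : zdD (Xs D) J p j ≤ zdD M J p j := by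
  unfold zdD
  cases p with
  | zero =>
    apply Submodule.finrank_mono
    intro f hf
    refine ⟨hf.1, fun U => ?_⟩
    rw [KR_chD_zero M hf.1]
    exact J.zero_mem
  | succ k =>
    have hmaps : ∀ f ∈ zspD (Xs D) J (k + 1) j, Theta c (k + 1) f ∈ zspD M J (k + 1) j := by
      intro f hf
      refine ⟨Theta_mem_chD c hf.1, fun U => ?_⟩
      rw [KR_Theta M hc c hs hM, Theta_apply]
      split_ifs
      · exact J.sum_mem fun V _ => hJ _ (hf.2 V) _
      · exact J.zero_mem
    refine LinearMap.finrank_le_finrank_of_injective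
      (f := (Theta c (k + 1)).restrict hmaps) ?_
    rw [injective_iff_map_eq_zero]
    rintro ⟨f, hf⟩ h0
    have h1 : Theta c (k + 1) f = 0 := congrArg Subtype.val h0
    apply Subtype.ext
    change f = 0
    funext U
    ext m
    have h2 : (fun U => (f U).coeff m) = 0 := by
      refine phi_inj M hc c hs hM (k + 1) _ (fun U hU => (hf.1 U m hU).1) ?_
      intro T hT
      have h4 := congrArg (fun g : PD D n => g.coeff m) (congrFun h1 T)
      simp only [Theta_apply, if_pos hT, AddMonoidAlgebra.coeff_sum,
        Finsupp.finsetSum_apply, coeff_mul_Cs] at h4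
      exact h4
    exact congrFun h2 U

end Crest.Agent.R181.AE
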