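import Crest.Agent.R181.AEKos

/-!
# The lex-plus-powers theorem from commuting linear forms over a division ring

`lpp_of_skew`: if over some division ring `D ⊇ ℂ` there are pairwise commuting linear forms
`M 0, …, M (n-1)` spanning the linear forms, with
`(M i) ^ (a i) ∈ I D[x] + ∑_{k > i} D[x] (M k)`, then the conclusion of `S0271` holds.
-/

set_option autoImplicit false

namespace Crest.Agent.R181.AE

open Module Finset Crest.AlgebraR.LPP
open Crest.Agent.R181.Mon (degS mem_degS zd pc key UpClosed HasP)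

variable {n : ℕ} {D : Type*} [DivisionRing D]

variable (M : Fin n → PD D n) (hc : ∀ i k, M i * M k = M k * M i)
  (c : Fin n → Fin n → D) (hs : ∀ s, Xs D s = ∑ i, c i s • M i)

/-- `Psi` on chains. -/
noncomputable def PsiC : ChD D n →ₗ[D] ChD D n where
  toFun f T := Psi M hc (f T)
  map_add' f g := by funext T; exact map_add _ _ _
  map_smul' a f := by funext T; exact (Psi M hc).map_smul a (f T)

theorem PsiC_apply (f : ChD D n) (T : Finset (Fin n)) : PsiC M hc f T = Psi M hc (f T) := rfl

theorem KR_PsiC (f : ChD D n) (U : Finset (Fin n)) :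
    KR M (PsiC M hc f) U = Psi M hc (KR (Xs D) f U) := by
  rw [KR_apply, KR_apply, map_sum]
  refine Finset.sum_congr rfl fun t _ => ?_
  rw [map_zsmul, Psi_mul_Xs]
  rfl

include hs in
/-- Transport by `Psi`. -/
theorem zdD_M_le (J : Submodule D (PD D n)) (p j : ℕ) :
    zdD M J p j ≤ zdD (Xs D) (J.comap (Psi M hc)) p j := by
  unfold zdD
  have h1 : zspD M J p j ≤ (zspD (Xs D) (J.comap (Psi M hc)) p j).map (PsiC M hc) := by
    intro f hf
    have h2 : ∀ T, ∃ g : PD D n, (f T = 0 → g = 0) ∧ g ∈ hd D n (j - p) ∧ Psi M hc g = f T := by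
      intro T
      by_cases h0 : f T = 0
      · exact ⟨0, fun _ => rfl, Submodule.zero_mem _, by rw [map_zero, h0]⟩
      · have h3 : f T ∈ hd D n (j - p) := by
          rw [mem_hd]
          intro m hm
          have := hf.1 T m hm
          omega
        obtain ⟨g, hg1, hg2⟩ := exists_Psi_eq M hc c hs h3
        exact ⟨g, fun h => absurd h h0, hg1, hg2⟩
    choose g hg0 hg1 hg2 using h2
    refine ⟨g, ⟨?_, fun U => ?_⟩, ?_⟩
    · intro T m hm
      have h3 : f T ≠ 0 := by
        intro h
        rw [hg0 T h] at hm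
        exact hm rfl
      obtain ⟨m', hm'⟩ : ∃ m', (f T).coeff m' ≠ 0 := by
        by_contra hall
        push Not at hall
        exact h3 (AddMonoidAlgebra.ext (Finsupp.ext hall))
      have h4 := hf.1 T m' hm'
      have h5 := mem_hd.1 (hg1 T) m hm
      omega
    · rw [Submodule.mem_comap, ← KR_PsiC]
      have : PsiC M hc g = f := by
        funext T
        exact hg2 T
      rw [this]
      exact hf.2 U
    · funext T
      exact hg2 T
  exact (Submodule.finrank_mono h1).trans (Submodule.finrank_map_le _ _)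

include hs in
theorem finrank_pcD_comap (hM : ∀ i, M i ∈ hd D n 1) (J : Submodule D (PD D n)) (d : ℕ) :
    finrank D (pcD (J.comap (Psi M hc)) d) = finrank D (pcD J d) := by
  have hmaps : ∀ f ∈ pcD (J.comap (Psi M hc)) d, Psi M hc f ∈ pcD J d := by
    intro f hf
    exact ⟨mem_hd.1 (Psi_mem_hd M hc hM (mem_hd.2 hf.1)), hf.2⟩
  refine (LinearEquiv.ofBijective ((Psi M hc).restrict hmaps) ⟨?_, ?_⟩).finrank_eq
  · rw [injective_iff_map_eq_zero]
    rintro ⟨f, hf⟩ h0
    apply Subtype.ext
    exact Psi_injOn M hc c hs hM (mem_hd.2 hf.1) (congrArg Subtype.val h0)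
  · rintro ⟨f, hf⟩
    obtain ⟨g, hg1, hg2⟩ := exists_Psi_eq M hc c hs (mem_hd.2 hf.1)
    refine ⟨⟨g, mem_hd.1 hg1, ?_⟩, Subtype.ext hg2⟩
    rw [Submodule.mem_comap, hg2]
    exact hf.2

/-- The homogeneous component. -/
noncomputable def hcp (d : ℕ) : PD D n →ₗ[D] PD D n where
  toFun f := AddMonoidAlgebra.ofCoeff (f.coeff.filter fun m => m.degree = d)
  map_add' f g := by
    rw [AddMonoidAlgebra.coeff_add, Finsupp.filter_add]
    rfl
  map_smul' a f := by
    rw [AddMonoidAlgebra.coeff_smul, Finsupp.filter_smul]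
    rfl

theorem coeff_hcp (d : ℕ) (f : PD D n) (m : Fin n →₀ ℕ) :
    (hcp d f).coeff m = if m.degree = d then f.coeff m else 0 := by
  classical
  exact Finsupp.filter_apply _ _ _

theorem hcp_mem_hd (d : ℕ) (f : PD D n) : hcp d f ∈ hd D n d := by
  rw [mem_hd]
  intro m hm
  rw [coeff_hcp] at hm
  split_ifs at hm with h
  · exact h
  · exact absurd rfl hm

theorem hcp_of_mem {d : ℕ} {f : PD D n} (hf : f ∈ hd D n d) : hcp d f = f := by
  ext m
  rw [coeff_hcp]
  split_ifs with h
  · rfl
  · by_contra h2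
    exact h (mem_hd.1 hf m (fun h3 => h2 h3.symm))

theorem hcp_of_mem_ne {d e : ℕ} (hne : d ≠ e) {f : PD D n} (hf : f ∈ hd D n d) :
    hcp e f = 0 := by
  ext m
  rw [coeff_hcp]
  change _ = (0 : D)
  split_ifs with h
  · by_contra h2
    exact hne ((mem_hd.1 hf m h2).symm.trans h)
  · rfl

theorem hcp_mul {d : ℕ} (f : PD D n) {g : PD D n} (hg : g ∈ hd D n 1) :
    hcp (d + 1) (f * g) = hcp d f * g := by
  induction f using AddMonoidAlgebra.induction_linear with
  | zero => simp
  | add f f' hf hf' => rw [add_mul, map_add, map_add, add_mul, hf, hf']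
  | single m a =>
    by_cases h : m.degree = d
    · have h1 : (AddMonoidAlgebra.single m a : PD D n) ∈ hd D n d := single_mem_hd h a
      rw [hcp_of_mem h1, hcp_of_mem (mul_mem_hd h1 hg)]
    · have h1 : (AddMonoidAlgebra.single m a : PD D n) ∈ hd D n m.degree := single_mem_hd rfl a
      rw [hcp_of_mem_ne h h1, zero_mul, hcp_of_mem_ne (by omega) (mul_mem_hd h1 hg)]

theorem pow_mem_hd {g : PD D n} (hg : g ∈ hd D n 1) (a : ℕ) : g ^ a ∈ hd D n a := by
  induction a with
  | zero => rw [pow_zero]; exact one_mem_hd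
  | succ a ih => rw [pow_succ]; exact mul_mem_hd ih hg

theorem hcp_mem_exD [Algebra ℂ D] (I : Submodule ℂ (MvPolynomial (Fin n) ℂ))
    (hI : ∀ g ∈ I, ∀ d : ℕ, MvPolynomial.homogeneousComponent d g ∈ I) (d : ℕ) {f : PD D n}
    (hf : f ∈ exD D I) : hcp d f ∈ exD D I := by
  unfold exD at hf
  induction hf using Submodule.span_induction with
  | mem x hx =>
    obtain ⟨g, hg, rfl⟩ := hx
    have : hcp d (iota D g) = iota D (MvPolynomial.homogeneousComponent d g) := by
      ext m
      rw [coeff_hcp, coeff_iota, coeff_iota, MvPolynomial.coeff_homogeneousComponent]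
      split_ifs
      · rfl
      · rw [map_zero]
    rw [this]
    exact Submodule.subset_span ⟨_, hI g hg d, rfl⟩
  | zero => rw [map_zero]; exact Submodule.zero_mem _
  | add x y _ _ hx hy => rw [map_add]; exact Submodule.add_mem _ hx hy
  | smul a x _ hx => rw [map_smul]; exact Submodule.smul_mem _ _ hx

theorem Psi_Xs_pow (i : Fin n) (a : ℕ) : Psi M hc (Xs D i ^ a) = M i ^ a := by
  induction a with
  | zero => rw [pow_zero, pow_zero, Psi_one]
  | succ a ih => rw [pow_succ, Psi_mul_Xs, ih, pow_succ]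

theorem Xs_pow (i : Fin n) (a : ℕ) :
    Xs D i ^ a = AddMonoidAlgebra.single (Finsupp.single i a) 1 := by
  unfold Xs
  rw [AddMonoidAlgebra.single_pow, one_pow]
  congr 1
  simp

theorem key_lt_of_dvd {m : Fin n →₀ ℕ} {i k : Fin n} {a : ℕ} (hik : i < k)
    (hk : m k ≠ 0) : key m < key (Finsupp.single i a) := by
  classical
  unfold Mon.key
  rw [OrderDual.toDual_lt_toDual, Finsupp.Colex.lt_iff]
  -- the largest index where they differ
  set S : Finset (Fin n) := Finset.univ.filter fun l => k ≤ l ∧ m l ≠ 0 with hS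
  have hne : S.Nonempty := ⟨k, by rw [hS, Finset.mem_filter]; exact ⟨Finset.mem_univ _, le_rfl, hk⟩⟩
  have hmem : k ≤ S.max' hne ∧ m (S.max' hne) ≠ 0 := by
    have h0 : ∀ l ∈ S, k ≤ l ∧ m l ≠ 0 := by
      intro l hl
      rw [hS, Finset.mem_filter] at hl
      exact hl.2
    exact h0 _ (S.max'_mem hne)
  refine ⟨S.max' hne, fun l hl => ?_, ?_⟩
  · have h1 : (Finsupp.single i a : Fin n →₀ ℕ) l = 0 := by
      rw [Finsupp.single_eq_of_ne]
      rintro rfl
      exact absurd (hmem.1.trans_lt hl) (not_lt.2 hik.le)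
    have h2 : m l = 0 := by
      by_contra h3
      have h4 : l ∈ S := by
        rw [hS, Finset.mem_filter]
        exact ⟨Finset.mem_univ _, hmem.1.trans hl.le, h3⟩
      exact absurd (S.le_max' l h4) (not_le.2 hl)
    change (Finsupp.single i a : Fin n →₀ ℕ) l = m l
    rw [h1, h2]
  · have h1 : (Finsupp.single i a : Fin n →₀ ℕ) (S.max' hne) = 0 := by
      rw [Finsupp.single_eq_of_ne]
      intro h2
      rw [h2] at hmem
      exact absurd hmem.1 (not_le.2 hik)
    change (Finsupp.single i a : Fin n →₀ ℕ) (S.max' hne) < m (S.max' hne)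
    rw [h1]
    exact Nat.pos_of_ne_zero hmem.2

theorem exD_mul [Algebra ℂ D] (I : Ideal (MvPolynomial (Fin n) ℂ)) {f : PD D n}
    (hf : f ∈ exD D (Submodule.restrictScalars ℂ I)) (g : PD D n) :
    f * g ∈ exD D (Submodule.restrictScalars ℂ I) := by
  induction g using AddMonoidAlgebra.induction_linear with
  | zero => rw [mul_zero]; exact Submodule.zero_mem _
  | add g g' hg hg' => rw [mul_add]; exact Submodule.add_mem _ hg hg'
  | single m a =>
    obtain ⟨d, hd'⟩ : ∃ d, m.degree = d := ⟨_, rfl⟩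
    induction d generalizing m with
    | zero =>
      have : m = 0 := (Finsupp.degree_eq_zero_iff m).1 hd'
      rw [this]
      exact exD_mul_Cs _ hf a
    | succ d ih =>
      obtain ⟨m', t, rfl, h1⟩ := exists_eq_add_single hd'
      rw [← single_mul_Xs, ← mul_assoc]
      exact exD_mul_Xs _ (fun t f hf => I.mul_mem_left _ hf) (ih m' h1) t

/-- The lex-plus-powers theorem from commuting linear forms over a division ring (left form). -/
theorem lpp_of_skew [Algebra ℂ D] (a : Fin n → ℕ) (ha : Monotone a) (hpos : ∀ i, 0 < a i)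
    (I : Ideal (MvPolynomial (Fin n) ℂ))
    (hI : ∀ g ∈ I, ∀ d : ℕ, MvPolynomial.homogeneousComponent d g ∈ I)
    (M : Fin n → PD D n) (hM : ∀ i, M i ∈ hd D n 1) (hc : ∀ i k, M i * M k = M k * M i)
    (c : Fin n → Fin n → D) (hs : ∀ s, Xs D s = ∑ i, c i s • M i)
    (hp : ∀ i, ∃ s : Fin n → PD D n, M i ^ a i - ∑ k ∈ Finset.univ.filter (fun k => i < k),
      s k * M k ∈ exD D (Submodule.restrictScalars ℂ I)) :
    ∃ U : ℕ → Set (Fin n →₀ ℕ), (∀ d, IsLexSegment n d (U d)) ∧
      (∀ d, Module.finrank ℂ (lppPiece a (U d) d) = Module.finrank ℂ (degreePiece I d)) ∧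
      ∃ J : Ideal (MvPolynomial (Fin n) ℂ),
        (∀ g ∈ J, ∀ d : ℕ, MvPolynomial.homogeneousComponent d g ∈ J) ∧
        (∀ d, degreePiece J d = lppPiece a (U d) d) ∧
        ∀ p j : ℕ, gradedBetti I p j ≤ gradedBetti J p j := by
  classical
  set ID : Submodule D (PD D n) := exD D (Submodule.restrictScalars ℂ I) with hID
  have hJ0 : UpClosed (leadD (ID.comap (Psi M hc))) := by
    apply leadD_upClosed
    intro t f hf
    rw [Submodule.mem_comap] at hf ⊢
    rw [Psi_mul_Xs]
    exact exD_mul I hf _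
  have hP0 : HasP a (leadD (ID.comap (Psi M hc))) := by
    intro i
    obtain ⟨s, hs1⟩ := hp i
    obtain ⟨b, hb⟩ : ∃ b, a i = b + 1 := ⟨a i - 1, by have := hpos i; omega⟩
    have h1 : ∀ k, ∃ g ∈ hd D n b, Psi M hc g = hcp b (s k) := fun k =>
      exists_Psi_eq M hc c hs (hcp_mem_hd _ _)
    choose g hg1 hg2 using h1
    set F : PD D n := Xs D i ^ a i - ∑ k ∈ Finset.univ.filter (fun k => i < k), g k * Xs D k
      with hF
    have hF1 : Psi M hc F = hcp (a i) (M i ^ a i -
        ∑ k ∈ Finset.univ.filter (fun k => i < k), s k * M k) := by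
      rw [hF, map_sub, map_sub, map_sum, map_sum, Psi_Xs_pow, hcp_of_mem (pow_mem_hd (hM i) _)]
      congr 1
      refine Finset.sum_congr rfl fun k _ => ?_
      rw [Psi_mul_Xs, hg2, hb, hcp_mul _ (hM k)]
    have hF2 : F ∈ hd D n (a i) := by
      rw [hF]
      refine Submodule.sub_mem _ (pow_mem_hd (Xs_mem_hd i) _) (Submodule.sum_mem _ fun k _ => ?_)
      rw [hb]
      exact mul_mem_hd (hg1 k) (Xs_mem_hd k)
    have hcoef : ∀ m, F.coeff m = (if Finsupp.single i (a i) = m then 1 else 0) -
        ∑ k ∈ Finset.univ.filter (fun k => i < k), (g k * Xs D k).coeff m := by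
      intro m
      rw [hF, AddMonoidAlgebra.coeff_sub, Finsupp.sub_apply, Xs_pow,
        AddMonoidAlgebra.coeff_single, Finsupp.single_apply, AddMonoidAlgebra.coeff_sum,
        Finsupp.finsetSum_apply]
    refine ⟨F, ?_, ?_, ?_⟩
    · rw [Submodule.mem_comap, hF1]
      exact hcp_mem_exD _ hI _ hs1
    · rw [hcoef, if_pos rfl, Finset.sum_eq_zero, sub_zero]
      · exact one_ne_zero
      · intro k hk
        rw [Finset.mem_filter] at hk
        rw [coeff_mul_Xs, if_neg]
        rw [Finsupp.mem_support_iff, not_not, Finsupp.single_eq_of_ne]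
        rintro rfl
        exact lt_irrefl _ hk.2
    · intro m' hm'
      refine ⟨by rw [mem_hd.1 hF2 m' hm', Finsupp.degree_single], ?_⟩
      by_cases h2 : Finsupp.single i (a i) = m'
      · rw [h2]
      · rw [hcoef, if_neg h2, zero_sub, neg_ne_zero] at hm'
        obtain ⟨k, hk, h3⟩ := Finset.exists_ne_zero_of_sum_ne_zero hm'
        rw [Finset.mem_filter] at hk
        rw [coeff_mul_Xs] at h3
        split_ifs at h3 with h4
        · exact (key_lt_of_dvd hk.2 (Finsupp.mem_support_iff.1 h4)).le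
        · exact absurd rfl h3
  have hHF : ∀ d, finrank ℂ (pc (Submodule.restrictScalars ℂ I) d) =
      Mon.hf (leadD (ID.comap (Psi M hc))) d := by
    intro d
    rw [← finrank_pcD_exD (D := D), ← hf_leadD, finrank_pcD_comap M hc c hs hM]
  refine Mon.lpp_of_monomial a ha hpos I _ hJ0 hP0 (fun d => hHF d) (fun p j => ?_)
  refine Mon.gradedBetti_le_of_zd_le _ _ ?_ ?_ p j
  · intro d
    rw [Mon.restrictScalars_monIdeal, Mon.finrank_pc_monId]
    exact hHF d
  · intro p j
    rw [Mon.restrictScalars_monIdeal, ← zdD_exD (D := D), ← zdD_exD (D := D), exD_monId]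
    refine (zdD_Xs_le M hc c hs hM _ (fun f hf d => exD_mul_Cs _ hf d) p j).trans ?_
    exact (zdD_M_le M hc c hs _ p j).trans (zdD_le_zdD_leadD _ p j)

end Crest.Agent.R181.AE
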