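import Crest.Agent.R181.AESemi

/-!
# Polynomials in commuting linear forms over a division ring

If `M 0, …, M (n-1)` are pairwise commuting linear forms of `PD D n` which span the space of
linear forms over `D`, then the monomials in the `M i` are a basis of `PD D n` over `D`.
-/

set_option autoImplicit false

namespace Crest.Agent.R181.AE

open Module Finset
open Crest.Agent.R181.Mon (degS mem_degS)

variable {n : ℕ} {D : Type*} [DivisionRing D]

theorem exists_monomials (M : Fin n → PD D n) (hc : ∀ i k, M i * M k = M k * M i) :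
    ∃ E : (Fin n →₀ ℕ) → PD D n, E 0 = 1 ∧ (∀ m t, E (m + Finsupp.single t 1) = E m * M t) ∧
      (∀ m t, M t * E m = E m * M t) := by
  classical
  have hcomm : ∀ a ∈ Set.range M, ∀ b ∈ Set.range M, a * b = b * a := by
    rintro _ ⟨i, rfl⟩ _ ⟨k, rfl⟩
    exact hc i k
  have hcm := Submonoid.isMulCommutative_closure (PD D n) hcomm
  let _ : CommMonoid (Submonoid.closure (Set.range M)) :=
    { (inferInstance : Monoid (Submonoid.closure (Set.range M))) with
      mul_comm := fun a b => hcm.is_comm.comm a b }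
  let g : Fin n → Submonoid.closure (Set.range M) := fun i =>
    ⟨M i, Submonoid.subset_closure ⟨i, rfl⟩⟩
  refine ⟨fun m => ((∏ i, g i ^ m i : Submonoid.closure (Set.range M)) : PD D n), ?_, ?_, ?_⟩
  · simp
  · intro m t
    have : ∏ i, g i ^ ((m + Finsupp.single t 1 : Fin n →₀ ℕ) i) = (∏ i, g i ^ m i) * g t := by
      have h1 : ∀ i, g i ^ ((m + Finsupp.single t 1 : Fin n →₀ ℕ) i) = g i ^ m i * (if t = i then g t else 1) := by
        intro i
        rw [Finsupp.add_apply, pow_add, Finsupp.single_apply]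
        split_ifs with h
        · rw [h, pow_one]
        · rw [pow_zero]
      simp only [h1, Finset.prod_mul_distrib, Finset.prod_ite_eq, Finset.mem_univ, if_true]
    change ((∏ i, g i ^ ((m + Finsupp.single t 1 : Fin n →₀ ℕ) i) : Submonoid.closure (Set.range M)) : PD D n) = _
    rw [this]
    rfl
  · intro m t
    exact congrArg Subtype.val (mul_comm (g t) (∏ i, g i ^ m i))

/-- The monomials in the `M i`. -/
noncomputable def Em (M : Fin n → PD D n) (hc : ∀ i k, M i * M k = M k * M i) :
    (Fin n →₀ ℕ) → PD D n := (exists_monomials M hc).choose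

variable (M : Fin n → PD D n) (hc : ∀ i k, M i * M k = M k * M i)

theorem Em_zero : Em M hc 0 = 1 := (exists_monomials M hc).choose_spec.1

theorem Em_add_single (m : Fin n →₀ ℕ) (t : Fin n) :
    Em M hc (m + Finsupp.single t 1) = Em M hc m * M t :=
  (exists_monomials M hc).choose_spec.2.1 m t

theorem Em_comm (m : Fin n →₀ ℕ) (t : Fin n) : M t * Em M hc m = Em M hc m * M t :=
  (exists_monomials M hc).choose_spec.2.2 m t

/-- The degree `d` part of `PD D n`. -/
noncomputable def hd (D : Type*) [DivisionRing D] (n d : ℕ) : Submodule D (PD D n) := pcD ⊤ d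

theorem mem_hd {d : ℕ} {f : PD D n} : f ∈ hd D n d ↔ ∀ m, f.coeff m ≠ 0 → m.degree = d := by
  unfold hd
  rw [mem_pcD]
  simp

instance (d : ℕ) : FiniteDimensional D (hd D n d) := by unfold hd; infer_instance

theorem mul_mem_hd {d e : ℕ} {f g : PD D n} (hf : f ∈ hd D n d) (hg : g ∈ hd D n e) :
    f * g ∈ hd D n (d + e) := by
  classical
  rw [mem_hd] at *
  intro m hm
  rw [AddMonoidAlgebra.coeff_mul] at hm
  obtain ⟨m1, h1, h2⟩ := Finset.exists_ne_zero_of_sum_ne_zero hm
  obtain ⟨m2, h3, h4⟩ := Finset.exists_ne_zero_of_sum_ne_zero h2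
  have h4' : (if m1 + m2 = m then f.coeff m1 * g.coeff m2 else 0) ≠ 0 := h4
  split_ifs at h4' with h5
  · rw [← h5, map_add, hf m1 (left_ne_zero_of_mul h4'), hg m2 (right_ne_zero_of_mul h4')]
  · exact absurd rfl h4'

theorem one_mem_hd : (1 : PD D n) ∈ hd D n 0 := by
  rw [mem_hd]
  intro m hm
  rw [AddMonoidAlgebra.one_def, AddMonoidAlgebra.coeff_single] at hm
  by_contra h
  apply hm
  rw [Finsupp.single_eq_of_ne]
  rintro rfl
  exact h (map_zero _)

theorem Cs_mem_hd (d : D) : (Cs d : PD D n) ∈ hd D n 0 := by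
  rw [mem_hd]
  intro m hm
  unfold Cs at hm
  rw [AddMonoidAlgebra.coeff_single] at hm
  by_contra h
  apply hm
  rw [Finsupp.single_eq_of_ne]
  rintro rfl
  exact h (map_zero _)

theorem single_mem_hd {m : Fin n →₀ ℕ} {d : ℕ} (h : m.degree = d) (a : D) :
    AddMonoidAlgebra.single m a ∈ hd D n d := by
  rw [mem_hd]
  intro m' hm'
  rw [AddMonoidAlgebra.coeff_single] at hm'
  by_contra h1
  apply hm'
  rw [Finsupp.single_eq_of_ne]
  rintro rfl
  exact h1 h

theorem Xs_mem_hd (t : Fin n) : Xs D t ∈ hd D n 1 :=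
  single_mem_hd (by rw [Finsupp.degree_single]) _

theorem exists_eq_add_single {m : Fin n →₀ ℕ} {d : ℕ} (h : m.degree = d + 1) :
    ∃ (m' : Fin n →₀ ℕ) (t : Fin n), m = m' + Finsupp.single t 1 ∧ m'.degree = d := by
  have h1 : m ≠ 0 := by
    rintro rfl
    rw [map_zero] at h
    omega
  obtain ⟨t, ht⟩ := Finsupp.ne_iff.1 h1
  have h2 : m = (m - Finsupp.single t 1) + Finsupp.single t 1 := by
    rw [tsub_add_cancel_of_le]
    rw [Finsupp.single_le_iff]
    simp only [Finsupp.coe_zero, Pi.zero_apply] at ht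
    omega
  refine ⟨m - Finsupp.single t 1, t, h2, ?_⟩
  have h3 := congrArg Finsupp.degree h2
  rw [map_add, Finsupp.degree_single, h] at h3
  omega

theorem Em_mem_hd (hM : ∀ i, M i ∈ hd D n 1) (m : Fin n →₀ ℕ) :
    Em M hc m ∈ hd D n m.degree := by
  obtain ⟨d, hd'⟩ : ∃ d, m.degree = d := ⟨_, rfl⟩
  induction d generalizing m with
  | zero =>
    have : m = 0 := (Finsupp.degree_eq_zero_iff m).1 hd'
    rw [this, Em_zero, map_zero]
    exact one_mem_hd
  | succ d ih =>
    obtain ⟨m', t, rfl, h1⟩ := exists_eq_add_single hd'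
    rw [Em_add_single, map_add, Finsupp.degree_single]
    exact mul_mem_hd (ih m' h1) (hM t)

/-- Substitution of the `M i` for the variables. -/
noncomputable def Psi : PD D n →ₗ[D] PD D n :=
  Finsupp.linearCombination D (Em M hc) ∘ₗ (AddMonoidAlgebra.coeffLinearEquiv D).toLinearMap

theorem Psi_apply (f : PD D n) : Psi M hc f = f.coeff.sum fun m a => a • Em M hc m := rfl

theorem Psi_single (m : Fin n →₀ ℕ) (a : D) :
    Psi M hc (AddMonoidAlgebra.single m a) = a • Em M hc m := by
  rw [Psi_apply, AddMonoidAlgebra.coeff_single, Finsupp.sum_single_index]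
  rw [zero_smul]

theorem single_mul_Xs (m : Fin n →₀ ℕ) (a : D) (t : Fin n) :
    (AddMonoidAlgebra.single m a : PD D n) * Xs D t =
      AddMonoidAlgebra.single (m + Finsupp.single t 1) a := by
  unfold Xs
  rw [AddMonoidAlgebra.single_mul_single, mul_one]

theorem single_mul_Cs (m : Fin n →₀ ℕ) (a d : D) :
    (AddMonoidAlgebra.single m a : PD D n) * Cs d = AddMonoidAlgebra.single m (a * d) := by
  unfold Cs
  rw [AddMonoidAlgebra.single_mul_single, add_zero]

theorem Psi_mul_Xs (f : PD D n) (t : Fin n) : Psi M hc (f * Xs D t) = Psi M hc f * M t := by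
  induction f using AddMonoidAlgebra.induction_linear with
  | zero => rw [zero_mul, map_zero, zero_mul]
  | add f g hf hg => rw [add_mul, map_add, map_add, add_mul, hf, hg]
  | single m a => rw [single_mul_Xs, Psi_single, Psi_single, Em_add_single, smul_mul']

theorem Psi_one : Psi M hc 1 = 1 := by
  rw [AddMonoidAlgebra.one_def, Psi_single, Em_zero, one_smul]
  rfl

variable (c : Fin n → Fin n → D) (hs : ∀ s, Xs D s = ∑ i, c i s • M i)

include hs in
theorem Psi_Xs (f : PD D n) (s : Fin n) :
    Psi M hc (∑ i, f * Cs (c i s) * Xs D i) = Psi M hc f * Xs D s := by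
  rw [map_sum]
  simp only [Psi_mul_Xs]
  induction f using AddMonoidAlgebra.induction_linear with
  | zero => simp
  | add f g hf hg =>
    rw [map_add, add_mul, ← hf, ← hg, ← Finset.sum_add_distrib]
    refine Finset.sum_congr rfl fun i _ => ?_
    rw [add_mul, map_add, add_mul]
  | single m a =>
    rw [Psi_single, smul_mul', ← Xs_comm, hs, Finset.sum_mul, Finset.smul_sum]
    refine Finset.sum_congr rfl fun i _ => ?_
    rw [single_mul_Cs, Psi_single, smul_mul', smul_mul', Em_comm, smul_smul]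

theorem Psi_mem_hd (hM : ∀ i, M i ∈ hd D n 1) {d : ℕ} {f : PD D n} (hf : f ∈ hd D n d) :
    Psi M hc f ∈ hd D n d := by
  rw [Psi_apply]
  refine Submodule.sum_mem _ fun m hm => Submodule.smul_mem _ _ ?_
  rw [← mem_hd.1 hf m (Finsupp.mem_support_iff.1 hm)]
  exact Em_mem_hd M hc hM m

include hs in
theorem exists_Psi_eq {d : ℕ} {f : PD D n} (hf : f ∈ hd D n d) :
    ∃ g ∈ hd D n d, Psi M hc g = f := by
  have hmain : hd D n d ≤ (hd D n d).map (Psi M hc) := by
    clear hf f
    induction d with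
    | zero =>
      intro f hf
      refine ⟨f, hf, ?_⟩
      have h1 : f = AddMonoidAlgebra.single 0 (f.coeff 0) := by
        ext m
        rw [AddMonoidAlgebra.coeff_single]
        by_cases hm : m = 0
        · rw [hm, Finsupp.single_eq_same]
        · rw [Finsupp.single_eq_of_ne hm]
          by_contra h2
          exact hm ((Finsupp.degree_eq_zero_iff m).1 (mem_hd.1 hf m h2))
      rw [h1, Psi_single, Em_zero, AddMonoidAlgebra.one_def, AddMonoidAlgebra.smul_single,
        smul_eq_mul, mul_one]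
    | succ d ih =>
      intro f hf
      rw [← AddMonoidAlgebra.sum_coeff_single f]
      refine Submodule.sum_mem _ fun m hm => ?_
      obtain ⟨m', t, h1, h2⟩ := exists_eq_add_single
        (mem_hd.1 hf m (Finsupp.mem_support_iff.1 hm))
      obtain ⟨g, hg, hg2⟩ := ih (single_mem_hd h2 (f.coeff m))
      rw [h1, ← single_mul_Xs, ← h1, ← hg2, ← Psi_Xs M hc c hs]
      refine ⟨_, ?_, rfl⟩
      refine Submodule.sum_mem _ fun i _ => ?_
      exact mul_mem_hd (by simpa using mul_mem_hd hg (Cs_mem_hd _)) (Xs_mem_hd i)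
  obtain ⟨g, hg, rfl⟩ := hmain hf
  exact ⟨g, hg, rfl⟩

include hs in
theorem Psi_injOn (hM : ∀ i, M i ∈ hd D n 1) {d : ℕ} {f : PD D n} (hf : f ∈ hd D n d)
    (h0 : Psi M hc f = 0) : f = 0 := by
  let φ : hd D n d →ₗ[D] hd D n d := (Psi M hc).restrict (fun f hf => Psi_mem_hd M hc hM hf)
  have hsurj : Function.Surjective φ := by
    rintro ⟨f, hf⟩
    obtain ⟨g, hg, hg2⟩ := exists_Psi_eq M hc c hs hf
    exact ⟨⟨g, hg⟩, Subtype.ext hg2⟩
  have hinj := LinearMap.injective_iff_surjective.2 hsurj
  have h1 : φ ⟨f, hf⟩ = 0 := Subtype.ext h0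
  have h2 := hinj (h1.trans (map_zero φ).symm)
  exact congrArg Subtype.val h2

end Crest.Agent.R181.AE
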