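import Crest.Agent.R181.AEBC

/-!
# Semicontinuity over a division ring: passing to the leading exponents
-/

set_option autoImplicit false

namespace Crest.Agent.R181.AE

open Module Finset
open Crest.Agent.R181.Mon (e1 key key_injective key_add_lt degS mem_degS degree_e1 e1_insert
  lowPart finrank_eq_sum_initial finrank_le_of_initial UpClosed)

variable {n : ℕ} {D : Type*} [DivisionRing D]

theorem coeff_KR (f : ChD D n) (U : Finset (Fin n)) (m : Fin n →₀ ℕ) :
    (KR (Xs D) f U).coeff m = ∑ t ∈ Uᶜ, sgz U t •
      (if t ∈ m.support then (f (insert t U)).coeff (m - Finsupp.single t 1) else 0) := by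
  rw [KR_apply, AddMonoidAlgebra.coeff_sum, Finsupp.finsetSum_apply]
  refine Finset.sum_congr rfl fun t _ => ?_
  rw [← coeff_mul_Xs]
  rfl

/-- Component of multidegree `μ` of a chain. -/
noncomputable def cmpD (μ : Fin n →₀ ℕ) : ChD D n →ₗ[D] ChD D n where
  toFun f T := if e1 T ≤ μ then AddMonoidAlgebra.single (μ - e1 T) ((f T).coeff (μ - e1 T)) else 0
  map_add' f g := by
    funext T
    simp only [Pi.add_apply, AddMonoidAlgebra.coeff_add, Finsupp.add_apply]
    split_ifs <;> simp
  map_smul' a f := by
    funext T
    simp only [Pi.smul_apply, AddMonoidAlgebra.coeff_smul, Finsupp.smul_apply, RingHom.id_apply]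
    split_ifs <;> simp

theorem coeff_cmpD (μ : Fin n →₀ ℕ) (f : ChD D n) (T : Finset (Fin n)) (m : Fin n →₀ ℕ) :
    (cmpD μ f T).coeff m = if m + e1 T = μ then (f T).coeff m else 0 := by
  classical
  change (if e1 T ≤ μ then AddMonoidAlgebra.single (μ - e1 T) ((f T).coeff (μ - e1 T))
    else 0 : PD D n).coeff m = _
  by_cases h1 : e1 T ≤ μ
  · rw [if_pos h1, AddMonoidAlgebra.coeff_single, Finsupp.single_apply]
    by_cases h2 : m + e1 T = μ
    · have : μ - e1 T = m := by rw [← h2]; exact add_tsub_cancel_right _ _
      rw [if_pos this, if_pos h2, this]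
    · rw [if_neg h2, if_neg]
      intro h3
      apply h2
      rw [← h3, tsub_add_cancel_of_le h1]
  · rw [if_neg h1, if_neg]
    · rfl
    · intro h2
      apply h1
      rw [← h2]
      exact le_add_self

theorem cmpD_cmpD_self (μ : Fin n →₀ ℕ) (f : ChD D n) : cmpD μ (cmpD μ f) = cmpD μ f := by
  funext T
  ext m
  rw [coeff_cmpD, coeff_cmpD]
  split_ifs <;> rfl

theorem cmpD_cmpD_ne {μ ν : Fin n →₀ ℕ} (h : μ ≠ ν) (f : ChD D n) : cmpD ν (cmpD μ f) = 0 := by
  funext T
  ext m
  rw [coeff_cmpD, coeff_cmpD]
  change _ = (0 : D)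
  split_ifs with h1 h2
  · exact absurd (h2.symm.trans h1) h
  · rfl
  · rfl

theorem KR_cmpD (μ : Fin n →₀ ℕ) (f : ChD D n) : KR (Xs D) (cmpD μ f) = cmpD μ (KR (Xs D) f) := by
  funext U
  ext m
  rw [coeff_cmpD, coeff_KR, coeff_KR]
  have key1 : ∀ t ∈ Uᶜ, sgz U t • (if t ∈ m.support then
        (cmpD μ f (insert t U)).coeff (m - Finsupp.single t 1) else 0) =
      if m + e1 U = μ then sgz U t • (if t ∈ m.support then
        (f (insert t U)).coeff (m - Finsupp.single t 1) else 0) else 0 := by
    intro t ht
    have htU : t ∉ U := by simpa using ht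
    by_cases h4 : t ∈ m.support
    · rw [if_pos h4, if_pos h4, coeff_cmpD, e1_insert htU, ← add_assoc, tsub_add_cancel_of_le]
      · split_ifs <;> simp
      · rw [Finsupp.single_le_iff]
        have := Finsupp.mem_support_iff.1 h4
        omega
    · rw [if_neg h4, if_neg h4]
      split_ifs <;> simp
  rw [Finset.sum_congr rfl key1]
  split_ifs
  · rfl
  · simp

/-- The leading exponents of the homogeneous elements of `J`. -/
def leadD (J : Submodule D (PD D n)) : Set (Fin n →₀ ℕ) :=
  {m | ∃ f ∈ J, f.coeff m ≠ 0 ∧ ∀ m', f.coeff m' ≠ 0 → m'.degree = m.degree ∧ key m' ≤ key m}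

/-- The monomial component. -/
noncomputable def mcD (m : Fin n →₀ ℕ) : PD D n →ₗ[D] PD D n where
  toFun f := AddMonoidAlgebra.single m (f.coeff m)
  map_add' f g := by
    rw [AddMonoidAlgebra.coeff_add, Finsupp.add_apply, AddMonoidAlgebra.single_add]
  map_smul' a f := by
    rw [AddMonoidAlgebra.coeff_smul, Finsupp.smul_apply, RingHom.id_apply,
      AddMonoidAlgebra.smul_single]

theorem mcD_apply (m : Fin n →₀ ℕ) (f : PD D n) :
    mcD m f = AddMonoidAlgebra.single m (f.coeff m) := rfl

/-- General count: for a space `Z` of polynomials of degree `d`, the dimension is the number of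
leading exponents. -/
theorem finrank_eq_card_leadD (Z : Submodule D (PD D n)) [FiniteDimensional D Z]
    (d : ℕ) (hZ : ∀ f ∈ Z, ∀ m, f.coeff m ≠ 0 → m.degree = d) (S : Finset (Fin n →₀ ℕ))
    (hS : ∀ m, m ∈ S ↔ m.degree = d ∧ ∃ f ∈ Z, f.coeff m ≠ 0 ∧
      ∀ m', f.coeff m' ≠ 0 → key m' ≤ key m) :
    finrank D Z = S.card := by
  classical
  rw [finrank_eq_sum_initial key key_injective mcD (degS n d) Z]
  · have h1 : ∀ m ∈ degS n d, finrank D ((lowPart key mcD (degS n d) Z m).map (mcD m)) =
        if m ∈ S then 1 else 0 := by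
      intro m hm
      split_ifs with h
      · obtain ⟨-, f, hf, hfm, hf2⟩ := (hS m).1 h
        have : (lowPart key mcD (degS n d) Z m).map (mcD m) =
            Submodule.span D {AddMonoidAlgebra.single m (1 : D)} := by
          apply le_antisymm
          · rintro _ ⟨g, -, rfl⟩
            rw [mcD_apply, Submodule.mem_span_singleton]
            exact ⟨g.coeff m, by rw [AddMonoidAlgebra.smul_single, smul_eq_mul, mul_one]⟩
          · rw [Submodule.span_singleton_le_iff_mem]
            refine ⟨(f.coeff m)⁻¹ • f, ?_, ?_⟩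
            · refine ⟨Z.smul_mem _ hf, fun j hj hij => ?_⟩
              rw [mcD_apply, AddMonoidAlgebra.coeff_smul, Finsupp.smul_apply]
              have : f.coeff j = 0 := by
                by_contra hne
                exact absurd hij (not_lt.2 (hf2 j hne))
              rw [this, smul_zero, AddMonoidAlgebra.single_zero]
            · rw [mcD_apply, AddMonoidAlgebra.coeff_smul, Finsupp.smul_apply, smul_eq_mul,
                inv_mul_cancel₀ hfm]
        rw [this]
        exact finrank_span_singleton (AddMonoidAlgebra.single_ne_zero.2 one_ne_zero)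
      · have : (lowPart key mcD (degS n d) Z m).map (mcD m) = ⊥ := by
          rw [Submodule.eq_bot_iff]
          rintro _ ⟨f, ⟨hf, hf2⟩, rfl⟩
          rw [mcD_apply]
          by_contra hne
          apply h
          rw [hS]
          refine ⟨mem_degS.1 hm, f, hf, fun h0 => hne (by rw [h0, AddMonoidAlgebra.single_zero]),
            fun m' hm' => ?_⟩
          by_contra hlt
          have := hf2 m' (mem_degS.2 (hZ f hf m' hm')) (not_le.1 hlt)
          rw [mcD_apply, AddMonoidAlgebra.single_eq_zero] at this
          exact hm' this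
        rw [this, finrank_bot]
    rw [Finset.sum_congr rfl h1, Finset.sum_ite_mem, Finset.sum_const, smul_eq_mul, mul_one]
    congr 1
    rw [Finset.inter_eq_right]
    intro m hm
    exact mem_degS.2 ((hS m).1 hm).1
  · intro f hf h
    ext m
    by_contra hne
    change f.coeff m ≠ 0 at hne
    have := h m (mem_degS.2 (hZ f hf m hne))
    rw [mcD_apply, AddMonoidAlgebra.single_eq_zero] at this
    exact hne this

theorem hf_leadD (J : Submodule D (PD D n)) (d : ℕ) :
    finrank D (pcD J d) = Mon.hf (leadD J) d := by
  classical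
  unfold Mon.hf
  apply finrank_eq_card_leadD (pcD J d) d (fun _ hf => (mem_pcD.1 hf).1)
  intro m
  rw [Finset.mem_filter, mem_degS]
  constructor
  · rintro ⟨h1, f, hf, h2, h3⟩
    exact ⟨h1, f, mem_pcD.2 ⟨fun m' hm' => by rw [(h3 m' hm').1, h1], hf⟩, h2,
      fun m' hm' => (h3 m' hm').2⟩
  · rintro ⟨h1, f, hf, h2, h3⟩
    have := mem_pcD.1 hf
    exact ⟨h1, f, this.2, h2, fun m' hm' => ⟨by rw [this.1 m' hm', h1], h3 m' hm'⟩⟩

theorem leadD_upClosed (J : Submodule D (PD D n))
    (hX : ∀ t, ∀ f ∈ J, f * Xs D t ∈ J) : UpClosed (leadD J) := by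
  intro m hm t
  obtain ⟨f, hf, h1, h2⟩ := hm
  refine ⟨f * Xs D t, hX t f hf, ?_, ?_⟩
  · unfold Xs
    rw [AddMonoidAlgebra.coeff_mul_single_add, mul_one]; exact h1
  · intro m' hm'
    rw [coeff_mul_Xs] at hm'
    split_ifs at hm' with h3
    · obtain ⟨h4, h5⟩ := h2 _ hm'
      have h6 : m' = (m' - Finsupp.single t 1) + Finsupp.single t 1 := by
        rw [tsub_add_cancel_of_le]
        rw [Finsupp.single_le_iff]
        have := Finsupp.mem_support_iff.1 h3
        omega
      constructor
      · rw [h6, map_add, map_add, h4]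
      · rw [h6]
        rw [← not_lt, key_add_lt, not_lt]
        exact h5
    · exact absurd rfl hm'

/-- Semicontinuity. -/
theorem zdD_le_zdD_leadD (J : Submodule D (PD D n)) (p j : ℕ) :
    zdD (Xs D) J p j ≤ zdD (Xs D) (monD D (leadD J)) p j := by
  classical
  unfold zdD
  refine finrank_le_of_initial key key_injective cmpD cmpD_cmpD_self
    (fun i j hij f => cmpD_cmpD_ne hij f) (degS n j) _ _ ?_ ?_
  · intro f hf h
    funext T
    ext m
    by_contra hne
    change (f T).coeff m ≠ 0 at hne
    have h1 := hf.1 T m hne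
    have h2 := h (m + e1 T) (by rw [mem_degS, map_add, degree_e1]; omega)
    have h3 := coeff_cmpD (m + e1 T) f T m
    rw [h2, if_pos rfl] at h3
    exact hne h3.symm
  · intro μ hμ f hf h
    rw [mem_zspD]
    constructor
    · intro T m hm
      rw [coeff_cmpD] at hm
      split_ifs at hm with h1
      · exact hf.1 T m hm
      · exact absurd rfl hm
    · intro U
      rw [KR_cmpD, mem_monD]
      intro m hm
      rw [coeff_cmpD] at hm
      split_ifs at hm with h1
      · refine ⟨KR (Xs D) f U, hf.2 U, hm, fun m' hm' => ?_⟩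
        have hdeg : ∀ m'', (KR (Xs D) f U).coeff m'' ≠ 0 → (m'' + e1 U).degree = j := by
          intro m'' hm''
          rw [coeff_KR] at hm''
          obtain ⟨t, ht, h2⟩ := Finset.exists_ne_zero_of_sum_ne_zero hm''
          have h3 : (if t ∈ m''.support then
              (f (insert t U)).coeff (m'' - Finsupp.single t 1) else 0) ≠ 0 := fun h0 =>
            h2 (by rw [h0, smul_zero])
          have htU : t ∉ U := by simpa using ht
          split_ifs at h3 with h4
          · have h5 := hf.1 _ _ h3
            have h7 : m'' = (m'' - Finsupp.single t 1) + Finsupp.single t 1 := by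
              rw [tsub_add_cancel_of_le]
              rw [Finsupp.single_le_iff]
              have := Finsupp.mem_support_iff.1 h4
              omega
            have h8 : m''.degree = (m'' - Finsupp.single t 1).degree + 1 := by
              conv_lhs => rw [h7]
              rw [map_add, Finsupp.degree_single]
            rw [Finset.card_insert_of_notMem htU] at h5
            rw [map_add, degree_e1]
            omega
          · exact absurd rfl h3
        constructor
        · have h2 := hdeg m' hm'
          have h3 := hdeg m hm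
          rw [map_add] at h2 h3
          omega
        · by_contra hlt
          rw [not_le, ← key_add_lt (e1 U), h1] at hlt
          have h4 := h (m' + e1 U) (mem_degS.2 (hdeg m' hm')) hlt
          have h5 := coeff_cmpD (m' + e1 U) (KR (Xs D) f) U m'
          rw [if_pos rfl, ← KR_cmpD, h4, map_zero] at h5
          exact hm' h5.symm
      · exact absurd rfl hm

end Crest.Agent.R181.AE
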