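import Crest.Agent.R181.AEMain

/-!
# Growth of the quotient of `PD D n` by commuting linear forms and one central form
-/

set_option autoImplicit false

namespace Crest.Agent.R181.AS

open Module Finset
open Crest.Agent.R181.Mon (degS mem_degS)
open Crest.Agent.R181.AE

variable {n : ℕ} {D : Type*} [DivisionRing D]

theorem card_le_finrank_hd (d : ℕ) : (degS n d).card ≤ finrank D (hd D n d) := by
  classical
  have hli : LinearIndependent D (fun m : degS n d =>
      (⟨AddMonoidAlgebra.single m.1 1, single_mem_hd (mem_degS.1 m.2) 1⟩ : hd D n d)) := by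
    rw [Fintype.linearIndependent_iff]
    intro g hg i
    have h1 := congrArg (fun x : hd D n d => (x : PD D n).coeff i.1) hg
    simp only [Submodule.coe_sum, Submodule.coe_smul, AddMonoidAlgebra.coeff_sum,
      Finsupp.finsetSum_apply, AddMonoidAlgebra.smul_single, AddMonoidAlgebra.coeff_single,
      Submodule.coe_zero, smul_eq_mul, mul_one] at h1
    rw [Finset.sum_eq_single i] at h1
    · rw [Finsupp.single_eq_same] at h1
      exact h1
    · intro b _ hb
      rw [Finsupp.single_eq_of_ne]
      intro h2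
      exact hb (Subtype.ext h2.symm)
    · intro h2
      exact absurd (Finset.mem_univ _) h2
  simpa using hli.fintype_card_le_finrank

theorem hcp_mul_hd {d e : ℕ} (f : PD D n) {g : PD D n} (hg : g ∈ hd D n e) :
    hcp (d + e) (f * g) = hcp d f * g := by
  induction f using AddMonoidAlgebra.induction_linear with
  | zero => simp
  | add f f' hf hf' => rw [add_mul, map_add, map_add, add_mul, hf, hf']
  | single m a =>
    by_cases h : m.degree = d
    · have h1 : (AddMonoidAlgebra.single m a : PD D n) ∈ hd D n d := single_mem_hd h a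
      rw [hcp_of_mem h1, hcp_of_mem (mul_mem_hd h1 hg)]
    · have h1 : (AddMonoidAlgebra.single m a : PD D n) ∈ hd D n m.degree := single_mem_hd rfl a
      rw [hcp_of_mem_ne h h1, zero_mul, hcp_of_mem_ne (by omega) (mul_mem_hd h1 hg)]

/-- `hd` is spanned by the monomials. -/
theorem hd_le_of_single (d : ℕ) (Z : Submodule D (PD D n))
    (h : ∀ m : Fin n →₀ ℕ, m.degree = d → AddMonoidAlgebra.single m 1 ∈ Z) : hd D n d ≤ Z := by
  intro f hf
  rw [← AddMonoidAlgebra.sum_coeff_single f]
  refine Submodule.sum_mem _ fun m hm => ?_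
  have h1 : (AddMonoidAlgebra.single m (f.coeff m) : PD D n) =
      f.coeff m • AddMonoidAlgebra.single m 1 := by
    rw [AddMonoidAlgebra.smul_single, smul_eq_mul, mul_one]
  rw [h1]
  exact Z.smul_mem _ (h m (mem_hd.1 hf m (Finsupp.mem_support_iff.1 hm)))

variable (M : Fin n → PD D n) (hM : ∀ i, M i ∈ hd D n 1) (hc : ∀ i k, M i * M k = M k * M i)
variable (c : Fin n → Fin n → D) (hs : ∀ s, Xs D s = ∑ i, c i s • M i)
variable (B : Finset (Fin n))

/-- Monomials of degree `d` without a variable of `B`. -/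
noncomputable def N0 (B : Finset (Fin n)) (d : ℕ) : Finset (Fin n →₀ ℕ) := by
  classical exact (degS n d).filter fun m => ∀ i ∈ B, m i = 0

/-- Monomials of degree `d` with a variable of `B`. -/
noncomputable def N1 (B : Finset (Fin n)) (d : ℕ) : Finset (Fin n →₀ ℕ) := by
  classical exact (degS n d).filter fun m => ¬ ∀ i ∈ B, m i = 0

theorem mem_N0 {d : ℕ} {m : Fin n →₀ ℕ} : m ∈ N0 B d ↔ m.degree = d ∧ ∀ i ∈ B, m i = 0 := by
  classical
  unfold N0
  rw [Finset.mem_filter, mem_degS]

theorem mem_N1 {d : ℕ} {m : Fin n →₀ ℕ} : m ∈ N1 B d ↔ m.degree = d ∧ ∃ i ∈ B, m i ≠ 0 := by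
  classical
  unfold N1
  rw [Finset.mem_filter, mem_degS]
  push Not
  rfl

theorem card_N0_add_card_N1 (d : ℕ) : (N0 B d).card + (N1 B d).card = (degS n d).card := by
  classical
  unfold N0 N1
  exact Finset.card_filter_add_card_filter_not _

/-- The span of the monomials with a variable of `B`. -/
noncomputable def Y1 (d : ℕ) : Submodule D (PD D n) :=
  Submodule.span D (Em M hc '' (N1 B d : Set (Fin n →₀ ℕ)))

theorem finrank_span_image_le {ι : Type*} (s : Finset ι) (E : ι → PD D n) :
    finrank D (Submodule.span D (E '' (s : Set ι))) ≤ s.card := by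
  classical
  rw [← Finset.coe_image]
  exact (finrank_span_finset_le_card _).trans Finset.card_image_le

include hs in
theorem mul_mem_Y1 {i : Fin n} (hi : i ∈ B) {e : ℕ} {v : PD D n} (hv : v ∈ hd D n e) :
    v * M i ∈ Y1 M hc B (e + 1) := by
  obtain ⟨g, hg, rfl⟩ := exists_Psi_eq M hc c hs hv
  rw [Psi_apply, Finsupp.sum, Finset.sum_mul]
  refine Submodule.sum_mem _ fun m hm => ?_
  rw [AE.smul_mul', ← Em_add_single]
  refine Submodule.smul_mem _ _ (Submodule.subset_span ⟨_, ?_, rfl⟩)
  rw [Finset.mem_coe, mem_N1]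
  refine ⟨?_, i, hi, ?_⟩
  · rw [map_add, Finsupp.degree_single, mem_hd.1 hg m (Finsupp.mem_support_iff.1 hm)]
  · simp

theorem Em_eq_mul {m : Fin n →₀ ℕ} {i : Fin n} (h : m i ≠ 0) :
    Em M hc m = Em M hc (m - Finsupp.single i 1) * M i := by
  rw [← Em_add_single, tsub_add_cancel_of_le]
  rw [Finsupp.single_le_iff]
  omega

theorem degree_sub_single {m : Fin n →₀ ℕ} {i : Fin n} {d : ℕ} (h : m i ≠ 0)
    (hd' : m.degree = d + 1) : (m - Finsupp.single i 1).degree = d := by
  have h2 : m = (m - Finsupp.single i 1) + Finsupp.single i 1 := by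
    rw [tsub_add_cancel_of_le]
    rw [Finsupp.single_le_iff]
    omega
  have h3 := congrArg Finsupp.degree h2
  rw [map_add, Finsupp.degree_single, hd'] at h3
  omega

include hM hc hs in
/-- The degree `d` part is spanned by the obvious elements. -/
theorem hd_le (f : PD D n) (a : ℕ) (ha : 0 < a) (hf : f ∈ hd D n a) (hfc : ∀ g, f * g = g * f)
    (d : ℕ) (had : a < d)
    (hgen : ∀ m : Fin n →₀ ℕ, m.degree = d → ∃ (u : PD D n) (v : Fin n → PD D n),
      AddMonoidAlgebra.single m 1 = u * f + ∑ i ∈ B, v i * M i) :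
    hd D n d ≤ Submodule.span D ((fun m => f * Em M hc m) '' (N0 B (d - a) : Set (Fin n →₀ ℕ))) ⊔
      Y1 M hc B d := by
  obtain ⟨e, he⟩ : ∃ e, d = e + 1 := ⟨d - 1, by omega⟩
  apply hd_le_of_single
  intro m hm
  obtain ⟨u, v, huv⟩ := hgen m hm
  have h1 : (AddMonoidAlgebra.single m 1 : PD D n) =
      hcp (d - a) u * f + ∑ i ∈ B, hcp e (v i) * M i := by
    have h2 := congrArg (hcp d) huv
    rw [hcp_of_mem (single_mem_hd hm 1), map_add, map_sum] at h2
    rw [h2]
    congr 1
    · conv_lhs => rw [show d = (d - a) + a by omega]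
      exact hcp_mul_hd u hf
    · refine Finset.sum_congr rfl fun i _ => ?_
      rw [he]
      exact hcp_mul_hd _ (hM i)
  rw [h1]
  refine Submodule.add_mem _ ?_ (Submodule.sum_mem _ fun i hi => ?_)
  · obtain ⟨g, hg, hg2⟩ := exists_Psi_eq M hc c hs (hcp_mem_hd (d - a) u)
    rw [← hg2, Psi_apply, Finsupp.sum, Finset.sum_mul]
    refine Submodule.sum_mem _ fun m' hm' => ?_
    rw [AE.smul_mul']
    refine Submodule.smul_mem _ _ ?_
    have hm'd := mem_hd.1 hg m' (Finsupp.mem_support_iff.1 hm')
    rw [← hfc]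
    by_cases h3 : ∀ i ∈ B, m' i = 0
    · refine Submodule.mem_sup_left (Submodule.subset_span ⟨m', ?_, rfl⟩)
      rw [Finset.mem_coe, mem_N0]
      exact ⟨hm'd, h3⟩
    · push Not at h3
      obtain ⟨i, hi, h4⟩ := h3
      refine Submodule.mem_sup_right ?_
      rw [Em_eq_mul M hc h4, ← mul_assoc, he]
      refine mul_mem_Y1 M hc c hs B hi ?_
      have h5 : (m' - Finsupp.single i 1).degree = d - a - 1 :=
        degree_sub_single h4 (by omega)
      have h6 := mul_mem_hd hf (Em_mem_hd M hc hM (m' - Finsupp.single i 1))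
      rw [h5, show a + (d - a - 1) = e by omega] at h6
      exact h6
  · refine Submodule.mem_sup_right ?_
    rw [he]
    exact mul_mem_Y1 M hc c hs B hi (hcp_mem_hd _ _)

include hM hc hs in
theorem card_N0_le (f : PD D n) (a : ℕ) (ha : 0 < a) (hf : f ∈ hd D n a)
    (hfc : ∀ g, f * g = g * f) (d : ℕ) (had : a < d)
    (hgen : ∀ m : Fin n →₀ ℕ, m.degree = d → ∃ (u : PD D n) (v : Fin n → PD D n),
      AddMonoidAlgebra.single m 1 = u * f + ∑ i ∈ B, v i * M i) :
    (N0 B d).card ≤ (N0 B (d - a)).card := by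
  have h1 := hd_le M hM hc c hs B f a ha hf hfc d had hgen
  have : FiniteDimensional D (Submodule.span D
      ((fun m => f * Em M hc m) '' (N0 B (d - a) : Set (Fin n →₀ ℕ)))) :=
    FiniteDimensional.span_of_finite D (Set.Finite.image _ (Finset.finite_toSet _))
  have : FiniteDimensional D (Y1 M hc B d) :=
    FiniteDimensional.span_of_finite D (Set.Finite.image _ (Finset.finite_toSet _))
  have h2 := Submodule.finrank_mono h1
  have h3 := Submodule.finrank_add_le_finrank_add_finrank (Submodule.span D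
      ((fun m => f * Em M hc m) '' (N0 B (d - a) : Set (Fin n →₀ ℕ)))) (Y1 M hc B d)
  have h4 := finrank_span_image_le (D := D) (N0 B (d - a)) (fun m => f * Em M hc m)
  have h5 := finrank_span_image_le (D := D) (N1 B d) (Em M hc)
  have h6 := card_le_finrank_hd (D := D) (n := n) d
  have h7 := card_N0_add_card_N1 B d
  have h8 : finrank D (Y1 M hc B d) ≤ (N1 B d).card := h5
  omega

/-- If two variables are not in `B` then the Hilbert function of the polynomial ring in these
variables is strictly increasing. -/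
theorem card_N0_lt {s t : Fin n} (hst : s ≠ t) (hsB : s ∉ B) (htB : t ∉ B) (a : ℕ) (ha : 0 < a)
    (d : ℕ) (had : a < d) : (N0 B (d - a)).card < (N0 B d).card := by
  classical
  rw [← Finset.card_image_of_injective (N0 B (d - a))
    (add_left_injective (Finsupp.single s a : Fin n →₀ ℕ))]
  apply Finset.card_lt_card
  rw [Finset.ssubset_iff_of_subset]
  · refine ⟨Finsupp.single t d, ?_, ?_⟩
    · rw [mem_N0]
      refine ⟨Finsupp.degree_single _ _, fun i hi => ?_⟩
      rw [Finsupp.single_eq_of_ne]
      rintro rfl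
      exact htB hi
    · intro h
      obtain ⟨m, _, hm⟩ := Finset.mem_image.1 h
      have h1 := DFunLike.congr_fun hm s
      simp only [Finsupp.add_apply, Finsupp.single_eq_same] at h1
      rw [Finsupp.single_eq_of_ne hst] at h1
      omega
  · intro m hm
    obtain ⟨m', hm', rfl⟩ := Finset.mem_image.1 hm
    rw [mem_N0] at hm' ⊢
    refine ⟨?_, fun i hi => ?_⟩
    · simp only [map_add, Finsupp.degree_single, hm'.1]
      omega
    · simp only [Finsupp.add_apply, hm'.2 i hi, zero_add]
      rw [Finsupp.single_eq_of_ne]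
      rintro rfl
      exact hsB hi

include hM hc hs in
/-- At most one index is not in `B`. -/
theorem eq_of_notMem (f : PD D n) (a : ℕ) (ha : 0 < a) (hf : f ∈ hd D n a)
    (hfc : ∀ g, f * g = g * f) (d : ℕ) (had : a < d)
    (hgen : ∀ m : Fin n →₀ ℕ, m.degree = d → ∃ (u : PD D n) (v : Fin n → PD D n),
      AddMonoidAlgebra.single m 1 = u * f + ∑ i ∈ B, v i * M i)
    {s t : Fin n} (hsB : s ∉ B) (htB : t ∉ B) : s = t := by
  by_contra hst
  exact absurd (card_N0_le M hM hc c hs B f a ha hf hfc d had hgen)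
    (not_le.2 (card_N0_lt B hst hsB htB a ha d had))

include hM hc hs in
/-- The remaining variable occurs in `f` as a pure power. -/
theorem exists_pow_sub (f : PD D n) (a : ℕ) (ha : 0 < a) (hf : f ∈ hd D n a)
    (hfc : ∀ g, f * g = g * f) (d : ℕ) (had : a < d)
    (hgen : ∀ m : Fin n →₀ ℕ, m.degree = d → ∃ (u : PD D n) (v : Fin n → PD D n),
      AddMonoidAlgebra.single m 1 = u * f + ∑ i ∈ B, v i * M i)
    (i0 : Fin n) (hi0 : ∀ i, i ∉ B ↔ i = i0) :
    ∃ (b : D) (s : Fin n → PD D n), M i0 ^ a - ∑ i ∈ B, s i * M i = b • f := by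
  classical
  obtain ⟨e, he⟩ : ∃ e, a = e + 1 := ⟨a - 1, by omega⟩
  obtain ⟨g, hg, hg2⟩ := exists_Psi_eq M hc c hs hf
  -- the part of `f` in the left ideal
  have hpart : ∀ m : Fin n →₀ ℕ, m.degree = a → m ≠ Finsupp.single i0 a →
      ∃ s : Fin n → PD D n, Em M hc m = ∑ i ∈ B, s i * M i := by
    intro m hm hne
    have h1 : ∃ i ∈ B, m i ≠ 0 := by
      by_contra h2
      push Not at h2
      apply hne
      ext i
      by_cases hi : i = i0
      · subst hi
        rw [Finsupp.single_eq_same, ← hm, Finsupp.degree_eq_sum, Finset.sum_eq_single i]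
        · intro j _ hj
          apply h2
          by_contra h3
          exact hj ((hi0 j).1 h3)
        · intro h; exact absurd (Finset.mem_univ _) h
      · rw [Finsupp.single_eq_of_ne hi]
        apply h2
        by_contra h3
        exact hi ((hi0 i).1 h3)
    obtain ⟨i, hi, h2⟩ := h1
    refine ⟨fun j => if j = i then Em M hc (m - Finsupp.single i 1) else 0, ?_⟩
    rw [Finset.sum_eq_single i]
    · simp only [if_true]
      exact Em_eq_mul M hc h2
    · intro j _ hj
      simp only [if_neg hj, zero_mul]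
    · intro h; exact absurd hi h
  have hpart2 : ∃ s : Fin n → PD D n,
      f - (g.coeff (Finsupp.single i0 a)) • (M i0 ^ a) = ∑ i ∈ B, s i * M i := by
    choose! s hs1 using hpart
    refine ⟨fun i => ∑ m ∈ g.coeff.support.erase (Finsupp.single i0 a), g.coeff m • s m i, ?_⟩
    have h1 : M i0 ^ a = Em M hc (Finsupp.single i0 a) := by
      rw [← Psi_Xs_pow M hc, Xs_pow, Psi_single, one_smul]
    have h2 : f = ∑ m ∈ insert (Finsupp.single i0 a) g.coeff.support, g.coeff m • Em M hc m := by
      rw [← hg2, Psi_apply, Finsupp.sum]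
      apply Finset.sum_subset (Finset.subset_insert _ _)
      intro m _ hm
      rw [Finsupp.notMem_support_iff.1 hm, zero_smul]
    rw [h1, h2, ← Finset.insert_erase (Finset.mem_insert_self (Finsupp.single i0 a) g.coeff.support),
      Finset.sum_insert (Finset.notMem_erase _ _), Finset.erase_insert_eq_erase, add_sub_cancel_left]
    rw [show (∑ i ∈ B, (∑ m ∈ g.coeff.support.erase (Finsupp.single i0 a), g.coeff m • s m i) * M i)
      = ∑ m ∈ g.coeff.support.erase (Finsupp.single i0 a), g.coeff m • ∑ i ∈ B, s m i * M i by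
      simp only [Finset.sum_mul, Finset.smul_sum, AE.smul_mul']
      exact Finset.sum_comm]
    refine Finset.sum_congr rfl fun m hm => ?_
    rw [Finset.mem_erase] at hm
    rw [← hs1 m (mem_hd.1 hg m (Finsupp.mem_support_iff.1 hm.2)) hm.1]
  obtain ⟨s, hs2⟩ := hpart2
  by_cases hz : g.coeff (Finsupp.single i0 a) = 0
  · exfalso
    rw [hz, zero_smul, sub_zero] at hs2
    have h1 : hd D n d ≤ Y1 M hc B d := by
      obtain ⟨e', he'⟩ : ∃ e', d = e' + 1 := ⟨d - 1, by omega⟩
      apply hd_le_of_single
      intro m hm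
      obtain ⟨u, v, huv⟩ := hgen m hm
      have h2 : (AddMonoidAlgebra.single m 1 : PD D n) =
          ∑ i ∈ B, hcp e' (u * s i + v i) * M i := by
        have h2 := congrArg (hcp d) huv
        rw [hcp_of_mem (single_mem_hd hm 1)] at h2
        rw [h2, hs2, Finset.mul_sum, ← Finset.sum_add_distrib, map_sum]
        refine Finset.sum_congr rfl fun i _ => ?_
        rw [he', ← mul_assoc, ← add_mul]
        exact hcp_mul_hd _ (hM i)
      rw [h2]
      refine Submodule.sum_mem _ fun i hi => ?_
      rw [he']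
      exact mul_mem_Y1 M hc c hs B hi (hcp_mem_hd _ _)
    have : FiniteDimensional D (Y1 M hc B d) :=
      FiniteDimensional.span_of_finite D (Set.Finite.image _ (Finset.finite_toSet _))
    have h2 := Submodule.finrank_mono h1
    have h5 : finrank D (Y1 M hc B d) ≤ (N1 B d).card :=
      finrank_span_image_le (D := D) (N1 B d) (Em M hc)
    have h6 := card_le_finrank_hd (D := D) (n := n) d
    have h7 := card_N0_add_card_N1 B d
    have h8 : 0 < (N0 B d).card := by
      refine Finset.card_pos.2 ⟨Finsupp.single i0 d, ?_⟩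
      rw [mem_N0]
      refine ⟨Finsupp.degree_single _ _, fun i hi => ?_⟩
      rw [Finsupp.single_eq_of_ne]
      rintro rfl
      exact ((hi0 i).2 rfl) hi
    omega
  · refine ⟨(g.coeff (Finsupp.single i0 a))⁻¹,
      fun i => -((g.coeff (Finsupp.single i0 a))⁻¹ • s i), ?_⟩
    have h1 : f = (g.coeff (Finsupp.single i0 a)) • (M i0 ^ a) + ∑ i ∈ B, s i * M i := by
      rw [← hs2]; abel
    conv_rhs => rw [h1]
    rw [smul_add, smul_smul, inv_mul_cancel₀ hz, one_smul, Finset.smul_sum]
    simp only [neg_mul, AE.smul_mul', Finset.sum_neg_distrib, sub_neg_eq_add]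

end Crest.Agent.R181.AS
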