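import Crest.Agent.R181.AS1

/-!
# From a tuple of commuting linear forms to the lex-plus-powers theorem
-/

set_option autoImplicit false

namespace Crest.Agent.R181.AS

open Module Finset
open Crest.Agent.R181.Mon (degS mem_degS)
open Crest.Agent.R181.AE
open Crest.AlgebraR.LPP
open Crest Crest.AlgebraR

variable {n : ℕ} {D : Type*} [DivisionRing D]

theorem hd_one_le (Z : Submodule D (PD D n)) (h : ∀ t, Xs D t ∈ Z) : hd D n 1 ≤ Z := by
  apply hd_le_of_single
  intro m hm
  obtain ⟨m', t, rfl, h1⟩ := exists_eq_add_single (d := 0) hm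
  rw [(Finsupp.degree_eq_zero_iff m').1 h1, zero_add]
  exact h t

theorem card_degS_one : (degS n 1).card = n := by
  classical
  have : degS n 1 = Finset.univ.image (fun t : Fin n => Finsupp.single t 1) := by
    ext m
    rw [mem_degS, Finset.mem_image]
    constructor
    · intro h
      obtain ⟨m', t, rfl, h1⟩ := exists_eq_add_single (d := 0) h
      exact ⟨t, Finset.mem_univ _, by rw [(Finsupp.degree_eq_zero_iff m').1 h1, zero_add]⟩
    · rintro ⟨t, _, rfl⟩
      exact Finsupp.degree_single _ _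
  rw [this, Finset.card_image_of_injective, Finset.card_univ, Fintype.card_fin]
  intro s t h
  exact Finsupp.single_left_injective one_ne_zero h

theorem finrank_hd_one : finrank D (hd D n 1) = n := by
  classical
  apply le_antisymm
  · have h1 : hd D n 1 ≤ Submodule.span D (Set.range (Xs D : Fin n → PD D n)) :=
      hd_one_le _ fun t => Submodule.subset_span ⟨t, rfl⟩
    have : FiniteDimensional D (Submodule.span D (Set.range (Xs D : Fin n → PD D n))) :=
      FiniteDimensional.span_of_finite D (Set.finite_range _)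
    have h2 := Submodule.finrank_mono h1
    have h3 := finrank_range_le_card (R := D) (Xs D : Fin n → PD D n)
    rw [Fintype.card_fin] at h3
    exact h2.trans h3
  · have := card_le_finrank_hd (D := D) (n := n) 1
    rwa [card_degS_one] at this

/-- A finite linearly independent set of pairwise commuting linear forms can be completed by
variables. -/
theorem exists_complete (w : Set (PD D n)) (hw : ∀ x ∈ w, x ∈ hd D n 1)
    (hcw : ∀ x ∈ w, ∀ y ∈ w, x * y = y * x) :
    ∃ (M : Fin n → PD D n) (B : Finset (Fin n)), (∀ i, M i ∈ hd D n 1) ∧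
      (∀ i k, M i * M k = M k * M i) ∧ LinearIndependent D M ∧
      (∀ s, ∃ c : Fin n → D, Xs D s = ∑ i, c i • M i) ∧
      (∀ i ∈ B, M i ∈ w) ∧ (∀ i ∉ B, ∃ s, M i = Xs D s) ∧
      (∀ x ∈ w, ∃ c : Fin n → D, x = ∑ i ∈ B, c i • M i) := by
  classical
  obtain ⟨b1, h1, -, h3, h4⟩ := exists_linearIndepOn_extension (K := D) (v := (id : PD D n → PD D n))
    (s := (∅ : Set (PD D n))) (t := w) (linearIndepOn_empty D _) (Set.empty_subset _)
  obtain ⟨b2, h5, h6, h7, h8⟩ := exists_linearIndepOn_extension (K := D)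
    (v := (id : PD D n → PD D n))
    (s := b1) (t := b1 ∪ Set.range (Xs D : Fin n → PD D n)) h4 Set.subset_union_left
  simp only [Set.image_id] at h3 h7
  have hb2 : ∀ x ∈ b2, x ∈ hd D n 1 := by
    intro x hx
    rcases h5 hx with h | ⟨s, rfl⟩
    · exact hw x (h1 h)
    · exact Xs_mem_hd s
  have hspan : Submodule.span D b2 = hd D n 1 := by
    apply le_antisymm
    · exact Submodule.span_le.2 hb2
    · exact hd_one_le _ fun t => h7 (Or.inr ⟨t, rfl⟩)
  have hcb : ∀ x ∈ b2, ∀ y ∈ b2, x * y = y * x := by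
    intro x hx y hy
    rcases h5 hx with h | ⟨s, rfl⟩
    · rcases h5 hy with h' | ⟨s, rfl⟩
      · exact hcw x (h1 h) y (h1 h')
      · exact (Xs_comm _ _).symm
    · exact Xs_comm _ _
  have hfin : b2.Finite := by
    have : LinearIndependent D (fun x : b2 => (⟨x.1, hb2 _ x.2⟩ : hd D n 1)) := by
      apply LinearIndependent.of_comp (hd D n 1).subtype
      exact h8
    have h9 : Finite b2 := this.finite
    exact Set.toFinite b2
  have hfb : Fintype b2 := hfin.fintype
  have hcard : Fintype.card b2 = n := by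
    have := finrank_span_set_eq_card (R := D) (s := b2) h8
    rw [hspan, finrank_hd_one] at this
    rw [← Set.toFinset_card]
    exact this.symm
  let e : Fin n ≃ b2 := (Fintype.equivFinOfCardEq hcard).symm
  refine ⟨fun i => (e i : PD D n), Finset.univ.filter (fun i => (e i : PD D n) ∈ b1),
    fun i => hb2 _ (e i).2, fun i k => hcb _ (e i).2 _ (e k).2, ?_, ?_, ?_, ?_, ?_⟩
  · exact LinearIndependent.comp h8 e e.injective
  · intro s
    have h9 : Xs D s ∈ Submodule.span D (Set.range fun i => (e i : PD D n)) := by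
      have : (Set.range fun i => (e i : PD D n)) = b2 := by
        ext x
        constructor
        · rintro ⟨i, rfl⟩; exact (e i).2
        · intro hx; exact ⟨e.symm ⟨x, hx⟩, by simp⟩
      rw [this, hspan]
      exact Xs_mem_hd s
    obtain ⟨c, hc⟩ := (Submodule.mem_span_range_iff_exists_fun D).1 h9
    exact ⟨c, hc.symm⟩
  · intro i hi
    exact h1 (Finset.mem_filter.1 hi).2
  · intro i hi
    have h9 : (e i : PD D n) ∉ b1 := fun h => hi (Finset.mem_filter.2 ⟨Finset.mem_univ _, h⟩)
    rcases h5 (e i).2 with h | ⟨s, hs⟩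
    · exact absurd h h9
    · exact ⟨s, hs.symm⟩
  · intro x hx
    have h9 : x ∈ Submodule.span D ((fun i => (e i : PD D n)) ''
        (Finset.univ.filter (fun i => (e i : PD D n) ∈ b1) : Finset (Fin n))) := by
      have : ((fun i => (e i : PD D n)) ''
        ((Finset.univ.filter (fun i => (e i : PD D n) ∈ b1) : Finset (Fin n)) : Set (Fin n))) = b1 := by
        ext x
        constructor
        · rintro ⟨i, hi, rfl⟩
          rw [Finset.mem_coe, Finset.mem_filter] at hi
          exact hi.2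
        · intro hx
          refine ⟨e.symm ⟨x, h6 hx⟩, ?_, by simp⟩
          rw [Finset.mem_coe, Finset.mem_filter]
          exact ⟨Finset.mem_univ _, by simpa using hx⟩
      rw [this]
      exact h3 hx
    obtain ⟨c, hc⟩ := (Submodule.mem_span_image_finset_iff_exists_fun' D).1 h9
    exact ⟨c, hc.symm⟩


theorem mul_smul_eq (v g : PD D n) (c : D) : v * (c • g) = (v * Cs c) * g := by
  rw [← Cs_mul, mul_assoc]

theorem single_mul_Xs_one (m : Fin n →₀ ℕ) (t : Fin n) :
    (AddMonoidAlgebra.single (m + Finsupp.single t 1) 1 : PD D n) =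
      AddMonoidAlgebra.single m 1 * Xs D t := by
  rw [single_mul_Xs]

theorem hgen_of_le (f : PD D n) (B : Finset (Fin n)) (w : Fin n → PD D n) {d e : ℕ} (hde : d ≤ e)
    (hgen : ∀ m : Fin n →₀ ℕ, m.degree = d → ∃ (u : PD D n) (v : Fin n → PD D n),
      AddMonoidAlgebra.single m 1 = u * f + ∑ i ∈ B, v i * w i) :
    ∀ m : Fin n →₀ ℕ, m.degree = e → ∃ (u : PD D n) (v : Fin n → PD D n),
      AddMonoidAlgebra.single m 1 = u * f + ∑ i ∈ B, v i * w i := by
  induction e, hde using Nat.le_induction with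
  | base => exact hgen
  | succ e he ih =>
    intro m hm
    obtain ⟨m', t, rfl, h1⟩ := exists_eq_add_single hm
    obtain ⟨u, v, huv⟩ := ih m' h1
    refine ⟨u * Xs D t, fun i => v i * Xs D t, ?_⟩
    rw [single_mul_Xs_one, huv, add_mul, Finset.sum_mul, mul_assoc, ← Xs_comm, mul_assoc]
    congr 1
    refine Finset.sum_congr rfl fun i _ => ?_
    rw [mul_assoc, ← Xs_comm, mul_assoc]

theorem iota_comm [Algebra ℂ D] (f : MvPolynomial (Fin n) ℂ) (g : PD D n) :
    iota D f * g = g * iota D f := by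
  induction f using MvPolynomial.induction_on with
  | C x =>
    have h1 : iota D (MvPolynomial.C x : MvPolynomial (Fin n) ℂ) = Cs (algebraMap ℂ D x) := by
      ext m
      rw [coeff_iota, MvPolynomial.coeff_C]
      unfold Cs
      rw [AddMonoidAlgebra.coeff_single, Finsupp.single_apply]
      split_ifs <;> simp
    rw [h1]
    ext m
    rw [coeff_mul_Cs, Cs_mul, AddMonoidAlgebra.coeff_smul, Finsupp.smul_apply, smul_eq_mul,
      Algebra.commutes]
  | add p q hp hq => rw [map_add, add_mul, mul_add, hp, hq]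
  | mul_X p t hp =>
    rw [map_mul, iota_X, mul_assoc, Xs_comm, ← mul_assoc, hp, mul_assoc]

theorem iota_mem_hd [Algebra ℂ D] {f : MvPolynomial (Fin n) ℂ} {a : ℕ} (hf : f.IsHomogeneous a) :
    iota D f ∈ hd D n a := by
  rw [mem_hd]
  intro m hm
  rw [coeff_iota] at hm
  have h1 : MvPolynomial.coeff m f ≠ 0 := by
    rintro h
    rw [h, map_zero] at hm
    exact hm rfl
  have h2 := hf h1
  rw [← h2, Finsupp.degree_eq_weight_one]
  rfl

/-- The data of the top of the tower give commuting linear forms which are a basis. -/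
theorem exists_full [Algebra ℂ D] (a : Fin n → ℕ) (hpos : ∀ i, 0 < a i)
    (i0 : Fin n) (hi0 : ∀ i, i0 ≤ i)
    (I : Ideal (MvPolynomial (Fin n) ℂ))
    (w : Fin n → PD D n) (hw : ∀ i, i ≠ i0 → w i ∈ hd D n 1)
    (hcw : ∀ i k, i ≠ i0 → k ≠ i0 → w i * w k = w k * w i)
    (f : MvPolynomial (Fin n) ℂ) (hf : f.IsHomogeneous (a i0)) (hfI : f ∈ I)
    (d : ℕ) (hgen : ∀ m : Fin n →₀ ℕ, m.degree = d →
      ∃ (u : PD D n) (v : Fin n → PD D n),
        AddMonoidAlgebra.single m 1 = u * iota D f +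
          ∑ i ∈ Finset.univ.filter (fun i => i ≠ i0), v i * w i) :
    ∃ (M : Fin n → PD D n), (∀ i, M i ∈ hd D n 1) ∧ (∀ i k, M i * M k = M k * M i) ∧
      (∀ s, ∃ c : Fin n → D, Xs D s = ∑ i, c i • M i) ∧ (∀ i, i ≠ i0 → M i = w i) ∧
      ∃ s : Fin n → PD D n, M i0 ^ a i0 - ∑ k ∈ Finset.univ.filter (fun k => i0 < k),
        s k * M k ∈ exD D (Submodule.restrictScalars ℂ I) := by
  classical
  have hgen' := hgen_of_le (iota D f) _ w (Nat.le_add_right d (a i0 + 1)) hgen
  obtain ⟨M0, B0, h1, h2, h3, h4, h5, h6, h7⟩ := exists_complete (D := D)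
    (w '' {i | i ≠ i0}) (by rintro _ ⟨i, hi, rfl⟩; exact hw i hi)
    (by rintro _ ⟨i, hi, rfl⟩ _ ⟨k, hk, rfl⟩; exact hcw i k hi hk)
  choose c0 hc0 using h4
  have hgen0 : ∀ m : Fin n →₀ ℕ, m.degree = d + (a i0 + 1) →
      ∃ (u : PD D n) (v : Fin n → PD D n),
        AddMonoidAlgebra.single m 1 = u * iota D f + ∑ i ∈ B0, v i * M0 i := by
    intro m hm
    obtain ⟨u, v, huv⟩ := hgen' m hm
    have h8 : ∀ i, ∃ c : Fin n → D, i ≠ i0 → w i = ∑ k ∈ B0, c k • M0 k := by
      intro i
      by_cases hi : i = i0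
      · exact ⟨0, fun h => absurd hi h⟩
      · obtain ⟨c, hc⟩ := h7 (w i) ⟨i, hi, rfl⟩
        exact ⟨c, fun _ => hc⟩
    choose c hc using h8
    refine ⟨u, fun k => ∑ i ∈ Finset.univ.filter (fun i => i ≠ i0), v i * Cs (c i k), ?_⟩
    rw [huv]
    congr 1
    calc ∑ i ∈ Finset.univ.filter (fun i => i ≠ i0), v i * w i
        = ∑ i ∈ Finset.univ.filter (fun i => i ≠ i0), ∑ k ∈ B0, (v i * Cs (c i k)) * M0 k := by
          refine Finset.sum_congr rfl fun i hi => ?_
          rw [hc i (Finset.mem_filter.1 hi).2, Finset.mul_sum]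
          exact Finset.sum_congr rfl fun k _ => mul_smul_eq _ _ _
      _ = _ := by
          rw [Finset.sum_comm]
          exact Finset.sum_congr rfl fun k _ => (Finset.sum_mul _ _ _).symm
  have huniq : ∀ {s t : Fin n}, s ∉ B0 → t ∉ B0 → s = t := fun hs ht =>
    eq_of_notMem M0 h1 h2 (fun i k => c0 k i) hc0 B0 (iota D f) (a i0) (hpos i0)
      (iota_mem_hd hf) (iota_comm f) _ (by omega) hgen0 hs ht
  -- cardinalities
  have hBc : n ≤ B0.card + 1 := by
    have h8 : (B0ᶜ).card ≤ 1 := Finset.card_le_one.2 fun s hs t ht =>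
      huniq (Finset.mem_compl.1 hs) (Finset.mem_compl.1 ht)
    have h9 := Finset.card_compl B0
    rw [Fintype.card_fin] at h9
    omega
  set W : Finset (Fin n) := Finset.univ.filter (fun i => i ≠ i0) with hW
  have hWc : W.card + 1 = n := by
    rw [hW, Finset.filter_ne', Finset.card_erase_add_one (Finset.mem_univ _), Finset.card_univ,
      Fintype.card_fin]
  have hsub : B0.image M0 ⊆ W.image w := by
    intro x hx
    obtain ⟨i, hi, rfl⟩ := Finset.mem_image.1 hx
    obtain ⟨j, hj, hj2⟩ := h5 i hi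
    exact Finset.mem_image.2 ⟨j, by rw [hW, Finset.mem_filter]; exact ⟨Finset.mem_univ _, hj⟩, hj2⟩
  have hcardB : (B0.image M0).card = B0.card :=
    Finset.card_image_of_injective _ h3.injective
  have hle1 := Finset.card_le_card hsub
  have hle2 : (W.image w).card ≤ W.card := Finset.card_image_le
  have hB0 : B0.card + 1 = n := by omega
  obtain ⟨s0, hs0⟩ : ∃ s0, s0 ∉ B0 := by
    by_contra h
    push Not at h
    have : B0 = Finset.univ := Finset.eq_univ_iff_forall.2 h
    rw [this, Finset.card_univ, Fintype.card_fin] at hB0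
    omega
  obtain ⟨s1, hs1⟩ := h6 s0 hs0
  let M : Fin n → PD D n := fun i => if i = i0 then M0 s0 else w i
  have hMi0 : M i0 = M0 s0 := if_pos rfl
  have hMne : ∀ i, i ≠ i0 → M i = w i := fun i hi => if_neg hi
  have hM : ∀ i, M i ∈ hd D n 1 := by
    intro i
    by_cases hi : i = i0
    · rw [hi, hMi0]; exact h1 s0
    · rw [hMne i hi]; exact hw i hi
  have hMc : ∀ i k, M i * M k = M k * M i := by
    intro i k
    by_cases hi : i = i0
    · rw [hi, hMi0, hs1, Xs_comm]
    · by_cases hk : k = i0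
      · rw [hk, hMi0, hs1, Xs_comm]
      · rw [hMne i hi, hMne k hk]; exact hcw i k hi hk
  have hrange : ∀ i, M0 i ∈ Submodule.span D (Set.range M) := by
    intro i
    by_cases hi : i ∈ B0
    · obtain ⟨j, hj, hj2⟩ := h5 i hi
      rw [← hj2, ← hMne j hj]
      exact Submodule.subset_span ⟨j, rfl⟩
    · rw [huniq hi hs0, ← hMi0]
      exact Submodule.subset_span ⟨i0, rfl⟩
  have hMs : ∀ s, ∃ c : Fin n → D, Xs D s = ∑ i, c i • M i := by
    intro s
    have h8 : Xs D s ∈ Submodule.span D (Set.range M) := by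
      rw [hc0 s]
      exact Submodule.sum_mem _ fun i _ => Submodule.smul_mem _ _ (hrange i)
    obtain ⟨c, hc⟩ := (Submodule.mem_span_range_iff_exists_fun D).1 h8
    exact ⟨c, hc.symm⟩
  refine ⟨M, hM, hMc, hMs, hMne, ?_⟩
  choose c hc using hMs
  have hgenM : ∀ m : Fin n →₀ ℕ, m.degree = d + (a i0 + 1) →
      ∃ (u : PD D n) (v : Fin n → PD D n),
        AddMonoidAlgebra.single m 1 = u * iota D f + ∑ i ∈ W, v i * M i := by
    intro m hm
    obtain ⟨u, v, huv⟩ := hgen' m hm
    refine ⟨u, v, ?_⟩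
    rw [huv]
    congr 1
    refine Finset.sum_congr rfl fun i hi => ?_
    rw [hW, Finset.mem_filter] at hi
    rw [hMne i hi.2]
  obtain ⟨b, s, hbs⟩ := exists_pow_sub M hM hMc (fun i k => c k i) hc W (iota D f) (a i0)
    (hpos i0) (iota_mem_hd hf) (iota_comm f) _ (by omega) hgenM i0 (by
      intro i
      rw [hW, Finset.mem_filter]
      simp)
  refine ⟨s, ?_⟩
  have h8 : Finset.univ.filter (fun k => i0 < k) = W := by
    rw [hW]
    ext k
    simp only [Finset.mem_filter, Finset.mem_univ, true_and]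
    exact ⟨fun h => h.ne', fun h => lt_of_le_of_ne (hi0 k) (Ne.symm h)⟩
  rw [h8, hbs]
  exact Submodule.smul_mem _ _ (Submodule.subset_span ⟨f, hfI, rfl⟩)

/-- **(A)-START**: the lex-plus-powers theorem from the commuting linear forms at the top of the
tower. -/
theorem lpp_of_tuple [Algebra ℂ D] (a : Fin n → ℕ) (ha : Monotone a) (hpos : ∀ i, 0 < a i)
    (i0 : Fin n) (hi0 : ∀ i, i0 ≤ i)
    (I : Ideal (MvPolynomial (Fin n) ℂ))
    (hI : ∀ g ∈ I, ∀ d : ℕ, MvPolynomial.homogeneousComponent d g ∈ I)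
    (w : Fin n → PD D n) (hw : ∀ i, i ≠ i0 → w i ∈ hd D n 1)
    (hcw : ∀ i k, i ≠ i0 → k ≠ i0 → w i * w k = w k * w i)
    (hp : ∀ i, i ≠ i0 → ∃ s : Fin n → PD D n,
      w i ^ a i - ∑ k ∈ Finset.univ.filter (fun k => i < k), s k * w k ∈
        exD D (Submodule.restrictScalars ℂ I))
    (f : MvPolynomial (Fin n) ℂ) (hf : f.IsHomogeneous (a i0)) (hfI : f ∈ I)
    (d : ℕ) (hgen : ∀ m : Fin n →₀ ℕ, m.degree = d →
      ∃ (u : PD D n) (v : Fin n → PD D n),
        AddMonoidAlgebra.single m 1 = u * iota D f +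
          ∑ i ∈ Finset.univ.filter (fun i => i ≠ i0), v i * w i) :
    ∃ U : ℕ → Set (Fin n →₀ ℕ), (∀ d, IsLexSegment n d (U d)) ∧
      (∀ d, Module.finrank ℂ (lppPiece a (U d) d) = Module.finrank ℂ (degreePiece I d)) ∧
      ∃ J : Ideal (MvPolynomial (Fin n) ℂ),
        (∀ g ∈ J, ∀ d : ℕ, MvPolynomial.homogeneousComponent d g ∈ J) ∧
        (∀ d, degreePiece J d = lppPiece a (U d) d) ∧
        ∀ p j : ℕ, gradedBetti I p j ≤ gradedBetti J p j := by
  classical
  obtain ⟨M, h1, h2, h3, h4, h5⟩ := exists_full a hpos i0 hi0 I w hw hcw f hf hfI d hgen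
  choose c hc using h3
  refine lpp_of_skew a ha hpos I hI M h1 h2 (fun i s => c s i) hc ?_
  intro i
  by_cases hi : i = i0
  · rw [hi]; exact h5
  · obtain ⟨s, hs⟩ := hp i hi
    refine ⟨s, ?_⟩
    rw [h4 i hi]
    convert hs using 2
    refine Finset.sum_congr rfl fun k hk => ?_
    rw [Finset.mem_filter] at hk
    rw [h4 k]
    rintro rfl
    exact absurd (hi0 i) (not_le.2 hk.2)

end Crest.Agent.R181.AS
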