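import Crest.Agent.R181.AS2
import Mathlib.RingTheory.KrullDimension.Regular
import Mathlib.RingTheory.KrullDimension.Polynomial
import Mathlib.RingTheory.GradedAlgebra.Radical
import Mathlib.RingTheory.MvPolynomial.Homogeneous

/-!
# A homogeneous regular sequence of length `n` in `n` variables is primary to the origin
-/

set_option autoImplicit false

namespace Crest.Agent.R181.AS

open Module Finset RingTheory.Sequence

theorem supportDim_add_length_le {R M : Type*} [CommRing R] [IsNoetherianRing R]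
    [AddCommGroup M] [Module R M] [Module.Finite R M] (rs : List R) (reg : IsWeaklyRegular M rs) :
    supportDim R (M ⧸ Ideal.ofList rs • (⊤ : Submodule R M)) + rs.length ≤ supportDim R M := by
  induction rs generalizing M with
  | nil =>
    rw [Ideal.ofList_nil, Submodule.bot_smul]
    simpa using (supportDim_eq_of_equiv (Submodule.quotEquivOfEqBot ⊥ rfl)).le
  | cons x rs' ih =>
    obtain ⟨h1, h2⟩ := (isWeaklyRegular_cons_iff M x rs').1 reg
    have h3 := ih h2
    have h4 := supportDim_quotSMulTop_succ_le_of_notMem_minimalPrimes (R := R) (M := M) (x := x)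
      (fun _ ↦ h1.notMem_of_mem_minimalPrimes)
    rw [supportDim_eq_of_equiv (Submodule.quotOfListConsSMulTopEquivQuotSMulTopInner M x _)]
    refine le_trans ?_ h4
    refine le_trans ?_ (add_le_add_left h3 1)
    simp [add_assoc]

variable {n : ℕ}

theorem le_zero_of_add_le (x : WithBot ℕ∞) (n : ℕ) (h : x + n ≤ n) : x ≤ 0 := by
  by_contra h1
  rw [not_le] at h1
  have h2 : (1 : WithBot ℕ∞) ≤ x := by
    have := (ENat.WithBot.add_one_le_iff (n := 0) (m := x)).2 (by simpa using h1)
    simpa using this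
  have h3 : (1 : WithBot ℕ∞) + n ≤ n := (add_le_add_left h2 _).trans h
  have h4 : ((1 + n : ℕ) : WithBot ℕ∞) ≤ (n : ℕ) := by push_cast; exact h3
  have h5 : 1 + n ≤ n := by exact_mod_cast h4
  omega

theorem primes_maximal {K : Type*} [Field K] (f : Fin n → MvPolynomial (Fin n) K)
    (hreg : IsRegular (MvPolynomial (Fin n) K) (List.ofFn f))
    (P : Ideal (MvPolynomial (Fin n) K)) (hP : P.IsPrime) (hf : ∀ i, f i ∈ P) : P.IsMaximal := by
  have h1 := supportDim_add_length_le (List.ofFn f) hreg.toIsWeaklyRegular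
  have h0 : Ideal.ofList (List.ofFn f) = Ideal.ofList (List.ofFn f) •
      (⊤ : Ideal (MvPolynomial (Fin n) K)) := by simp
  rw [← h0, supportDim_quotient_eq_ringKrullDim, supportDim_self_eq_ringKrullDim,
    MvPolynomial.ringKrullDim_of_isNoetherianRing, ringKrullDim_eq_zero_of_field, zero_add,
    List.length_ofFn, Nat.card_fin] at h1
  have h2 : Ring.KrullDimLE 0 (MvPolynomial (Fin n) K ⧸ Ideal.ofList (List.ofFn f)) := by
    rw [Ring.krullDimLE_iff]
    exact le_zero_of_add_le _ n (by simpa using h1)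
  have hle : Ideal.ofList (List.ofFn f) ≤ P := by
    rw [Ideal.ofList, Ideal.span_le]
    intro x hx
    obtain ⟨i, rfl⟩ := (List.mem_ofFn' f x).1 hx
    exact hf i
  have hker : RingHom.ker (Ideal.Quotient.mk (Ideal.ofList (List.ofFn f))) ≤ P := by
    rwa [Ideal.mk_ker]
  have h3 : (P.map (Ideal.Quotient.mk (Ideal.ofList (List.ofFn f)))).IsPrime :=
    Ideal.map_isPrime_of_surjective Ideal.Quotient.mk_surjective hker
  have h4 := h3.isMaximal'
  have h5 := Ideal.comap_isMaximal_of_surjective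
    (Ideal.Quotient.mk (Ideal.ofList (List.ofFn f))) Ideal.Quotient.mk_surjective
    (K := P.map (Ideal.Quotient.mk (Ideal.ofList (List.ofFn f))))
  rwa [Ideal.comap_map_of_surjective' _ Ideal.Quotient.mk_surjective, sup_eq_left.2 hker] at h5

attribute [local instance] MvPolynomial.gradedAlgebra

theorem X_mem_radical {K : Type*} [Field K] (f : Fin n → MvPolynomial (Fin n) K) (a : Fin n → ℕ)
    (hf : ∀ i, (f i).IsHomogeneous (a i))
    (hreg : IsRegular (MvPolynomial (Fin n) K) (List.ofFn f)) (t : Fin n) :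
    MvPolynomial.X t ∈ (Ideal.span (Set.range f)).radical := by
  classical
  have hhom : (Ideal.span (Set.range f)).IsHomogeneous
      (MvPolynomial.homogeneousSubmodule (Fin n) K) := by
    apply Ideal.homogeneous_span
    rintro _ ⟨i, rfl⟩
    exact ⟨a i, hf i⟩
  rw [hhom.radical_eq]
  rw [Submodule.mem_sInf]
  rintro P ⟨h1, h2, h3⟩
  have hmax := primes_maximal f hreg P h3 (fun i => h2 (Ideal.subset_span ⟨i, rfl⟩))
  by_contra hX
  obtain ⟨y, i, hi, h4⟩ := Ideal.IsMaximal.exists_inv hmax hX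
  have h5 := h1 0 hi
  have h6 : ((DirectSum.decompose (MvPolynomial.homogeneousSubmodule (Fin n) K)
      (y * MvPolynomial.X t) 0 : _) : MvPolynomial (Fin n) K) = 0 :=
    DirectSum.coe_decompose_mul_of_right_mem_of_not_le _
      (MvPolynomial.isHomogeneous_X K t) (by omega)
  have h7 : ((DirectSum.decompose (MvPolynomial.homogeneousSubmodule (Fin n) K)
      (1 : MvPolynomial (Fin n) K) 0 : _) : MvPolynomial (Fin n) K) = 1 :=
    DirectSum.decompose_of_mem_same _ (MvPolynomial.isHomogeneous_one (Fin n) K)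
  rw [← h4, DirectSum.decompose_add, DirectSum.add_apply, Submodule.coe_add, h6, zero_add,
    h4] at h7
  rw [h7] at h5
  exact hmax.ne_top ((Ideal.eq_top_iff_one _).2 h5)

theorem exists_X_pow_mem {K : Type*} [Field K] (f : Fin n → MvPolynomial (Fin n) K)
    (a : Fin n → ℕ) (hf : ∀ i, (f i).IsHomogeneous (a i))
    (hreg : IsRegular (MvPolynomial (Fin n) K) (List.ofFn f)) :
    ∃ N : ℕ, ∀ t : Fin n, (MvPolynomial.X t : MvPolynomial (Fin n) K) ^ N ∈
      Ideal.span (Set.range f) := by
  have h1 : ∀ t : Fin n, ∃ N : ℕ, (MvPolynomial.X t : MvPolynomial (Fin n) K) ^ N ∈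
      Ideal.span (Set.range f) := fun t => X_mem_radical f a hf hreg t
  choose N hN using h1
  exact ⟨∑ t, N t, fun t => Ideal.pow_mem_of_pow_mem _ (hN t)
    (Finset.single_le_sum (f := N) (fun _ _ => Nat.zero_le _) (Finset.mem_univ t))⟩

theorem exists_monomial_mem {K : Type*} [Field K] (f : Fin n → MvPolynomial (Fin n) K)
    (a : Fin n → ℕ) (hf : ∀ i, (f i).IsHomogeneous (a i))
    (hreg : IsRegular (MvPolynomial (Fin n) K) (List.ofFn f)) :
    ∃ N : ℕ, ∀ m : Fin n →₀ ℕ, N ≤ m.degree →
      MvPolynomial.monomial m (1 : K) ∈ Ideal.span (Set.range f) := by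
  obtain ⟨N, hN⟩ := exists_X_pow_mem f a hf hreg
  refine ⟨n * N + 1, fun m hm => ?_⟩
  obtain ⟨t, ht⟩ : ∃ t, N ≤ m t := by
    by_contra h
    push Not at h
    have h1 : m.degree ≤ n * N := by
      rw [Finsupp.degree_eq_sum]
      calc ∑ i, m i ≤ ∑ _i : Fin n, N := Finset.sum_le_sum fun i _ => (h i).le
        _ = n * N := by simp
    omega
  have h2 : MvPolynomial.monomial m (1 : K) =
      MvPolynomial.monomial (m - Finsupp.single t N) 1 * MvPolynomial.X t ^ N := by
    rw [MvPolynomial.X_pow_eq_monomial, MvPolynomial.monomial_mul, one_mul, tsub_add_cancel_of_le]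
    rw [Finsupp.single_le_iff]
    exact ht
  rw [h2]
  exact Ideal.mul_mem_left _ _ (hN t)

open Crest.Agent.R181.AE
open Crest.AlgebraR.LPP
open Crest Crest.AlgebraR

variable {D : Type*} [DivisionRing D]

/-- The left ideal generated by `f` and the `w i`, `i ∈ B`. -/
def LI (f : PD D n) (B : Finset (Fin n)) (w : Fin n → PD D n) : AddSubgroup (PD D n) where
  carrier := {g | ∃ (u : PD D n) (v : Fin n → PD D n), g = u * f + ∑ i ∈ B, v i * w i}
  add_mem' := by
    rintro _ _ ⟨u, v, rfl⟩ ⟨u', v', rfl⟩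
    refine ⟨u + u', fun i => v i + v' i, ?_⟩
    simp only [add_mul, Finset.sum_add_distrib]
    abel
  zero_mem' := ⟨0, 0, by simp⟩
  neg_mem' := by
    rintro _ ⟨u, v, rfl⟩
    refine ⟨-u, fun i => -v i, ?_⟩
    simp only [neg_mul, Finset.sum_neg_distrib]
    abel

theorem mem_LI {f : PD D n} {B : Finset (Fin n)} {w : Fin n → PD D n} {g : PD D n} :
    g ∈ LI f B w ↔ ∃ (u : PD D n) (v : Fin n → PD D n), g = u * f + ∑ i ∈ B, v i * w i := Iff.rfl

theorem mul_mem_LI {f : PD D n} {B : Finset (Fin n)} {w : Fin n → PD D n} (h : PD D n)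
    {g : PD D n} (hg : g ∈ LI f B w) : h * g ∈ LI f B w := by
  obtain ⟨u, v, rfl⟩ := hg
  refine ⟨h * u, fun i => h * v i, ?_⟩
  rw [mul_add, mul_assoc, Finset.mul_sum]
  simp only [mul_assoc]

theorem smul_mem_LI {f : PD D n} {B : Finset (Fin n)} {w : Fin n → PD D n} (c : D)
    {g : PD D n} (hg : g ∈ LI f B w) : c • g ∈ LI f B w := by
  rw [← Cs_mul]
  exact mul_mem_LI _ hg

theorem self_mem_LI (f : PD D n) (B : Finset (Fin n)) (w : Fin n → PD D n) : f ∈ LI f B w :=
  ⟨1, 0, by simp⟩

theorem w_mem_LI (f : PD D n) {B : Finset (Fin n)} (w : Fin n → PD D n) {i : Fin n} (hi : i ∈ B) :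
    w i ∈ LI f B w := by
  classical
  refine ⟨0, fun j => if j = i then 1 else 0, ?_⟩
  simp [hi]

/-- **The last step of the tower**: the relations `w_i^{a_i} = q_i + Σ_{l>i} θ_il w_l^{a_i}` with
`q_i = c_i f_i + Σ_{j<i,l} c_ijl x_l^{a_i-a_j} f_j` imply the lex-plus-powers theorem. -/
theorem lpp_of_relations [Algebra ℂ D] (a : Fin n → ℕ) (ha : Monotone a) (hpos : ∀ i, 0 < a i)
    (i0 : Fin n) (hi0 : ∀ i, i0 ≤ i)
    (I : Ideal (MvPolynomial (Fin n) ℂ))
    (hI : ∀ g ∈ I, ∀ d : ℕ, MvPolynomial.homogeneousComponent d g ∈ I)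
    (f : Fin n → MvPolynomial (Fin n) ℂ) (hf : ∀ i, (f i).IsHomogeneous (a i))
    (hfI : ∀ i, f i ∈ I)
    (hreg : RingTheory.Sequence.IsRegular (MvPolynomial (Fin n) ℂ) (List.ofFn f))
    (w : Fin n → PD D n) (hw : ∀ i, i ≠ i0 → w i ∈ hd D n 1)
    (hcw : ∀ i k, i ≠ i0 → k ≠ i0 → w i * w k = w k * w i)
    (c0 : Fin n → D) (hc0 : ∀ i, i ≠ i0 → c0 i ≠ 0) (c1 : Fin n → Fin n → Fin n → D)
    (th : Fin n → Fin n → D)
    (hrel : ∀ i, i ≠ i0 → w i ^ a i = c0 i • iota D (f i) +
      (∑ j ∈ Finset.univ.filter (fun j => j < i), ∑ l,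
        c1 i j l • (iota D (f j) * Xs D l ^ (a i - a j))) +
      ∑ l ∈ Finset.univ.filter (fun l => i < l), th i l • w l ^ a i) :
    ∃ U : ℕ → Set (Fin n →₀ ℕ), (∀ d, IsLexSegment n d (U d)) ∧
      (∀ d, Module.finrank ℂ (lppPiece a (U d) d) = Module.finrank ℂ (degreePiece I d)) ∧
      ∃ J : Ideal (MvPolynomial (Fin n) ℂ),
        (∀ g ∈ J, ∀ d : ℕ, MvPolynomial.homogeneousComponent d g ∈ J) ∧
        (∀ d, degreePiece J d = lppPiece a (U d) d) ∧
        ∀ p j : ℕ, gradedBetti I p j ≤ gradedBetti J p j := by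
  classical
  have hpow : ∀ (i l : Fin n), w l ^ a i = w l ^ (a i - 1) * w l := fun i l => by
    rw [← pow_succ, Nat.sub_add_cancel (hpos i)]
  obtain ⟨N, hN⟩ := exists_monomial_mem f a hf hreg
  set B : Finset (Fin n) := Finset.univ.filter (fun i => i ≠ i0) with hB
  have hBmem : ∀ i, i ≠ i0 → i ∈ B := fun i hi => by
    rw [hB, Finset.mem_filter]; exact ⟨Finset.mem_univ _, hi⟩
  -- all the `f j` are in the left ideal
  have hfLI : ∀ (k : ℕ) (j : Fin n), (j : ℕ) < k → iota D (f j) ∈ LI (iota D (f i0)) B w := by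
    intro k
    induction k with
    | zero => intro j hj; omega
    | succ k ih =>
      intro j hj
      by_cases hji : j = i0
      · rw [hji]; exact self_mem_LI _ _ _
      · have h1 := hrel j hji
        have h2 : c0 j • iota D (f j) ∈ LI (iota D (f i0)) B w := by
          have h3 : c0 j • iota D (f j) = w j ^ a j -
              (∑ j' ∈ Finset.univ.filter (fun j' => j' < j), ∑ l,
                c1 j j' l • (iota D (f j') * Xs D l ^ (a j - a j'))) -
              ∑ l ∈ Finset.univ.filter (fun l => j < l), th j l • w l ^ a j := by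
            rw [h1]; abel
          rw [h3]
          refine AddSubgroup.sub_mem _ (AddSubgroup.sub_mem _ ?_ ?_) ?_
          · rw [hpow]
            exact mul_mem_LI _ (w_mem_LI _ w (hBmem j hji))
          · refine AddSubgroup.sum_mem _ fun j' hj' => AddSubgroup.sum_mem _ fun l _ => ?_
            rw [Finset.mem_filter] at hj'
            refine smul_mem_LI _ ?_
            rw [iota_comm]
            refine mul_mem_LI _ (ih j' ?_)
            have := hj'.2
            rw [Fin.lt_def] at this
            omega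
          · refine AddSubgroup.sum_mem _ fun l hl => smul_mem_LI _ ?_
            rw [Finset.mem_filter] at hl
            rw [hpow]
            refine mul_mem_LI _ (w_mem_LI _ w (hBmem l ?_))
            rintro rfl
            exact absurd (hi0 j) (not_le.2 hl.2)
        have h4 := smul_mem_LI (c0 j)⁻¹ h2
        rwa [smul_smul, inv_mul_cancel₀ (hc0 j hji), one_smul] at h4
  have hLI : ∀ g ∈ Ideal.span (Set.range f), iota D g ∈ LI (iota D (f i0)) B w := by
    intro g hg
    induction hg using Submodule.span_induction with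
    | mem x hx =>
      obtain ⟨j, rfl⟩ := hx
      exact hfLI n j j.2
    | zero => rw [map_zero]; exact AddSubgroup.zero_mem _
    | add x y _ _ hx hy => rw [map_add]; exact AddSubgroup.add_mem _ hx hy
    | smul a x _ hx => rw [smul_eq_mul, map_mul]; exact mul_mem_LI _ hx
  refine lpp_of_tuple a ha hpos i0 hi0 I hI w hw hcw ?_ (f i0) (hf i0) (hfI i0) N ?_
  · intro i hi
    refine ⟨fun l => th i l • w l ^ (a i - 1), ?_⟩
    have h1 : w i ^ a i - ∑ k ∈ Finset.univ.filter (fun k => i < k),
        (th i k • w k ^ (a i - 1)) * w k = c0 i • iota D (f i) +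
      (∑ j ∈ Finset.univ.filter (fun j => j < i), ∑ l,
        c1 i j l • (iota D (f j) * Xs D l ^ (a i - a j))) := by
      rw [hrel i hi]
      have h2 : ∑ k ∈ Finset.univ.filter (fun k => i < k), (th i k • w k ^ (a i - 1)) * w k =
          ∑ l ∈ Finset.univ.filter (fun l => i < l), th i l • w l ^ a i :=
        Finset.sum_congr rfl fun l _ => by rw [AE.smul_mul', ← hpow]
      rw [h2]
      abel
    rw [h1]
    have h3 : ∀ j, iota D (f j) ∈ exD D (Submodule.restrictScalars ℂ I) := fun j =>
      Submodule.subset_span ⟨f j, hfI j, rfl⟩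
    refine Submodule.add_mem _ (Submodule.smul_mem _ _ (h3 i))
      (Submodule.sum_mem _ fun j _ => Submodule.sum_mem _ fun l _ => Submodule.smul_mem _ _ ?_)
    rw [Xs_pow]
    exact exD_mul I (h3 j) _
  · intro m hm
    have h1 := hLI _ (hN m hm.ge)
    have h2 : iota D (MvPolynomial.monomial m (1 : ℂ)) = AddMonoidAlgebra.single m 1 := by
      ext m'
      rw [coeff_iota, MvPolynomial.coeff_monomial, AddMonoidAlgebra.coeff_single,
        Finsupp.single_apply]
      split_ifs <;> simp
    rw [h2] at h1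
    exact h1

end Crest.Agent.R181.AS
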