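import Mathlib

/-!
R181 (helper396): commuting tuples of linear forms with relations, and the ring `U` generated by a
ring `D` with a tuple, a central commutative ring `L` and new coefficients `η`.

* `PA A σ = AddMonoidAlgebra A (σ →₀ ℕ)`: polynomials in central variables over a ring `A`.
* `lf w`: the linear form with coefficients `w : σ → A`.
* `IsTuple a th τ Q w`: the linear forms `lf (w i)` commute and satisfy
  `lf (w i) ^ a i = Q i + ∑ l, th i l • lf (w l) ^ a i`.
-/

set_option autoImplicit false
set_option linter.unusedSectionVars false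

namespace Crest.Agent.R181.UR

open AddMonoidAlgebra

/-- Polynomials in the central variables `σ` over the ring `A`. -/
abbrev PA (A σ : Type*) [Semiring A] := AddMonoidAlgebra A (σ →₀ ℕ)

section Basic

variable {A B C : Type*} [Ring A] [Ring B] [Ring C] {σ : Type*}

/-- Change of coefficients. -/
noncomputable def mp (σ : Type*) (f : A →+* B) : PA A σ →+* PA B σ := mapRingHom (σ →₀ ℕ) f

@[simp] theorem mp_coeff (f : A →+* B) (x : PA A σ) (α : σ →₀ ℕ) :
    (mp σ f x).coeff α = f (x.coeff α) := coeff_mapRingHom f x α

@[simp] theorem mp_single (f : A →+* B) (α : σ →₀ ℕ) (b : A) :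
    mp σ f (single α b) = single α (f b) := mapRingHom_single f α b

theorem mp_comp (f : A →+* B) (g : B →+* C) (x : PA A σ) :
    mp σ g (mp σ f x) = mp σ (g.comp f) x := by
  ext α; simp

theorem mp_injective (f : A →+* B) (hf : Function.Injective f) :
    Function.Injective (mp σ f) := by
  intro x y h
  ext α
  apply hf
  rw [← mp_coeff, h, mp_coeff]

/-- Constants. -/
noncomputable def cst (σ : Type*) : A →+* PA A σ := singleZeroRingHom

theorem cst_apply (a : A) : cst σ a = single 0 a := rfl

@[simp] theorem mp_cst (f : A →+* B) (a : A) : mp σ f (cst σ a) = cst σ (f a) := by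
  simp [cst_apply]

/-- A variable. -/
noncomputable def var (A : Type*) [Ring A] {σ : Type*} (v : σ) : PA A σ :=
  single (Finsupp.single v 1) 1

@[simp] theorem mp_var (f : A →+* B) (v : σ) : mp σ f (var A v) = var B v := by
  simp [var]

theorem var_comm (v : σ) (x : PA A σ) : Commute (var A v) x := by
  show var A v * x = x * var A v
  induction x using AddMonoidAlgebra.induction_linear with
  | zero => simp
  | add x y hx hy => rw [mul_add, add_mul, hx, hy]
  | single α a => simp [var, single_mul_single, add_comm]

variable [Fintype σ]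

/-- The linear form with the coefficients `w`. -/
noncomputable def lf (w : σ → A) : PA A σ := ∑ v, single (Finsupp.single v 1) (w v)

@[simp] theorem mp_lf (f : A →+* B) (w : σ → A) : mp σ f (lf w) = lf (fun v => f (w v)) := by
  simp [lf, map_sum]

theorem lf_eq (w : σ → A) : lf w = ∑ v, cst σ (w v) * var A v := by
  simp [lf, cst_apply, var, single_mul_single]

theorem lf_add (w w' : σ → A) : lf (w + w') = lf w + lf w' := by
  simp [lf, Finset.sum_add_distrib]

/-- The tuple property. -/
structure IsTuple {F L I : Type*} [CommRing F] [CommRing L] [Algebra F L] [Fintype I]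
    (a : I → ℕ) (th : I → I → F) (Q : I → MvPolynomial σ L)
    (τ : L →+* A) (w : I → σ → A) : Prop where
  comm : ∀ i j, lf (w i) * lf (w j) = lf (w j) * lf (w i)
  rel : ∀ i, lf (w i) ^ a i =
    mp σ τ (Q i) + ∑ l, cst σ (τ (algebraMap F L (th i l))) * lf (w l) ^ a i

variable {F L L' I : Type*} [CommRing F] [CommRing L] [Algebra F L] [CommRing L'] [Algebra F L']
  [Fintype I] {a : I → ℕ} {th : I → I → F} {Q : I → MvPolynomial σ L}

theorem IsTuple.map {τ : L →+* A} {w : I → σ → A} (h : IsTuple a th Q τ w) (f : A →+* B) :
    IsTuple a th Q (f.comp τ) (fun i v => f (w i v)) where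
  comm i j := by
    have := congrArg (mp σ f) (h.comm i j)
    simpa using this
  rel i := by
    have := congrArg (mp σ f) (h.rel i)
    simpa [mp_comp] using this

/-- coefficientwise form -/
theorem isTuple_iff {τ : L →+* A} {w : I → σ → A} : IsTuple a th Q τ w ↔
    (∀ i j α, (lf (w i) * lf (w j)).coeff α = (lf (w j) * lf (w i)).coeff α) ∧
    ∀ i α, (lf (w i) ^ a i).coeff α =
      (mp σ τ (Q i) + ∑ l, cst σ (τ (algebraMap F L (th i l))) * lf (w l) ^ a i).coeff α := by
  constructor
  · intro h
    exact ⟨fun i j α => by rw [h.comm], fun i α => by rw [h.rel]⟩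
  · rintro ⟨h1, h2⟩
    exact ⟨fun i j => by ext α; exact h1 i j α, fun i => by ext α; exact h2 i α⟩

theorem IsTuple.of_injective {τ : L →+* A} {w : I → σ → A} (f : A →+* B)
    (hf : Function.Injective f) (h : IsTuple a th Q (f.comp τ) (fun i v => f (w i v))) :
    IsTuple a th Q τ w where
  comm i j := by
    apply mp_injective f hf
    simpa using h.comm i j
  rel i := by
    apply mp_injective f hf
    simpa [mp_comp] using h.rel i

end Basic

end Crest.Agent.R181.UR
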