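import Crest.Agent.R181.AS3
import Crest.Agent.R181.UR396a

/-!
# The concrete parameters of the tower, and the final theorem from a tuple over a skew field
-/

set_option autoImplicit false

namespace Crest.Agent.R181.AS

open Module Finset
open Crest.Agent.R181.AE
open Crest.AlgebraR.LPP
open Crest Crest.AlgebraR

variable {n : ℕ}

/-- The parameters: `c_i`, `c_ijv`, `θ_il`. -/
abbrev Par (n : ℕ) := Fin n ⊕ (Fin n × Fin n × Fin n) ⊕ (Fin n × Fin n)

/-- The parameter field `ℂ(c, θ)`. -/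
abbrev Fld (n : ℕ) : Type := FractionRing (MvPolynomial (Par n) ℂ)

/-- A parameter. -/
noncomputable def par (p : Par n) : Fld n :=
  algebraMap (MvPolynomial (Par n) ℂ) (Fld n) (MvPolynomial.X p)

theorem par_ne_zero (p : Par n) : par p ≠ 0 := by
  unfold par
  rw [Ne, map_eq_zero_iff _ (IsFractionRing.injective (MvPolynomial (Par n) ℂ) (Fld n))]
  exact MvPolynomial.X_ne_zero p

/-- The parameter `c_i`. -/
noncomputable def cF (i : Fin n) : Fld n := par (Sum.inl i)

/-- The parameter `c_ijv`. -/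
noncomputable def ccF (i j v : Fin n) : Fld n := par (Sum.inr (Sum.inl (i, j, v)))

/-- The parameter `θ_il` (`0` unless `i < l`). -/
noncomputable def thF (i l : Fin n) : Fld n := if i < l then par (Sum.inr (Sum.inr (i, l))) else 0

theorem cF_ne_zero (i : Fin n) : cF i ≠ 0 := par_ne_zero _

/-- The form `f i` with coefficients in the parameter field. -/
noncomputable def fF (f : Fin n → MvPolynomial (Fin n) ℂ) (i : Fin n) :
    MvPolynomial (Fin n) (Fld n) := MvPolynomial.map (algebraMap ℂ (Fld n)) (f i)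

/-- The forms `q_i = c_i f_i + ∑_{j<i} ∑_v c_ijv x_v^(a_i-a_j) f_j`. -/
noncomputable def QF (a : Fin n → ℕ) (f : Fin n → MvPolynomial (Fin n) ℂ) (i : Fin n) :
    MvPolynomial (Fin n) (Fld n) :=
  MvPolynomial.C (cF i) * fF f i + ∑ j ∈ Finset.univ.filter (fun j => j < i), ∑ v,
    MvPolynomial.C (ccF i j v) * (fF f j * MvPolynomial.X v ^ (a i - a j))

theorem fF_isHomogeneous {a : Fin n → ℕ} {f : Fin n → MvPolynomial (Fin n) ℂ}
    (hf : ∀ i, (f i).IsHomogeneous (a i)) (i : Fin n) : (fF f i).IsHomogeneous (a i) :=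
  (hf i).map _

theorem QF_isHomogeneous {a : Fin n → ℕ} (ha : Monotone a) {f : Fin n → MvPolynomial (Fin n) ℂ}
    (hf : ∀ i, (f i).IsHomogeneous (a i)) (i : Fin n) : (QF a f i).IsHomogeneous (a i) := by
  unfold QF
  refine MvPolynomial.IsHomogeneous.add ?_ (MvPolynomial.IsHomogeneous.sum _ _ _ fun j hj =>
    MvPolynomial.IsHomogeneous.sum _ _ _ fun v _ => ?_)
  · have := (MvPolynomial.isHomogeneous_C (Fin n) (cF i)).mul (fF_isHomogeneous hf i)
    rwa [zero_add] at this
  · have h1 := (MvPolynomial.isHomogeneous_C (Fin n) (ccF i j v)).mul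
      ((fF_isHomogeneous hf j).mul (MvPolynomial.isHomogeneous_X_pow (R := Fld n) v (a i - a j)))
    have h2 : 0 + (a j + (a i - a j)) = a i := by
      have := ha (Finset.mem_filter.1 hj).2.le
      omega
    rwa [h2] at h1

/-- The ideal of the `q_i` contains the forms `f_i`. -/
theorem fF_mem_span_QF (a : Fin n → ℕ) (f : Fin n → MvPolynomial (Fin n) ℂ) (i : Fin n) :
    fF f i ∈ Ideal.span (Set.range (QF a f)) := by
  suffices h : ∀ (k : ℕ) (j : Fin n), (j : ℕ) < k → fF f j ∈ Ideal.span (Set.range (QF a f)) from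
    h n i i.2
  intro k
  induction k with
  | zero => intro j hj; omega
  | succ k ih =>
    intro i hi
    have h1 : MvPolynomial.C (cF i) * fF f i ∈ Ideal.span (Set.range (QF a f)) := by
      have h2 : MvPolynomial.C (cF i) * fF f i = QF a f i -
          ∑ j ∈ Finset.univ.filter (fun j => j < i), ∑ v,
            MvPolynomial.C (ccF i j v) * (fF f j * MvPolynomial.X v ^ (a i - a j)) := by
        unfold QF; ring
      rw [h2]
      refine Ideal.sub_mem _ (Ideal.subset_span ⟨i, rfl⟩) (Ideal.sum_mem _ fun j hj =>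
        Ideal.sum_mem _ fun v _ => Ideal.mul_mem_left _ _ (Ideal.mul_mem_right _ _ (ih j ?_)))
      have := (Finset.mem_filter.1 hj).2
      rw [Fin.lt_def] at this
      omega
    have h3 := Ideal.mul_mem_left _ (MvPolynomial.C (cF i)⁻¹) h1
    rwa [← mul_assoc, ← map_mul, inv_mul_cancel₀ (cF_ne_zero i), map_one, one_mul] at h3

/-- A power of every variable is in the ideal generated by the `f_i`. -/
theorem exists_X_pow_mem_fF (a : Fin n → ℕ) (f : Fin n → MvPolynomial (Fin n) ℂ)
    (hf : ∀ i, (f i).IsHomogeneous (a i))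
    (hreg : RingTheory.Sequence.IsRegular (MvPolynomial (Fin n) ℂ) (List.ofFn f)) :
    ∃ N : ℕ, ∀ t : Fin n, (MvPolynomial.X t : MvPolynomial (Fin n) (Fld n)) ^ N ∈
      Ideal.span (Set.range (fF f)) := by
  obtain ⟨N, hN⟩ := exists_X_pow_mem f a hf hreg
  refine ⟨N, fun t => ?_⟩
  have h1 := Ideal.mem_map_of_mem (MvPolynomial.map (algebraMap ℂ (Fld n))) (hN t)
  rw [Ideal.map_span, map_pow, MvPolynomial.map_X, ← Set.range_comp] at h1
  exact h1

/-- A power of every variable is in the ideal generated by the `q_i`. -/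
theorem exists_X_pow_mem_QF (a : Fin n → ℕ) (f : Fin n → MvPolynomial (Fin n) ℂ)
    (hf : ∀ i, (f i).IsHomogeneous (a i))
    (hreg : RingTheory.Sequence.IsRegular (MvPolynomial (Fin n) ℂ) (List.ofFn f)) :
    ∃ N : ℕ, ∀ t : Fin n, (MvPolynomial.X t : MvPolynomial (Fin n) (Fld n)) ^ N ∈
      Ideal.span (Set.range (QF a f)) := by
  obtain ⟨N, hN⟩ := exists_X_pow_mem_fF a f hf hreg
  refine ⟨N, fun t => ?_⟩
  have h1 : Ideal.span (Set.range (fF f)) ≤ Ideal.span (Set.range (QF a f)) := by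
    rw [Ideal.span_le]
    rintro _ ⟨i, rfl⟩
    exact fF_mem_span_QF a f i
  exact h1 (hN t)

theorem lf_mem_hd {D : Type*} [DivisionRing D] (w : Fin n → D) : UR.lf w ∈ hd D n 1 := by
  unfold UR.lf
  exact Submodule.sum_mem _ fun v _ => single_mem_hd (Finsupp.degree_single _ _) _

/-- **Final theorem**: a tuple over a skew field `D ⊇ ℂ(c, θ)` gives the conclusion of S0271. -/
theorem result_of_tuple (hn : 1 ≤ n) (a : Fin n → ℕ) (ha : Monotone a) (ha2 : ∀ i, 2 ≤ a i)
    (I : Ideal (MvPolynomial (Fin n) ℂ))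
    (hI : ∀ g ∈ I, ∀ d : ℕ, MvPolynomial.homogeneousComponent d g ∈ I)
    (f : Fin n → MvPolynomial (Fin n) ℂ) (hf : ∀ i, (f i).IsHomogeneous (a i))
    (hfI : ∀ i, f i ∈ I)
    (hreg : RingTheory.Sequence.IsRegular (MvPolynomial (Fin n) ℂ) (List.ofFn f))
    {D : Type*} [DivisionRing D] [Algebra (Fld n) D] (w : Fin n → Fin n → D)
    (hw : UR.IsTuple a thF (QF a f) (algebraMap (Fld n) D) w) :
    ∃ U : ℕ → Set (Fin n →₀ ℕ), (∀ d, IsLexSegment n d (U d)) ∧
      (∀ d, Module.finrank ℂ (lppPiece a (U d) d) = Module.finrank ℂ (degreePiece I d)) ∧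
      ∃ J : Ideal (MvPolynomial (Fin n) ℂ),
        (∀ g ∈ J, ∀ d : ℕ, MvPolynomial.homogeneousComponent d g ∈ J) ∧
        (∀ d, degreePiece J d = lppPiece a (U d) d) ∧
        ∀ p j : ℕ, gradedBetti I p j ≤ gradedBetti J p j := by
  classical
  letI : Algebra ℂ D := Algebra.compHom D (algebraMap ℂ (Fld n))
  have halg : ∀ x : ℂ, algebraMap ℂ D x = algebraMap (Fld n) D (algebraMap ℂ (Fld n) x) :=
    fun x => rfl
  set τ : Fld n →+* D := algebraMap (Fld n) D with hτ
  have hmpf : ∀ j, UR.mp (Fin n) τ (fF f j) = iota D (f j) := by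
    intro j
    ext m
    rw [UR.mp_coeff, coeff_iota, halg]
    exact congrArg τ (MvPolynomial.coeff_map _ _ _)
  have hmpC : ∀ (c : Fld n) (g : MvPolynomial (Fin n) (Fld n)),
      UR.mp (Fin n) τ (MvPolynomial.C c * g) = τ c • UR.mp (Fin n) τ g := by
    intro c g
    ext m
    rw [UR.mp_coeff, AddMonoidAlgebra.coeff_smul, Finsupp.smul_apply, UR.mp_coeff, smul_eq_mul,
      ← map_mul]
    exact congrArg τ (MvPolynomial.coeff_C_mul _ _ _)
  have hmpX : ∀ v : Fin n, UR.mp (Fin n) τ (MvPolynomial.X v : MvPolynomial (Fin n) (Fld n)) =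
      Xs D v := by
    intro v
    have : (MvPolynomial.X v : MvPolynomial (Fin n) (Fld n)) = UR.var (Fld n) v := rfl
    rw [this, UR.mp_var]
    rfl
  refine AS.lpp_of_relations a ha (fun i => by have := ha2 i; omega) ⟨0, hn⟩
    (fun i => Fin.mk_le_of_le_val (Nat.zero_le _)) I hI f hf hfI hreg (fun i => UR.lf (w i))
    (fun i _ => lf_mem_hd _) (fun i k _ _ => hw.comm i k) (fun i => τ (cF i))
    (fun i _ => by
      rw [Ne, map_eq_zero]
      exact cF_ne_zero i)
    (fun i j v => τ (ccF i j v)) (fun i l => τ (thF i l)) ?_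
  intro i _
  rw [hw.rel i]
  congr 1
  · unfold QF
    rw [map_add, hmpC, hmpf, map_sum]
    congr 1
    refine Finset.sum_congr rfl fun j _ => ?_
    rw [map_sum]
    refine Finset.sum_congr rfl fun v _ => ?_
    rw [hmpC, map_mul, hmpf, map_pow, hmpX]
  · rw [Finset.sum_filter]
    refine Finset.sum_congr rfl fun l _ => ?_
    split_ifs with h
    · rw [Algebra.algebraMap_self_apply, UR.cst_apply]
      exact Cs_mul _ _
    · have : thF i l = 0 := if_neg h
      rw [this, map_zero, map_zero, map_zero, zero_mul]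

end Crest.Agent.R181.AS
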