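import Crest.Agent.R181.AS4

/-!
# The final theorem for a tuple indexed by the operators `2, …, n`
-/

set_option autoImplicit false

namespace Crest.Agent.R181.AS

open Module Finset
open Crest.Agent.R181.AE
open Crest.AlgebraR.LPP
open Crest Crest.AlgebraR

/-- The last step of the tower, general right hand sides. -/
theorem lpp_of_relations' {n : ℕ} {D : Type*} [DivisionRing D] [Algebra ℂ D] (a : Fin n → ℕ)
    (ha : Monotone a) (hpos : ∀ i, 0 < a i)
    (i0 : Fin n) (hi0 : ∀ i, i0 ≤ i)
    (I : Ideal (MvPolynomial (Fin n) ℂ))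
    (hI : ∀ g ∈ I, ∀ d : ℕ, MvPolynomial.homogeneousComponent d g ∈ I)
    (f : Fin n → MvPolynomial (Fin n) ℂ) (hf : ∀ i, (f i).IsHomogeneous (a i))
    (hfI : ∀ i, f i ∈ I)
    (hreg : RingTheory.Sequence.IsRegular (MvPolynomial (Fin n) ℂ) (List.ofFn f))
    (w : Fin n → PD D n) (hw : ∀ i, i ≠ i0 → w i ∈ hd D n 1)
    (hcw : ∀ i k, i ≠ i0 → k ≠ i0 → w i * w k = w k * w i)
    (hrel : ∀ i, i ≠ i0 → ∃ (c0 : D) (g : Fin n → PD D n) (th : Fin n → D), c0 ≠ 0 ∧
      w i ^ a i = c0 • iota D (f i) +
      (∑ j ∈ Finset.univ.filter (fun j => j < i), g j * iota D (f j)) +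
      ∑ l ∈ Finset.univ.filter (fun l => i < l), th l • w l ^ a i) :
    ∃ U : ℕ → Set (Fin n →₀ ℕ), (∀ d, IsLexSegment n d (U d)) ∧
      (∀ d, Module.finrank ℂ (lppPiece a (U d) d) = Module.finrank ℂ (degreePiece I d)) ∧
      ∃ J : Ideal (MvPolynomial (Fin n) ℂ),
        (∀ g ∈ J, ∀ d : ℕ, MvPolynomial.homogeneousComponent d g ∈ J) ∧
        (∀ d, degreePiece J d = lppPiece a (U d) d) ∧
        ∀ p j : ℕ, gradedBetti I p j ≤ gradedBetti J p j := by
  classical
  have hpow : ∀ (i l : Fin n), w l ^ a i = w l ^ (a i - 1) * w l := fun i l => by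
    rw [← pow_succ, Nat.sub_add_cancel (hpos i)]
  obtain ⟨N, hN⟩ := exists_monomial_mem f a hf hreg
  set B : Finset (Fin n) := Finset.univ.filter (fun i => i ≠ i0) with hB
  have hBmem : ∀ i, i ≠ i0 → i ∈ B := fun i hi => by
    rw [hB, Finset.mem_filter]; exact ⟨Finset.mem_univ _, hi⟩
  -- all the `f j` are in the left ideal
  have hfLI : ∀ (k : ℕ) (j : Fin n), (j : ℕ) < k → iota D (f j) ∈ LI (iota D (f i0)) B w := by
    intro k
    induction k with
    | zero => intro j hj; omega
    | succ k ih =>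
      intro j hj
      by_cases hji : j = i0
      · rw [hji]; exact self_mem_LI _ _ _
      · obtain ⟨c0, g, th, hc0, h1⟩ := hrel j hji
        have h2 : c0 • iota D (f j) ∈ LI (iota D (f i0)) B w := by
          have h3 : c0 • iota D (f j) = w j ^ a j -
              (∑ j' ∈ Finset.univ.filter (fun j' => j' < j), g j' * iota D (f j')) -
              ∑ l ∈ Finset.univ.filter (fun l => j < l), th l • w l ^ a j := by
            rw [h1]; abel
          rw [h3]
          refine AddSubgroup.sub_mem _ (AddSubgroup.sub_mem _ ?_ ?_) ?_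
          · rw [hpow]
            exact mul_mem_LI _ (w_mem_LI _ w (hBmem j hji))
          · refine AddSubgroup.sum_mem _ fun j' hj' => ?_
            rw [Finset.mem_filter] at hj'
            refine mul_mem_LI _ (ih j' ?_)
            have := hj'.2
            rw [Fin.lt_def] at this
            omega
          · refine AddSubgroup.sum_mem _ fun l hl => smul_mem_LI _ ?_
            rw [Finset.mem_filter] at hl
            rw [hpow]
            refine mul_mem_LI _ (w_mem_LI _ w (hBmem l ?_))
            rintro rfl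
            exact absurd (hi0 j) (not_le.2 hl.2)
        have h4 := smul_mem_LI c0⁻¹ h2
        rwa [smul_smul, inv_mul_cancel₀ hc0, one_smul] at h4
  have hLI : ∀ g ∈ Ideal.span (Set.range f), iota D g ∈ LI (iota D (f i0)) B w := by
    intro g hg
    induction hg using Submodule.span_induction with
    | mem x hx =>
      obtain ⟨j, rfl⟩ := hx
      exact hfLI n j j.2
    | zero => rw [map_zero]; exact AddSubgroup.zero_mem _
    | add x y _ _ hx hy => rw [map_add]; exact AddSubgroup.add_mem _ hx hy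
    | smul a x _ hx => rw [smul_eq_mul, map_mul]; exact mul_mem_LI _ hx
  refine lpp_of_tuple a ha hpos i0 hi0 I hI w hw hcw ?_ (f i0) (hf i0) (hfI i0) N ?_
  · intro i hi
    obtain ⟨c0, g, th, hc0, hr⟩ := hrel i hi
    refine ⟨fun l => th l • w l ^ (a i - 1), ?_⟩
    have h1 : w i ^ a i - ∑ k ∈ Finset.univ.filter (fun k => i < k),
        (th k • w k ^ (a i - 1)) * w k = c0 • iota D (f i) +
      (∑ j ∈ Finset.univ.filter (fun j => j < i), g j * iota D (f j)) := by
      rw [hr]
      have h2 : ∑ k ∈ Finset.univ.filter (fun k => i < k), (th k • w k ^ (a i - 1)) * w k =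
          ∑ l ∈ Finset.univ.filter (fun l => i < l), th l • w l ^ a i :=
        Finset.sum_congr rfl fun l _ => by rw [AE.smul_mul', ← hpow]
      rw [h2]
      abel
    rw [h1]
    have h3 : ∀ j, iota D (f j) ∈ exD D (Submodule.restrictScalars ℂ I) := fun j =>
      Submodule.subset_span ⟨f j, hfI j, rfl⟩
    refine Submodule.add_mem _ (Submodule.smul_mem _ _ (h3 i))
      (Submodule.sum_mem _ fun j _ => ?_)
    rw [← iota_comm]
    exact exD_mul I (h3 j) _
  · intro m hm
    have h1 := hLI _ (hN m hm.ge)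
    have h2 : iota D (MvPolynomial.monomial m (1 : ℂ)) = AddMonoidAlgebra.single m 1 := by
      ext m'
      rw [coeff_iota, MvPolynomial.coeff_monomial, AddMonoidAlgebra.coeff_single,
        Finsupp.single_apply]
      split_ifs <;> simp
    rw [h2] at h1
    exact h1

/-- **Final theorem** for operators indexed by `Fin r` (`n = r + 1` variables), over any parameter
field `F ⊇ ℂ`. -/
theorem result_of_isTuple {r : ℕ} (a : Fin (r + 1) → ℕ) (ha : Monotone a) (hpos : ∀ i, 0 < a i)
    (I : Ideal (MvPolynomial (Fin (r + 1)) ℂ))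
    (hI : ∀ g ∈ I, ∀ d : ℕ, MvPolynomial.homogeneousComponent d g ∈ I)
    (f : Fin (r + 1) → MvPolynomial (Fin (r + 1)) ℂ) (hf : ∀ i, (f i).IsHomogeneous (a i))
    (hfI : ∀ i, f i ∈ I)
    (hreg : RingTheory.Sequence.IsRegular (MvPolynomial (Fin (r + 1)) ℂ) (List.ofFn f))
    {F : Type*} [Field F] [Algebra ℂ F] {D : Type*} [DivisionRing D] [Algebra F D]
    (c0 : Fin r → F) (hc0 : ∀ i, c0 i ≠ 0) (th : Fin r → Fin r → F)
    (hth : ∀ i l, ¬ i < l → th i l = 0) (Q : Fin r → MvPolynomial (Fin (r + 1)) F)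
    (hQ : ∀ i, Q i - MvPolynomial.C (c0 i) * MvPolynomial.map (algebraMap ℂ F) (f i.succ) ∈
      Ideal.span ((fun j => MvPolynomial.map (algebraMap ℂ F) (f j)) '' {j | j ≤ i.castSucc}))
    (w : Fin r → Fin (r + 1) → D)
    (hw : UR.IsTuple (fun i : Fin r => a i.succ) th Q (algebraMap F D) w) :
    ∃ U : ℕ → Set (Fin (r + 1) →₀ ℕ), (∀ d, IsLexSegment (r + 1) d (U d)) ∧
      (∀ d, Module.finrank ℂ (lppPiece a (U d) d) = Module.finrank ℂ (degreePiece I d)) ∧
      ∃ J : Ideal (MvPolynomial (Fin (r + 1)) ℂ),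
        (∀ g ∈ J, ∀ d : ℕ, MvPolynomial.homogeneousComponent d g ∈ J) ∧
        (∀ d, degreePiece J d = lppPiece a (U d) d) ∧
        ∀ p j : ℕ, gradedBetti I p j ≤ gradedBetti J p j := by
  classical
  let _ : Algebra ℂ D := Algebra.compHom D (algebraMap ℂ F)
  have halg : ∀ x : ℂ, algebraMap ℂ D x = algebraMap F D (algebraMap ℂ F x) := fun x => rfl
  set τ : F →+* D := algebraMap F D with hτ
  let φ : MvPolynomial (Fin (r + 1)) F →+* PD D (r + 1) := UR.mp (Fin (r + 1)) τ
  have hφf : ∀ j, φ (MvPolynomial.map (algebraMap ℂ F) (f j)) = iota D (f j) := by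
    intro j
    ext m
    change (UR.mp (Fin (r + 1)) τ _).coeff m = _
    rw [UR.mp_coeff, coeff_iota, halg]
    exact congrArg τ (MvPolynomial.coeff_map _ _ _)
  have hφC : ∀ (c : F) (g : MvPolynomial (Fin (r + 1)) F), φ (MvPolynomial.C c * g) = τ c • φ g := by
    intro c g
    ext m
    change (UR.mp (Fin (r + 1)) τ _).coeff m = _
    rw [UR.mp_coeff, AddMonoidAlgebra.coeff_smul, Finsupp.smul_apply]
    change _ = τ c • (UR.mp (Fin (r + 1)) τ _).coeff m
    rw [UR.mp_coeff, smul_eq_mul, ← map_mul]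
    exact congrArg τ (MvPolynomial.coeff_C_mul _ _ _)
  let w' : Fin (r + 1) → PD D (r + 1) := Fin.cons 0 (fun i => UR.lf (w i))
  have hw's : ∀ i : Fin r, w' i.succ = UR.lf (w i) := fun i => Fin.cons_succ _ _ _
  refine lpp_of_relations' a ha hpos 0 (fun i => Fin.zero_le i) I hI f hf hfI hreg w' ?_ ?_ ?_
  · intro i hi
    obtain ⟨i, rfl⟩ := Fin.exists_succ_eq.2 hi
    rw [hw's]
    unfold UR.lf
    exact Submodule.sum_mem _ fun v _ => single_mem_hd (Finsupp.degree_single _ _) _
  · intro i k hi hk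
    obtain ⟨i, rfl⟩ := Fin.exists_succ_eq.2 hi
    obtain ⟨k, rfl⟩ := Fin.exists_succ_eq.2 hk
    rw [hw's, hw's]
    exact hw.comm i k
  · intro i hi
    obtain ⟨i, rfl⟩ := Fin.exists_succ_eq.2 hi
    -- the coefficients of `Q i`
    have hmem : ∀ q ∈ Ideal.span ((fun j => MvPolynomial.map (algebraMap ℂ F) (f j)) ''
        {j : Fin (r + 1) | j ≤ i.castSucc}), ∃ g : Fin (r + 1) → PD D (r + 1),
        φ q = ∑ j ∈ Finset.univ.filter (fun j => j < i.succ), g j * iota D (f j) := by
      intro q hq
      induction hq using Submodule.span_induction with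
      | mem x hx =>
        obtain ⟨j, hj, rfl⟩ := hx
        refine ⟨fun j' => if j' = j then 1 else 0, ?_⟩
        rw [Finset.sum_eq_single j]
        · simp only [if_true, one_mul]
          exact hφf j
        · intro b _ hb
          simp only [if_neg hb, zero_mul]
        · intro h
          exfalso
          apply h
          rw [Finset.mem_filter]
          refine ⟨Finset.mem_univ _, ?_⟩
          have h5 : j ≤ i.castSucc := hj
          rw [Fin.lt_def, Fin.val_succ]
          rw [Fin.le_def, Fin.val_castSucc] at h5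
          omega
      | zero => exact ⟨0, by rw [map_zero]; simp⟩
      | add x y _ _ hx hy =>
        obtain ⟨g, hg⟩ := hx
        obtain ⟨g', hg'⟩ := hy
        refine ⟨g + g', ?_⟩
        rw [map_add, hg, hg', ← Finset.sum_add_distrib]
        exact Finset.sum_congr rfl fun j _ => (add_mul _ _ _).symm
      | smul p x _ hx =>
        obtain ⟨g, hg⟩ := hx
        refine ⟨fun j => φ p * g j, ?_⟩
        rw [smul_eq_mul, map_mul, hg, Finset.mul_sum]
        exact Finset.sum_congr rfl fun j _ => (mul_assoc _ _ _).symm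
    obtain ⟨g, hg⟩ := hmem _ (hQ i)
    refine ⟨τ (c0 i), g, Fin.cons 0 (fun l => τ (th i l)), ?_, ?_⟩
    · rw [Ne, map_eq_zero]
      exact hc0 i
    · rw [hw's, hw.rel i]
      congr 1
      · rw [← hg, ← hφf, ← hφC, ← map_add, add_sub_cancel]
      · rw [Finset.sum_filter, Fin.sum_univ_succ, if_neg (by simp), zero_add]
        refine Finset.sum_congr rfl fun l _ => ?_
        rw [hw's, Fin.cons_succ]
        simp only [Fin.succ_lt_succ_iff]
        split_ifs with h
        · rw [Algebra.algebraMap_self_apply, UR.cst_apply]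
          exact Cs_mul _ _
        · rw [hth i l h, map_zero, map_zero, map_zero, zero_mul]

end Crest.Agent.R181.AS
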