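import Crest.Agent.R181.MK10
import Crest.Agent.R181.FR459a

/-!
R181 (helper825): from a left hereditary ring `T` all of whose finitely generated projective modules
are stably free and a ring homomorphism `T → M_s(E)`, `E` a skew field, which kills no nonzero
idempotent matrix, to the skew field `D = T_Σ`, `T → D` injective.
-/

set_option autoImplicit false
set_option linter.unusedSectionVars false
open Matrix

namespace Crest.Agent.R181.TW

section rank

variable {E : Type} [DivisionRing E]

/-- row rank over a division ring -/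
noncomputable def rkE {p q : Type} (M : Matrix p q E) : ℕ :=
  Module.finrank E (Submodule.span E (Set.range (fun i => (M i : q → E))))

variable {p q r p' q' : Type} [Fintype p] [Fintype q] [Fintype r] [Fintype p'] [Fintype q']

theorem span_rows (M : Matrix p q E) :
    Submodule.span E (Set.range (fun i => (M i : q → E))) = LinearMap.range (vecMulLinear M) := by
  classical
  apply le_antisymm
  · rw [Submodule.span_le]
    rintro _ ⟨i, rfl⟩
    refine ⟨Pi.single i 1, ?_⟩
    show Pi.single i 1 ᵥ* M = M i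
    rw [Matrix.single_one_vecMul]; rfl
  · rintro _ ⟨v, rfl⟩
    show v ᵥ* M ∈ _
    rw [Matrix.vecMul_eq_sum]
    exact Submodule.sum_mem _ fun i _ => Submodule.smul_mem _ _ (Submodule.subset_span ⟨i, rfl⟩)

theorem rkE_eq (M : Matrix p q E) :
    rkE M = Module.finrank E (LinearMap.range (vecMulLinear M)) := by
  rw [rkE, span_rows]

theorem rkE_mul_right (A : Matrix p q E) (B : Matrix q r E) : rkE (A * B) ≤ rkE B := by
  rw [rkE_eq, rkE_eq]
  apply Submodule.finrank_mono
  rintro _ ⟨v, rfl⟩
  exact ⟨v ᵥ* A, Matrix.vecMul_vecMul v A B⟩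

theorem rkE_mul_left (A : Matrix p q E) (B : Matrix q r E) : rkE (A * B) ≤ rkE A := by
  rw [rkE_eq, rkE_eq]
  have h : LinearMap.range (vecMulLinear (A * B)) =
      (LinearMap.range (vecMulLinear A)).map (vecMulLinear B) := by
    rw [← LinearMap.range_comp]
    congr 1
    ext v j
    simp [← Matrix.vecMul_vecMul]
  rw [h]
  exact Submodule.finrank_map_le _ _

theorem rkE_comm (X : Matrix p q E) (Y : Matrix q p E) (h1 : (X * Y) * (X * Y) = X * Y)
    (h2 : (Y * X) * (Y * X) = Y * X) : rkE (X * Y) = rkE (Y * X) := by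
  apply le_antisymm
  · calc rkE (X * Y) = rkE (X * (Y * X) * Y) := by rw [← h1]; congr 1; simp only [Matrix.mul_assoc]
      _ ≤ rkE (X * (Y * X)) := rkE_mul_left _ _
      _ ≤ rkE (Y * X) := rkE_mul_right _ _
  · calc rkE (Y * X) = rkE (Y * (X * Y) * X) := by rw [← h2]; congr 1; simp only [Matrix.mul_assoc]
      _ ≤ rkE (Y * (X * Y)) := rkE_mul_left _ _
      _ ≤ rkE (X * Y) := rkE_mul_right _ _

theorem rkE_one [DecidableEq p] : rkE (1 : Matrix p p E) = Fintype.card p := by
  rw [rkE_eq]
  have : LinearMap.range (vecMulLinear (1 : Matrix p p E)) = ⊤ := by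
    rw [LinearMap.range_eq_top]
    intro v
    exact ⟨v, Matrix.vecMul_one v⟩
  rw [this, finrank_top, Module.finrank_fintype_fun_eq_card]

theorem rkE_reindex (M : Matrix p q E) (e : p' ≃ p) (f : q' ≃ q) :
    rkE (M.submatrix e f) = rkE M := by
  classical
  have h1 : ∀ {p q p' q' : Type} [Fintype p] [Fintype q] [Fintype p'] [Fintype q']
      (M : Matrix p q E) (e : p' → p) (f : q' → q), rkE (M.submatrix e f) ≤ rkE M := by
    intro p q p' q' _ _ _ _ M e f
    classical
    have : M.submatrix e f = ((1 : Matrix p p E).submatrix e id) * (M * (1 : Matrix q q E).submatrix id f) := by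
      ext i j
      simp [Matrix.mul_apply, Matrix.submatrix_apply, Matrix.one_apply]
    rw [this]
    exact (rkE_mul_right _ _).trans (rkE_mul_left _ _)
  apply le_antisymm (h1 M e f)
  calc rkE M = rkE ((M.submatrix e f).submatrix e.symm f.symm) := by simp
    _ ≤ _ := h1 _ _ _

/-- a product submodule -/
def prodEq {V W : Type} [AddCommGroup V] [Module E V] [AddCommGroup W] [Module E W]
    (P : Submodule E V) (Q : Submodule E W) : ↥(P.prod Q) ≃ₗ[E] P × Q where
  toFun x := (⟨x.1.1, x.2.1⟩, ⟨x.1.2, x.2.2⟩)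
  invFun x := ⟨(x.1.1, x.2.1), ⟨x.1.2, x.2.2⟩⟩
  map_add' _ _ := rfl
  map_smul' _ _ := rfl
  left_inv _ := rfl
  right_inv _ := rfl

theorem rkE_diag (A : Matrix p q E) (B : Matrix p' q' E) :
    rkE (fromBlocks A 0 0 B) = rkE A + rkE B := by
  rw [rkE_eq, rkE_eq, rkE_eq]
  have h : (LinearMap.range (vecMulLinear (fromBlocks A 0 0 B))).map
      (LinearEquiv.sumArrowLequivProdArrow q q' E E).toLinearMap =
      (LinearMap.range (vecMulLinear A)).prod (LinearMap.range (vecMulLinear B)) := by
    rw [← LinearMap.range_prodMap, ← LinearMap.range_comp]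
    apply le_antisymm
    · rintro _ ⟨v, rfl⟩
      refine ⟨(v ∘ Sum.inl, v ∘ Sum.inr), ?_⟩
      simp only [LinearMap.prodMap_apply, LinearMap.comp_apply, vecMulLinear_apply,
        LinearEquiv.coe_coe, Matrix.vecMul_fromBlocks]
      ext <;> simp [LinearEquiv.sumArrowLequivProdArrow, Equiv.sumArrowEquivProdArrow]
    · rintro _ ⟨⟨v, w⟩, rfl⟩
      refine ⟨Sum.elim v w, ?_⟩
      simp only [LinearMap.prodMap_apply, LinearMap.comp_apply, vecMulLinear_apply,
        LinearEquiv.coe_coe, Matrix.vecMul_fromBlocks]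
      ext <;> simp [LinearEquiv.sumArrowLequivProdArrow, Equiv.sumArrowEquivProdArrow]
  rw [← LinearEquiv.finrank_map_eq (LinearEquiv.sumArrowLequivProdArrow q q' E E), h,
    (prodEq _ _).finrank_eq, Module.finrank_prod]

theorem rkE_eq_zero (M : Matrix p q E) (h : rkE M = 0) : M = 0 := by
  rw [rkE, Submodule.finrank_eq_zero, Submodule.span_eq_bot] at h
  ext i j
  exact congrFun (h _ ⟨i, rfl⟩) j

end rank

theorem ext_vecMul {T : Type} [Ring T] {κ κ' : Type} [Fintype κ] (X Y : Matrix κ κ' T)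
    (h : ∀ v : κ → T, v ᵥ* X = v ᵥ* Y) : X = Y := by
  classical
  funext i
  have := h (Pi.single i 1)
  rw [Matrix.single_one_vecMul, Matrix.single_one_vecMul] at this
  exact this

section model

variable {T : Type} [Ring T] {E : Type} [DivisionRing E] {s : ℕ}
  (ψ : T →+* Matrix (Fin s) (Fin s) E)

/-- the big matrix over `E` of a matrix over `T` -/
def flat {m n : Type} (A : Matrix m n T) : Matrix (m × Fin s) (n × Fin s) E :=
  fun x y => ψ (A x.1 y.1) x.2 y.2

variable {l m n m' n' : Type} [Fintype l] [Fintype m] [Fintype n] [Fintype m'] [Fintype n']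

theorem flat_mul (A : Matrix l m T) (B : Matrix m n T) : flat ψ (A * B) = flat ψ A * flat ψ B := by
  ext x y
  simp only [flat, Matrix.mul_apply, map_sum, map_mul, Matrix.sum_apply, Fintype.sum_prod_type]

theorem flat_one [DecidableEq m] : flat ψ (1 : Matrix m m T) = 1 := by
  ext x y
  simp only [flat]
  by_cases h : x.1 = y.1
  · rw [h, Matrix.one_apply_eq, map_one, Matrix.one_apply, Matrix.one_apply]
    congr 1
    simp [Prod.ext_iff, h]
  · rw [Matrix.one_apply_ne h, map_zero, Matrix.one_apply_ne (fun h' => h (by rw [h']))]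
    rfl

theorem flat_blocks (A : Matrix m m T) (B : Matrix n n T) :
    flat ψ (fromBlocks A 0 0 B) = (fromBlocks (flat ψ A) 0 0 (flat ψ B)).submatrix
      (Equiv.sumProdDistrib m n (Fin s)) (Equiv.sumProdDistrib m n (Fin s)) := by
  ext ⟨x | x, i⟩ ⟨y | y, j⟩ <;> simp [flat]

/-- the normalised rank -/
noncomputable def rkM {m n : Type} (A : Matrix m n T) : ℚ := (rkE (flat ψ A) : ℚ) / s

theorem rkM_comm (X : Matrix m n T) (Y : Matrix n m T) (h1 : (X * Y) * (X * Y) = X * Y)
    (h2 : (Y * X) * (Y * X) = Y * X) : rkM ψ (X * Y) = rkM ψ (Y * X) := by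
  rw [rkM, rkM, flat_mul, flat_mul, rkE_comm]
  · rw [← flat_mul, ← flat_mul, h1]
  · rw [← flat_mul, ← flat_mul, h2]

theorem rkM_diag (e : Matrix m m T) (f : Matrix n n T) :
    rkM ψ (fromBlocks e 0 0 f) = rkM ψ e + rkM ψ f := by
  rw [rkM, rkM, rkM, flat_blocks, rkE_reindex, rkE_diag]
  push_cast
  ring

theorem rkM_one [DecidableEq m] (hs : 0 < s) : rkM ψ (1 : Matrix m m T) = Fintype.card m := by
  rw [rkM, flat_one, rkE_one, Fintype.card_prod, Fintype.card_fin]
  push_cast
  field_simp

/-- all finitely generated projective modules are stably free -/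
def AllSF (T : Type) [Ring T] : Prop :=
  ∀ (P : Type) [AddCommGroup P] [Module T P], Module.Finite T P → Module.Projective T P →
    FR.StFree T P

/-- matrix form of stable freeness -/
theorem exists_matrices (h : AllSF T) (e : Matrix m m T) (he : e * e = e) :
    ∃ (a b : ℕ) (X : Matrix (m ⊕ Fin a) (Fin b) T) (Y : Matrix (Fin b) (m ⊕ Fin a) T),
      X * Y = fromBlocks e 0 0 1 ∧ Y * X = 1 := by
  classical
  let L : (m → T) →ₗ[T] (m → T) := vecMulLinear e
  have hLL : ∀ v, L (L v) = L v := fun v => by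
    show (v ᵥ* e) ᵥ* e = v ᵥ* e
    rw [Matrix.vecMul_vecMul, he]
  let P := LinearMap.range L
  have hfin : Module.Finite T P := inferInstance
  have hproj : Module.Projective T P := by
    refine Module.Projective.of_split P.subtype L.rangeRestrict ?_
    ext ⟨x, v, rfl⟩ : 2
    simp [hLL]
  obtain ⟨a, b, ⟨g⟩⟩ := h P hfin hproj
  -- the maps
  let F : (m ⊕ Fin a → T) →ₗ[T] (Fin b → T) := g.toLinearMap ∘ₗ
    (L.rangeRestrict.prodMap LinearMap.id) ∘ₗ (LinearEquiv.sumArrowLequivProdArrow m (Fin a) T T).toLinearMap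
  let G : (Fin b → T) →ₗ[T] (m ⊕ Fin a → T) :=
    (LinearEquiv.sumArrowLequivProdArrow m (Fin a) T T).symm.toLinearMap ∘ₗ
    (P.subtype.prodMap LinearMap.id) ∘ₗ g.symm.toLinearMap
  have hFG : ∀ v, F (G v) = v := by
    intro v
    simp only [F, G, LinearMap.comp_apply, LinearEquiv.coe_coe, LinearEquiv.apply_symm_apply]
    have : (L.rangeRestrict.prodMap LinearMap.id) ((P.subtype.prodMap LinearMap.id) (g.symm v)) =
        g.symm v := by
      ext1
      · obtain ⟨w, hw⟩ := (g.symm v).1.2
        apply Subtype.ext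
        show L ((g.symm v).1 : m → T) = _
        rw [← hw, hLL]
      · rfl
    rw [this, LinearEquiv.apply_symm_apply]
  have hGF : ∀ v, G (F v) = v ᵥ* (fromBlocks e 0 0 1) := by
    intro v
    simp only [F, G, LinearMap.comp_apply, LinearEquiv.coe_coe, LinearEquiv.symm_apply_apply]
    rw [LinearEquiv.symm_apply_eq, Matrix.vecMul_fromBlocks]
    ext j
    · simp [LinearEquiv.sumArrowLequivProdArrow, Equiv.sumArrowEquivProdArrow, L]
    · simp [LinearEquiv.sumArrowLequivProdArrow, Equiv.sumArrowEquivProdArrow]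
  have hM : ∀ {κ κ' : Type} [Fintype κ] [DecidableEq κ] (Z : (κ → T) →ₗ[T] (κ' → T)) (v : κ → T),
      v ᵥ* LinearMap.toMatrixRight' Z = Z v := by
    intro κ κ' _ _ Z v
    conv_rhs => rw [← (LinearMap.toMatrixRight' (R := T)).symm_apply_apply Z]
    rfl
  refine ⟨a, b, LinearMap.toMatrixRight' F, LinearMap.toMatrixRight' G, ?_, ?_⟩
  · apply ext_vecMul
    intro v
    rw [← Matrix.vecMul_vecMul, hM, hM, hGF]
  · apply ext_vecMul
    intro v
    rw [← Matrix.vecMul_vecMul, hM, hM, hFG, Matrix.vecMul_one]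

/-- the rank of an idempotent is an integer -/
theorem rkM_int (hs : 0 < s) (h : AllSF T) (e : Matrix m m T) (he : e * e = e) :
    ∃ k : ℕ, rkM ψ e = k := by
  classical
  obtain ⟨a, b, X, Y, hXY, hYX⟩ := exists_matrices h e he
  have h1 : (X * Y) * (X * Y) = X * Y := by
    rw [hXY, fromBlocks_multiply]; simp [he]
  have h2 : (Y * X) * (Y * X) = Y * X := by rw [hYX, Matrix.one_mul]
  have h3 := rkM_comm ψ X Y h1 h2
  rw [hXY, hYX, rkM_diag, rkM_one ψ hs, rkM_one ψ hs, Fintype.card_fin, Fintype.card_fin] at h3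
  have h4 : 0 ≤ rkM ψ e := by rw [rkM]; positivity
  have h5 : a ≤ b := by
    have : (a : ℚ) ≤ b := by linarith
    exact_mod_cast this
  refine ⟨b - a, ?_⟩
  push_cast [Nat.cast_sub h5]
  linarith

/-- the rank function on projectives -/
noncomputable def projRank (hs : 0 < s) (h : AllSF T) : MK.ProjRank T :=
  MK.ProjRank.ofFun (fun {_} e => rkM ψ e) (fun e he => rkM_int ψ hs h e he)
    (by rw [rkM_one ψ hs]; simp) (fun X Y h1 h2 => rkM_comm ψ X Y h1 h2)
    (fun e f _ _ => rkM_diag ψ e f)

theorem projRank_rk (hs : 0 < s) (h : AllSF T) (e : Matrix m m T) (he : e * e = e) :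
    ((projRank ψ hs h).rk e : ℚ) = rkM ψ e := by
  obtain ⟨k, hk⟩ := rkM_int ψ hs h e he
  show ((⌊rkM ψ e⌋₊ : ℕ) : ℚ) = _
  rw [hk, Nat.floor_natCast]

end model

/-- a model of `T` in matrices over a skew field which kills no idempotent -/
def PosModel (T : Type) [Ring T] : Prop :=
  ∃ (s : ℕ) (E : Type) (_ : DivisionRing E) (ψ : T →+* Matrix (Fin s) (Fin s) E), 0 < s ∧
    ∀ (m : ℕ) (e : Matrix (Fin m) (Fin m) T), e * e = e → e.map ψ = 0 → e = 0

/-- left hereditary in the form of 788's H5 -/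
def Hered (T : Type) [Ring T] : Prop :=
  ∀ (k : ℕ) (N : Submodule T (Fin k → T)), Module.Projective T N

/-- universal localisation at the matrices which become invertible -/
structure UnivLoc {T D : Type} [Ring T] [Ring D] (φ : T →+* D) : Prop where
  lift : ∀ {S : Type} [Ring S] (ψ : T →+* S),
    (∀ (m : ℕ) (A : Matrix (Fin m) (Fin m) T), IsUnit (A.map φ) → IsUnit (A.map ψ)) →
      ∃ f : D →+* S, f.comp φ = ψ
  ext : ∀ {S : Type} [Ring S] (f g : D →+* S), f.comp φ = g.comp φ → f = g

/-- `A` is full, even after adding an identity matrix (intrinsic, 773) -/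
def StFull {T : Type} [Ring T] {m : ℕ} (A : Matrix (Fin m) (Fin m) T) : Prop :=
  ∀ (k r : ℕ) (P : Matrix (Fin m ⊕ Fin r) (Fin k) T) (Q : Matrix (Fin k) (Fin m ⊕ Fin r) T),
    P * Q = Matrix.fromBlocks A 0 0 1 → m + r ≤ k

/-- **the skew field** -/
theorem exists_skew (T : Type) [Ring T] (hH : Hered T) (hS : AllSF T) (hM : PosModel T) :
    ∃ (D : Type) (_ : DivisionRing D) (φ : T →+* D), Function.Injective φ ∧ UnivLoc φ := by
  obtain ⟨s, E, _, ψ, hs, hψ⟩ := hM
  let σ := projRank ψ hs hS
  have hT : MK.SH T := MK.SH.of_projective fun k N _ => hH k N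
  refine ⟨(σ.toSyl hT).DS, inferInstance, (σ.toSyl hT).phi, ?_, ?_, ?_⟩
  · rw [injective_iff_map_eq_zero]
    intro t ht
    have h0 : (σ.toSyl hT).rk (Matrix.of fun (_ _ : Fin 1) => t) = 0 := by
      rw [← (σ.toSyl hT).finrank_rows]
      have : (Set.range fun (i : Fin 1) (j : Fin 1) =>
          (σ.toSyl hT).phi ((Matrix.of fun (_ _ : Fin 1) => t) i j)) ⊆ {0} := by
        rintro _ ⟨i, rfl⟩
        funext j
        exact ht
      rw [Submodule.finrank_eq_zero, Submodule.span_eq_bot]
      intro x hx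
      exact this hx
    rw [MK.ProjRank.toSyl_rk] at h0
    obtain ⟨k, X, e, Y, he, h1, h2, hA, hr⟩ := σ.exists_fac' (Matrix.of fun (_ _ : Fin 1) => t)
    rw [h0] at hr
    have h3 : rkM ψ e = 0 := by
      rw [← projRank_rk ψ hs hS e he]
      exact_mod_cast hr
    have h4 : rkE (flat ψ e) = 0 := by
      rw [rkM, div_eq_zero_iff] at h3
      rcases h3 with h3 | h3
      · exact_mod_cast h3
      · exact absurd h3 (by exact_mod_cast hs.ne')
    have h5 := rkE_eq_zero _ h4
    have h6 : e = 0 := by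
      apply hψ k e he
      ext i j x y
      exact congrFun (congrFun h5 (i, x)) (j, y)
    rw [h6, Matrix.mul_zero] at h1
    have := congrFun (congrFun hA 0) 0
    rw [← h1] at this
    simpa using this
  · intro S _ ψ' h
    have : MK.SylRank.Inv (σ.toSyl hT) ψ' := by
      intro n A hA
      exact h n A ((σ.toSyl hT).phi_inv n A hA)
    obtain ⟨f, hf, -⟩ := σ.existsUnique_lift hT ψ' this
    exact ⟨f, hf⟩
  · intro S _ f g h
    exact (σ.toSyl hT).hom_ext f g fun t => RingHom.congr_fun h t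

end Crest.Agent.R181.TW
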