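import Crest.Agent.R181.UR396c
import Crest.Agent.R181.TW825a

/-!
R181 (helper825): THE CONTRACT FILE.  Levels, steps and chains of the tower `D_0, D_1, ..`, over
396's tuples and rings `U`.

* `Vr i`: the variables of level `i` (`Vr 0 = Empty`, `Vr (i+1) = Option (Vr i)`, reducibly).
* `Dat F I n`: degrees `a ≥ 2`, `th`, forms `Q` in `n` variables, homogeneous of degree `a`.
* `d.Qr i`: the forms at level `i` (`x_t ↦ 0` for `t ≥ i`);
  `d.Ql i lam`: the forms with `x_t ↦ lam t * s` for `t ≥ i`.
* `Lvl d i`: a skew field with a tuple for `d.Qr i`.  `X.U lam = U(D, w; L, lam)`, `X.T = T_{i+1}`.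
* `Step X Y`: `T_{i+1} → D_{i+1}` injective, universal localisation.
* `Chain d i X`.
-/

set_option autoImplicit false
set_option linter.unusedSectionVars false

namespace Crest.Agent.R181.TW

open UR

/-- The variables of level `i`. -/
@[reducible] def Vr : ℕ → Type
  | 0 => Empty
  | i + 1 => Option (Vr i)

/-- auxiliary -/
@[reducible] def fintypeVr : ∀ i, Fintype (Vr i)
  | 0 => inferInstanceAs (Fintype Empty)
  | i + 1 => @instFintypeOption (Vr i) (fintypeVr i)

instance instFintypeVr (i : ℕ) : Fintype (Vr i) := fintypeVr i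

/-- The data of the tower. -/
structure Dat (F I : Type) (n : ℕ) [Field F] where
  /-- degrees -/
  a : I → ℕ
  /-- parameters -/
  th : I → I → F
  /-- forms -/
  Q : I → MvPolynomial (Fin n) F
  ha : ∀ l, 2 ≤ a l
  hQ : ∀ l, (Q l).IsHomogeneous (a l)

section vars

variable {n : ℕ}

/-- The variable `x_t` at level `i` (`0` for `t ≥ i`). -/
noncomputable def vars (L : Type) [CommRing L] : ∀ i : ℕ, Fin n → MvPolynomial (Vr i) L
  | 0, _ => 0
  | i + 1, t => if (t : ℕ) = i then MvPolynomial.X none else MvPolynomial.rename some (vars L i t)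

/-- `x_t` for `t < i` and `lam t * s` for `t ≥ i`. -/
noncomputable def lvars {L : Type} [CommRing L] (i : ℕ) (lam : Fin n → L) (t : Fin n) :
    MvPolynomial (Option (Vr i)) L :=
  if (t : ℕ) < i then MvPolynomial.rename some (vars L i t)
  else MvPolynomial.C (lam t) * MvPolynomial.X none

/-- `lam = (.., 0, 1, 0, ..)` -/
def dl (L : Type) [CommRing L] (i : ℕ) (t : Fin n) : L := if (t : ℕ) = i then 1 else 0

theorem vars_eq_zero (L : Type) [CommRing L] : ∀ (i : ℕ) (t : Fin n), i ≤ t → vars L i t = 0
  | 0, _, _ => rfl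
  | i + 1, t, h => by
    have h1 : (t : ℕ) ≠ i := by omega
    rw [vars, if_neg h1, vars_eq_zero L i t (by omega), map_zero]

theorem lvars_dl (L : Type) [CommRing L] (i : ℕ) (t : Fin n) :
    lvars i (dl L i) t = vars L (i + 1) t := by
  rw [lvars, vars]
  by_cases h1 : (t : ℕ) = i
  · simp [dl, h1]
  · rw [if_neg h1]
    by_cases h2 : (t : ℕ) < i
    · rw [if_pos h2]
    · rw [if_neg h2, vars_eq_zero L i t (by omega), dl, if_neg h1]
      simp

/-- The position of a variable. -/
def idx : ∀ i : ℕ, Vr i → ℕ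
  | i + 1, none => i
  | i + 1, some v => idx i v

theorem idx_lt : ∀ (i : ℕ) (v : Vr i), idx i v < i
  | i + 1, none => Nat.lt_succ_self i
  | i + 1, some v => (idx_lt i v).trans (Nat.lt_succ_self i)

theorem idx_injective : ∀ (i : ℕ), Function.Injective (idx i)
  | 0 => fun v => v.elim
  | i + 1 => fun u v h => by
    rcases u with _ | u <;> rcases v with _ | v
    · rfl
    · have h1 : i = idx i v := h
      have := idx_lt i v
      omega
    · have h1 : idx i u = i := h
      have := idx_lt i u
      omega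
    · exact congrArg some (idx_injective i h)

/-- `vars L i t` is a variable for `t < i`. -/
theorem vars_of_lt (L : Type) [CommRing L] : ∀ (i : ℕ) (t : Fin n), (t : ℕ) < i →
    ∃ v : Vr i, idx i v = t ∧ vars L i t = MvPolynomial.X v
  | i + 1, t, h => by
    rw [vars]
    by_cases h1 : (t : ℕ) = i
    · rw [if_pos h1]
      exact ⟨none, h1.symm, rfl⟩
    · rw [if_neg h1]
      obtain ⟨v, hv, hv'⟩ := vars_of_lt L i t (by omega)
      exact ⟨some v, hv, by rw [hv', MvPolynomial.rename_X]⟩

theorem map_vars {L L' : Type} [CommRing L] [CommRing L'] (g : L →+* L') : ∀ (i : ℕ) (t : Fin n),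
    MvPolynomial.map g (vars L i t) = vars L' i t
  | 0, _ => map_zero _
  | i + 1, t => by
    rw [vars, vars]
    split
    · simp
    · rw [MvPolynomial.map_rename, map_vars g i t]

theorem map_lvars {L L' : Type} [CommRing L] [CommRing L'] (g : L →+* L') (i : ℕ)
    (lam : Fin n → L) (t : Fin n) :
    MvPolynomial.map g (lvars i lam t) = lvars i (fun t => g (lam t)) t := by
  rw [lvars, lvars]
  split
  · rw [MvPolynomial.map_rename, map_vars g i t]
  · simp

end vars

section

variable {F I : Type} [Field F] [Fintype I] {n : ℕ} (d : Dat F I n)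

/-- The forms at level `i`. -/
noncomputable def Dat.Qr (i : ℕ) (l : I) : MvPolynomial (Vr i) F :=
  MvPolynomial.aeval (vars F i) (d.Q l)

/-- The forms of `U_i(L, lam)`. -/
noncomputable def Dat.Ql {L : Type} [CommRing L] [Algebra F L] (i : ℕ) (lam : Fin n → L) (l : I) :
    MvPolynomial (Option (Vr i)) L :=
  MvPolynomial.aeval (lvars i lam) (d.Q l)

theorem Dat.Ql_dl (i : ℕ) : d.Ql i (dl F i) = d.Qr (i + 1) := by
  funext l
  rw [Dat.Ql, Dat.Qr]
  congr 1
  congr 1
  funext t
  exact lvars_dl F i t

theorem map_aeval {L L' : Type} [CommRing L] [Algebra F L] [CommRing L'] [Algebra F L'] {σ τ : Type}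
    (g : L →+* L') (hg : ∀ c : F, g (algebraMap F L c) = algebraMap F L' c)
    (y : τ → MvPolynomial σ L) (p : MvPolynomial τ F) :
    MvPolynomial.map g (MvPolynomial.aeval y p) =
      MvPolynomial.aeval (fun t => MvPolynomial.map g (y t)) p := by
  induction p using MvPolynomial.induction_on with
  | C c =>
    rw [MvPolynomial.algHom_C, MvPolynomial.algHom_C]
    show MvPolynomial.map g (MvPolynomial.C (algebraMap F L c)) =
      MvPolynomial.C (algebraMap F L' c)
    rw [MvPolynomial.map_C, hg]
  | add p q hp hq => rw [map_add, map_add, map_add, hp, hq]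
  | mul_X p i hp => rw [map_mul, map_mul, map_mul, hp, MvPolynomial.aeval_X, MvPolynomial.aeval_X]

/-- Change of `L`. -/
theorem Dat.map_Ql {L L' : Type} [CommRing L] [Algebra F L] [CommRing L'] [Algebra F L']
    (g : L →+* L') (hg : ∀ c : F, g (algebraMap F L c) = algebraMap F L' c)
    (i : ℕ) (lam : Fin n → L) (l : I) :
    MvPolynomial.map g (d.Ql i lam l) = d.Ql i (fun t => g (lam t)) l := by
  rw [Dat.Ql, map_aeval g hg, Dat.Ql]
  congr 2
  funext t
  exact map_lvars g i lam t

/-- A level: a skew field with a tuple. -/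
structure Lvl (i : ℕ) where
  /-- the skew field -/
  D : Type
  [dr : DivisionRing D]
  [alg : Algebra F D]
  /-- the tuple -/
  w : I → Vr i → D
  tup : IsTuple d.a d.th (d.Qr i) (algebraMap F D) w

attribute [instance] Lvl.dr Lvl.alg

variable {d}

/-- The ring `U_i(L, lam)` of a level. -/
abbrev Lvl.U {i : ℕ} (X : Lvl d i) {L : Type} [CommRing L] [Algebra F L] (lam : Fin n → L) : Type :=
  UR.U d.a d.th (d.Ql i lam) X.w

/-- The ring `T_{i+1}`. -/
abbrev Lvl.T {i : ℕ} (X : Lvl d i) : Type := X.U (dl F i)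

/-- A step of the tower. -/
structure Step {i : ℕ} (X : Lvl d i) (Y : Lvl d (i + 1)) where
  /-- `T_{i+1} → D_{i+1}` -/
  φ : X.T →+* Y.D
  alg : ∀ c : F, φ (iL _ _ _ _ c) = algebraMap F Y.D c
  hw : ∀ (l : I) (v : Option (Vr i)), φ (wU _ _ _ _ l v) = Y.w l v
  inj : Function.Injective φ
  univ : UnivLoc (T := X.T) (D := Y.D) φ
  full : ∀ (m : ℕ) (A : Matrix (Fin m) (Fin m) X.T), StFull (T := X.T) A → IsUnit (A.map φ)

variable (d) in
/-- Level `0`: no variables, `D_0 = F`. -/
noncomputable def lvl0 : Lvl d 0 where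
  D := F
  w _ v := v.elim
  tup := by
    have h0 : ∀ w : Vr 0 → F, lf w = 0 := fun w => by simp [lf]
    refine ⟨fun i j => by simp [h0], fun l => ?_⟩
    have h1 : d.a l ≠ 0 := by have := d.ha l; omega
    have h2 : d.Qr 0 l = 0 := by
      have h3 : (vars F 0 : Fin n → MvPolynomial (Vr 0) F) = 0 := rfl
      have h4 : MvPolynomial.constantCoeff (d.Q l) = 0 := by
        rw [MvPolynomial.constantCoeff_eq]
        by_contra h
        have := d.hQ l h
        simp at this
        omega
      rw [Dat.Qr, h3, MvPolynomial.aeval_zero, h4, map_zero]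
    rw [h2, map_zero, zero_add, h0, zero_pow h1]
    symm
    apply Finset.sum_eq_zero
    intro m _
    simp

variable (d) in
/-- A chain `D_0, .., D_i` ending in the level `X`. -/
inductive Chain : (i : ℕ) → Lvl d i → Type 1
  | base : Chain 0 (lvl0 d)
  | step {i : ℕ} {X : Lvl d i} {Y : Lvl d (i + 1)} (c : Chain i X) (s : Step X Y) :
      Chain (i + 1) Y

end

end Crest.Agent.R181.TW
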