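import Crest.Agent.R181.AS4
import Crest.Agent.R181.TW825b

/-!
# The concrete data of the tower
-/

set_option autoImplicit false

namespace Crest.Agent.R181.AS

/-- **The data of the tower** of S0271: `n = r + 1` variables, `r` operators. -/
noncomputable def dat {r : ℕ} (a : Fin (r + 1) → ℕ) (f : Fin (r + 1) → MvPolynomial (Fin (r + 1)) ℂ)
    (ha : Monotone a) (ha2 : ∀ i, 2 ≤ a i) (hf : ∀ i, (f i).IsHomogeneous (a i)) :
    TW.Dat (Fld (r + 1)) (Fin r) (r + 1) where
  a i := a i.succ
  th i l := thF i.succ l.succ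
  Q i := QF a f i.succ
  ha i := ha2 _
  hQ i := QF_isHomogeneous ha hf _

end Crest.Agent.R181.AS
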