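import Crest.Agent.R181.HT279c

/-! R181, block H (H5 (i), (ii)): lifting of cocycles, inside one ring of endomorphisms. -/

set_option autoImplicit false
set_option linter.unusedSectionVars false

namespace Crest.Agent.R181.HL

open AddMonoidAlgebra
open Crest.Agent.R181.UR
open Crest.Agent.R181.HT
open Crest.Agent.R181.H (Dn Dn_zero Dn_succ)

/-- coefficients commuting with the image of `τ` commute with polynomials over that image -/
theorem mp_comm {A F σ : Type*} [Ring A] [CommRing F] {τ : F →+* A} {f : PA A σ}
    (hf : Cf (Subring.centralizer (Set.range τ)) f) (q : MvPolynomial σ F) :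
    Commute (mp σ τ q) f := by
  have h1 : ∀ (α : σ →₀ ℕ) (c : F), Commute (mp σ τ (single α c)) f := by
    intro α c
    rw [mp_single]
    have h2 : Commute (cst σ (τ c)) f := by
      refine cst_comm fun m => ?_
      exact (Subring.mem_centralizer_iff.1 (hf m)) _ ⟨c, rfl⟩
    have h3 : Commute (single α (1 : A) : PA A σ) f :=
      single_commute (fun m' => AddCommute.all _ _) (fun r => Commute.one_left r) f
    have h4 : (single α (τ c) : PA A σ) = cst σ (τ c) * single α 1 := by
      rw [cst_apply, single_mul_single, zero_add, mul_one]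
    rw [h4]
    exact h2.mul_left h3
  induction q using AddMonoidAlgebra.induction_linear with
  | zero => rw [map_zero]; exact Commute.zero_left _
  | add p q hp hq => rw [map_add]; exact hp.add_left hq
  | single α c => exact h1 α c

theorem cst_comm_of_cf {A F σ : Type*} [Ring A] [CommRing F] {τ : F →+* A} {f : PA A σ}
    (hf : Cf (Subring.centralizer (Set.range τ)) f) (c : F) : Commute (cst σ (τ c)) f :=
  cst_comm fun m => (Subring.mem_centralizer_iff.1 (hf m)) _ ⟨c, rfl⟩

theorem cst_comm_lf {A σ : Type*} [Ring A] [Fintype σ] {c : A} {w : σ → A}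
    (h : ∀ v, Commute c (w v)) : Commute (cst σ c) (lf w) := by
  unfold lf
  refine Commute.sum_right _ _ _ fun v _ => ?_
  show cst σ c * single (Finsupp.single v 1) (w v) = single (Finsupp.single v 1) (w v) * cst σ c
  rw [cst_apply, single_mul_single, single_mul_single, zero_add, add_zero, (h v).eq]

section Main

variable {F D I σ : Type} [CommRing F] [Ring D] [Algebra F D] [Fintype I] [Fintype σ]
  (a : I → ℕ) (th : I → I → F) (Q : I → MvPolynomial (Option σ) F) (w : I → σ → D)

/-- The killing property (for cocycles of constants). -/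
def Kill : Prop :=
  ∀ (E : Type) [AddCommGroup E] (τ : F →+* AddMonoid.End E) (u : I → Option σ → AddMonoid.End E),
    (∀ i v c, Commute (τ c) (u i v)) → IsTuple a th Q τ u → ∀ z : I → AddMonoid.End E,
    (∀ i c, Commute (τ c) (z i)) → IsCoc a th τ (fun i => lf (u i)) (fun i => cst (Option σ) (z i)) →
    ∃ (M : ℕ) (η : PA (AddMonoid.End E) (Option σ)), Hg M η ∧
      Cf (Subring.centralizer (Set.range τ)) η ∧
      ∀ i, sv (AddMonoid.End E) σ ^ (M + 1) * cst (Option σ) (z i) = lf (u i) * η - η * lf (u i)

variable {a th Q w}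

/-- **Lifting of cocycles**, ring level. -/
theorem lift_ring (hK : Kill a th Q) (hE : EProp a th w) {E : Type} [AddCommGroup E]
    (g : U a th Q w →+* AddMonoid.End E) (P S : AddMonoid.End E)
    (hP : ∀ t, Commute P (g t)) (hS : ∀ d, Commute S (g (iD a th Q w d)))
    (hPS : ∀ t, Commute (P * S) (g t)) (hPSP : P * S * P = P)
    (z : I → AddMonoid.End E) (hzF : ∀ i c, Commute (g (iL a th Q w c)) (z i))
    (hz : IsCoc a th (g.comp (iL a th Q w)) (fun i => lf (fun v => g (wU a th Q w i v)))
      (fun i => cst (Option σ) (z i)))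
    (hzP : ∀ i, P * S * z i = z i) :
    ∃ z' : I → AddMonoid.End E, (∀ i c, Commute (g (iL a th Q w c)) (z' i)) ∧
      IsCoc a th (g.comp (iL a th Q w)) (fun i => lf (fun v => g (wU a th Q w i v)))
        (fun i => cst (Option σ) (z' i)) ∧ ∀ i, P * z' i = z i := by
  set τ : F →+* AddMonoid.End E := g.comp (iL a th Q w) with hτ
  set ρ : D →+* AddMonoid.End E := g.comp (iD a th Q w) with hρ
  have hρτ : ρ.comp (algebraMap F D) = τ := by
    ext c : 1
    change g (iD a th Q w (algebraMap F D c)) = g (iL a th Q w c)
    rw [iD_base]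
    rfl
  have hcomm : ∀ i v c, Commute (τ c) (g (wU a th Q w i v)) := fun i v c =>
    (iL_comm a th Q w c _).map g
  have htup : IsTuple a th Q τ (fun i v => g (wU a th Q w i v)) := (isTuple_wU a th Q w).map g
  set W : I → PA (AddMonoid.End E) (Option σ) := fun i => lf (fun v => g (wU a th Q w i v)) with hW
  set C := Subring.centralizer (Set.range τ) with hC
  have hSτ : ∀ c, Commute S (τ c) := fun c => by
    rw [← hρτ]
    exact hS _
  have hSC : S ∈ C := by
    rw [hC, Subring.mem_centralizer_iff]
    rintro _ ⟨c, rfl⟩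
    exact (hSτ c).symm.eq
  have hPC : P ∈ C := by
    rw [hC, Subring.mem_centralizer_iff]
    rintro _ ⟨c, rfl⟩
    exact (hP _).symm.eq
  have hWC : ∀ i, Cf C (W i) := fun i => cf_lf _ fun v => by
    rw [hC, Subring.mem_centralizer_iff]
    rintro _ ⟨c, rfl⟩
    exact (hcomm i v c).eq
  have hbd : ∀ η : PA (AddMonoid.End E) (Option σ), Cf C η →
      IsCoc a th τ W (fun i => W i * η - η * W i) := by
    intro η hη
    exact isCoc_bd htup η (fun x => cst_comm_of_cf hη x) (fun i => mp_comm hη (Q i)) (fun x => rfl)
  have hPW : ∀ i, Commute (cst (Option σ) P) (W i) := fun i => cst_comm_lf fun v => hP _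
  have hPSW : ∀ i, Commute (cst (Option σ) (P * S)) (W i) := fun i => cst_comm_lf fun v => hPS _
  obtain ⟨M, η, hηM, hηF, hη⟩ := hK E τ _ hcomm htup z hzF hz
  have key : ∀ k j, j + k = M + 1 → ∃ ζ : I → PA (AddMonoid.End E) (Option σ),
      (∀ i, Hg j (ζ i)) ∧ (∀ i, Cf C (ζ i)) ∧ IsCoc a th τ W ζ ∧
      ∀ i, cst (Option σ) P * ζ i = sv (AddMonoid.End E) σ ^ j * cst (Option σ) (z i) := by
    intro k
    induction k with
    | zero =>
      intro j hj
      obtain rfl : j = M + 1 := hj
      have hSη : Cf C (cst (Option σ) S * η) := (cf_cst hSC).mul hηF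
      refine ⟨fun i => W i * (cst (Option σ) S * η) - (cst (Option σ) S * η) * W i,
        fun i => ?_, fun i => ((hWC i).mul hSη).sub (hSη.mul (hWC i)), hbd _ hSη, fun i => ?_⟩
      · have h1 : Hg (0 + M) (cst (Option σ) S * η) := (hg_cst S).mul hηM
        rw [zero_add] at h1
        have h2 : Hg (1 + M) (W i * (cst (Option σ) S * η)) := (hg_lf _).mul h1
        rw [add_comm] at h2
        exact h2.sub (h1.mul (hg_lf _))
      · have h1 : cst (Option σ) P * (W i * (cst (Option σ) S * η) - cst (Option σ) S * η * W i) =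
            cst (Option σ) (P * S) * (W i * η - η * W i) := by
          rw [mul_sub, ← mul_assoc, (hPW i).eq, mul_sub, ← mul_assoc (cst (Option σ) (P * S)),
            (hPSW i).eq, map_mul]
          simp only [mul_assoc]
        rw [h1]
        have h2 := hη i
        change _ = W i * η - η * W i at h2
        rw [← h2, ← mul_assoc, ← ((var_comm (none : Option σ) _).pow_left (M + 1)).eq, mul_assoc,
          ← map_mul, hzP]
    | succ k ih =>
      intro j hj
      obtain ⟨ζ, hζH, hζC, hζ, hζP⟩ := ih (j + 1) (by omega)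
      -- restriction to `s = 0`
      have hr : IsCoc a th (ρ.comp (algebraMap F D)) (fun i => lf (fun v => ρ (w i v)))
          (fun i => r0 (ζ i)) := by
        have hW0 : ∀ i, r0 (W i) = lf (fun v => ρ (w i v)) := fun i => by
          rw [hW, r0_lf]
          rfl
        constructor
        · intro i l
          have := congrArg r0 (hζ.comm i l)
          simpa only [map_sub, map_mul, hW0] using this
        · intro i
          have := congrArg r0 (hζ.rel i)
          rw [map_Dn, map_sum] at this
          simp only [map_mul, map_Dn, hW0, r0_cst] at this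
          rw [hρτ]
          exact this
      obtain ⟨η', hη'H, hη'C, hη'⟩ := hE E ρ j (fun i => r0 (ζ i)) (fun i => (hζH i).r0)
        (fun i => by rw [hρτ]; exact (hζC i).r0) hr
      rw [hρτ] at hη'C
      have hr0P : ∀ i, cst σ P * r0 (ζ i) = 0 := by
        intro i
        have := congrArg r0 (hζP i)
        rw [map_mul, r0_cst, map_mul, map_pow, r0_var_none, pow_succ, mul_zero, zero_mul] at this
        exact this
      let e : AddMonoid.End E := 1 - S * P
      have heC : e ∈ C := C.sub_mem C.one_mem (C.mul_mem hSC hPC)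
      have heD : ∀ d, Commute e (ρ d) := fun d =>
        (Commute.one_left _).sub_left ((hS d).mul_left (hP _))
      have hPe : P * e = 0 := by
        change P * (1 - S * P) = 0
        rw [mul_sub, mul_one, ← mul_assoc, hPSP, sub_self]
      let η'' : PA (AddMonoid.End E) σ := cst σ e * η'
      have hη''C : Cf C η'' := (cf_cst heC).mul hη'C
      have hη''H : Hg j η'' := by
        have := (hg_cst (σ := σ) e).mul hη'H
        rwa [zero_add] at this
      have heW : ∀ i, Commute (cst σ e) (lf (fun v => ρ (w i v))) := fun i =>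
        cst_comm_lf fun v => heD _
      have hη''eq : ∀ i, r0 (ζ i) = lf (fun v => ρ (w i v)) * η'' - η'' * lf (fun v => ρ (w i v)) := by
        intro i
        have h1 : cst σ e * r0 (ζ i) = r0 (ζ i) := by
          change cst σ (1 - S * P) * r0 (ζ i) = r0 (ζ i)
          rw [map_sub, map_one, sub_mul, one_mul, map_mul, mul_assoc, hr0P, mul_zero, sub_zero]
        rw [← h1, hη' i]
        change cst σ e * _ = _ * (cst σ e * η') - (cst σ e * η') * _
        rw [mul_sub, ← mul_assoc, (heW i).eq]
        simp only [mul_assoc]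
      have hW0 : ∀ i, r0 (W i) = lf (fun v => ρ (w i v)) := fun i => by
        rw [hW, r0_lf]
        rfl
      have hemC : Cf C (em η'') := hη''C.em
      let ζm : I → PA (AddMonoid.End E) (Option σ) := fun i => ζ i - (W i * em η'' - em η'' * W i)
      have hζm0 : ∀ i, r0 (ζm i) = 0 := by
        intro i
        change r0 (ζ i - (W i * em η'' - em η'' * W i)) = 0
        rw [map_sub, map_sub, map_mul r0 (W i) (em η''), map_mul r0 (em η'') (W i), r0_em, hW0,
          ← hη''eq, sub_self]
      have hζmdv : ∀ i, sv (AddMonoid.End E) σ * dv (ζm i) = ζm i := fun i => sv_mul_dv (hζm0 i)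
      have hζmC : IsCoc a th τ W ζm := hζ.sub (hbd _ hemC)
      refine ⟨fun i => dv (ζm i), fun i => ?_, fun i => ?_, ?_, fun i => ?_⟩
      · apply Hg.dv
        have h1 : Hg j (em η'') := hη''H.em
        have h2 : Hg (1 + j) (W i * em η'') := (hg_lf _).mul h1
        rw [add_comm] at h2
        exact (hζH i).sub (h2.sub (h1.mul (hg_lf _)))
      · apply Cf.dv
        exact (hζC i).sub (((hWC i).mul hemC).sub (hemC.mul (hWC i)))
      · apply IsCoc.of_sv
        have : (fun i => sv (AddMonoid.End E) σ * dv (ζm i)) = ζm := funext hζmdv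
        rw [this]
        exact hζmC
      · apply sv_mul_inj
        rw [← mul_assoc, (var_comm (none : Option σ) _).eq, mul_assoc, hζmdv]
        have h1 : cst (Option σ) P * em η'' = 0 := by
          change cst (Option σ) P * em (cst σ e * η') = 0
          rw [map_mul, em_cst, ← mul_assoc, ← map_mul, hPe, map_zero, zero_mul]
        change cst (Option σ) P * (ζ i - (W i * em η'' - em η'' * W i)) = _
        rw [mul_sub, hζP, mul_sub, ← mul_assoc, (hPW i).eq, mul_assoc, h1, mul_zero, ← mul_assoc,
          h1, zero_mul, sub_zero, sub_zero, pow_succ', mul_assoc]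
  obtain ⟨ζ, hζH, hζC, hζ, hζP⟩ := key (M + 1) 0 (zero_add _)
  have hcst : ∀ i, ζ i = cst (Option σ) ((ζ i).coeff 0) := fun i => eq_cst_of_hg_zero (hζH i)
  refine ⟨fun i => (ζ i).coeff 0, fun i c => ?_, ?_, fun i => ?_⟩
  · exact (Subring.mem_centralizer_iff.1 (hζC i 0)) _ ⟨c, rfl⟩
  · have : (fun i => cst (Option σ) ((ζ i).coeff 0)) = ζ := funext fun i => (hcst i).symm
    rw [this]
    exact hζ
  · have h1 := hζP i
    rw [hcst i, ← map_mul, pow_zero, one_mul] at h1
    have h2 := congrArg (fun f : PA (AddMonoid.End E) (Option σ) => f.coeff 0) h1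
    simpa [cst_apply] using h2

end Main

end Crest.Agent.R181.HL
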