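import Crest.Agent.R181.KL279b
import Crest.Agent.R181.HL776a

/-!
R181 (helper279): the killing property in 776's form `HL.Kill`, for every level of the tower.
-/

set_option autoImplicit false
set_option linter.unusedSectionVars false

namespace Crest.Agent.R181.KL

open Finset
open Crest.Agent.R181.UR
open Crest.Agent.R181.H Crest.Agent.R181.H.Prm
open Crest.Agent.R181.HT (Cf Hg IsCoc sv)

noncomputable section

section hc

variable {A σ : Type*} [Ring A]

/-- The homogeneous component of degree `n`. -/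
def hc (n : ℕ) : PA A σ →+ PA A σ where
  toFun f := AddMonoidAlgebra.ofCoeff (f.coeff.filter (fun m => m.degree = n))
  map_zero' := by
    ext m
    show (Finsupp.filter (fun m : σ →₀ ℕ => m.degree = n) (0 : (σ →₀ ℕ) →₀ A)) m = 0
    rw [Finsupp.filter_apply]
    simp
  map_add' f g := by
    ext m
    simp [Finsupp.filter_add]

theorem coeff_hc (n : ℕ) (f : PA A σ) (m : σ →₀ ℕ) :
    (hc n f).coeff m = if m.degree = n then f.coeff m else 0 := by
  show (f.coeff.filter (fun m => m.degree = n)) m = _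
  rw [Finsupp.filter_apply]

theorem hg_hc (n : ℕ) (f : PA A σ) : Hg n (hc n f) := by
  intro m hm
  rw [coeff_hc] at hm
  by_contra h
  rw [if_neg h] at hm
  exact hm rfl

theorem hc_of_hg {n : ℕ} {f : PA A σ} (hf : Hg n f) : hc n f = f := by
  ext m
  rw [coeff_hc]
  split_ifs with h
  · rfl
  · by_contra h'
    exact h (hf m (fun h0 => h' h0.symm))

theorem hc_of_hg_ne {n n' : ℕ} (h : n' ≠ n) {f : PA A σ} (hf : Hg n' f) : hc n f = 0 := by
  ext m
  rw [coeff_hc]
  split_ifs with h1
  · by_contra h'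
    exact h ((hf m (fun h0 => h' h0)).symm.trans h1)
  · rfl

theorem hc_mul_left {d : ℕ} (n : ℕ) {f : PA A σ} (hf : Hg d f) (g : PA A σ) :
    hc (d + n) (f * g) = f * hc n g := by
  induction g using AddMonoidAlgebra.induction_linear with
  | zero => simp
  | add p q hp hq => rw [mul_add, map_add, hp, hq, map_add, mul_add]
  | single m a =>
    by_cases h : m.degree = n
    · rw [hc_of_hg (HT.hg_single h a), hc_of_hg (hf.mul (HT.hg_single h a))]
    · rw [hc_of_hg_ne h (HT.hg_single rfl a), mul_zero,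
        hc_of_hg_ne (fun h' => h (Nat.add_left_cancel h')) (hf.mul (HT.hg_single rfl a))]

theorem hc_mul_right {d : ℕ} (n : ℕ) {f : PA A σ} (hf : Hg d f) (g : PA A σ) :
    hc (n + d) (g * f) = hc n g * f := by
  induction g using AddMonoidAlgebra.induction_linear with
  | zero => simp
  | add p q hp hq => rw [add_mul, map_add, hp, hq, map_add, add_mul]
  | single m a =>
    by_cases h : m.degree = n
    · rw [hc_of_hg (HT.hg_single h a), hc_of_hg ((HT.hg_single h a).mul hf)]
    · rw [hc_of_hg_ne h (HT.hg_single rfl a), zero_mul,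
        hc_of_hg_ne (fun h' => h (Nat.add_right_cancel h')) ((HT.hg_single rfl a).mul hf)]

theorem cf_hc {S : Subring A} {f : PA A σ} (hf : Cf S f) (n : ℕ) : Cf S (hc n f) := by
  intro m
  rw [coeff_hc]
  split_ifs
  · exact hf m
  · exact S.zero_mem

end hc

variable {r : ℕ} {F : Type} [Field F] [Algebra ℂ F] (P : Prm r F)

/-- **(KILL)** in the form of H9. -/
theorem kill_HL {i : ℕ} (hi : i < r + 1) :
    HL.Kill (σ := TW.Vr i) (dat P).a (dat P).th ((dat P).Ql i (TW.dl F i)) := by
  intro E _ τ u hF hu z hzF hz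
  obtain ⟨M, η, hη, h⟩ := kill P hi τ u (fun l v c => hF l v c) hu _
    (fun l => by
      rw [cf_iff]
      intro c
      show Commute (cst _ (τ c)) (cst _ (z l))
      exact (hzF l c).map (cst _)) hz
  have hs : ∀ f : PA (AddMonoid.End E) (Option (TW.Vr i)),
      Commute (sv (AddMonoid.End E) (TW.Vr i)) f := fun f => UR.var_comm (none : Option (TW.Vr i)) f
  have hsη : Cf (Subring.centralizer (Set.range τ)) (sv (AddMonoid.End E) (TW.Vr i) * η) := by
    rw [cf_iff] at hη ⊢
    intro c
    exact (hs _).symm.mul_right (hη c)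
  refine ⟨M, hc M (sv (AddMonoid.End E) (TW.Vr i) * η), hg_hc _ _, cf_hc hsη M, fun l => ?_⟩
  have h1 := h l
  change sv (AddMonoid.End E) (TW.Vr i) ^ M * cst _ (z l) = _ at h1
  have h2 : sv (AddMonoid.End E) (TW.Vr i) ^ (M + 1) * cst (Option (TW.Vr i)) (z l) =
      lf (u l) * (sv (AddMonoid.End E) (TW.Vr i) * η) -
        (sv (AddMonoid.End E) (TW.Vr i) * η) * lf (u l) := by
    rw [pow_succ', mul_assoc, h1, mul_sub, ← mul_assoc, (hs (lf (u l))).eq]
    simp only [mul_assoc]
  have h3 : Hg (M + 1) (sv (AddMonoid.End E) (TW.Vr i) ^ (M + 1) *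
      cst (Option (TW.Vr i)) (z l)) := by
    have h4 : ∀ n : ℕ, Hg n (sv (AddMonoid.End E) (TW.Vr i) ^ n) := by
      intro n
      induction n with
      | zero => rw [pow_zero]; exact HT.hg_cst (σ := Option (TW.Vr i)) (1 : AddMonoid.End E)
      | succ n ih =>
        rw [pow_succ]
        exact ih.mul (HT.hg_var _)
    have h5 := (h4 (M + 1)).mul (HT.hg_cst (σ := Option (TW.Vr i)) (z l))
    rwa [add_zero] at h5
  rw [← hc_of_hg h3, h2, map_sub, hc_mul_right M (HT.hg_lf (u l)), add_comm M 1,
    hc_mul_left M (HT.hg_lf (u l))]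

end

end Crest.Agent.R181.KL
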