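import Crest.Agent.R181.AS6
import Crest.Agent.R181.KL279c

/-!
# The concrete data of the tower: parameters of block H, killing, final theorem
-/

set_option autoImplicit false
set_option linter.unusedSectionVars false

namespace Crest.Agent.R181.AS

open Finset
open Crest.Agent.R181.UR
open Crest.Agent.R181.H

noncomputable section

variable {r : ℕ} (a : Fin (r + 1) → ℕ) (f : Fin (r + 1) → MvPolynomial (Fin (r + 1)) ℂ)
  (ha : Monotone a) (ha2 : ∀ i, 2 ≤ a i) (hf : ∀ i, (f i).IsHomogeneous (a i))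

/-- The parameters of block H over the concrete field. -/
def prm (hX : ∀ t, ∃ M : ℕ, (MvPolynomial.X t : MvPolynomial (Fin (r + 1)) ℂ) ^ M ∈
      Ideal.span (Set.range f)) : Prm r (Fld (r + 1)) where
  a := a
  f := f
  c i := cF i.succ
  cc i j l := ccF i.succ j l
  θ i m := par (Sum.inr (Sum.inr (i.succ, m.succ)))
  ha := ha2
  mono := ha
  hom := hf
  hf := hX
  hc i := cF_ne_zero _
  dc i := by
    obtain ⟨d, h1, h2⟩ := exists_der (Par (r + 1)) (Sum.inl i.succ)
    refine ⟨d, ⟨h1, fun i' h => h2 _ fun h' => h (Fin.succ_injective _ (Sum.inl_injective h'))⟩,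
      fun i' j l => h2 _ (by simp), fun i' m => h2 _ (by simp)⟩
  dcc i j l := by
    obtain ⟨d, h1, h2⟩ := exists_der (Par (r + 1)) (Sum.inr (Sum.inl (i.succ, j, l)))
    refine ⟨d, fun i' => h2 _ (by simp), ⟨h1, fun i' j' l' h => h2 _ fun h' => h ?_⟩,
      fun i' m => h2 _ fun h' => Sum.inr_ne_inl (Sum.inr_injective h')⟩
    have h3 := Sum.inl_injective (Sum.inr_injective h')
    simp only [Prod.mk.injEq, Fin.succ_inj] at h3 ⊢
    exact h3
  dθ i m := by
    obtain ⟨d, h1, h2⟩ := exists_der (Par (r + 1)) (Sum.inr (Sum.inr (i.succ, m.succ)))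
    refine ⟨d, fun i' => h2 _ (by simp), fun i' j' l' => h2 _ fun h' =>
      Sum.inl_ne_inr (Sum.inr_injective h'), h1, fun i' m' h => h2 _ fun h' => h ?_⟩
    have h3 := Sum.inr_injective (Sum.inr_injective h')
    simp only [Prod.mk.injEq, Fin.succ_inj] at h3 ⊢
    exact h3

variable (hX : ∀ t, ∃ M : ℕ, (MvPolynomial.X t : MvPolynomial (Fin (r + 1)) ℂ) ^ M ∈
      Ideal.span (Set.range f))

theorem prm_b : (prm a f ha ha2 hf hX).b = fun i => a i.succ := rfl

theorem prm_th : (prm a f ha ha2 hf hX).th = fun i l => thF i.succ l.succ := by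
  funext i l
  unfold Prm.th thF
  by_cases h : i < l
  · rw [if_pos h, if_pos (Fin.succ_lt_succ_iff.2 h)]
    rfl
  · rw [if_neg h, if_neg (fun h' => h (Fin.succ_lt_succ_iff.1 h'))]

theorem prm_Q_aux {K : Type} [Field K] (c : K) (q : MvPolynomial (Fin (r + 1)) K) (i : Fin r)
    (cc : Fin (r + 1) → Fin (r + 1) → K) (a : Fin (r + 1) → ℕ)
    (g : Fin (r + 1) → MvPolynomial (Fin (r + 1)) K) :
    MvPolynomial.C c * q + ∑ j ∈ univ.filter (fun j => j ≤ i.castSucc), ∑ l,
      MvPolynomial.C (cc j l) * (MvPolynomial.X l ^ (a i.succ - a j) * g j) =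
    MvPolynomial.C c * q + ∑ j ∈ univ.filter (fun j => j < i.succ), ∑ l,
      MvPolynomial.C (cc j l) * (g j * MvPolynomial.X l ^ (a i.succ - a j)) := by
  congr 1
  have h1 : (univ.filter (fun j : Fin (r + 1) => j ≤ i.castSucc)) =
      univ.filter (fun j => j < i.succ) := by
    ext j
    simp only [mem_filter, mem_univ, true_and, Fin.le_def, Fin.lt_def, Fin.val_castSucc,
      Fin.val_succ]
    omega
  rw [h1]
  refine Finset.sum_congr rfl fun j _ => Finset.sum_congr rfl fun v _ => ?_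
  rw [mul_comm (g j)]

theorem prm_Q : (prm a f ha ha2 hf hX).Q = fun i => QF a f i.succ := by
  funext i
  exact prm_Q_aux (cF i.succ) (fF f i.succ) i (fun j l => ccF i.succ j l) a (fF f)

/-- The data of the tower is the data of the parameters. -/
theorem dat_prm : KL.dat (prm a f ha ha2 hf hX) = dat a f ha ha2 hf := by
  have h1 : ∀ d d' : TW.Dat (Fld (r + 1)) (Fin r) (r + 1), d.a = d'.a → d.th = d'.th →
      d.Q = d'.Q → d = d' := by
    rintro ⟨_, _, _, _, _⟩ ⟨_, _, _, _, _⟩ rfl rfl rfl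
    rfl
  exact h1 _ _ rfl (prm_th a f ha ha2 hf hX) (prm_Q a f ha ha2 hf hX)

include hX in
/-- **(KILL)** for the concrete data. -/
theorem kill {i : ℕ} (hi : i < r + 1) :
    HL.Kill (σ := TW.Vr i) (dat a f ha ha2 hf).a (dat a f ha ha2 hf).th
      ((dat a f ha ha2 hf).Ql i (TW.dl (Fld (r + 1)) i)) := by
  have h := KL.kill_HL (prm a f ha ha2 hf hX) hi
  rw [dat_prm] at h
  exact h

end

/-- **The final theorem** from the tower of the concrete data. -/
theorem result_of_dat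
    (htower : ∀ (r : ℕ) (a : Fin (r + 1) → ℕ) (f : Fin (r + 1) → MvPolynomial (Fin (r + 1)) ℂ)
      (ha : Monotone a) (ha2 : ∀ i, 2 ≤ a i) (hf : ∀ i, (f i).IsHomogeneous (a i))
      (_ : ∃ N : ℕ, ∀ t, (MvPolynomial.X t : MvPolynomial (Fin (r + 1)) ℂ) ^ N ∈
        Ideal.span (Set.range f)),
      ∃ (D : Type) (_ : DivisionRing D) (_ : Algebra (Fld (r + 1)) D) (w : Fin r → Fin (r + 1) → D),
        IsTuple (dat a f ha ha2 hf).a (dat a f ha ha2 hf).th (dat a f ha ha2 hf).Q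
          (algebraMap (Fld (r + 1)) D) w)
    (n : ℕ) (hn : 1 ≤ n) (a : Fin n → ℕ)
    (ha : Monotone a) (ha2 : ∀ i, 2 ≤ a i) (I : Ideal (MvPolynomial (Fin n) ℂ))
    (hI : ∀ g ∈ I, ∀ d : ℕ, MvPolynomial.homogeneousComponent d g ∈ I)
    (f : Fin n → MvPolynomial (Fin n) ℂ) (hf : ∀ i, (f i).IsHomogeneous (a i)) (hfI : ∀ i, f i ∈ I)
    (hreg : RingTheory.Sequence.IsRegular (MvPolynomial (Fin n) ℂ) (List.ofFn f)) :
    KL.Concl n a I := by
  obtain ⟨r, rfl⟩ : ∃ r, n = r + 1 := ⟨n - 1, by omega⟩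
  obtain ⟨N, hN⟩ := exists_X_pow_mem f a hf hreg
  obtain ⟨D, _, _, w, hw⟩ := htower r a f ha ha2 hf ⟨N, hN⟩
  refine KL.result_of_prm (prm a f ha ha2 hf (fun t => ⟨N, hN t⟩)) I hI hfI hreg w ?_
  rw [prm_b, prm_th, prm_Q]
  exact hw

end Crest.Agent.R181.AS
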