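import Crest.Agent.R181.UR396b

/-!
R181, block B9 (helper553): (MON) the difference of a homogeneous form and its restriction to `s = 0`
as a sum of products `c * s * (a - 1 variables)`; (N_0) injectivity of `D[ζ] → U` from the
nontriviality of the specialisations.
-/

set_option autoImplicit false
set_option linter.unusedSectionVars false

namespace Crest.Agent.R181.BM

section Mon

open MvPolynomial

variable {R σ : Type*} [CommRing R]

/-- a monomial of degree `n` is a product of `n` variables -/
theorem monomial_eq_prod [Nonempty σ] (n : ℕ) : ∀ (m : σ →₀ ℕ), m.degree = n →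
    ∃ v : ℕ → σ, (monomial m 1 : MvPolynomial σ R) = ∏ p ∈ Finset.range n, X (v p) := by
  classical
  induction n with
  | zero =>
    intro m hm
    obtain ⟨x⟩ := ‹Nonempty σ›
    refine ⟨fun _ => x, ?_⟩
    rw [Finsupp.degree_eq_zero_iff] at hm
    simp [hm]
  | succ n ih =>
    intro m hm
    have hne : m ≠ 0 := by
      rintro rfl
      simp at hm
    obtain ⟨x, hx⟩ := Finsupp.ne_iff.1 hne
    have hx' : 1 ≤ m x := Nat.one_le_iff_ne_zero.2 (by simpa using hx)
    have hle : Finsupp.single x 1 ≤ m := by
      intro y
      by_cases h : y = x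
      · rw [h, Finsupp.single_eq_same]; exact hx'
      · rw [Finsupp.single_eq_of_ne h]; exact Nat.zero_le _
    obtain ⟨m', hm'⟩ : ∃ m', m = Finsupp.single x 1 + m' := ⟨m - Finsupp.single x 1, by
      rw [add_tsub_cancel_of_le hle]⟩
    have hd : m'.degree = n := by
      have := hm
      rw [hm', map_add, Finsupp.degree_single] at this
      omega
    obtain ⟨v, hv⟩ := ih m' hd
    refine ⟨fun p => if p = n then x else v p, ?_⟩
    rw [Finset.prod_range_succ, hm']
    have h1 : (monomial (Finsupp.single x 1 + m') 1 : MvPolynomial σ R) =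
        monomial m' 1 * X x := by
      rw [X, monomial_mul, add_comm, mul_one]
    rw [h1, hv]
    congr 1
    · refine Finset.prod_congr rfl fun p hp => ?_
      rw [Finset.mem_range] at hp
      show X (v p) = X (if p = n then x else v p)
      rw [if_neg hp.ne]
    · simp

/-- restriction to `s = 0` -/
noncomputable def res0 : MvPolynomial (Option σ) R →ₐ[R] MvPolynomial σ R :=
  aeval (fun o : Option σ => o.elim 0 X)

@[simp] theorem res0_X_none : res0 (X none : MvPolynomial (Option σ) R) = 0 := by
  simp [res0]

@[simp] theorem res0_X_some (v : σ) : res0 (X (some v) : MvPolynomial (Option σ) R) = X v := by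
  simp [res0]

/-- the sum of products -/
noncomputable def lsum (a : ℕ) (l : List (R × (ℕ → Option σ))) : MvPolynomial (Option σ) R :=
  (l.map fun t => C t.1 * X none * ∏ p ∈ Finset.range (a - 1), X (t.2 p)).sum

/-- (MON) -/
theorem exists_list (a : ℕ) (Q : MvPolynomial (Option σ) R) (hQ : Q.IsHomogeneous a) :
    ∃ l : List (R × (ℕ → Option σ)),
      Q = rename some (res0 Q) + lsum a l := by
  classical
  -- the set of good polynomials
  let P : MvPolynomial (Option σ) R → Prop := fun Q =>
    ∃ l : List (R × (ℕ → Option σ)), Q = rename some (res0 Q) + lsum a l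
  have hadd : ∀ Q₁ Q₂, P Q₁ → P Q₂ → P (Q₁ + Q₂) := by
    rintro Q₁ Q₂ ⟨l₁, h₁⟩ ⟨l₂, h₂⟩
    refine ⟨l₁ ++ l₂, ?_⟩
    rw [map_add, map_add, lsum, List.map_append, List.sum_append]
    conv_lhs => rw [h₁, h₂]
    rw [lsum, lsum]
    ring
  have h0 : P 0 := ⟨[], by simp [lsum]⟩
  have hmon : ∀ (m : Option σ →₀ ℕ) (c : R), m.degree = a → P (monomial m c) := by
    intro m c hm
    by_cases hn : m none = 0
    · refine ⟨[], ?_⟩
      have h1 : rename some (res0 (monomial m c : MvPolynomial (Option σ) R)) = monomial m c := by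
        rw [res0, aeval_monomial, monomial_eq]
        rw [map_mul, algebraMap_eq, rename_C]
        congr 1
        rw [Finsupp.prod, Finsupp.prod, map_prod]
        refine Finset.prod_congr rfl fun o ho => ?_
        rw [map_pow]
        congr 1
        rcases o with _ | v
        · exact absurd hn (Finsupp.mem_support_iff.1 ho)
        · simp
      rw [h1]
      simp [lsum]
    · have hle : Finsupp.single none 1 ≤ m := by
        intro y
        by_cases h : y = none
        · rw [h, Finsupp.single_eq_same]; exact Nat.one_le_iff_ne_zero.2 hn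
        · rw [Finsupp.single_eq_of_ne h]; exact Nat.zero_le _
      obtain ⟨m', hm'⟩ : ∃ m', m = Finsupp.single none 1 + m' := ⟨m - Finsupp.single none 1, by
        rw [add_tsub_cancel_of_le hle]⟩
      have hd : m'.degree = a - 1 := by
        rw [hm', map_add, Finsupp.degree_single] at hm
        omega
      obtain ⟨v, hv⟩ := monomial_eq_prod (R := R) (a - 1) m' hd
      refine ⟨[(c, v)], ?_⟩
      have h1 : (monomial m c : MvPolynomial (Option σ) R) = C c * X none * monomial m' 1 := by
        rw [C_apply, X, monomial_mul, monomial_mul, hm']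
        simp
      have h2 : res0 (monomial m c : MvPolynomial (Option σ) R) = 0 := by
        rw [h1, map_mul, map_mul, res0_X_none, mul_zero, zero_mul]
      rw [h2, map_zero, zero_add, h1, hv]
      simp [lsum]
  show P Q
  rw [Q.as_sum]
  apply Finset.sum_induction _ P hadd h0
  intro m hm
  apply hmon
  have h1 := hQ (mem_support_iff.1 hm)
  rw [Finsupp.degree_eq_weight_one]
  exact h1

end Mon

section N0

open AddMonoidAlgebra Crest.Agent.R181.UR

variable {F D I σ ζ : Type} [Field F] [DivisionRing D] [Algebra F D] [Fintype I] [Fintype σ]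
variable (a : I → ℕ) (th : I → I → F) (Q : I → MvPolynomial (Option σ) (MvPolynomial ζ F))
  (w : I → σ → D)

/-- monomials in the central variables `ζ` -/
noncomputable def monZ : Multiplicative (ζ →₀ ℕ) →* U a th Q w where
  toFun m := iL a th Q w (MvPolynomial.monomial m.toAdd 1)
  map_one' := by
    show iL a th Q w (MvPolynomial.monomial 0 1) = 1
    rw [← MvPolynomial.C_apply, map_one, map_one]
  map_mul' x y := by
    show iL a th Q w (MvPolynomial.monomial (x.toAdd + y.toAdd) 1) = _
    rw [← map_mul, MvPolynomial.monomial_mul, mul_one]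

/-- `D[ζ] → U(D, w; F[ζ], Q)` -/
noncomputable def dz : PA D ζ →+* U a th Q w :=
  AddMonoidAlgebra.liftNCRingHom (iD a th Q w) (monZ a th Q w)
    (fun x y => (iL_comm a th Q w (MvPolynomial.monomial y.toAdd 1) (iD a th Q w x)).symm)

theorem dz_single (m : ζ →₀ ℕ) (d : D) : dz a th Q w (single m d) =
    iD a th Q w d * iL a th Q w (MvPolynomial.monomial m 1) := by
  simp [dz, monZ, AddMonoidAlgebra.liftNCRingHom]

@[simp] theorem dz_cst (d : D) : dz a th Q w (cst ζ d) = iD a th Q w d := by
  rw [cst_apply, dz_single, ← MvPolynomial.C_apply, map_one, map_one, mul_one]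

@[simp] theorem dz_var (z : ζ) : dz a th Q w (var D z) = iL a th Q w (MvPolynomial.X z) := by
  rw [var, dz_single, map_one, one_mul, MvPolynomial.X]

/-- the specialisation of the data at a point -/
noncomputable def Qev (p : ζ → F) : I → MvPolynomial (Option σ) F :=
  fun i => MvPolynomial.map (MvPolynomial.eval p) (Q i)

/-- specialisation at a point -/
theorem exists_ev (p : ζ → F) : ∃ f : U a th Q w →+* U a th (Qev Q p) w,
    (∀ d, f (iD a th Q w d) = iD a th (Qev Q p) w d) ∧
    (∀ x, f (iL a th Q w x) = iL a th (Qev Q p) w (MvPolynomial.eval p x)) ∧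
    ∀ i, f (eta a th Q w i) = eta a th (Qev Q p) w i := by
  refine exists_lift (F := F) (a := a) (th := th) (Q := Q) (w := w) (iD a th (Qev Q p) w)
    ((iL a th (Qev Q p) w).comp (MvPolynomial.eval p)) (eta a th (Qev Q p) w) ?_ ?_ ?_ ?_
  · intro c
    rw [iD_base, RingHom.comp_apply, MvPolynomial.algebraMap_eq, MvPolynomial.eval_C]
    rfl
  · intro x d
    exact iL_comm _ _ _ _ _ _
  · intro x i
    exact iL_comm _ _ _ _ _ _
  · have h := isTuple_wU a th (Qev Q p) w
    refine ⟨h.comm, fun i => ?_⟩
    have h1 := h.rel i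
    rw [wU] at h1
    rw [h1]
    congr 1
    · rw [Qev]
      ext α
      simp only [mp_coeff]
      rfl
    · refine Finset.sum_congr rfl fun l _ => ?_
      rw [RingHom.comp_apply, MvPolynomial.algebraMap_eq, MvPolynomial.eval_C]
      rfl

/-- (N_0) `D[ζ] → U(D, w; F[ζ], Q)` is injective as soon as all specialisations are nontrivial. -/
theorem dz_injective [Infinite F] (hne : ∀ p : ζ → F, Nontrivial (U a th (Qev Q p) w)) :
    Function.Injective (dz a th Q w) := by
  classical
  rw [injective_iff_map_eq_zero]
  intro x hx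
  by_contra hx0
  -- a coordinate
  obtain ⟨m, hm⟩ : ∃ m, x.coeff m ≠ 0 := by
    by_contra h
    push Not at h
    exact hx0 (by ext m; simpa using h m)
  obtain ⟨φ, hφ⟩ : ∃ φ : D →ₗ[F] F, φ (x.coeff m) ≠ 0 := by
    by_contra h
    push Not at h
    exact hm ((Module.forall_dual_apply_eq_zero_iff F _).1 h)
  let P : MvPolynomial ζ F := x.coeff.sum fun m d => MvPolynomial.monomial m (φ d)
  have hP : MvPolynomial.coeff m P = φ (x.coeff m) := by
    show MvPolynomial.coeff m (x.coeff.sum fun m d => MvPolynomial.monomial m (φ d)) = _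
    rw [Finsupp.sum, MvPolynomial.coeff_sum]
    simp only [MvPolynomial.coeff_monomial]
    rw [Finset.sum_ite_eq']
    split_ifs with h
    · rfl
    · rw [Finsupp.notMem_support_iff] at h
      rw [h, map_zero]
  have hP0 : P ≠ 0 := by
    intro h
    rw [h, MvPolynomial.coeff_zero] at hP
    exact hφ hP.symm
  obtain ⟨p, hp⟩ : ∃ p : ζ → F, MvPolynomial.eval p P ≠ 0 := by
    by_contra h
    push Not at h
    exact hP0 (MvPolynomial.funext fun p => by rw [h p, map_zero])
  obtain ⟨f, hfD, hfL, -⟩ := exists_ev a th Q w p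
  let y : D := x.coeff.sum fun m d => d * algebraMap F D (MvPolynomial.eval p
    (MvPolynomial.monomial m 1))
  have hy : iD a th (Qev Q p) w y = 0 := by
    rw [← map_zero f, ← hx]
    conv_rhs => rw [← sum_coeff_single x]
    rw [map_finsuppSum, map_finsuppSum, map_finsuppSum]
    refine Finsupp.sum_congr fun m _ => ?_
    rw [dz_single, map_mul, map_mul, hfD, hfL, iD_base]
    rfl
  have := hne p
  have hy0 : y = 0 := (iD a th (Qev Q p) w).injective (by rw [hy, map_zero])
  apply hp
  have h2 : φ y = MvPolynomial.eval p P := by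
    show φ (x.coeff.sum _) = MvPolynomial.eval p (x.coeff.sum _)
    rw [map_finsuppSum, map_finsuppSum]
    refine Finsupp.sum_congr fun m _ => ?_
    rw [← Algebra.commutes, ← Algebra.smul_def, map_smul, MvPolynomial.eval_monomial,
      MvPolynomial.eval_monomial, one_mul, smul_eq_mul, mul_comm]
  rw [← h2, hy0, map_zero]

end N0

end Crest.Agent.R181.BM
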