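import Mathlib

/-!
Row 181 (S0271), block (I3) of #11789, part a.
A symmetric multilinear form which is divisible by an irreducible polynomial not involving one of
the blocks is a multiple of a pure power of a linear form.
-/

set_option autoImplicit false

namespace Crest.Agent.R181.CD

open MvPolynomial

/-! ## Step 1: prime ideals of `R[X]` meeting `R` in zero -/

section Principal

theorem poly_principal {R : Type*} [CommRing R] [IsDomain R] [UniqueFactorizationMonoid R]
    (Q : Ideal (Polynomial R)) [hQp : Q.IsPrime] (hQ : Q ≠ ⊥)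
    (h0 : ∀ r : R, Polynomial.C r ∈ Q → r = 0) :
    ∃ π : Polynomial R, Irreducible π ∧ π ∈ Q ∧ ∀ f ∈ Q, π ∣ f := by
  classical
  obtain ⟨norm⟩ : Nonempty (NormalizedGCDMonoid R) := inferInstance
  let := norm
  obtain ⟨p0, hp0, hp0n⟩ := Submodule.exists_mem_ne_zero_of_ne_bot hQ
  -- minimal degree
  have hex : ∃ d, ∃ p ∈ Q, p ≠ 0 ∧ p.natDegree = d := ⟨_, p0, hp0, hp0n, rfl⟩
  obtain ⟨p1, hp1, hp1n, hp1d⟩ := Nat.find_spec hex
  have hmin : ∀ p ∈ Q, p ≠ 0 → p1.natDegree ≤ p.natDegree := by
    intro p hp hpn
    rw [hp1d]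
    exact Nat.find_min' hex ⟨p, hp, hpn, rfl⟩
  set π := p1.primPart with hπ
  have hπp : π.IsPrimitive := p1.isPrimitive_primPart
  have hπd : π.natDegree = p1.natDegree := p1.natDegree_primPart
  have hπQ : π ∈ Q := by
    have h1 : Polynomial.C p1.content * p1.primPart ∈ Q := by
      rw [← p1.eq_C_content_mul_primPart]; exact hp1
    rcases hQp.mem_or_mem h1 with h | h
    · exact absurd (Polynomial.content_eq_zero_iff.1 (h0 _ h)) hp1n
    · exact h
  have hπ0 : π ≠ 0 := hπp.ne_zero
  have hdvd : ∀ f ∈ Q, π ∣ f := by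
    intro f hf
    let K := FractionRing R
    have hinj : Function.Injective (algebraMap R K) := IsFractionRing.injective R K
    set φ := algebraMap R K with hφ
    set q := (f.map φ) / (π.map φ) with hq
    set r := (f.map φ) % (π.map φ) with hr
    have hdiv : π.map φ * q + r = f.map φ := EuclideanDomain.div_add_mod _ _
    have hπm : π.map φ ≠ 0 := by rwa [Ne, Polynomial.map_eq_zero_iff hinj]
    have hrd : r.degree < (π.map φ).degree := EuclideanDomain.mod_lt _ hπm
    -- clear denominators of q
    obtain ⟨c, hcM, hc⟩ := IsLocalization.integerNormalization_spec (nonZeroDivisors R) q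
    set q' := IsLocalization.integerNormalization (nonZeroDivisors R) q with hq'
    have hc0 : (c : R) ≠ 0 := nonZeroDivisors.ne_zero hcM
    have hg : Polynomial.C (c : R) * f - π * q' ∈ Q :=
      Q.sub_mem (Q.mul_mem_left _ hf) (Q.mul_mem_right _ hπQ)
    have hgm : (Polynomial.C (c : R) * f - π * q').map φ = Polynomial.C (φ c) * r := by
      rw [Polynomial.map_sub, Polynomial.map_mul, Polynomial.map_mul, Polynomial.map_C, ← hdiv, hc]
      rw [← Polynomial.smul_eq_C_mul, ← Polynomial.smul_eq_C_mul]
      have : (c : R) • q = (φ c) • q := by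
        rw [algebraMap_smul]
      rw [this]
      rw [smul_add, mul_smul_comm]
      ring
    have hr0 : r = 0 := by
      by_contra hrn
      have hgn : Polynomial.C (c : R) * f - π * q' ≠ 0 := by
        intro h
        rw [h, Polynomial.map_zero] at hgm
        have := mul_eq_zero.1 hgm.symm
        rcases this with h1 | h1
        · rw [Polynomial.C_eq_zero] at h1
          exact hc0 (hinj (by rw [h1, map_zero]))
        · exact hrn h1
      have h1 := hmin _ hg hgn
      have h2 : (Polynomial.C (c : R) * f - π * q').natDegree = r.natDegree := by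
        rw [← Polynomial.natDegree_map_eq_of_injective hinj, hgm]
        apply Polynomial.natDegree_C_mul
        intro h
        exact hc0 (hinj (by rw [h, map_zero]))
      have h3 : r.natDegree < (π.map φ).natDegree := by
        apply Polynomial.natDegree_lt_natDegree hrn hrd
      rw [Polynomial.natDegree_map_eq_of_injective hinj, hπd] at h3
      omega
    rw [hr0, add_zero] at hdiv
    have hl : q * π.map φ ∈ Polynomial.lifts φ := by
      rw [mul_comm, hdiv]
      exact (Polynomial.mem_lifts _).2 ⟨f, rfl⟩
    have hl2 := (hπp.mul_map_mem_lifts_iff (K := K)).1 hl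
    obtain ⟨s, hs⟩ := (Polynomial.mem_lifts _).1 hl2
    refine ⟨s, ?_⟩
    apply Polynomial.map_injective φ hinj
    rw [Polynomial.map_mul, hs, hdiv]
  refine ⟨π, ⟨?_, ?_⟩, hπQ, hdvd⟩
  · intro hu
    exact hQp.ne_top (Ideal.eq_top_of_isUnit_mem _ hπQ hu)
  · intro g h hgh
    have hgh' : g * h ∈ Q := hgh ▸ hπQ
    have key : ∀ g h : Polynomial R, π = g * h → g ∈ Q → IsUnit h := by
      intro g h hgh hg
      obtain ⟨s, hs⟩ := hdvd g hg
      have : g * (1 - s * h) = 0 := by
        have : g * (s * h) = g := by
          calc g * (s * h) = (g * h) * s := by ring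
            _ = π * s := by rw [← hgh]
            _ = g := hs.symm
        rw [mul_sub, mul_one, this, sub_self]
      have hg0 : g ≠ 0 := by
        rintro rfl; apply hπ0; rw [hgh, zero_mul]
      rcases mul_eq_zero.1 this with h1 | h1
      · exact absurd h1 hg0
      · exact IsUnit.of_mul_eq_one s (by rw [mul_comm]; exact (sub_eq_zero.1 h1).symm)
    rcases hQp.mem_or_mem hgh' with h1 | h1
    · exact Or.inr (key g h hgh h1)
    · exact Or.inl (key h g (by rw [mul_comm]; exact hgh) h1)

/-- the multivariate version: `P` contains no nonzero polynomial free of the variable `none` -/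
theorem mv_principal_option {L : Type*} [Field L] {σ : Type*}
    (P : Ideal (MvPolynomial (Option σ) L)) [hP : P.IsPrime] (hne : P ≠ ⊥)
    (h0 : ∀ f : MvPolynomial σ L, rename some f ∈ P → f = 0) :
    ∃ π : MvPolynomial (Option σ) L, Irreducible π ∧ π ∈ P ∧ ∀ f ∈ P, π ∣ f := by
  classical
  let e := optionEquivLeft L σ
  let Q : Ideal (Polynomial (MvPolynomial σ L)) := P.comap (e.symm : _ →+* _)
  have : Q.IsPrime := Ideal.comap_isPrime _ _
  have hQ : Q ≠ ⊥ := by
    obtain ⟨p, hp, hp0⟩ := Submodule.exists_mem_ne_zero_of_ne_bot hne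
    intro h
    have : e p ∈ Q := by
      change e.symm (e p) ∈ P
      rwa [AlgEquiv.symm_apply_apply]
    rw [h] at this
    have h1 : e p = 0 := by simpa using this
    exact hp0 (by simpa using h1)
  obtain ⟨π, h1, h2, h3⟩ := poly_principal Q hQ (by
    intro r hr
    apply h0
    have hr' : e.symm (Polynomial.C r) ∈ P := hr
    have : e.symm (Polynomial.C r) = rename some r := by
      rw [AlgEquiv.symm_apply_eq]
      have h : ((e : MvPolynomial (Option σ) L →ₐ[L] _).comp (rename some)) =
          (Algebra.ofId (MvPolynomial σ L) (Polynomial (MvPolynomial σ L))).restrictScalars L := by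
        apply MvPolynomial.algHom_ext
        intro i
        simp [e, optionEquivLeft_X_some, Algebra.ofId_apply]
      exact (DFunLike.congr_fun h r).symm
    rwa [this] at hr')
  refine ⟨e.symm π, ?_, h2, ?_⟩
  · exact (MulEquiv.irreducible_iff e.symm).2 h1
  · intro f hf
    have : e f ∈ Q := by
      change e.symm (e f) ∈ P
      rwa [AlgEquiv.symm_apply_apply]
    obtain ⟨s, hs⟩ := h3 _ this
    refine ⟨e.symm s, ?_⟩
    rw [← map_mul, ← hs, AlgEquiv.symm_apply_apply]

/-- `P` contains no nonzero polynomial in the variables different from `v0` -/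
theorem mv_principal {L : Type*} [Field L] {V : Type*} [DecidableEq V] (v0 : V)
    (P : Ideal (MvPolynomial V L)) [hP : P.IsPrime] (hne : P ≠ ⊥)
    (h0 : ∀ f : MvPolynomial {v // v ≠ v0} L, rename Subtype.val f ∈ P → f = 0) :
    ∃ π : MvPolynomial V L, Irreducible π ∧ π ∈ P ∧ ∀ f ∈ P, π ∣ f := by
  classical
  let q : Option {v // v ≠ v0} ≃ V := Equiv.optionSubtypeNe v0
  let e : MvPolynomial (Option {v // v ≠ v0}) L ≃ₐ[L] MvPolynomial V L := renameEquiv L q
  let Q : Ideal (MvPolynomial (Option {v // v ≠ v0}) L) := P.comap (e : _ →+* _)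
  have : Q.IsPrime := Ideal.comap_isPrime _ _
  have hQ : Q ≠ ⊥ := by
    obtain ⟨p, hp, hp0⟩ := Submodule.exists_mem_ne_zero_of_ne_bot hne
    intro h
    have : e.symm p ∈ Q := by
      change e (e.symm p) ∈ P
      rwa [AlgEquiv.apply_symm_apply]
    rw [h] at this
    have h1 : e.symm p = 0 := by simpa using this
    exact hp0 (by simpa using h1)
  obtain ⟨π, h1, h2, h3⟩ := mv_principal_option Q hQ (by
    intro r hr
    apply h0
    have hr' : e (rename some r) ∈ P := hr
    have h4 : e (rename some r) = rename Subtype.val r := by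
      change rename q (rename some r) = _
      rw [rename_rename]
      congr 1
    rwa [h4] at hr')
  refine ⟨e π, (MulEquiv.irreducible_iff e).2 h1, h2, ?_⟩
  intro f hf
  have : e.symm f ∈ Q := by
    change e (e.symm f) ∈ P
    rwa [AlgEquiv.apply_symm_apply]
  obtain ⟨s, hs⟩ := h3 _ this
  refine ⟨e s, ?_⟩
  rw [← map_mul, ← hs, AlgEquiv.apply_symm_apply]

end Principal

end Crest.Agent.R181.CD
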