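import Crest.Agent.R181.CD396a

/-!
Row 181 (S0271), block (I3) of #11789, part b: factors of symmetric multilinear forms.
-/

set_option autoImplicit false
set_option linter.unusedSectionVars false

namespace Crest.Agent.R181.CD

open MvPolynomial

section Form

variable {L : Type*} [Field L] {J : Type*} [Fintype J] [DecidableEq J] {b : ℕ}

/-- the exponent of `∏ i, X (i, j i)` -/
noncomputable def mon (j : Fin b → J) : (Fin b × J) →₀ ℕ :=
  ∑ i, Finsupp.single (i, j i) 1

/-- the multilinear form with coefficients `Φ` -/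
noncomputable def FF (Φ : (Fin b → J) → L) : MvPolynomial (Fin b × J) L :=
  ∑ j, monomial (mon j) (Φ j)

omit [Fintype J] in
lemma mon_apply (j : Fin b → J) (i : Fin b) (u : J) :
    mon j (i, u) = if j i = u then 1 else 0 := by
  classical
  simp only [mon, Finsupp.finsetSum_apply, Finsupp.single_apply, Prod.mk.injEq]
  rw [Finset.sum_eq_single i]
  · simp
  · intro k _ hk; simp [hk]
  · simp

omit [Fintype J] in
lemma mon_injective : Function.Injective (mon : (Fin b → J) → ((Fin b × J) →₀ ℕ)) := by
  intro j j' h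
  funext i
  have := DFunLike.congr_fun h (i, j' i)
  rw [mon_apply, mon_apply] at this
  simpa using this

lemma coeff_FF (Φ : (Fin b → J) → L) (j : Fin b → J) : coeff (mon j) (FF Φ) = Φ j := by
  classical
  simp only [FF, coeff_sum, coeff_monomial]
  rw [Finset.sum_eq_single j]
  · simp
  · intro k _ hk
    rw [if_neg]
    intro h; exact hk (mon_injective h)
  · simp

lemma exists_of_mem_support_FF (Φ : (Fin b → J) → L) {m : (Fin b × J) →₀ ℕ}
    (hm : m ∈ (FF Φ).support) : ∃ j, m = mon j := by
  classical
  rw [mem_support_iff] at hm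
  by_contra hne
  push Not at hne
  apply hm
  simp only [FF, coeff_sum, coeff_monomial]
  apply Finset.sum_eq_zero
  intro j _
  rw [if_neg]
  exact fun h => hne j h.symm

/-- the degree of an exponent in the block `k` -/
def wt (k : Fin b) (m : (Fin b × J) →₀ ℕ) : ℕ := ∑ u, m (k, u)

lemma wt_add (k : Fin b) (m n : (Fin b × J) →₀ ℕ) : wt k (m + n) = wt k m + wt k n := by
  simp [wt, Finset.sum_add_distrib]

lemma wt_mon (k : Fin b) (j : Fin b → J) : wt k (mon j) = 1 := by
  simp [wt, mon_apply]

/-- scaling of the block `k` -/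
noncomputable def tau (k : Fin b) :
    MvPolynomial (Fin b × J) L →ₐ[L] Polynomial (MvPolynomial (Fin b × J) L) :=
  aeval (fun v => if v.1 = k then Polynomial.X * Polynomial.C (X v) else Polynomial.C (X v))

lemma tau_monomial (k : Fin b) (m : (Fin b × J) →₀ ℕ) (c : L) :
    tau k (monomial m c) = Polynomial.C (monomial m c) * Polynomial.X ^ wt k m := by
  classical
  rw [tau, aeval_monomial, monomial_eq (s := m) (a := c), map_mul]
  rw [Finsupp.prod_fintype _ _ (by simp), Finsupp.prod_fintype _ _ (by simp)]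
  have h1 : (∏ v : Fin b × J, (if v.1 = k then Polynomial.X * Polynomial.C (X v)
      else Polynomial.C (X v) : Polynomial (MvPolynomial (Fin b × J) L)) ^ m v) =
      Polynomial.C (∏ v : Fin b × J, X v ^ m v) * Polynomial.X ^ wt k m := by
    have h2 : ∀ v : Fin b × J, (if v.1 = k then Polynomial.X * Polynomial.C (X v)
        else Polynomial.C (X v) : Polynomial (MvPolynomial (Fin b × J) L)) ^ m v =
        Polynomial.C (X v ^ m v) * Polynomial.X ^ (if v.1 = k then m v else 0) := by
      intro v
      split_ifs with h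
      · rw [mul_pow, map_pow, mul_comm]
      · rw [map_pow, pow_zero, mul_one]
    rw [Finset.prod_congr rfl (fun v _ => h2 v), Finset.prod_mul_distrib, map_prod,
      Finset.prod_pow_eq_pow_sum]
    congr 2
    rw [Fintype.sum_prod_type, wt, Finset.sum_eq_single k]
    · simp
    · intro i _ hi; simp [hi]
    · simp
  rw [h1, ← mul_assoc]
  rfl

lemma coeff_tau (k : Fin b) (f : MvPolynomial (Fin b × J) L) (m : (Fin b × J) →₀ ℕ) (n : ℕ) :
    coeff m ((tau k f).coeff n) = if wt k m = n then coeff m f else 0 := by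
  classical
  induction f using MvPolynomial.induction_on' with
  | monomial m' c =>
    rw [tau_monomial, Polynomial.coeff_C_mul, Polynomial.coeff_X_pow]
    by_cases h : m' = m
    · subst h
      by_cases h2 : wt k m' = n
      · simp [h2]
      · rw [if_neg (fun h => h2 h.symm), if_neg h2]; simp
    · by_cases h3 : n = wt k m'
      · simp [h3, coeff_monomial, h]
      · simp [h3, coeff_monomial, h]
  | add p q hp hq =>
    rw [map_add, Polynomial.coeff_add, coeff_add, hp, hq, coeff_add]
    split_ifs <;> simp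

lemma tau_ne_zero (k : Fin b) {f : MvPolynomial (Fin b × J) L} (hf : f ≠ 0) : tau k f ≠ 0 := by
  obtain ⟨m, hm⟩ := MvPolynomial.ne_zero_iff.1 hf
  intro h
  have := coeff_tau k f m (wt k m)
  rw [h] at this
  simp at this
  exact hm this.symm

/-- homogeneity in the block `k` -/
def Hom (k : Fin b) (e : ℕ) (f : MvPolynomial (Fin b × J) L) : Prop :=
  ∀ m, coeff m f ≠ 0 → wt k m = e

lemma tau_of_hom {k : Fin b} {e : ℕ} {f : MvPolynomial (Fin b × J) L} (hf : Hom k e f) :
    tau k f = Polynomial.C f * Polynomial.X ^ e := by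
  ext n m
  rw [coeff_tau, Polynomial.coeff_C_mul, Polynomial.coeff_X_pow]
  by_cases h : coeff m f = 0
  · split_ifs <;> simp [h]
  · have := hf m h
    by_cases h2 : n = e
    · simp [h2, this]
    · rw [if_neg (by omega), if_neg h2]; simp

lemma natDegree_tau {k : Fin b} {e : ℕ} {f : MvPolynomial (Fin b × J) L} (hf : Hom k e f)
    (h0 : f ≠ 0) : (tau k f).natDegree = e := by
  rw [tau_of_hom hf, Polynomial.natDegree_C_mul_X_pow _ _ h0]

lemma natTrailingDegree_tau {k : Fin b} {e : ℕ} {f : MvPolynomial (Fin b × J) L}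
    (hf : Hom k e f) (h0 : f ≠ 0) : (tau k f).natTrailingDegree = e := by
  rw [tau_of_hom hf, Polynomial.natTrailingDegree_mul_X_pow (by simpa using h0)]
  simp

lemma Hom.unique {k : Fin b} {e e' : ℕ} {f : MvPolynomial (Fin b × J) L} (hf : Hom k e f)
    (hf' : Hom k e' f) (h0 : f ≠ 0) : e = e' := by
  rw [← natDegree_tau hf h0, natDegree_tau hf' h0]

lemma hom_of_mul {k : Fin b} {e : ℕ} {f g : MvPolynomial (Fin b × J) L} (h : Hom k e (f * g))
    (h0 : f * g ≠ 0) : ∃ e₁ e₂, e₁ + e₂ = e ∧ Hom k e₁ f ∧ Hom k e₂ g := by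
  have hf : f ≠ 0 := left_ne_zero_of_mul h0
  have hg : g ≠ 0 := right_ne_zero_of_mul h0
  have h1 := natDegree_tau h h0
  have h2 := natTrailingDegree_tau h h0
  rw [map_mul, Polynomial.natDegree_mul (tau_ne_zero k hf) (tau_ne_zero k hg)] at h1
  rw [map_mul, Polynomial.natTrailingDegree_mul (tau_ne_zero k hf) (tau_ne_zero k hg)] at h2
  have h3 := Polynomial.natTrailingDegree_le_natDegree (tau k f)
  have h4 := Polynomial.natTrailingDegree_le_natDegree (tau k g)
  have key : ∀ p : MvPolynomial (Fin b × J) L,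
      (tau k p).natTrailingDegree = (tau k p).natDegree → Hom k (tau k p).natDegree p := by
    intro p hp m hm
    have h5 : (tau k p).coeff (wt k m) ≠ 0 := by
      intro h6
      have := coeff_tau k p m (wt k m)
      rw [h6] at this
      simp at this
      exact hm this.symm
    have h6 := Polynomial.le_natDegree_of_ne_zero h5
    have h7 := Polynomial.natTrailingDegree_le_of_ne_zero h5
    omega
  exact ⟨_, _, h1, key f (by omega), key g (by omega)⟩

lemma Hom.mul {k : Fin b} {e e' : ℕ} {f g : MvPolynomial (Fin b × J) L} (hf : Hom k e f)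
    (hg : Hom k e' g) : Hom k (e + e') (f * g) := by
  classical
  intro m hm
  rw [coeff_mul] at hm
  obtain ⟨x, hx, hx2⟩ := Finset.exists_ne_zero_of_sum_ne_zero hm
  have h1 := hf x.1 (left_ne_zero_of_mul hx2)
  have h2 := hg x.2 (right_ne_zero_of_mul hx2)
  rw [Finset.HasAntidiagonal.mem_antidiagonal] at hx
  rw [← hx, wt_add, h1, h2]

lemma FF_hom (Φ : (Fin b → J) → L) (k : Fin b) : Hom k 1 (FF Φ) := by
  intro m hm
  obtain ⟨j, rfl⟩ := exists_of_mem_support_FF Φ (mem_support_iff.2 hm)
  exact wt_mon k j

/-- permutation of the blocks -/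
noncomputable def rn (s : Equiv.Perm (Fin b)) :
    MvPolynomial (Fin b × J) L ≃ₐ[L] MvPolynomial (Fin b × J) L :=
  renameEquiv L (Equiv.prodCongr s (Equiv.refl J))

omit [Fintype J] in
lemma mapDomain_mon (s : Equiv.Perm (Fin b)) (j : Fin b → J) :
    Finsupp.mapDomain (Equiv.prodCongr s (Equiv.refl J)) (mon j) = mon (j ∘ s.symm) := by
  classical
  ext ⟨i, u⟩
  have h : Finsupp.mapDomain (Equiv.prodCongr s (Equiv.refl J)) (mon j)
      ((Equiv.prodCongr s (Equiv.refl J)) (s.symm i, u)) = mon j (s.symm i, u) :=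
    Finsupp.mapDomain_apply (Equiv.injective _) _ _
  simp only [Equiv.prodCongr_apply, Prod.map_apply, Equiv.apply_symm_apply,
    Equiv.refl_apply] at h
  rw [mon_apply] at h ⊢
  simpa using h

lemma rn_FF (s : Equiv.Perm (Fin b)) (Φ : (Fin b → J) → L) (hs : ∀ j, Φ (j ∘ s) = Φ j) :
    rn s (FF Φ) = FF Φ := by
  classical
  change rename _ (FF Φ) = FF Φ
  rw [FF, map_sum]
  simp only [rename_monomial]
  rw [← (Equiv.arrowCongr s (Equiv.refl J)).sum_comp (fun j => monomial (mon j) (Φ j))]
  apply Finset.sum_congr rfl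
  intro j _
  have h1 : (Equiv.arrowCongr s (Equiv.refl J)) j = j ∘ s.symm := rfl
  rw [h1, mapDomain_mon]
  congr 1
  rw [← hs (j ∘ s.symm)]
  congr 1
  funext i
  simp

lemma wt_mapDomain (s : Equiv.Perm (Fin b)) (k : Fin b) (m : (Fin b × J) →₀ ℕ) :
    wt (s k) (Finsupp.mapDomain (Equiv.prodCongr s (Equiv.refl J)) m) = wt k m := by
  classical
  unfold wt
  apply Finset.sum_congr rfl
  intro u _
  exact Finsupp.mapDomain_apply (f := Equiv.prodCongr s (Equiv.refl J)) (Equiv.injective _) m (k, u)

lemma Hom.rn {s : Equiv.Perm (Fin b)} {k : Fin b} {e : ℕ} {f : MvPolynomial (Fin b × J) L}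
    (hf : Hom k e f) : Hom (s k) e (rn s f) := by
  classical
  intro m hm
  have hm' : coeff m (rename (Equiv.prodCongr s (Equiv.refl J)) f) ≠ 0 := hm
  obtain ⟨m', h1, h2⟩ := coeff_rename_ne_zero _ _ _ hm'
  rw [← h1, wt_mapDomain]
  exact hf m' h2

/-! ## the main lemma on factors -/

theorem pure_power (Φ : (Fin b → J) → L) (hs : ∀ (s : Equiv.Perm (Fin b)) j, Φ (j ∘ s) = Φ j)
    (h0 : Φ ≠ 0) (π : MvPolynomial (Fin b × J) L) (hπ : Irreducible π) (hd : π ∣ FF Φ)
    (last : Fin b) (hlast : Hom last 0 π) :
    ∃ (κ : L) (lam : J → L), ∀ j, Φ j = κ * ∏ i, lam (j i) := by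
  classical
  have hF0 : FF Φ ≠ 0 := by
    intro h
    apply h0
    funext j
    rw [← coeff_FF Φ j, h]; simp
  obtain ⟨G, hG⟩ := hd
  have hπ0 : π ≠ 0 := hπ.ne_zero
  have hG0 : G ≠ 0 := by
    rintro rfl; apply hF0; rw [hG, mul_zero]
  have hk : ∀ k, ∃ e₁ e₂, e₁ + e₂ = 1 ∧ Hom k e₁ π ∧ Hom k e₂ G := fun k =>
    hom_of_mul (hG ▸ FF_hom Φ k) (hG ▸ hF0)
  -- a block in which π has degree one
  have hB : ∃ i, Hom i 1 π := by
    by_contra hne
    push Not at hne
    have h1 : ∀ k, Hom k 0 π := by
      intro k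
      obtain ⟨e₁, e₂, h, h2, h3⟩ := hk k
      have : e₁ ≠ 1 := fun h4 => hne k (h4 ▸ h2)
      have : e₁ = 0 := by omega
      exact this ▸ h2
    have h2 : π = C (coeff 0 π) := by
      ext m
      rw [coeff_C]
      by_cases hm : coeff m π = 0
      · split_ifs with h
        · rw [h]
        · exact hm
      · have : m = 0 := by
          ext ⟨k, u⟩
          have h3 := h1 k m hm
          simp only [wt, Finset.sum_eq_zero_iff, Finset.mem_univ, true_implies] at h3
          simpa using h3 u
        rw [if_pos this.symm, this]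
    have h3 : coeff 0 π ≠ 0 := by
      intro h; rw [h, C_0] at h2; exact hπ0 h2
    apply hπ.not_isUnit
    rw [h2]
    exact (isUnit_iff_ne_zero.2 h3).map C
  obtain ⟨i, hi⟩ := hB
  have hil : i ≠ last := by
    rintro rfl
    have := hi.unique hlast hπ0
    omega
  -- the swapped factor
  set s : Equiv.Perm (Fin b) := Equiv.swap i last with hsdef
  set π' := rn s π with hπ'
  have hπ'irr : Irreducible π' := (MulEquiv.irreducible_iff (rn s)).2 hπ
  have hπ'0 : π' ≠ 0 := hπ'irr.ne_zero
  have hd' : π' ∣ FF Φ := by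
    rw [← rn_FF s Φ (hs s), hG, map_mul]
    exact Dvd.intro _ rfl
  have hi' : Hom last 1 π' := by
    have := hi.rn (s := s)
    rwa [hsdef, Equiv.swap_apply_left] at this
  have hl' : Hom i 0 π' := by
    have := hlast.rn (s := s)
    rwa [hsdef, Equiv.swap_apply_right] at this
  have hnd : ¬ π ∣ π' := by
    intro h
    obtain ⟨t, ht⟩ := h
    have ht0 : t ≠ 0 := by rintro rfl; apply hπ'0; rw [ht, mul_zero]
    obtain ⟨e₁, e₂, h1, h2, h3⟩ := hom_of_mul (ht ▸ hl') (ht ▸ hπ'0)
    have := h2.unique hi hπ0
    omega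
  have hprod : π * π' ∣ FF Φ := by
    obtain ⟨H, hH⟩ := hd'
    have h1 : π ∣ π' * H := hH ▸ ⟨G, hG⟩
    rcases (UniqueFactorizationMonoid.irreducible_iff_prime.1 hπ).dvd_or_dvd h1 with h2 | h2
    · exact absurd h2 hnd
    · obtain ⟨t, ht⟩ := h2
      refine ⟨t, ?_⟩
      rw [hH, ht]; ring
  have hother : ∀ k, k ≠ i → Hom k 0 π := by
    intro k hki
    by_cases hkl : k = last
    · rw [hkl]; exact hlast
    obtain ⟨e₁, e₂, h, h2, h3⟩ := hk k
    have h4 : Hom k e₁ π' := by
      have := h2.rn (s := s)
      rwa [hsdef, Equiv.swap_apply_of_ne_of_ne hki hkl] at this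
    obtain ⟨H, hH⟩ := hprod
    obtain ⟨f₁, f₂, g1, g2, g3⟩ := hom_of_mul (hH ▸ FF_hom Φ k) (hH ▸ hF0)
    have g4 := (h2.mul h4).unique g2 (mul_ne_zero hπ0 hπ'0)
    have : e₁ = 0 := by omega
    exact this ▸ h2
  -- shape of π
  set lam : J → L := fun u => coeff (Finsupp.single (i, u) 1) π with hlam
  have hshape : ∀ m, coeff m π ≠ 0 → ∃ u, m = Finsupp.single (i, u) 1 := by
    intro m hm
    have h1 := hi m hm
    have h2 : ∃ u, m (i, u) ≠ 0 := by
      by_contra hne
      push Not at hne
      rw [wt, Finset.sum_eq_zero (fun u _ => hne u)] at h1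
      omega
    obtain ⟨u, hu⟩ := h2
    refine ⟨u, ?_⟩
    have h3 : ∀ u', u' ≠ u → m (i, u') = 0 := by
      intro u' hu'
      have h4 : m (i, u) + m (i, u') ≤ wt i m := by
        rw [wt, ← Finset.add_sum_erase _ _ (Finset.mem_univ u)]
        apply Nat.add_le_add_left
        exact Finset.single_le_sum (f := fun u => m (i, u)) (fun _ _ => Nat.zero_le _)
          (Finset.mem_erase.2 ⟨hu', Finset.mem_univ _⟩)
      omega
    have h5 : m (i, u) ≤ wt i m :=
      Finset.single_le_sum (f := fun u => m (i, u)) (fun _ _ => Nat.zero_le _) (Finset.mem_univ u)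
    ext ⟨k, u'⟩
    rw [Finsupp.single_apply]
    by_cases hki : k = i
    · subst hki
      by_cases huu : u' = u
      · subst huu
        rw [if_pos rfl]; omega
      · rw [if_neg (by intro h; exact huu (Prod.mk.inj h).2.symm), h3 u' huu]
    · rw [if_neg (by intro h; exact hki (Prod.mk.inj h).1.symm)]
      have h6 := hother k hki m hm
      simp only [wt, Finset.sum_eq_zero_iff, Finset.mem_univ, true_implies] at h6
      exact h6 u'
  have hπeq : π = ∑ u, C (lam u) * X (i, u) := by
    ext m
    simp only [coeff_sum, coeff_C_mul, coeff_X]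
    by_cases hm : coeff m π = 0
    · rw [hm]; symm
      apply Finset.sum_eq_zero
      intro u _
      split_ifs with h
      · rw [hlam]; simp only; rw [h, hm]; simp
      · simp
    · obtain ⟨u, rfl⟩ := hshape m hm
      rw [Finset.sum_eq_single u]
      · simp [hlam]
      · intro u' _ hu'
        rw [if_neg, mul_zero]
        intro h
        have := Finsupp.single_left_injective (by norm_num : (1 : ℕ) ≠ 0) h
        exact hu' (Prod.mk.inj this).2
      · simp
  -- the coefficient relation in the block i
  have hrel_i : ∀ (j : Fin b → J) (u : J),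
      Φ j * lam u = lam (j i) * Φ (Function.update j i u) := by
    have hval : ∀ j : Fin b → J, Φ j =
        lam (j i) * coeff (mon j - Finsupp.single (i, j i) 1) G := by
      intro j
      conv_lhs => rw [← coeff_FF Φ j, hG, hπeq, Finset.sum_mul, coeff_sum]
      rw [Finset.sum_eq_single (j i)]
      · rw [mul_assoc, coeff_C_mul, coeff_X_mul', if_pos]
        rw [Finsupp.mem_support_iff, mon_apply]; simp
      · intro u _ hu
        rw [mul_assoc, coeff_C_mul, coeff_X_mul', if_neg, mul_zero]
        rw [Finsupp.mem_support_iff, mon_apply]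
        simp [Ne.symm hu]
      · simp
    intro j u
    have h1 : mon (Function.update j i u) - Finsupp.single (i, (Function.update j i u) i) 1 =
        mon j - Finsupp.single (i, j i) 1 := by
      ext ⟨k, u'⟩
      simp only [Finsupp.coe_tsub, Pi.sub_apply, mon_apply, Finsupp.single_apply, Prod.mk.injEq,
        Function.update_self]
      by_cases hki : k = i
      · subst hki
        simp
      · simp [hki, Ne.symm hki]
    rw [hval j, hval (Function.update j i u), h1, Function.update_self]
    ring
  have hrel : ∀ (k : Fin b) (j : Fin b → J) (u : J),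
      Φ j * lam u = lam (j k) * Φ (Function.update j k u) := by
    intro k j u
    have h1 := hrel_i (j ∘ Equiv.swap i k) u
    rw [hs] at h1
    have h2 : (j ∘ Equiv.swap i k) i = j k := by simp
    have h3 : Function.update (j ∘ Equiv.swap i k) i u =
        (Function.update j k u) ∘ Equiv.swap i k := by
      funext t
      simp only [Function.comp_apply]
      by_cases ht : t = i
      · subst ht; simp
      · rw [Function.update_of_ne ht]
        by_cases htk : t = k
        · subst htk
          rw [Equiv.swap_apply_right, Function.comp_apply, Equiv.swap_apply_right,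
            Function.update_of_ne (Ne.symm ht)]
        · rw [Function.comp_apply, Equiv.swap_apply_of_ne_of_ne ht htk,
            Function.update_of_ne htk]
    rw [h2, h3, hs] at h1
    exact h1
  obtain ⟨u0, hu0⟩ : ∃ u, lam u ≠ 0 := by
    by_contra hne
    push Not at hne
    apply hπ0
    rw [hπeq]
    exact Finset.sum_eq_zero (fun u _ => by rw [hne u]; simp)
  have hind : ∀ (T : Finset (Fin b)) (j : Fin b → J),
      Φ j * lam u0 ^ T.card =
        (∏ k ∈ T, lam (j k)) * Φ (fun k => if k ∈ T then u0 else j k) := by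
    intro T
    induction T using Finset.induction_on with
    | empty => intro j; simp
    | insert k T hkT ih =>
      intro j
      rw [Finset.card_insert_of_notMem hkT, pow_succ, ← mul_assoc, ih j, mul_assoc,
        hrel k _ u0, Finset.prod_insert hkT]
      have h2 : Function.update (fun k' => if k' ∈ T then u0 else j k') k u0 =
          fun k' => if k' ∈ insert k T then u0 else j k' := by
        funext k'
        by_cases hk' : k' = k
        · subst hk'; simp
        · rw [Function.update_of_ne hk']
          simp [hk']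
      rw [h2, if_neg hkT]
      ring
  refine ⟨Φ (fun _ => u0) / lam u0 ^ b, lam, fun j => ?_⟩
  have h1 := hind Finset.univ j
  simp only [Finset.mem_univ, if_true, Finset.card_univ, Fintype.card_fin] at h1
  have hp : lam u0 ^ b ≠ 0 := pow_ne_zero _ hu0
  rw [div_mul_eq_mul_div, eq_div_iff hp, h1, mul_comm]

end Form

end Crest.Agent.R181.CD
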