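import Crest.Agent.R181.CU735a

/-!
# Gradings by coactions, and the injectivity of symbols (abstract form)
-/

set_option autoImplicit false

namespace Crest.Agent.R181.CU

open Polynomial

/-- A grading of the ring `R` in degrees `≥ 0`, given by the ring homomorphism
`r ↦ ∑ r_n X^n`. -/
structure Gr (R : Type*) [Ring R] where
  /-- the coaction -/
  γ : R →+* R[X]
  hom : ∀ r n, γ ((γ r).coeff n) = Polynomial.monomial n ((γ r).coeff n)
  sum : ∀ r, (γ r).eval 1 = r

namespace Gr

variable {R : Type*} [Ring R]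

/-- homogeneous elements for a ring hom `γ` -/
def Hom (γ : R →+* R[X]) (l : ℕ) (r : R) : Prop := γ r = Polynomial.monomial l r

/-- constructor -/
def ofClosure (γ : R →+* R[X])
    (h : ∀ r, r ∈ AddSubgroup.closure {r : R | ∃ l, Hom γ l r}) : Gr R where
  γ := γ
  hom := by
    intro r
    refine AddSubgroup.closure_induction (p := fun r _ => ∀ n, γ ((γ r).coeff n) =
      Polynomial.monomial n ((γ r).coeff n)) ?_ ?_ ?_ ?_ (h r)
    · rintro x ⟨l, hl⟩ n
      have hl' : γ x = Polynomial.monomial l x := hl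
      rw [hl', Polynomial.coeff_monomial]
      split_ifs with h1
      · rw [hl', h1]
      · simp
    · intro n; simp
    · intro x y _ _ hx hy n
      rw [map_add, Polynomial.coeff_add, map_add, map_add, hx, hy]
    · intro x _ hx n
      rw [map_neg, Polynomial.coeff_neg, map_neg, map_neg, hx]
  sum := by
    intro r
    refine AddSubgroup.closure_induction (p := fun r _ => (γ r).eval 1 = r) ?_ ?_ ?_ ?_ (h r)
    · rintro x ⟨l, hl⟩
      have hl' : γ x = Polynomial.monomial l x := hl
      rw [hl', Polynomial.eval_monomial, one_pow, mul_one]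
    · simp
    · intro x y _ _ hx hy
      rw [map_add, Polynomial.eval_add, hx, hy]
    · intro x _ hx
      rw [map_neg, Polynomial.eval_neg, hx]

variable (G : Gr R)

/-- the homogeneous elements of degree `l` -/
def deg (l : ℕ) : AddSubgroup R where
  carrier := {r | G.γ r = Polynomial.monomial l r}
  add_mem' {a b} ha hb := by
    change G.γ (a + b) = _
    rw [map_add, ha, hb, map_add]
  zero_mem' := by change G.γ 0 = _; simp
  neg_mem' {a} ha := by
    change G.γ (-a) = _
    rw [map_neg, ha, map_neg]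

variable {G}

theorem mem_deg {l : ℕ} {r : R} : r ∈ G.deg l ↔ G.γ r = Polynomial.monomial l r := Iff.rfl

theorem coeff_mem_deg (r : R) (n : ℕ) : (G.γ r).coeff n ∈ G.deg n := G.hom r n

theorem one_mem_deg : (1 : R) ∈ G.deg 0 := by
  rw [mem_deg, map_one]
  rfl

theorem mul_mem_deg {k l : ℕ} {r s : R} (hr : r ∈ G.deg k) (hs : s ∈ G.deg l) :
    r * s ∈ G.deg (k + l) := by
  rw [mem_deg] at *
  rw [map_mul, hr, hs, Polynomial.monomial_mul_monomial]

theorem coeff_of_mem_deg {l : ℕ} {r : R} (hr : r ∈ G.deg l) (n : ℕ) :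
    (G.γ r).coeff n = if l = n then r else 0 := by
  rw [mem_deg.1 hr, Polynomial.coeff_monomial]

theorem pow_mem_deg {r : R} (hr : r ∈ G.deg 1) (k : ℕ) : r ^ k ∈ G.deg k := by
  induction k with
  | zero => rw [pow_zero]; exact one_mem_deg
  | succ k ih => rw [pow_succ]; exact mul_mem_deg ih hr

theorem sum_coeff (r : R) : ∑ n ∈ Finset.range ((G.γ r).natDegree + 1), (G.γ r).coeff n = r := by
  conv_rhs => rw [← G.sum r]
  rw [Polynomial.eval_eq_sum_range]
  simp

/-- a homogeneous multiple of a homogeneous central element of degree one -/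
theorem exists_of_mul {u : R} (hu : u ∈ G.deg 1) {l : ℕ} {r y : R} (hr : r ∈ G.deg l)
    (h : r = u * y) : (l = 0 ∧ r = 0) ∨ ∃ l' r', l = l' + 1 ∧ r' ∈ G.deg l' ∧ r = u * r' := by
  have h1 : (G.γ r).coeff l = r := by rw [coeff_of_mem_deg hr, if_pos rfl]
  have h2 : G.γ r = Polynomial.monomial 1 u * G.γ y := by
    rw [h, map_mul, mem_deg.1 hu]
  rcases l with _ | l
  · left
    refine ⟨rfl, ?_⟩
    rw [← h1, h2]
    simp [Polynomial.mul_coeff_zero]
  · right
    refine ⟨l, (G.γ y).coeff l, rfl, coeff_mem_deg y l, ?_⟩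
    rw [← h1, h2, Polynomial.coeff_monomial_mul]

/-- if `x` is a regular element of degree one, no homogeneous element is a multiple of `x - 1` -/
theorem eq_zero_of_eq_sub_one_mul {x : R} (hx : x ∈ G.deg 1) (hreg : ∀ y, x * y = 0 → y = 0)
    {l : ℕ} {z y : R} (hz : z ∈ G.deg l) (h : z = (x - 1) * y) : z = 0 := by
  have h2 : G.γ z = Polynomial.monomial 1 x * G.γ y - G.γ y := by
    rw [h, map_mul, map_sub, mem_deg.1 hx, map_one, sub_mul, one_mul]
  have h0 : (G.γ y).coeff 0 = - if l = 0 then z else 0 := by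
    have := congrArg (fun p => Polynomial.coeff p 0) h2
    simp only [Polynomial.coeff_sub] at this
    rw [coeff_of_mem_deg hz] at this
    rw [this]
    simp [Polynomial.mul_coeff_zero]
  have hs : ∀ k, (G.γ y).coeff (k + 1) = x * (G.γ y).coeff k - if l = k + 1 then z else 0 := by
    intro k
    have := congrArg (fun p => Polynomial.coeff p (k + 1)) h2
    simp only [Polynomial.coeff_sub] at this
    rw [coeff_of_mem_deg hz, Polynomial.coeff_monomial_mul] at this
    rw [this]
    abel
  have hlt : ∀ k, k < l → (G.γ y).coeff k = 0 := by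
    intro k
    induction k with
    | zero =>
      intro hk
      rw [h0, if_neg (by omega), neg_zero]
    | succ k ih =>
      intro hk
      rw [hs, ih (by omega), if_neg (by omega)]
      simp
  have hl : (G.γ y).coeff l = -z := by
    rcases l with _ | l
    · rw [h0, if_pos rfl]
    · rw [hs, hlt l (by omega), if_pos rfl]
      simp
  have hge : ∀ k, (G.γ y).coeff (l + k) = -(x ^ k * z) := by
    intro k
    induction k with
    | zero => simpa using hl
    | succ k ih =>
      rw [← add_assoc, hs, ih, if_neg (by omega), pow_succ', mul_assoc]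
      simp
  have hk : x ^ ((G.γ y).natDegree + 1) * z = 0 := by
    have h3 := hge ((G.γ y).natDegree + 1)
    rw [Polynomial.coeff_eq_zero_of_natDegree_lt (by omega)] at h3
    exact neg_eq_zero.1 h3.symm
  have hreg' : ∀ m, ∀ z, x ^ m * z = 0 → z = 0 := by
    intro m
    induction m with
    | zero => intro z hz; simpa using hz
    | succ m ih =>
      intro z hz
      rw [pow_succ', mul_assoc] at hz
      exact ih z (hreg _ hz)
  exact hreg' _ z hk

/-- `1` is generated by homogeneous elements and the closure is a ring -/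
theorem closure_mul {γ : R →+* R[X]} {r s : R}
    (hr : r ∈ AddSubgroup.closure {r : R | ∃ l, Hom γ l r})
    (hs : s ∈ AddSubgroup.closure {r : R | ∃ l, Hom γ l r}) :
    r * s ∈ AddSubgroup.closure {r : R | ∃ l, Hom γ l r} := by
  refine AddSubgroup.closure_induction (p := fun r _ =>
    r * s ∈ AddSubgroup.closure {r : R | ∃ l, Hom γ l r}) ?_ ?_ ?_ ?_ hr
  · rintro x ⟨k, hk⟩
    refine AddSubgroup.closure_induction (p := fun s _ =>
      x * s ∈ AddSubgroup.closure {r : R | ∃ l, Hom γ l r}) ?_ ?_ ?_ ?_ hs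
    · rintro y ⟨l, hl⟩
      apply AddSubgroup.subset_closure
      refine ⟨k + l, ?_⟩
      unfold Hom at *
      rw [map_mul, hk, hl, Polynomial.monomial_mul_monomial]
    · rw [mul_zero]; exact AddSubgroup.zero_mem _
    · intro y z _ _ hy hz
      rw [mul_add]; exact AddSubgroup.add_mem _ hy hz
    · intro y _ hy
      rw [mul_neg]; exact AddSubgroup.neg_mem _ hy
  · rw [zero_mul]; exact AddSubgroup.zero_mem _
  · intro y z _ _ hy hz
    rw [add_mul]; exact AddSubgroup.add_mem _ hy hz
  · intro y _ hy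
    rw [neg_mul]; exact AddSubgroup.neg_mem _ hy

end Gr

/-! ### The filtration of the affine chart -/

section filt

variable {R V : Type*} [Ring R] [Ring V] (G : Gr R) (e : R →+* V)

/-- the image filtration -/
def filt (l : ℕ) : AddSubgroup V := (G.deg l).map e.toAddMonoidHom

variable {G e}

theorem mem_filt {l : ℕ} {v : V} : v ∈ filt G e l ↔ ∃ r ∈ G.deg l, e r = v := Iff.rfl

theorem filt_mono {u : R} (hu : u ∈ G.deg 1) (heu : e u = 1) : Monotone (filt G e) := by
  refine monotone_nat_of_le_succ fun l v hv => ?_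
  obtain ⟨r, hr, rfl⟩ := hv
  refine ⟨r * u, Gr.mul_mem_deg hr hu, ?_⟩
  change e (r * u) = e r
  rw [map_mul, heu, mul_one]

theorem filt_exh {u : R} (hu : u ∈ G.deg 1) (heu : e u = 1) (he : Function.Surjective e) (v : V) :
    ∃ l, v ∈ filt G e l := by
  obtain ⟨r, rfl⟩ := he v
  refine ⟨(G.γ r).natDegree, ?_⟩
  have h1 : ∑ n ∈ Finset.range ((G.γ r).natDegree + 1), e ((G.γ r).coeff n) = e r := by
    rw [← map_sum, Gr.sum_coeff (G := G) r]
  rw [← h1]
  refine sum_mem fun n hn => ?_
  rw [Finset.mem_range] at hn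
  exact filt_mono hu heu (Nat.lt_succ_iff.1 hn) ⟨_, Gr.coeff_mem_deg r n, rfl⟩

theorem filt_one : (1 : V) ∈ filt G e 0 := ⟨1, Gr.one_mem_deg, map_one e⟩

theorem filt_mul (k l : ℕ) (v w : V) (hv : v ∈ filt G e k) (hw : w ∈ filt G e l) :
    v * w ∈ filt G e (k + l) := by
  obtain ⟨r, hr, rfl⟩ := hv
  obtain ⟨s, hs, rfl⟩ := hw
  exact ⟨r * s, Gr.mul_mem_deg hr hs, map_mul e r s⟩

end filt

/-- the data of a chart without the affine part -/
structure OData (DD Del : Type*) [Ring DD] [Ring Del] where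
  /-- the complete subring -/
  O : Subring DD
  /-- the central unit -/
  pi : DDˣ
  pi_comm : ∀ y : DD, (pi : DD) * y = y * pi
  pi_mem : (pi : DD) ∈ O
  exh : ∀ y : DD, ∃ m : ℕ, (pi : DD) ^ m * y ∈ O
  /-- the residue map -/
  q : O →+* Del
  q_surj : Function.Surjective q
  q_ker : ∀ o : O, q o = 0 → ∃ o' : O, (o : DD) = pi * o'
  q_pi : q ⟨pi, pi_mem⟩ = 0

section chart

variable {DD Del R V : Type*} [Ring DD] [Ring Del] [Ring R] [Ring V]

/-- The chart attached to a graded ring `R` (with `V = R / (u - 1)`) and `B : R → O` with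
`B r = π ^ l * j (e r)` for `r` homogeneous of degree `l`. -/
def mkChart (A : OData DD Del) (G : Gr R) (e : R →+* V) (he : Function.Surjective e)
    (u : R) (hu : u ∈ G.deg 1) (heu : e u = 1) (j : V →+* DD) (B : R →+* A.O)
    (hB : ∀ l, ∀ r ∈ G.deg l, (A.pi : DD) ^ l * j (e r) = B r) : Chart DD V Del where
  O := A.O
  pi := A.pi
  pi_comm := A.pi_comm
  pi_mem := A.pi_mem
  exh := A.exh
  q := A.q
  q_surj := A.q_surj
  q_ker := A.q_ker
  q_pi := A.q_pi
  j := j
  F := filt G e
  F_mono := filt_mono hu heu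
  F_exh := filt_exh hu heu he
  F_one := filt_one
  F_mul := filt_mul
  F_O := by
    rintro l _ ⟨r, hr, rfl⟩
    have := hB l r hr
    rw [show (e.toAddMonoidHom r : V) = e r from rfl, this]
    exact (B r).2

theorem mkChart_s (A : OData DD Del) (G : Gr R) (e : R →+* V) (he : Function.Surjective e)
    (u : R) (hu : u ∈ G.deg 1) (heu : e u = 1) (j : V →+* DD) (B : R →+* A.O)
    (hB : ∀ l, ∀ r ∈ G.deg l, (A.pi : DD) ^ l * j (e r) = B r) {l : ℕ} {r : R}
    (hr : r ∈ G.deg l) (v : (mkChart A G e he u hu heu j B hB).F l) (hv : (v : V) = e r) :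
    (mkChart A G e he u hu heu j B hB).s l v = A.q (B r) := by
  rw [Chart.s_apply]
  change A.q _ = A.q _
  congr 1
  apply Subtype.ext
  change (A.pi : DD) ^ l * j v = B r
  rw [hv, hB l r hr]

/-- **Lemma 3, injectivity of symbols** -/
theorem mkChart_inj (A : OData DD Del) (G : Gr R) (e : R →+* V) (he : Function.Surjective e)
    (u : R) (hu : u ∈ G.deg 1) (heu : e u = 1) (j : V →+* DD) (B : R →+* A.O)
    (hB : ∀ l, ∀ r ∈ G.deg l, (A.pi : DD) ^ l * j (e r) = B r)
    (hinj : ∀ l, ∀ r ∈ G.deg l, A.q (B r) = 0 → ∃ y, r = u * y) :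
    (mkChart A G e he u hu heu j B hB).Inj := by
  constructor
  · rintro ⟨_, ⟨r, hr, rfl⟩⟩ hs
    rw [mkChart_s A G e he u hu heu j B hB hr _ rfl] at hs
    obtain ⟨y, hy⟩ := hinj 0 r hr hs
    rcases Gr.exists_of_mul hu hr hy with ⟨-, h0⟩ | ⟨l', r', h1, -, -⟩
    · apply Subtype.ext
      change e r = 0
      rw [h0, map_zero]
    · omega
  · rintro l ⟨_, ⟨r, hr, rfl⟩⟩ hs
    rw [mkChart_s A G e he u hu heu j B hB hr _ rfl] at hs
    obtain ⟨y, hy⟩ := hinj _ r hr hs
    rcases Gr.exists_of_mul hu hr hy with ⟨h0, -⟩ | ⟨l', r', h1, h2, h3⟩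
    · omega
    · obtain rfl : l = l' := by omega
      change e r ∈ filt G e l
      rw [h3, map_mul, heu, one_mul]
      exact ⟨r', h2, rfl⟩

end chart

end Crest.Agent.R181.CU
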