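import Crest.Agent.R181.CU735b
import Crest.Agent.R181.UR396a

/-!
# The polynomial layer: bases of `Del / s_l (F_l)` for `Del = D[τ]`, `E = D'[τ]`
-/

set_option autoImplicit false

namespace Crest.Agent.R181.CU

open Crest.Agent.R181.UR AddMonoidAlgebra

section generic

variable {DD V D : Type} [Ring DD] [Ring V] [Ring D] {τ : Type}
variable {C : Chart DD V (PA D τ)}

/-- the projection to the coordinates of the quotient -/
noncomputable def coordQ {D'' : Type} [DivisionRing D''] [Module D'' D] (S : Submodule D'' D) :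
    D →ₗ[D''] (Module.Basis.ofVectorSpaceIndex D'' (D ⧸ S) →₀ D'') :=
  (Module.Basis.ofVectorSpace D'' (D ⧸ S)).repr.toLinearMap.comp S.mkQ

/-- lifts of the basis of the quotient -/
noncomputable def liftQ {D'' : Type} [DivisionRing D''] [Module D'' D] (S : Submodule D'' D)
    (k : Module.Basis.ofVectorSpaceIndex D'' (D ⧸ S)) : D :=
  (Submodule.mkQ_surjective S (Module.Basis.ofVectorSpace D'' (D ⧸ S) k)).choose

theorem mkQ_liftQ {D'' : Type} [DivisionRing D''] [Module D'' D] (S : Submodule D'' D)
    (k : Module.Basis.ofVectorSpaceIndex D'' (D ⧸ S)) :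
    S.mkQ (liftQ S k) = Module.Basis.ofVectorSpace D'' (D ⧸ S) k :=
  (Submodule.mkQ_surjective S (Module.Basis.ofVectorSpace D'' (D ⧸ S) k)).choose_spec

theorem sub_sum_mem {D'' : Type} [DivisionRing D''] [Module D'' D] (S : Submodule D'' D) (d : D)
    (s : Finset (Module.Basis.ofVectorSpaceIndex D'' (D ⧸ S)))
    (hs : (coordQ S d).support ⊆ s) :
    d - ∑ k ∈ s, coordQ S d k • liftQ S k ∈ S := by
  rw [← Submodule.Quotient.mk_eq_zero S, ← Submodule.mkQ_apply, map_sub, map_sum, sub_eq_zero]
  have h1 : ∀ k, S.mkQ (coordQ S d k • liftQ S k) =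
      coordQ S d k • Module.Basis.ofVectorSpace D'' (D ⧸ S) k := by
    intro k
    rw [map_smul, mkQ_liftQ]
  rw [Finset.sum_congr rfl fun k _ => h1 k]
  conv_lhs => rw [← (Module.Basis.ofVectorSpace D'' (D ⧸ S)).linearCombination_repr (S.mkQ d)]
  rw [Finsupp.linearCombination_apply]
  exact Finsupp.sum_of_support_subset _ hs _ (fun i _ => zero_smul _ _)

theorem eq_zero_of_sum_mem {D'' : Type} [DivisionRing D''] [Module D'' D] (S : Submodule D'' D)
    (s : Finset (Module.Basis.ofVectorSpaceIndex D'' (D ⧸ S)))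
    (f : Module.Basis.ofVectorSpaceIndex D'' (D ⧸ S) → D'')
    (h : ∑ k ∈ s, f k • liftQ S k ∈ S) : ∀ k ∈ s, f k = 0 := by
  rw [← Submodule.Quotient.mk_eq_zero S, ← Submodule.mkQ_apply, map_sum] at h
  have h1 : ∀ k, S.mkQ (f k • liftQ S k) = f k • Module.Basis.ofVectorSpace D'' (D ⧸ S) k := by
    intro k
    rw [map_smul, mkQ_liftQ]
  rw [Finset.sum_congr rfl fun k _ => h1 k] at h
  exact linearIndependent_iff'.1 (Module.Basis.ofVectorSpace D'' (D ⧸ S)).linearIndependent s f h

/-- lifts to `O` of the constants -/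
noncomputable def liftO (C : Chart DD V (PA D τ)) (d : D) : C.O := (C.q_surj (cst τ d)).choose

theorem q_liftO (d : D) : C.q (liftO C d) = cst τ d := (C.q_surj (cst τ d)).choose_spec

/-- **bases of `Del / s_l (F_l)`** -/
noncomputable def mkBD (T : C.Act) {D'' : Type} [DivisionRing D''] [Module D'' D]
    (act : C.E ≃+ ((τ →₀ ℕ) →₀ D''))
    (hact : ∀ c b m, (T.A' c (cst τ b)).coeff m = act c m • b)
    (S : ℕ → Submodule D'' D)
    (hS : ∀ l (d : PA D τ), (∃ v, C.s l v = d) ↔ ∀ m, d.coeff m ∈ S l) : Chart.BasisData T where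
  K l := Module.Basis.ofVectorSpaceIndex D'' (D ⧸ S l)
  b l k := liftO C (liftQ (S l) k)
  span l d := by
    classical
    let P : Module.Basis.ofVectorSpaceIndex D'' (D ⧸ S l) →₀ C.E :=
      ∑ m ∈ d.coeff.support, (coordQ (S l) (d.coeff m)).mapRange
        (fun x => act.symm (Finsupp.single m x)) (by simp)
    have hP : ∀ k m, act (P k) m = coordQ (S l) (d.coeff m) k := by
      intro k m
      simp only [P, Finsupp.finsetSum_apply, Finsupp.mapRange_apply, map_sum,
        AddEquiv.apply_symm_apply]
      by_cases hm : m ∈ d.coeff.support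
      · rw [Finset.sum_eq_single m]
        · simp
        · intro m' _ hm'
          rw [Finsupp.single_eq_of_ne (Ne.symm hm')]
        · intro h; exact absurd hm h
      · rw [Finset.sum_eq_zero]
        · rw [Finsupp.notMem_support_iff.1 hm]
          simp
        · intro m' hm'
          rw [Finsupp.single_eq_of_ne]
          rintro rfl
          exact hm hm'
    have hcoeff : ∀ m, (P.sum fun k c => T.A' c (C.q (liftO C (liftQ (S l) k)))).coeff m =
        ∑ k ∈ P.support, coordQ (S l) (d.coeff m) k • liftQ (S l) k := by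
      intro m
      rw [Finsupp.sum, AddMonoidAlgebra.coeff_sum, Finsupp.finsetSum_apply]
      refine Finset.sum_congr rfl fun k _ => ?_
      rw [q_liftO, hact, hP]
    have hsub : ∀ m, (coordQ (S l) (d.coeff m)).support ⊆ P.support := by
      intro m k hk
      rw [Finsupp.mem_support_iff] at hk ⊢
      intro h0
      apply hk
      rw [← hP, h0, map_zero]
      rfl
    have hmem : ∀ m, (d - P.sum fun k c => T.A' c (C.q (liftO C (liftQ (S l) k)))).coeff m
        ∈ S l := by
      intro m
      rw [AddMonoidAlgebra.coeff_sub, Finsupp.sub_apply, hcoeff]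
      exact sub_sum_mem (S l) (d.coeff m) P.support (hsub m)
    obtain ⟨v, hv⟩ := (hS l _).2 hmem
    refine ⟨v, P, ?_⟩
    rw [hv]
    abel
  indep l v e h := by
    classical
    have h1 : ∀ m, (e.sum fun k c => T.A' c (C.q (liftO C (liftQ (S l) k)))).coeff m ∈ S l := by
      rw [h]
      exact (hS l _).1 ⟨v, rfl⟩
    have h2 : ∀ m, ∀ k ∈ e.support, act (e k) m = 0 := by
      intro m
      apply eq_zero_of_sum_mem (S l) e.support (fun k => act (e k) m)
      have := h1 m
      rw [Finsupp.sum, AddMonoidAlgebra.coeff_sum, Finsupp.finsetSum_apply] at this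
      rw [Finset.sum_congr rfl fun k _ => (show act (e k) m • liftQ (S l) k =
        (T.A' (e k) (C.q (liftO C (liftQ (S l) k)))).coeff m by rw [q_liftO, hact])]
      exact this
    by_contra hne
    obtain ⟨k, hk⟩ := Finsupp.support_nonempty_iff.2 hne
    have h3 : act (e k) = 0 := Finsupp.ext fun m => h2 m k hk
    have h4 : e k = 0 := by
      rw [← act.apply_eq_iff_eq, h3, map_zero]
    exact (Finsupp.mem_support_iff.1 hk) h4

end generic

section main

variable {DD V D D' : Type} [Ring DD] [Ring V] [DivisionRing D] [DivisionRing D'] {τ : Type}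
variable (C : Chart DD V (PA D τ)) (κ : D' →+* D)

/-- the symbols of degree `l` are exactly the polynomials with coefficients in `S l` -/
structure SymData (S : ℕ → AddSubgroup D) : Prop where
  range : ∀ l (d : PA D τ), (∃ v, C.s l v = d) ↔ ∀ m, d.coeff m ∈ S l
  zero : ∀ d, d ∈ S 0 ↔ ∃ x, κ x = d
  left : ∀ l x d, d ∈ S l → κ x * d ∈ S l
  right : ∀ l x d, d ∈ S l → d * κ x ∈ S l

variable {C κ} {S : ℕ → AddSubgroup D} (H : SymData C κ S)

theorem qE_eq_s (e : C.E) : C.qE e = C.s 0 ⟨e, e.2⟩ := by
  rw [Chart.s_apply, Chart.qE_apply]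
  congr 1
  apply Subtype.ext
  change C.j e = (C.pi : DD) ^ 0 * C.j e
  rw [pow_zero, one_mul]

include H in
theorem SymData.exists_p (e : C.E) : ∃ p : PA D' τ, mp τ κ p = C.qE e := by
  classical
  have h1 := (H.range 0 (C.qE e)).1 ⟨_, (qE_eq_s e).symm⟩
  choose x hx using fun m => (H.zero _).1 (h1 m)
  refine ⟨∑ m ∈ (C.qE e).coeff.support, single m (x m), ?_⟩
  ext m
  rw [mp_coeff, AddMonoidAlgebra.coeff_sum, Finsupp.finsetSum_apply, map_sum]
  by_cases hm : m ∈ (C.qE e).coeff.support
  · rw [Finset.sum_eq_single m]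
    · rw [coeff_single, Finsupp.single_eq_same, hx]
    · intro m' _ hm'
      rw [coeff_single, Finsupp.single_eq_of_ne (Ne.symm hm'), map_zero]
    · intro h; exact absurd hm h
  · rw [Finset.sum_eq_zero, Finsupp.notMem_support_iff.1 hm]
    intro m' hm'
    rw [coeff_single, Finsupp.single_eq_of_ne, map_zero]
    rintro rfl
    exact hm hm'

include H in
theorem SymData.exists_E (p : PA D' τ) : ∃ e : C.E, C.qE e = mp τ κ p := by
  obtain ⟨v, hv⟩ := (H.range 0 (mp τ κ p)).2 (fun m => by
    rw [mp_coeff]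
    exact (H.zero _).2 ⟨_, rfl⟩)
  refine ⟨⟨v, v.2⟩, ?_⟩
  rw [qE_eq_s, ← hv]

theorem mpκ_injective : Function.Injective (mp τ κ) := mp_injective κ κ.injective

/-- the ring `E` is `D'[τ]` -/
noncomputable def SymData.toP : C.E →+* PA D' τ where
  toFun e := (H.exists_p e).choose
  map_one' := mpκ_injective (κ := κ) (by rw [(H.exists_p 1).choose_spec, map_one, map_one])
  map_mul' a b := mpκ_injective (κ := κ) (by
    rw [(H.exists_p (a * b)).choose_spec, map_mul, map_mul, (H.exists_p a).choose_spec,
      (H.exists_p b).choose_spec])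
  map_zero' := mpκ_injective (κ := κ) (by rw [(H.exists_p 0).choose_spec, map_zero, map_zero])
  map_add' a b := mpκ_injective (κ := κ) (by
    rw [(H.exists_p (a + b)).choose_spec, map_add, map_add, (H.exists_p a).choose_spec,
      (H.exists_p b).choose_spec])

theorem SymData.mp_toP (e : C.E) : mp τ κ (H.toP e) = C.qE e := (H.exists_p e).choose_spec

/-- the ring `E` is `D'[τ]` -/
noncomputable def SymData.eqv (hC : C.Inj) : C.E ≃+* PA D' τ :=
  RingEquiv.ofBijective H.toP ⟨by
    intro a b hab
    apply Chart.qE_injective hC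
    rw [← H.mp_toP, hab, H.mp_toP], by
    intro p
    obtain ⟨e, he⟩ := H.exists_E p
    refine ⟨e, mpκ_injective (κ := κ) ?_⟩
    rw [H.mp_toP, he]⟩

theorem SymData.mp_eqv (hC : C.Inj) (e : C.E) : mp τ κ (H.eqv hC e) = C.qE e := H.mp_toP e

/-- coefficients as an additive equivalence -/
def coeffEquiv (D' τ : Type) [Ring D'] : PA D' τ ≃+ ((τ →₀ ℕ) →₀ D') where
  toFun p := p.coeff
  invFun f := ofCoeff f
  left_inv _ := rfl
  right_inv _ := rfl
  map_add' _ _ := rfl

theorem coeff_mul_cst (p : PA D τ) (b : D) (m : τ →₀ ℕ) :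
    (p * cst τ b).coeff m = p.coeff m * b := by
  induction p using AddMonoidAlgebra.induction_linear with
  | zero => simp
  | add p q hp hq =>
    rw [add_mul, coeff_add, Finsupp.add_apply, hp, hq, coeff_add, Finsupp.add_apply, add_mul]
  | single k c =>
    rw [cst_apply, single_mul_single, add_zero, coeff_single, coeff_single]
    by_cases h : k = m
    · rw [h, Finsupp.single_eq_same, Finsupp.single_eq_same]
    · rw [Finsupp.single_eq_of_ne (Ne.symm h), Finsupp.single_eq_of_ne (Ne.symm h), zero_mul]

theorem coeff_cst_mul (p : PA D τ) (b : D) (m : τ →₀ ℕ) :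
    (cst τ b * p).coeff m = b * p.coeff m := by
  induction p using AddMonoidAlgebra.induction_linear with
  | zero => simp
  | add p q hp hq =>
    rw [mul_add, coeff_add, Finsupp.add_apply, hp, hq, coeff_add, Finsupp.add_apply, mul_add]
  | single k c =>
    rw [cst_apply, single_mul_single, zero_add, coeff_single, coeff_single]
    by_cases h : k = m
    · rw [h, Finsupp.single_eq_same, Finsupp.single_eq_same]
    · rw [Finsupp.single_eq_of_ne (Ne.symm h), Finsupp.single_eq_of_ne (Ne.symm h), mul_zero]

/-- **left basis data** -/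
noncomputable def SymData.leftBD (hC : C.Inj) : Chart.BasisData C.leftAct :=
  letI : Module D' D := Module.compHom D κ
  mkBD C.leftAct ((H.eqv hC).toAddEquiv.trans (coeffEquiv D' τ))
    (by
      intro c b m
      change (C.qE c * cst τ b).coeff m = κ ((H.eqv hC c).coeff m) * b
      rw [coeff_mul_cst, ← H.mp_eqv hC, mp_coeff])
    (fun l => { S l with smul_mem' := fun x d hd => H.left l x d hd })
    H.range

/-- **right basis data** -/
noncomputable def SymData.rightBD (hC : C.Inj) : Chart.BasisData C.rightAct :=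
  letI : Module D'ᵐᵒᵖ D := Module.compHom D (κ.op)
  mkBD C.rightAct ((H.eqv hC).toAddEquiv.trans ((coeffEquiv D' τ).trans
      (Finsupp.mapRange.addEquiv MulOpposite.opAddEquiv)))
    (by
      intro c b m
      change (cst τ b * C.qE c).coeff m = b * κ ((H.eqv hC c).coeff m)
      rw [coeff_cst_mul, ← H.mp_eqv hC, mp_coeff])
    (fun l => { S l with smul_mem' := fun x d hd => H.right l x.unop d hd })
    H.range

end main

end Crest.Agent.R181.CU
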