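import Crest.Agent.R181.CU735c
import Crest.Agent.R181.VL963b

/-!
# The bases of `Γ₀`, `Γ₁` in the form `V868.LB`, left and right
-/

set_option autoImplicit false

namespace Crest.Agent.R181.CU

open Crest.Agent.R181.V868

section

variable {DD V Del : Type} [Ring DD] [Ring V] [Ring Del] {L : Line DD} {C : Chart DD V Del}

/-- the inverse of `j` on `E` -/
noncomputable def invE (C : Chart DD V Del) (x : DD) : C.E := by
  classical
  exact if h : ∃ e : C.E, C.j e = x then h.choose else 0

theorem j_invE {x : DD} (h : ∃ e : C.E, C.j e = x) : C.j (invE C x) = x := by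
  unfold invE
  rw [dif_pos h]
  exact h.choose_spec

theorem invE_zero (hC : C.Inj) : invE C 0 = 0 := by
  have h : ∃ e : C.E, C.j e = 0 := ⟨0, by simp⟩
  have h1 := j_invE h
  exact Subtype.ext (Chart.j_injective hC (by rw [h1]; simp))

variable (hC : C.Inj) (hO : C.O = L.O) (hp : (C.pi : DD) = L.p) (hV : C.j.range = L.V)

include hC hO hV in
theorem exists_E_of_mem {x : DD} (hx : x ∈ L.V ⊓ L.O) : ∃ e : C.E, C.j e = x := by
  obtain ⟨h1, h2⟩ := Subring.mem_inf.1 hx
  rw [← hV] at h1
  obtain ⟨v, rfl⟩ := h1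
  rw [← hO] at h2
  exact ⟨⟨v, (Chart.mem_E_iff hC).2 h2⟩, rfl⟩

include hO hV in
theorem j_mem_inf (e : C.E) : C.j e ∈ L.V ⊓ L.O := by
  refine Subring.mem_inf.2 ⟨?_, ?_⟩
  · rw [← hV]; exact ⟨e, rfl⟩
  · rw [← hO]; exact C.j_mem_O_of_mem_E e.2

include hC hO hp hV in
theorem span_aux {T : C.Act} (B : Chart.BasisData T) (t : ℕ) (ht : t ≤ 1) (d : DD)
    (A : DD → DD → DD) (hA : ∀ e y, T.A e y = A (C.j e) y) (hA0 : ∀ y, A 0 y = 0) :
    ∃ c : B.G t →₀ DD, (∀ i, c i ∈ L.V ⊓ L.O) ∧
      ∃ v ∈ L.V, ∃ o ∈ L.O, d = v + L.p ^ t * o + c.sum (fun i e => A e (B.g t i)) := by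
  obtain ⟨v, o, e, h⟩ := B.exists_rep t ht d
  refine ⟨e.mapRange (fun x : C.E => C.j x) (by simp), fun i => ?_, C.j v, ?_, o, ?_, ?_⟩
  · rw [Finsupp.mapRange_apply]; exact j_mem_inf hO hV _
  · rw [← hV]; exact ⟨v, rfl⟩
  · rw [← hO]; exact o.2
  · rw [Finsupp.sum_mapRange_index (h := fun i x => A x (B.g t i)) (fun i => hA0 _), ← hp, h]
    congr 1
    exact Finsupp.sum_congr fun i _ => hA _ _

include hC hO hp hV in
theorem ind_aux {T : C.Act} (B : Chart.BasisData T) (t : ℕ)
    (A : DD → DD → DD) (hA : ∀ e y, T.A e y = A (C.j e) y) (hA0 : ∀ y, A 0 y = 0)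
    (c : B.G t →₀ DD) (hc : ∀ i, c i ∈ L.V ⊓ L.O) (v : DD) (hv : v ∈ L.V) (o : DD) (ho : o ∈ L.O)
    (h : c.sum (fun i e => A e (B.g t i)) = v + L.p ^ t * o) : c = 0 := by
  have hinv : ∀ i, C.j (invE C (c i)) = c i := fun i => j_invE (exists_E_of_mem hC hO hV (hc i))
  let e : B.G t →₀ C.E := c.mapRange (invE C) (invE_zero hC)
  rw [← hV] at hv
  obtain ⟨v', rfl⟩ := hv
  rw [← hO] at ho
  have h1 : e.sum (fun i x => T.A x (B.g t i)) = C.j v' + (C.pi : DD) ^ t * (⟨o, ho⟩ : C.O) := by
    rw [hp, ← h]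
    rw [Finsupp.sum_mapRange_index (h := fun i x => T.A x (B.g t i)) (fun i => T.zero _)]
    refine Finsupp.sum_congr fun i _ => ?_
    rw [hA, hinv]
  have h2 := B.eq_zero hC t e v' _ h1
  ext i
  rw [← hinv i]
  have h3 : e i = 0 := by rw [h2]; rfl
  rw [Finsupp.mapRange_apply] at h3
  rw [h3]
  simp

/-- **left bases of `Γ₀`, `Γ₁`** -/
noncomputable def leftLB (B : Chart.BasisData C.leftAct) : LB L where
  I0 := B.G 0
  I1 := B.G 1
  g0 := B.g 0
  g1 := B.g 1
  span0 d := by
    have := span_aux hC hO hp hV B 0 (by omega) d (fun e y => e * y) (fun _ _ => rfl)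
      (fun y => zero_mul y)
    simpa only [pow_zero, one_mul] using this
  ind0 c hc v hv o ho h := by
    refine ind_aux hC hO hp hV B 0 (fun e y => e * y) (fun _ _ => rfl)
      (fun y => zero_mul y) c hc v hv o ho ?_
    rw [pow_zero, one_mul]
    exact h
  span1 d := by
    have := span_aux hC hO hp hV B 1 (by omega) d (fun e y => e * y) (fun _ _ => rfl)
      (fun y => zero_mul y)
    simpa only [pow_one] using this
  ind1 c hc v hv o ho h := by
    refine ind_aux hC hO hp hV B 1 (fun e y => e * y) (fun _ _ => rfl)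
      (fun y => zero_mul y) c hc v hv o ho ?_
    rw [pow_one]
    exact h

open MulOpposite in
/-- **right bases of `Γ₀`, `Γ₁`** -/
noncomputable def rightLB (B : Chart.BasisData C.rightAct) : LB L.op where
  I0 := B.G 0
  I1 := B.G 1
  g0 i := op (B.g 0 i)
  g1 i := op (B.g 1 i)
  span0 d := by
    obtain ⟨c, hc, v, hv, o, ho, h⟩ := span_aux hC hO hp hV B 0 (by omega) d.unop
      (fun e y => y * e) (fun _ _ => rfl) (fun y => mul_zero y)
    refine ⟨c.mapRange op op_zero, fun i => ?_, op v, ?_, op o, ?_, ?_⟩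
    · rw [Finsupp.mapRange_apply]
      exact hc i
    · exact hv
    · exact ho
    · rw [Finsupp.sum_mapRange_index (fun i => zero_mul _), ← op_unop d, h]
      simp [Finsupp.sum]
  ind0 c hc v hv o ho h := by
    have h1 := ind_aux hC hO hp hV B 0 (fun e y => y * e) (fun _ _ => rfl)
      (fun y => mul_zero y) (c.mapRange unop unop_zero) (fun i => by
        rw [Finsupp.mapRange_apply]; exact hc i) v.unop hv o.unop ho (by
        rw [Finsupp.sum_mapRange_index (fun i => mul_zero _)]
        have := congrArg unop h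
        simpa [Finsupp.sum] using this)
    ext i
    have h2 : (c.mapRange unop unop_zero) i = 0 := by rw [h1]; rfl
    rw [Finsupp.mapRange_apply] at h2
    have h3 : c i = 0 := by rw [← op_unop (c i), h2, op_zero]
    rw [h3]
    rfl
  span1 d := by
    obtain ⟨c, hc, v, hv, o, ho, h⟩ := span_aux hC hO hp hV B 1 (by omega) d.unop
      (fun e y => y * e) (fun _ _ => rfl) (fun y => mul_zero y)
    refine ⟨c.mapRange op op_zero, fun i => ?_, op v, ?_, op o, ?_, ?_⟩
    · rw [Finsupp.mapRange_apply]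
      exact hc i
    · exact hv
    · exact ho
    · rw [Finsupp.sum_mapRange_index (fun i => zero_mul _), ← op_unop d, h]
      have : L.op.p = op L.p := rfl
      simp [Finsupp.sum, this, ← op_mul, L.pc]
  ind1 c hc v hv o ho h := by
    have h1 := ind_aux hC hO hp hV B 1 (fun e y => y * e) (fun _ _ => rfl)
      (fun y => mul_zero y) (c.mapRange unop unop_zero) (fun i => by
        rw [Finsupp.mapRange_apply]; exact hc i) v.unop hv o.unop ho (by
        rw [Finsupp.sum_mapRange_index (fun i => mul_zero _)]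
        have := congrArg unop h
        have h4 : L.op.p = op L.p := rfl
        rw [h4] at this
        simpa [Finsupp.sum, L.pc] using this)
    ext i
    have h2 : (c.mapRange unop unop_zero) i = 0 := by rw [h1]; rfl
    rw [Finsupp.mapRange_apply] at h2
    have h3 : c i = 0 := by rw [← op_unop (c i), h2, op_zero]
    rw [h3]
    rfl

end

end Crest.Agent.R181.CU
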