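import Crest.Agent.R181.OR836a
import Crest.Agent.R181.V868a

/-!
R181, V-chain, ring `O` block (helper836): uniqueness of homs out of `O`; `DD = O[1/π] ⊂ T((π))`;
868's `Line (DD h)`.
-/

namespace Crest.Agent.R181.OR

open PowerSeries Crest.Agent.R181.RO

universe u v

variable {T S Δ : Type u} [Ring T] [Ring S] [Ring Δ]
variable {j : S →+* PowerSeries T} {δ : S →+* Δ} {i : Δ →+* T} {p : S}

section ext

/-- approximation of elements of `O` by elements of the rational closure -/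
theorem exists_approx (h : Dat j δ i p) (f : O j δ) (s : ℕ) :
    ∃ g : O j δ, (g : PowerSeries T) ∈ O' j δ ∧ ∃ f' : O j δ, f = g + pi h ^ s * f' := by
  obtain ⟨g, hg, h1⟩ := mem_O.1 f.2 s
  let f' : PowerSeries T := PowerSeries.mk fun n => PowerSeries.coeff (n + s) ((f : PowerSeries T) - g)
  have h2 : (f : PowerSeries T) - g = PowerSeries.X ^ s * f' := by
    ext n
    rw [PowerSeries.coeff_X_pow_mul']
    split_ifs with hn
    · simp only [f', PowerSeries.coeff_mk]
      congr 2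
      omega
    · rw [map_sub, h1 n (by omega), sub_self]
  have h3 : f' ∈ O j δ := by
    rw [← X_pow_mul_mem_iff h s, ← h2]
    exact sub_mem f.2 (O'_le hg)
  refine ⟨⟨g, O'_le hg⟩, hg, ⟨f', h3⟩, Subtype.ext ?_⟩
  have h4 : (f : PowerSeries T) = g + PowerSeries.X ^ s * f' := by rw [← h2]; abel
  simpa [pi] using h4

/-- homs out of `O` which agree on `S` agree on the rational closure -/
theorem eqOn_O' {B : Type*} [Ring B] (h : Dat j δ i p) (θ₁ θ₂ : O j δ →+* B)
    (hj : ∀ s, θ₁ ⟨j s, j_mem_O s⟩ = θ₂ ⟨j s, j_mem_O s⟩) (f : O j δ)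
    (hf : (f : PowerSeries T) ∈ O' j δ) : θ₁ f = θ₂ f := by
  have hle : O' j δ ≤ (RingHom.eqLocus θ₁ θ₂).map (O j δ).subtype := by
    rw [O', Subring.closure_le]
    rintro y (⟨s, rfl⟩ | ⟨n, M, N, a, b, hM, h1, h2, rfl⟩)
    · exact ⟨⟨j s, j_mem_O s⟩, hj s, rfl⟩
    · have hmem : ∀ a b, N a b ∈ O j δ := fun a b =>
        O'_le (Subring.subset_closure (Or.inr ⟨n, M, N, a, b, hM, h1, h2, rfl⟩))
      let N' : Matrix (Fin n) (Fin n) (O j δ) := fun a b => ⟨N a b, hmem a b⟩
      let jO : S →+* O j δ := j.codRestrict (O j δ) fun s => j_mem_O s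
      have hinj : Function.Injective fun X : Matrix (Fin n) (Fin n) (O j δ) =>
          X.map (O j δ).subtype := by
        intro X Y hXY
        ext1 i j
        exact Subtype.ext (congrFun (congrFun hXY i) j)
      have h1' : M.map jO * N' = 1 := by
        apply hinj
        simp only
        rw [Matrix.map_mul, Matrix.map_one _ (map_zero _) (map_one _)]
        exact h1
      have h2' : N' * M.map jO = 1 := by
        apply hinj
        simp only
        rw [Matrix.map_mul, Matrix.map_one _ (map_zero _) (map_one _)]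
        exact h2
      have h3 : (M.map jO).map θ₁ = (M.map jO).map θ₂ := by
        ext a b
        exact hj (M a b)
      have h4 : N'.map θ₁ * (M.map jO).map θ₁ = 1 := by
        rw [← Matrix.map_mul, h2', Matrix.map_one _ (map_zero _) (map_one _)]
      have h5 : (M.map jO).map θ₂ * N'.map θ₂ = 1 := by
        rw [← Matrix.map_mul, h1', Matrix.map_one _ (map_zero _) (map_one _)]
      have h6 : N'.map θ₁ = N'.map θ₂ := by
        calc N'.map θ₁ = N'.map θ₁ * ((M.map jO).map θ₂ * N'.map θ₂) := by rw [h5, mul_one]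
          _ = (N'.map θ₁ * (M.map jO).map θ₁) * N'.map θ₂ := by rw [← mul_assoc, h3]
          _ = _ := by rw [h4, one_mul]
      exact ⟨N' a b, congrFun (congrFun h6 a) b, rfl⟩
  obtain ⟨y, hy, hy'⟩ := hle hf
  have : y = f := Subtype.ext hy'
  subst this
  exact hy

/-- two ring homs out of `O` into a `π`-separated ring which agree on `S` are equal -/
theorem hom_ext_of_sep {B : Type*} [Ring B] (h : Dat j δ i p) (θ₁ θ₂ : O j δ →+* B)
    (hj : ∀ s, θ₁ ⟨j s, j_mem_O s⟩ = θ₂ ⟨j s, j_mem_O s⟩)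
    (hsep : ∀ y : B, (∀ n : ℕ, ∃ z, y = θ₁ (pi h) ^ n * z) → y = 0) : θ₁ = θ₂ := by
  have hp : θ₁ (pi h) = θ₂ (pi h) := by
    have : pi h = ⟨j p, j_mem_O p⟩ := Subtype.ext h.jp.symm
    rw [this, hj]
  refine RingHom.ext fun f => ?_
  rw [← sub_eq_zero]
  apply hsep
  intro n
  obtain ⟨g, hg, f', hf⟩ := exists_approx h f n
  refine ⟨θ₁ f' - θ₂ f', ?_⟩
  rw [hf, map_add, map_add, map_mul, map_mul, map_pow, map_pow, ← hp, mul_sub,
    eqOn_O' h θ₁ θ₂ hj g hg]
  abel

/-- two ring homs `O → A⟦X⟧` with `π ↦ X` which agree on `S` are equal -/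
theorem hom_ext {A : Type*} [Ring A] (h : Dat j δ i p) (θ₁ θ₂ : O j δ →+* PowerSeries A)
    (hX : θ₁ (pi h) = PowerSeries.X)
    (hj : ∀ s, θ₁ ⟨j s, j_mem_O s⟩ = θ₂ ⟨j s, j_mem_O s⟩) : θ₁ = θ₂ := by
  apply hom_ext_of_sep h θ₁ θ₂ hj
  intro y hy
  ext n
  obtain ⟨z, hz⟩ := hy (n + 1)
  rw [hz, hX, PowerSeries.coeff_X_pow_mul', if_neg (by omega), map_zero]

end ext

section laurent

variable {A : Type*} [Ring A]

theorem single_comm (a : ℤ) (f : LaurentSeries A) :
    HahnSeries.single a (1 : A) * f = f * HahnSeries.single a (1 : A) := by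
  ext n
  rw [HahnSeries.coeff_single_mul, HahnSeries.coeff_mul_single, one_mul, mul_one]

theorem single_mul_single' (a b : ℤ) :
    (HahnSeries.single a (1 : A) : LaurentSeries A) * HahnSeries.single b (1 : A) =
      HahnSeries.single (a + b) (1 : A) := by
  rw [HahnSeries.single_mul_single, one_mul]

theorem central_mul {R : Type*} [Ring R] (z z' a b : R) (h : z' * a = a * z') :
    z * z' * (a * b) = z * a * (z' * b) := by
  calc z * z' * (a * b) = z * (z' * a) * b := by simp only [mul_assoc]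
    _ = z * (a * z') * b := by rw [h]
    _ = _ := by simp only [mul_assoc]

theorem single_zero : (HahnSeries.single (0 : ℤ) (1 : A) : LaurentSeries A) = 1 := rfl

theorem ofPS_X_pow (m : ℕ) : HahnSeries.ofPowerSeries ℤ A (PowerSeries.X ^ m) =
    HahnSeries.single (m : ℤ) (1 : A) := HahnSeries.ofPowerSeries_X_pow m

theorem coeff_ofPS_neg (f : PowerSeries A) (n : ℤ) (hn : n < 0) :
    (HahnSeries.ofPowerSeries ℤ A f).coeff n = 0 := by
  rw [HahnSeries.ofPowerSeries_apply]
  apply HahnSeries.embDomain_notin_image_support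
  rintro ⟨m, -, hm⟩
  have : ((m : ℕ) : ℤ) = n := hm
  omega

/-- a Laurent series without negative terms is a power series -/
theorem exists_ofPS (f : LaurentSeries A) (hf : ∀ n : ℤ, n < 0 → f.coeff n = 0) :
    ∃ g : PowerSeries A, HahnSeries.ofPowerSeries ℤ A g = f := by
  refine ⟨PowerSeries.mk fun n => f.coeff n, ?_⟩
  ext n
  rcases lt_or_ge n 0 with hn | hn
  · rw [hf n hn, coeff_ofPS_neg _ n hn]
  · obtain ⟨m, rfl⟩ := Int.eq_ofNat_of_zero_le hn
    rw [HahnSeries.ofPowerSeries_apply_coeff, PowerSeries.coeff_mk]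

end laurent

section DD

/-- `DD = O[1/π]` as a subring of `T((π))`. -/
noncomputable def DD (h : Dat j δ i p) : Subring (LaurentSeries T) where
  carrier := {f | ∃ (m : ℕ) (g : PowerSeries T), g ∈ O j δ ∧
    HahnSeries.single (m : ℤ) (1 : T) * f = HahnSeries.ofPowerSeries ℤ T g}
  mul_mem' := by
    rintro a b ⟨m, g, hg, h1⟩ ⟨m', g', hg', h1'⟩
    refine ⟨m + m', g * g', mul_mem hg hg', ?_⟩
    rw [map_mul, ← h1, ← h1', Nat.cast_add, ← single_mul_single']
    exact central_mul _ _ _ _ (single_comm (m' : ℤ) a)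
  one_mem' := ⟨0, 1, one_mem _, by simp [single_zero]⟩
  add_mem' := by
    rintro a b ⟨m, g, hg, h1⟩ ⟨m', g', hg', h1'⟩
    refine ⟨m + m', PowerSeries.X ^ m' * g + PowerSeries.X ^ m * g',
      add_mem ((X_pow_mul_mem_iff h _).2 hg) ((X_pow_mul_mem_iff h _).2 hg'), ?_⟩
    rw [map_add, map_mul, map_mul, ofPS_X_pow, ofPS_X_pow, ← h1, ← h1', ← mul_assoc, ← mul_assoc,
      single_mul_single', single_mul_single', mul_add, Nat.cast_add, add_comm (m' : ℤ)]
  zero_mem' := ⟨0, 0, zero_mem _, by simp⟩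
  neg_mem' := by
    rintro a ⟨m, g, hg, h1⟩
    exact ⟨m, -g, neg_mem hg, by rw [map_neg, ← h1, mul_neg]⟩

theorem mem_DD (h : Dat j δ i p) {f : LaurentSeries T} : f ∈ DD h ↔
    ∃ (m : ℕ) (g : PowerSeries T), g ∈ O j δ ∧
      HahnSeries.single (m : ℤ) (1 : T) * f = HahnSeries.ofPowerSeries ℤ T g := Iff.rfl

theorem ofPS_mem_DD (h : Dat j δ i p) {g : PowerSeries T} (hg : g ∈ O j δ) :
    HahnSeries.ofPowerSeries ℤ T g ∈ DD h :=
  ⟨0, g, hg, by rw [Nat.cast_zero, single_zero, one_mul]⟩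

theorem ofPS_mem_DD_iff (h : Dat j δ i p) {g : PowerSeries T} :
    HahnSeries.ofPowerSeries ℤ T g ∈ DD h ↔ g ∈ O j δ := by
  refine ⟨?_, ofPS_mem_DD h⟩
  rintro ⟨m, g', hg', h1⟩
  rw [← ofPS_X_pow, ← map_mul] at h1
  rw [← X_pow_mul_mem_iff h m, HahnSeries.ofPowerSeries_injective h1]
  exact hg'

theorem single_mem_DD (h : Dat j δ i p) (n : ℤ) :
    (HahnSeries.single n (1 : T) : LaurentSeries T) ∈ DD h := by
  rcases lt_or_ge n 0 with hn | hn
  · refine ⟨(-n).toNat, 1, one_mem _, ?_⟩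
    rw [Int.toNat_of_nonneg (by omega), single_mul_single', neg_add_cancel, single_zero, map_one]
  · obtain ⟨m, rfl⟩ := Int.eq_ofNat_of_zero_le hn
    have := ofPS_mem_DD h (pow_mem (X_mem_O h) m)
    rwa [ofPS_X_pow] at this

/-- `DD ∩ T⟦π⟧ = O` -/
theorem exists_mem_O (h : Dat j δ i p) {f : LaurentSeries T} (hf : f ∈ DD h)
    (h0 : ∀ n : ℤ, n < 0 → f.coeff n = 0) :
    ∃ g ∈ O j δ, HahnSeries.ofPowerSeries ℤ T g = f := by
  obtain ⟨g, rfl⟩ := exists_ofPS f h0
  exact ⟨g, (ofPS_mem_DD_iff h).1 hf, rfl⟩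

/-- `O` as a subring of `DD` -/
noncomputable def OD (h : Dat j δ i p) : Subring (DD h) :=
  ((O j δ).map (HahnSeries.ofPowerSeries ℤ T)).comap (DD h).subtype

theorem mem_OD (h : Dat j δ i p) {f : DD h} :
    f ∈ OD h ↔ ∃ g ∈ O j δ, HahnSeries.ofPowerSeries ℤ T g = (f : LaurentSeries T) := Iff.rfl

theorem mem_OD_iff_coeff (h : Dat j δ i p) {f : DD h} :
    f ∈ OD h ↔ ∀ n : ℤ, n < 0 → (f : LaurentSeries T).coeff n = 0 := by
  constructor
  · rintro ⟨g, -, hg⟩ n hn
    have hg' : HahnSeries.ofPowerSeries ℤ T g = (f : LaurentSeries T) := hg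
    rw [← hg', coeff_ofPS_neg _ n hn]
  · intro h0
    exact exists_mem_O h f.2 h0

/-- `x = π⁻¹` -/
noncomputable def xD (h : Dat j δ i p) : DD h := ⟨HahnSeries.single (-1) 1, single_mem_DD h _⟩

/-- `π` -/
noncomputable def pD (h : Dat j δ i p) : DD h := ⟨HahnSeries.single 1 1, single_mem_DD h _⟩

theorem xD_mul_pD (h : Dat j δ i p) : xD h * pD h = 1 :=
  Subtype.ext (by
    show (HahnSeries.single (-1 : ℤ) (1 : T) : LaurentSeries T) * HahnSeries.single 1 (1 : T) = 1
    rw [single_mul_single']; rfl)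

theorem pD_mul_xD (h : Dat j δ i p) : pD h * xD h = 1 :=
  Subtype.ext (by
    show (HahnSeries.single (1 : ℤ) (1 : T) : LaurentSeries T) * HahnSeries.single (-1) (1 : T) = 1
    rw [single_mul_single']; rfl)

theorem xD_comm (h : Dat j δ i p) (d : DD h) : xD h * d = d * xD h :=
  Subtype.ext (single_comm _ _)

theorem pD_comm (h : Dat j δ i p) (d : DD h) : pD h * d = d * pD h :=
  Subtype.ext (single_comm _ _)

theorem pD_pow (h : Dat j δ i p) (m : ℕ) :
    ((pD h ^ m : DD h) : LaurentSeries T) = HahnSeries.single (m : ℤ) (1 : T) := by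
  rw [← ofPS_X_pow, map_pow, HahnSeries.ofPowerSeries_X]
  rfl

theorem xD_pow (h : Dat j δ i p) (m : ℕ) :
    ((xD h ^ m : DD h) : LaurentSeries T) = HahnSeries.single (-(m : ℤ)) (1 : T) := by
  induction m with
  | zero => rw [pow_zero, Nat.cast_zero, neg_zero]; rfl
  | succ m ih =>
    rw [pow_succ, Subring.coe_mul, ih]
    show _ * (HahnSeries.single (-1 : ℤ) (1 : T) : LaurentSeries T) = _
    have h1 : -(m : ℤ) + -1 = -((m + 1 : ℕ) : ℤ) := by push_cast; ring
    rw [single_mul_single', h1]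

theorem coeff_pD_pow_mul (h : Dat j δ i p) (m : ℕ) (f : DD h) (n : ℤ) :
    ((pD h ^ m * f : DD h) : LaurentSeries T).coeff n = (f : LaurentSeries T).coeff (n - m) := by
  rw [Subring.coe_mul, pD_pow, HahnSeries.coeff_single_mul, one_mul]

theorem coeff_pD_mul (h : Dat j δ i p) (f : DD h) (n : ℤ) :
    ((pD h * f : DD h) : LaurentSeries T).coeff n = (f : LaurentSeries T).coeff (n - 1) := by
  have := coeff_pD_pow_mul h 1 f n
  rwa [pow_one, Nat.cast_one] at this

theorem pD_mem_OD (h : Dat j δ i p) : pD h ∈ OD h :=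
  ⟨PowerSeries.X, X_mem_O h, HahnSeries.ofPowerSeries_X⟩

theorem exists_pD_pow_mul_mem (h : Dat j δ i p) (d : DD h) : ∃ m : ℕ, pD h ^ m * d ∈ OD h := by
  obtain ⟨m, g, hg, h1⟩ := d.2
  refine ⟨m, g, hg, ?_⟩
  show _ = ((pD h ^ m * d : DD h) : LaurentSeries T)
  rw [Subring.coe_mul, pD_pow, h1]

/-- 868's `Line` from `V ⊂ DD ∩ T[x]` with `x ∈ V` -/
noncomputable def line (h : Dat j δ i p) (V : Subring (DD h)) (hx : xD h ∈ V)
    (hV : ∀ v ∈ V, ∀ n : ℤ, 0 < n → (v : LaurentSeries T).coeff n = 0) : V868.Line (DD h) where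
  V := V
  O := OD h
  x := xD h
  p := pD h
  xp := xD_mul_pD h
  px := pD_mul_xD h
  xc := xD_comm h
  pc := pD_comm h
  xV := hx
  pO := pD_mem_OD h
  exh := exists_pD_pow_mul_mem h
  disj o ho hpo := by
    apply Subtype.ext
    ext n
    rw [Subring.coe_zero, HahnSeries.coeff_zero]
    rcases lt_or_ge n 0 with hn | hn
    · exact (mem_OD_iff_coeff h).1 ho n hn
    · have := hV _ hpo (n + 1) (by omega)
      rwa [coeff_pD_mul, add_sub_cancel_right] at this

/-- the power series ring version of `OD` -/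
noncomputable def toOD (h : Dat j δ i p) : O j δ →+* OD h where
  toFun g := ⟨⟨HahnSeries.ofPowerSeries ℤ T g, ofPS_mem_DD h g.2⟩, ⟨g, g.2, rfl⟩⟩
  map_one' := Subtype.ext (Subtype.ext (map_one _))
  map_zero' := Subtype.ext (Subtype.ext (map_zero _))
  map_mul' _ _ := Subtype.ext (Subtype.ext (map_mul _ _ _))
  map_add' _ _ := Subtype.ext (Subtype.ext (map_add _ _ _))

theorem toOD_coe (h : Dat j δ i p) (g : O j δ) :
    ((toOD h g : DD h) : LaurentSeries T) = HahnSeries.ofPowerSeries ℤ T g := rfl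

theorem toOD_surjective (h : Dat j δ i p) : Function.Surjective (toOD h) := by
  rintro ⟨f, g, hg, hf⟩
  exact ⟨⟨g, hg⟩, Subtype.ext (Subtype.ext hf)⟩

theorem toOD_pi (h : Dat j δ i p) : toOD h (pi h) = ⟨pD h, pD_mem_OD h⟩ :=
  Subtype.ext (Subtype.ext HahnSeries.ofPowerSeries_X)

/-- `T` is the universal ring for `V ⊂ T[x]`, `O ⊂ T⟦π⟧`, if it is so on `S`. -/
noncomputable def univT (h : Dat j δ i p) (V : Subring (DD h)) (hx : xD h ∈ V)
    (hV : ∀ v ∈ V, ∀ n : ℤ, 0 < n → (v : LaurentSeries T).coeff n = 0)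
    (hgen : Subring.closure {t : T | ∃ (s : S) (n : ℕ), t = PowerSeries.coeff n (j s)} = ⊤)
    (huniv : ∀ (A : Type u) [Ring A] (ψ : S →+* PowerSeries A), ψ p = PowerSeries.X →
      (∀ (l : ℕ) (s : S), (∀ v : DD h, pD h ^ l * v = toOD h ⟨j s, j_mem_O s⟩ → v ∈ V) →
        ∀ n, l < n → PowerSeries.coeff n (ψ s) = 0) →
      ∃ f : T →+* A, ∀ (s : S) (n : ℕ),
        PowerSeries.coeff n (ψ s) = f (PowerSeries.coeff n (j s))) :
    V868.UnivT (line h V hx hV) T where
  Θ := (DD h).subtype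
  Θx := rfl
  ΘV := hV
  ΘO o ho n hn := (mem_OD_iff_coeff h).1 ho n hn
  gen := by
    rw [eq_top_iff, ← hgen, Subring.closure_le]
    rintro _ ⟨s, n, rfl⟩
    apply Subring.subset_closure
    refine ⟨toOD h ⟨j s, j_mem_O s⟩, n, ?_⟩
    show _ = (HahnSeries.ofPowerSeries ℤ T (j s)).coeff (n : ℤ)
    rw [HahnSeries.ofPowerSeries_apply_coeff]
  univ := by
    intro A _ θ hθ hcond
    let θ' : O j δ →+* PowerSeries A := θ.comp (toOD h)
    have hθ' : θ' (pi h) = PowerSeries.X := by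
      show θ (toOD h (pi h)) = _
      rw [toOD_pi]
      exact hθ
    let ψ : S →+* PowerSeries A := θ'.comp (j.codRestrict (O j δ) fun s => j_mem_O s)
    obtain ⟨f, hf⟩ := huniv A ψ (by
        show θ' ⟨j p, _⟩ = _
        rw [← hθ']
        congr 1
        exact Subtype.ext h.jp) (by
        intro l s hv n hn
        let v : DD h := xD h ^ l * toOD h ⟨j s, j_mem_O s⟩
        have hpx : ∀ m : ℕ, pD h ^ m * xD h ^ m = 1 := by
          intro m
          induction m with
          | zero => simp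
          | succ m ih =>
            rw [pow_succ, pow_succ', mul_assoc, ← mul_assoc (pD h), pD_mul_xD, one_mul, ih]
        have h1 : pD h ^ l * v = toOD h ⟨j s, j_mem_O s⟩ := by
          show pD h ^ l * (xD h ^ l * _) = _
          rw [← mul_assoc, hpx, one_mul]
        have h2 : pD h ^ l * v ∈ OD h := by rw [h1]; exact (toOD h ⟨j s, j_mem_O s⟩).2
        have h3 := hcond v (hv v h1) l n h2 hn
        have h4 : (⟨pD h ^ l * v, h2⟩ : OD h) = toOD h ⟨j s, j_mem_O s⟩ := Subtype.ext h1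
        have h5 : θ ⟨pD h ^ l * v, h2⟩ = ψ s := congrArg θ h4
        rw [← h5]
        exact h3)
    refine ⟨f, ?_⟩
    have h6 : θ' = (PowerSeries.map f).comp (O j δ).subtype := by
      apply hom_ext h _ _ hθ'
      intro s
      ext n
      exact (hf s n).trans (by simp)
    intro o n
    obtain ⟨g, rfl⟩ := toOD_surjective h o
    have h7 : θ (toOD h g) = θ' g := rfl
    rw [h7, h6]
    show _ = f ((HahnSeries.ofPowerSeries ℤ T g).coeff (n : ℤ))
    rw [HahnSeries.ofPowerSeries_apply_coeff]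
    simp

end DD

end Crest.Agent.R181.OR
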