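import Crest.Agent.R181.UR396g
import Crest.Agent.R181.CU735b

/-!
R181 (helper396): the Rees ring as graded ring in the sense of `CU735b`, and the two inputs of
`CU.mkChart`, `CU.mkChart_inj`.
-/

set_option autoImplicit false
set_option linter.unusedSectionVars false

namespace Crest.Agent.R181.UR

open AddMonoidAlgebra
open scoped Polynomial

/-- `UR.Gr` gives `CU.Gr`. -/
noncomputable def Gr.toCU {R : Type*} [Ring R] {Δ : R →+* R[X]} (h : Gr Δ) : CU.Gr R where
  γ := Δ
  hom := h.coassoc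
  sum r := by
    have := h.counit r
    rw [Polynomial.eval_eq_sum]
    simpa using this

theorem Gr.mem_deg_toCU {R : Type*} [Ring R] {Δ : R →+* R[X]} (h : Gr Δ) {n : ℕ} {r : R} :
    r ∈ h.toCU.deg n ↔ r ∈ hom Δ n := Iff.rfl

section Rees

variable {F D L I σ : Type} [CommRing F] [Ring D] [Algebra F D]
  [CommRing L] [Algebra F L]
  [Fintype I] [Fintype σ] [DecidableEq σ]
  (a : I → ℕ) (th : I → I → F)
  (Q : I → MvPolynomial (Option (Option σ)) L) (w : I → σ → D)

/-- the Rees ring as a graded ring -/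
noncomputable def GR : CU.Gr (RR a th Q w) := (gr_ΔR a th Q w).toCU

/-- `T^h ⊗ L` as a graded ring -/
noncomputable def GH : CU.Gr (Th a th Q w) := (gr_Δh a th Q w).toCU

/-- the element `t` of the Rees ring -/
noncomputable def tR : RR a th Q w := iL a th _ w Polynomial.X

/-- the element `x` of the Rees ring -/
noncomputable def xR : RR a th Q w := iL a th _ w (Polynomial.C Polynomial.X)

/-- the element `x` of `T^h ⊗ L` -/
noncomputable def xh : Th a th Q w := iL a th _ w Polynomial.X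

theorem tR_mem : tR a th Q w ∈ (GR a th Q w).deg 1 :=
  iL_mem_hom a th w (hmg_RR Q) (X_mem_hom _ _)

theorem xR_mem : xR a th Q w ∈ (GR a th Q w).deg 1 :=
  iL_mem_hom a th w (hmg_RR Q) (C_mem_hom _ (X_mem_hom _ _))

theorem xh_mem : xh a th Q w ∈ (GH a th Q w).deg 1 :=
  iL_mem_hom a th w (hmg_Th Q) (X_mem_hom _ _)

theorem eta_mem_GR (i : I) : eta a th _ w i ∈ (GR a th Q w).deg 1 :=
  eta_mem_hom a th w (hmg_RR Q) i

theorem iD_mem_GR (d : D) : iD a th _ w d ∈ (GR a th Q w).deg 0 :=
  iD_mem_hom a th w (hmg_RR Q) d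

theorem iL_mem_GR (x : L) :
    iL a th _ w (Polynomial.C (Polynomial.C x)) ∈ (GR a th Q w).deg 0 :=
  iL_mem_hom a th w (hmg_RR Q) (C_mem_hom _ (C_mem_hom _ (mem_hom_C x)))

theorem RtoV_iD (d : D) : RtoV a th Q w (iD a th _ w d) = iD a th _ w d := by simp [RtoV]

theorem RtoV_eta (i : I) : RtoV a th Q w (eta a th _ w i) = eta a th _ w i := by simp [RtoV]

theorem RtoV_iL (x : L) : RtoV a th Q w (iL a th _ w (Polynomial.C (Polynomial.C x))) =
    iL a th _ w (Polynomial.C x) := by simp [RtoV]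

theorem RtoV_tR : RtoV a th Q w (tR a th Q w) = 1 := by
  rw [tR, RtoV, Umap_iL]; simp

theorem RtoV_xR : RtoV a th Q w (xR a th Q w) = iL a th _ w Polynomial.X := by
  rw [xR, RtoV, Umap_iL]; simp

theorem RtoV_surjective : Function.Surjective (RtoV a th Q w) := by
  apply Umap_surjective
  intro x
  exact ⟨Polynomial.C x, by simp⟩

theorem RtoI_iD (d : D) : RtoI a th Q w (iD a th _ w d) = iD a th _ w d := by simp [RtoI]

theorem RtoI_eta (i : I) : RtoI a th Q w (eta a th _ w i) = eta a th _ w i := by simp [RtoI]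

theorem RtoI_iL (x : L) : RtoI a th Q w (iL a th _ w (Polynomial.C (Polynomial.C x))) =
    iL a th _ w (Polynomial.C x) := by simp [RtoI]

theorem RtoI_tR : RtoI a th Q w (tR a th Q w) = iL a th _ w Polynomial.X := by
  rw [tR, RtoI, Umap_iL]; simp

theorem RtoI_xR : RtoI a th Q w (xR a th Q w) = 1 := by
  rw [xR, RtoI, Umap_iL]; simp

theorem Rtoh_iD (d : D) : Rtoh a th Q w (iD a th _ w d) = iD a th _ w d := by simp [Rtoh]

theorem Rtoh_eta (i : I) : Rtoh a th Q w (eta a th _ w i) = eta a th _ w i := by simp [Rtoh]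

theorem Rtoh_iL (x : L[X][X]) : Rtoh a th Q w (iL a th _ w x) =
    iL a th _ w (Polynomial.eval 0 x) := by simp [Rtoh]

/-- two homs out of `RR` are equal if they agree on `D`, `L`, `x`, `t`, `η` -/
theorem RR_hom_ext {A : Type*} [Ring A] {f g : RR a th Q w →+* A}
    (hD : ∀ d, f (iD a th _ w d) = g (iD a th _ w d))
    (hL : ∀ x, f (iL a th _ w (Polynomial.C (Polynomial.C x))) =
      g (iL a th _ w (Polynomial.C (Polynomial.C x))))
    (hx : f (xR a th Q w) = g (xR a th Q w)) (ht : f (tR a th Q w) = g (tR a th Q w))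
    (hI : ∀ i, f (eta a th _ w i) = g (eta a th _ w i)) : f = g := by
  refine hom_ext' a th _ w hD ?_ hI
  have h1 : (f.comp (iL a th _ w)) = (g.comp (iL a th _ w)) := by
    apply Polynomial.ringHom_ext'
    · apply Polynomial.ringHom_ext
      · exact hL
      · exact hx
    · exact ht
  exact RingHom.congr_fun h1

/-- two homs out of a chain ring over `L[X]` are equal if they agree on `D`, `L`, `X`, `η` -/
theorem UX_hom_ext {Q' : I → MvPolynomial (Option σ) L[X]} {A : Type*} [Ring A]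
    {f g : U a th Q' w →+* A}
    (hD : ∀ d, f (iD a th _ w d) = g (iD a th _ w d))
    (hL : ∀ x, f (iL a th _ w (Polynomial.C x)) = g (iL a th _ w (Polynomial.C x)))
    (hx : f (iL a th _ w Polynomial.X) = g (iL a th _ w Polynomial.X))
    (hI : ∀ i, f (eta a th _ w i) = g (eta a th _ w i)) : f = g := by
  refine hom_ext' a th _ w hD ?_ hI
  have h1 : (f.comp (iL a th _ w)) = (g.comp (iL a th _ w)) := by
    apply Polynomial.ringHom_ext
    · exact hL
    · exact hx
  exact RingHom.congr_fun h1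

/-- `π ^ l * jV v = jI B` for `v`, `B` the images of a homogeneous element of degree `l`. -/
theorem rees_scale {B : Type*} [Ring B] (jV : Vp a th Q w →+* B) (jI : Vinf a th Q w →+* B)
    (p : B) (hp : ∀ y, Commute p y)
    (hD : ∀ d, jI (iD a th _ w d) = jV (iD a th _ w d))
    (hL : ∀ x, jI (iL a th _ w (Polynomial.C x)) = jV (iL a th _ w (Polynomial.C x)))
    (hx : p * jV (iL a th _ w Polynomial.X) = 1)
    (hpi : jI (iL a th _ w Polynomial.X) = p)
    (hI : ∀ i, jI (eta a th _ w i) = p * jV (eta a th _ w i))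
    (l : ℕ) (r : RR a th Q w) (hr : r ∈ (GR a th Q w).deg l) :
    p ^ l * jV (RtoV a th Q w r) = jI (RtoI a th Q w r) := by
  have hc : ∀ r, Commute ((jV.comp (RtoV a th Q w)) r) p := fun r => (hp _).symm
  have key : jI.comp (RtoI a th Q w) =
      (Polynomial.eval₂RingHom' (jV.comp (RtoV a th Q w)) p hc).comp (ΔR a th Q w) := by
    apply RR_hom_ext
    · intro d
      have e : ΔR a th Q w (iD a th _ w d) = Polynomial.C (iD a th _ w d) :=
        coact_iD a th w (hmg_RR Q) d
      rw [RingHom.comp_apply, RingHom.comp_apply, RtoI_iD, e, hD]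
      show _ = Polynomial.eval₂ _ _ _
      rw [Polynomial.eval₂_C, RingHom.comp_apply, RtoV_iD]
    · intro x
      have e : ΔR a th Q w (iL a th _ w (Polynomial.C (Polynomial.C x))) =
          Polynomial.monomial 0 (iL a th _ w (Polynomial.C (Polynomial.C x))) :=
        iL_mem_GR a th Q w x
      rw [RingHom.comp_apply, RingHom.comp_apply, RtoI_iL, e, hL]
      show _ = Polynomial.eval₂ _ _ _
      rw [Polynomial.eval₂_monomial, RingHom.comp_apply, RtoV_iL, pow_zero, mul_one]
    · have e : ΔR a th Q w (xR a th Q w) = Polynomial.monomial 1 (xR a th Q w) :=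
        xR_mem a th Q w
      rw [RingHom.comp_apply, RingHom.comp_apply, RtoI_xR, e, map_one]
      show _ = Polynomial.eval₂ _ _ _
      rw [Polynomial.eval₂_monomial, RingHom.comp_apply, RtoV_xR, pow_one, ← (hp _).eq, hx]
    · have e : ΔR a th Q w (tR a th Q w) = Polynomial.monomial 1 (tR a th Q w) :=
        tR_mem a th Q w
      rw [RingHom.comp_apply, RingHom.comp_apply, RtoI_tR, e, hpi]
      show _ = Polynomial.eval₂ _ _ _
      rw [Polynomial.eval₂_monomial, RingHom.comp_apply, RtoV_tR, pow_one, map_one, one_mul]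
    · intro i
      have e : ΔR a th Q w (eta a th _ w i) = Polynomial.monomial 1 (eta a th _ w i) :=
        eta_mem_GR a th Q w i
      rw [RingHom.comp_apply, RingHom.comp_apply, RtoI_eta, e, hI]
      show _ = Polynomial.eval₂ _ _ _
      rw [Polynomial.eval₂_monomial, RingHom.comp_apply, RtoV_eta, pow_one, (hp _).eq]
  have h1 : ΔR a th Q w r = Polynomial.monomial l r := hr
  have h2 := RingHom.congr_fun key r
  rw [RingHom.comp_apply, RingHom.comp_apply, h1] at h2
  rw [h2]
  show _ = Polynomial.eval₂ _ _ _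
  rw [Polynomial.eval₂_monomial, ((hp _).pow_left l).eq]
  rfl

theorem map_comp_δ : (Polynomial.mapRingHom (Polynomial.evalRingHom (0 : L[X]))).comp (δ₂ L) =
    (δ₁ L).comp (Polynomial.evalRingHom (0 : L[X])) := by
  apply Polynomial.ringHom_ext'
  · apply Polynomial.ringHom_ext
    · intro x
      simp
    · simp
  · simp

/-- `RR → T^h ⊗ L` is graded -/
theorem Rtoh_mem (l : ℕ) (r : RR a th Q w) (hr : r ∈ (GR a th Q w).deg l) :
    Rtoh a th Q w r ∈ (GH a th Q w).deg l := by
  have key : (Polynomial.mapRingHom (Rtoh a th Q w)).comp (ΔR a th Q w) =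
      (Δh a th Q w).comp (Rtoh a th Q w) := by
    refine hom_ext' a th _ w (fun d => ?_) (fun x => ?_) (fun i => ?_)
    · rw [RingHom.comp_apply, RingHom.comp_apply, ΔR, coact_iD, Rtoh_iD, Δh, coact_iD]
      simp [Rtoh_iD]
    · rw [RingHom.comp_apply, RingHom.comp_apply, ΔR, coact_iL, Rtoh_iL, Δh, coact_iL,
        Polynomial.coe_mapRingHom, Polynomial.map_map]
      have h1 : (Rtoh a th Q w).comp
          (iL a th (Qs Q ((Polynomial.C : L[X] →+* L[X][X]).comp Polynomial.C)
            Polynomial.X (Polynomial.C Polynomial.X)) w) =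
          (iL a th (Qs Q (Polynomial.C : L →+* L[X]) 0 Polynomial.X) w).comp
            (Polynomial.evalRingHom (0 : L[X])) := RingHom.ext fun x => by
              rw [RingHom.comp_apply, Rtoh_iL]; rfl
      have h2 := RingHom.congr_fun (map_comp_δ (L := L)) x
      rw [RingHom.comp_apply, RingHom.comp_apply, Polynomial.coe_mapRingHom] at h2
      rw [h1, ← Polynomial.map_map, h2]
      rfl
    · rw [RingHom.comp_apply, RingHom.comp_apply, ΔR, coact_eta, Rtoh_eta, Δh, coact_eta]
      simp [Rtoh_eta]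
  have h1 : ΔR a th Q w r = Polynomial.monomial l r := hr
  have h2 := RingHom.congr_fun key r
  rw [RingHom.comp_apply, RingHom.comp_apply, h1] at h2
  show Δh a th Q w (Rtoh a th Q w r) = _
  rw [← h2]
  simp

theorem Ito1_RtoI (r : RR a th Q w) : Ito1 a th Q w (RtoI a th Q w r) =
    hto1 a th Q w (Rtoh a th Q w r) := by
  have key : (Ito1 a th Q w).comp (RtoI a th Q w) = (hto1 a th Q w).comp (Rtoh a th Q w) := by
    apply RR_hom_ext
    · intro d; simp [Ito1, RtoI, hto1, Rtoh]
    · intro x; simp [Ito1, RtoI, hto1, Rtoh]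
    · simp [Ito1, RtoI, hto1, Rtoh, xR]
    · simp [Ito1, RtoI, hto1, Rtoh, tR]
    · intro i; simp [Ito1, RtoI, hto1, Rtoh]
  exact RingHom.congr_fun key r

/-- the kernel of `RR → T^h ⊗ L` -/
theorem Rtoh_ker (r : RR a th Q w) (hr : Rtoh a th Q w r = 0) : ∃ y, r = tR a th Q w * y := by
  refine Umap_ker a th w _ _ _ (fun x => ⟨Polynomial.C x, by simp⟩) Polynomial.X ?_ r hr
  intro x hx
  have h1 : x.coeff 0 = 0 := by
    rw [Polynomial.coeff_zero_eq_eval_zero]; exact hx
  obtain ⟨y, hy⟩ := Polynomial.X_dvd_iff.2 h1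
  exact ⟨y, hy⟩

/-- the kernel of `T^h ⊗ L → T_{i+1} ⊗ L` -/
theorem hto1_ker (r : Th a th Q w) (hr : hto1 a th Q w r = 0) :
    ∃ y, r = (xh a th Q w - 1) * y := by
  have h := Umap_ker a th w (Polynomial.evalRingHom (1 : L)) (Q := Qs Q (Polynomial.C : L →+* L[X])
    0 Polynomial.X) (Q' := Qs Q (RingHom.id L) 0 1) _ _ (fun x => ⟨Polynomial.C x, by simp⟩)
    (Polynomial.X - 1) (by
      intro x hx
      have h1 : Polynomial.IsRoot x 1 := hx
      obtain ⟨y, hy⟩ := Polynomial.dvd_iff_isRoot.2 h1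
      refine ⟨y, ?_⟩
      rw [hy, map_one]) r hr
  obtain ⟨y, hy⟩ := h
  refine ⟨y, ?_⟩
  rw [hy, map_sub, map_one]
  rfl

/-- the kernel of `V^∞ → T_{i+1} ⊗ L` -/
theorem Ito1_ker (r : Vinf a th Q w) (hr : Ito1 a th Q w r = 0) :
    ∃ y, r = iL a th _ w Polynomial.X * y := by
  refine Umap_ker a th w _ _ _ (fun x => ⟨Polynomial.C x, by simp⟩) Polynomial.X ?_ r hr
  intro x hx
  have h1 : x.coeff 0 = 0 := by
    rw [Polynomial.coeff_zero_eq_eval_zero]; exact hx
  obtain ⟨y, hy⟩ := Polynomial.X_dvd_iff.2 h1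
  exact ⟨y, hy⟩

theorem Ito1_surjective : Function.Surjective (Ito1 a th Q w) := by
  apply Umap_surjective
  intro x
  exact ⟨Polynomial.C x, by simp⟩

/-- **injectivity of symbols**: if `x` is regular on `T^h ⊗ L` and `T_{i+1} ⊗ L → Δ` is injective,
a homogeneous element of the Rees ring whose image under `RR → V^∞ → T_{i+1} ⊗ L → Δ` vanishes is
a multiple of `t`. -/
theorem rees_inj {Del : Type*} [Ring Del] (ψ : T1 a th Q w →+* Del) (hψ : Function.Injective ψ)
    (hreg : ∀ y, xh a th Q w * y = 0 → y = 0) (l : ℕ) (r : RR a th Q w)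
    (hr : r ∈ (GR a th Q w).deg l) (h0 : ψ (Ito1 a th Q w (RtoI a th Q w r)) = 0) :
    ∃ y, r = tR a th Q w * y := by
  apply Rtoh_ker
  have h1 : hto1 a th Q w (Rtoh a th Q w r) = 0 := by
    rw [← Ito1_RtoI]
    exact hψ (by rw [h0, map_zero])
  obtain ⟨y, hy⟩ := hto1_ker a th Q w _ h1
  exact CU.Gr.eq_zero_of_eq_sub_one_mul (xh_mem a th Q w) hreg (Rtoh_mem a th Q w l r hr) hy

end Rees

end Crest.Agent.R181.UR
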