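import Crest.Agent.R181.CU735e
import Crest.Agent.R181.UR396h
import Crest.Agent.R181.OR836c

/-!
# Symbol data of the chain rings (concrete Lemma 3, part 1)

`RR → V^∞ → Del = D₁[τ]`: the symbols of the elements of degree `n`.
-/

set_option autoImplicit false
set_option linter.unusedSectionVars false

namespace Crest.Agent.R181.CU

open Crest.Agent.R181.UR Crest.Agent.R181.OR AddMonoidAlgebra
open scoped Polynomial

section generic

variable {R D : Type} [Ring R] [Ring D] {τ : Type} {G : Gr R} {Ψ : R →+* PA D τ}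

theorem PS_of_deg {n : ℕ} {r : R} (hr : r ∈ G.deg n) (h : ∀ m, (Ψ r).coeff m ∈ symS G Ψ n) :
    PS G Ψ r := by
  intro k m
  rw [Gr.coeff_of_mem_deg hr]
  split_ifs with h1
  · subst h1; exact h m
  · rw [map_zero]; exact (symS G Ψ k).zero_mem

theorem coeff_cst_mem {H : AddSubgroup D} {d : D} (hd : d ∈ H) (m : τ →₀ ℕ) :
    (cst τ d : PA D τ).coeff m ∈ H := by
  classical
  rw [cst_apply, coeff_single, Finsupp.single_apply]
  split_ifs
  · exact hd
  · exact H.zero_mem

theorem PS_of_cst {n : ℕ} {r : R} (hr : r ∈ G.deg n) {d : D} (h : Ψ r = cst τ d) :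
    PS G Ψ r := by
  refine PS_of_deg hr fun m => ?_
  rw [h]
  exact coeff_cst_mem (mem_symS.2 ⟨r, hr, h⟩) m

theorem P0_of_deg_succ {D' : Type} [Ring D'] {κ : D' →+* D} {n : ℕ} {r : R}
    (hr : r ∈ G.deg (n + 1)) : P0 G Ψ κ r := by
  intro m
  rw [Gr.coeff_of_mem_deg hr, if_neg (by omega), map_zero]
  exact zero_mem _

theorem P0_of_deg_zero {D' : Type} [Ring D'] {κ : D' →+* D} {r : R}
    (hr : r ∈ G.deg 0) (h : ∀ m, (Ψ r).coeff m ∈ κ.range) : P0 G Ψ κ r := by
  intro m
  rw [Gr.coeff_of_mem_deg hr, if_pos rfl]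
  exact h m

end generic

section chain

variable {F D D₁ I σ τ : Type} [CommRing F] [Ring D] [Algebra F D] [Ring D₁] [Algebra F D₁]
  [Fintype I] [Fintype σ] [DecidableEq σ]
  (a : I → ℕ) (th : I → I → F)
  {Q : I → MvPolynomial (Option (Option σ)) (MvPolynomial τ F)} {w : I → σ → D}
  {κ : D →+* D₁} {w₁ : I → Option σ → D₁}

/-- the values of the residue map on the generators of `V^∞` -/
structure IsRes (κ : D →+* D₁) (w₁ : I → Option σ → D₁) (δ : Vinf a th Q w →+* PA D₁ τ) :
    Prop where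
  D : ∀ d, δ (iD a th _ w d) = cst τ (κ d)
  L : ∀ x, δ (iL a th _ w (Polynomial.C x)) = cL τ (algebraMap F D₁) x
  X : δ (iL a th _ w Polynomial.X) = 0
  E : ∀ i, δ (eta a th _ w i) = cst τ (w₁ i none)

/-- the values of the symbol map on the generators of the Rees ring -/
structure IsSym (κ : D →+* D₁) (w₁ : I → Option σ → D₁) (Ψ : RR a th Q w →+* PA D₁ τ) :
    Prop where
  D : ∀ d, Ψ (iD a th _ w d) = cst τ (κ d)
  L : ∀ x, Ψ (iL a th _ w (Polynomial.C (Polynomial.C x))) = cL τ (algebraMap F D₁) x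
  x : Ψ (iL a th _ w (Polynomial.C Polynomial.X)) = 1
  t : Ψ (iL a th _ w Polynomial.X) = 0
  E : ∀ i, Ψ (eta a th _ w i) = cst τ (w₁ i none)

variable {a th}

theorem IsRes.isSym {δ : Vinf a th Q w →+* PA D₁ τ} (h : IsRes a th κ w₁ δ) :
    IsSym a th κ w₁ (δ.comp (RtoI a th Q w)) where
  D d := by rw [RingHom.comp_apply, RtoI_iD, h.D]
  L x := by rw [RingHom.comp_apply, RtoI_iL, h.L]
  x := by rw [RingHom.comp_apply, ← xR, RtoI_xR, map_one]
  t := by rw [RingHom.comp_apply, ← tR, RtoI_tR, h.X]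
  E i := by rw [RingHom.comp_apply, RtoI_eta, h.E]

variable {Ψ : RR a th Q w →+* PA D₁ τ} (h : IsSym a th κ w₁ Ψ)
  (hκF : ∀ c : F, κ (algebraMap F D c) = algebraMap F D₁ c)

theorem coeff_cL (x : MvPolynomial τ F) (m : τ →₀ ℕ) :
    (cL τ (algebraMap F D₁) x).coeff m = algebraMap F D₁ (MvPolynomial.coeff m x) :=
  mp_coeff (σ := τ) (algebraMap F D₁) x m

include h in
theorem IsSym.hκ (x : D) : ∃ r ∈ (GR a th Q w).deg 0, Ψ r = cst τ (κ x) :=
  ⟨_, iD_mem_GR a th Q w x, h.D x⟩

include h in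
theorem IsSym.hmon (m : τ →₀ ℕ) : ∃ r ∈ (GR a th Q w).deg 0, Ψ r = single m 1 :=
  ⟨_, iL_mem_GR a th Q w (MvPolynomial.monomial m 1), by rw [h.L, cL_monomial, map_one]⟩

/-- induction on the elements of the central ring `L[x][t]` -/
theorem iL_induction {P : RR a th Q w → Prop}
    (h1 : ∀ x, P (iL a th _ w (Polynomial.C (Polynomial.C x))))
    (h2 : P (iL a th _ w (Polynomial.C Polynomial.X))) (h3 : P (iL a th _ w Polynomial.X))
    (hadd : ∀ x y, P x → P y → P (x + y)) (hmul : ∀ x y, P x → P y → P (x * y)) (x) :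
    P (iL a th _ w x) := by
  induction x using Polynomial.induction_on with
  | C x =>
    induction x using Polynomial.induction_on with
    | C x => exact h1 x
    | add x y hx hy => rw [map_add, map_add]; exact hadd _ _ hx hy
    | monomial n x hx =>
      rw [pow_succ, ← mul_assoc, map_mul, map_mul]
      exact hmul _ _ hx h2
  | add x y hx hy => rw [map_add]; exact hadd _ _ hx hy
  | monomial n x hx =>
    rw [pow_succ, ← mul_assoc, map_mul]
    exact hmul _ _ hx h3

include h hκF in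
theorem IsSym.hPS (r : RR a th Q w) : PS (GR a th Q w) Ψ r := by
  refine generation a th _ w (fun r => PS (GR a th Q w) Ψ r) ?_ ?_ ?_
    (fun _ _ => PS.add) (fun _ _ => PS.mul) r
  · intro d
    exact PS_of_cst (iD_mem_GR a th Q w d) (h.D d)
  · intro x
    refine iL_induction ?_ ?_ ?_ (fun _ _ => PS.add) (fun _ _ => PS.mul) x
    · intro x
      refine PS_of_deg (iL_mem_GR a th Q w x) fun m => ?_
      rw [h.L, coeff_cL, ← hκF]
      exact mem_symS.2 ⟨_, iD_mem_GR a th Q w _, h.D _⟩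
    · exact PS_of_cst (xR_mem a th Q w) (d := 1) (by rw [h.x, map_one])
    · exact PS_of_cst (tR_mem a th Q w) (d := 0) (by rw [h.t, map_zero])
  · intro i
    exact PS_of_cst (eta_mem_GR a th Q w i) (h.E i)

include h hκF in
theorem IsSym.hP0 (r : RR a th Q w) : P0 (GR a th Q w) Ψ κ r := by
  refine generation a th _ w (fun r => P0 (GR a th Q w) Ψ κ r) ?_ ?_ ?_
    (fun _ _ => P0.add) (fun _ _ => P0.mul) r
  · intro d
    refine P0_of_deg_zero (iD_mem_GR a th Q w d) fun m => ?_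
    rw [h.D]
    exact coeff_cst_mem (H := κ.range.toAddSubgroup) ⟨d, rfl⟩ m
  · intro x
    refine iL_induction ?_ ?_ ?_ (fun _ _ => P0.add) (fun _ _ => P0.mul) x
    · intro x
      refine P0_of_deg_zero (iL_mem_GR a th Q w x) fun m => ?_
      rw [h.L, coeff_cL, ← hκF]
      exact ⟨_, rfl⟩
    · exact P0_of_deg_succ (xR_mem a th Q w)
    · exact P0_of_deg_succ (tR_mem a th Q w)
  · intro i
    exact P0_of_deg_succ (eta_mem_GR a th Q w i)

end chain

end Crest.Agent.R181.CU
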