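import Crest.Agent.R181.CU735d

/-!
# Right bases of `V` and of `O / π O` over `E`, containing `1`
-/

set_option autoImplicit false
set_option linter.unusedSectionVars false

namespace Crest.Agent.R181.CU

open Crest.Agent.R181.UR AddMonoidAlgebra Crest.Agent.R181.V868

/-! ### `O / π O` -/

namespace Chart

variable {DD V Del : Type*} [Ring DD] [Ring V] [Ring Del] {C : Chart DD V Del}

/-- the right basis of `O / π O` -/
def BasisData.cO (B : BasisData C.rightAct) : Option (B.K 0) → C.O
  | none => 1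
  | some k => B.b 0 k

theorem BasisData.cO_span (B : BasisData C.rightAct) (o : C.O) :
    ∃ (e : Option (B.K 0) →₀ C.E) (o' : C.O),
      (o : DD) = (e.sum fun k r => (B.cO k : DD) * C.j r) + C.pi * o' := by
  classical
  obtain ⟨v, e, h⟩ := B.span 0 (C.q o)
  let e' : Option (B.K 0) →₀ C.E :=
    Finsupp.single none ⟨v, v.2⟩ + e.mapDomain some
  have h1 : (e'.sum fun k r => (B.cO k : DD) * C.j r) =
      C.j v + e.sum fun k r => (B.b 0 k : DD) * C.j r := by
    rw [Finsupp.sum_add_index' (h := fun k r => (B.cO k : DD) * C.j (r : C.E))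
      (fun k => by simp) (fun k a b => by simp [mul_add]),
      Finsupp.sum_single_index (by simp),
      Finsupp.sum_mapDomain_index (h := fun k r => (B.cO k : DD) * C.j (r : C.E))
      (fun k => by simp) (fun k a b => by simp [mul_add])]
    congr 1
    exact one_mul _
  have h2 : (e.sum fun k r => (B.b 0 k : DD) * C.j r) ∈ C.O :=
    C.rightAct.sum_mem (B.b 0) e
  have h3 : C.q (o - (⟨C.j v, by
      have := C.F_O 0 v v.2
      rwa [pow_zero, one_mul] at this⟩ + ⟨_, h2⟩)) = 0 := by
    rw [map_sub, map_add]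
    have h4 := C.rightAct.q_sum (B.b 0) e
    have h5 : C.q ⟨_, h2⟩ = e.sum fun k c => C.rightAct.A' c (C.q (B.b 0 k)) := h4
    rw [h5, h, sub_eq_zero]
    congr 1
    rw [s_apply]
    congr 1
    apply Subtype.ext
    change (C.pi : DD) ^ 0 * C.j v = C.j v
    rw [pow_zero, one_mul]
  obtain ⟨o', ho'⟩ := C.q_ker _ h3
  refine ⟨e', o', ?_⟩
  rw [h1, ← ho']
  push_cast
  abel

theorem BasisData.cO_indep (B : BasisData C.rightAct) (hC : C.Inj)
    (e : Option (B.K 0) →₀ C.E) (o' : C.O)
    (h : (e.sum fun k r => (B.cO k : DD) * C.j r) = C.pi * o') : e = 0 := by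
  classical
  rw [Finsupp.sum_option_index e (fun k r => (B.cO k : DD) * C.j (r : C.E))
    (fun k => by simp) (fun k a b => by simp [mul_add])] at h
  have h1 : (B.cO none : DD) * C.j (e none) = C.j (e none) := one_mul _
  have h2 : (e.some.sum fun k r => (B.b 0 k : DD) * C.j r) ∈ C.O :=
    C.rightAct.sum_mem (B.b 0) e.some
  have h5 : C.q ⟨_, h2⟩ = e.some.sum fun k c => C.rightAct.A' c (C.q (B.b 0 k)) :=
    C.rightAct.q_sum (B.b 0) e.some
  have h3 : C.q (C.jE (e none) + ⟨_, h2⟩) = 0 := by
    refine C.q_of_pi_mul (o' := o') ?_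
    rw [← h, h1]
    rfl
  rw [map_add, h5] at h3
  have h6 : (e.some.sum fun k c => C.rightAct.A' c (C.q (B.b 0 k))) =
      C.s 0 ⟨-(e none : V), (C.F 0).neg_mem (e none).2⟩ := by
    rw [eq_neg_of_add_eq_zero_right h3, ← map_neg, s_apply]
    congr 1
    apply Subtype.ext
    change ((-C.jE (e none) : C.O) : DD) = (C.pi : DD) ^ 0 * C.j (-(e none : V))
    rw [pow_zero, one_mul, map_neg]
    rfl
  have h7 := B.indep 0 _ _ h6
  rw [h7, Finsupp.sum_zero_index, add_zero] at h3
  have h8 : e none = 0 := qE_injective hC (by rw [qE_apply, h3, map_zero])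
  ext k
  rcases k with _ | k
  · rw [h8]; rfl
  · have : e.some k = 0 := by rw [h7]; rfl
    rw [Finsupp.some_apply] at this
    rw [this]; rfl

/-! ### `V` -/

variable (C)

/-- right bases of the symbols of degree `l + 1` -/
structure VData where
  /-- index types -/
  K : ℕ → Type
  /-- lifts -/
  g : ∀ l, K l → C.F (l + 1)
  span : ∀ l (v : C.F (l + 1)), ∃ e : K l →₀ C.E,
    C.s (l + 1) v = e.sum fun k c => C.s (l + 1) (g l k) * C.qE c
  indep : ∀ l (e : K l →₀ C.E),
    (e.sum fun k c => C.s (l + 1) (g l k) * C.qE c) = 0 → e = 0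

variable {C}

theorem F_mul_E {l : ℕ} {v : V} (hv : v ∈ C.F l) (e : C.E) : v * e ∈ C.F l := by
  have := C.F_mul l 0 v e hv e.2
  rwa [add_zero] at this

theorem s_mul_E {l : ℕ} (v : C.F l) (e : C.E) :
    C.s l ⟨v * e, F_mul_E v.2 e⟩ = C.s l v * C.qE e := by
  rw [s_apply, s_apply, qE_apply, ← map_mul]
  congr 1
  apply Subtype.ext
  change (C.pi : DD) ^ l * C.j (v * e) = (C.pi : DD) ^ l * C.j v * C.j e
  rw [map_mul, mul_assoc]

theorem s_succ_of_mem {l : ℕ} {v : V} (hv : v ∈ C.F l) :
    C.s (l + 1) ⟨v, C.F_mono (Nat.le_succ l) hv⟩ = 0 := by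
  rw [s_apply]
  refine C.q_of_pi_mul (o' := ⟨(C.pi : DD) ^ l * C.j v, C.F_O l v hv⟩) ?_
  change (C.pi : DD) ^ (l + 1) * C.j v = C.pi * ((C.pi : DD) ^ l * C.j v)
  rw [pow_succ', mul_assoc]

variable (B : VData C)

/-- the right basis of `V` -/
def VData.c : Option (Σ l, B.K l) → V
  | none => 1
  | some x => B.g x.1 x.2

theorem VData.span' (hC : C.Inj) (v : V) :
    ∃ e : Option (Σ l, B.K l) →₀ C.E, v = e.sum fun k r => B.c k * (r : V) := by
  classical
  have main : ∀ (l : ℕ) (v : V), v ∈ C.F l →
      ∃ e : Option (Σ l, B.K l) →₀ C.E, v = e.sum fun k r => B.c k * (r : V) := by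
    intro l
    induction l with
    | zero =>
      intro v hv
      refine ⟨Finsupp.single none ⟨v, hv⟩, ?_⟩
      rw [Finsupp.sum_single_index (by simp)]
      exact (one_mul v).symm
    | succ l ih =>
      intro v hv
      obtain ⟨e, he⟩ := B.span l ⟨v, hv⟩
      have h1 : ∀ k, (B.g l k : V) * (e k : V) ∈ C.F (l + 1) := fun k =>
        F_mul_E (B.g l k).2 (e k)
      let y : C.F (l + 1) := e.sum fun k c => ⟨(B.g l k : V) * (c : V), F_mul_E (B.g l k).2 c⟩
      have hy : C.s (l + 1) (⟨v, hv⟩ - y) = 0 := by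
        rw [map_sub, he, sub_eq_zero]
        simp only [y, Finsupp.sum]
        rw [map_sum]
        exact Finset.sum_congr rfl fun k _ => (s_mul_E _ _).symm
      have hy' := hC.2 l _ hy
      obtain ⟨e', he'⟩ := ih _ hy'
      have h2 : ((⟨v, hv⟩ - y : C.F (l + 1)) : V) =
          v - e.sum fun k c => (B.g l k : V) * (c : V) := by
        simp only [y, Finsupp.sum]
        push_cast
        rfl
      rw [h2] at he'
      refine ⟨e' + e.mapDomain (fun k => some ⟨l, k⟩), ?_⟩
      rw [Finsupp.sum_add_index' (h := fun k r => B.c k * ((r : C.E) : V))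
        (fun k => by simp) (fun k a b => by simp [mul_add]),
        Finsupp.sum_mapDomain_index (h := fun k r => B.c k * ((r : C.E) : V))
        (fun k => by simp) (fun k a b => by simp [mul_add]), ← he']
      have : (e.sum fun m r => B.c (some ⟨l, m⟩) * ((r : C.E) : V)) =
        e.sum fun k c => (B.g l k : V) * (c : V) := rfl
      rw [this]
      abel
  obtain ⟨l, hl⟩ := C.F_exh v
  exact main l v hl

theorem VData.indep' (e : Option (Σ l, B.K l) →₀ C.E)
    (h : (e.sum fun k r => B.c k * (r : V)) = 0) : e = 0 := by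
  classical
  rw [Finsupp.sum_option_index e (fun k r => B.c k * ((r : C.E) : V))
    (fun k => by simp) (fun k a b => by simp [mul_add])] at h
  have h1 : B.c none * (e none : V) = e none := one_mul _
  rw [h1] at h
  have key : e.some = 0 := by
    by_contra hne
    have hsupp : e.some.support.Nonempty := Finsupp.support_nonempty_iff.2 hne
    obtain ⟨x₀, hx₀, hmax⟩ := Finset.exists_max_image e.some.support (fun x => x.1) hsupp
    obtain ⟨m, k₀⟩ := x₀
    simp only at hmax
    -- restriction to level `m`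
    let em : B.K m →₀ C.E := e.some.comapDomain (fun k => (⟨m, k⟩ : Σ l, B.K l))
      (by
        intro a _ b _ hab
        have := (Sigma.mk.injEq _ _ _ _).mp hab
        exact eq_of_heq this.2)
    -- the sum of level `m` is in `F m`
    let φ : B.K m ↪ Σ l, B.K l := ⟨fun k => ⟨m, k⟩, fun a b hab => by
      have := (Sigma.mk.injEq _ _ _ _).mp hab
      exact eq_of_heq this.2⟩
    have hsplit : (e.some.sum fun k r => B.c (some k) * ((r : C.E) : V)) =
        (em.sum fun k r => (B.g m k : V) * ((r : C.E) : V)) +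
        ∑ x ∈ e.some.support \ em.support.map φ, B.c (some x) * ((e.some x : C.E) : V) := by
      have hsub : em.support.map φ ⊆ e.some.support := by
        intro x hx
        rw [Finset.mem_map] at hx
        obtain ⟨k, hk, rfl⟩ := hx
        rw [Finsupp.mem_support_iff] at hk ⊢
        exact hk
      rw [Finsupp.sum, ← Finset.sum_sdiff hsub, add_comm]
      congr 1
      rw [Finset.sum_map, Finsupp.sum]
      rfl
    have hlow : ∑ x ∈ e.some.support \ em.support.map φ, B.c (some x) * ((e.some x : C.E) : V)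
        ∈ C.F m := by
      refine sum_mem fun x hx => ?_
      rw [Finset.mem_sdiff] at hx
      obtain ⟨hx, hx'⟩ := hx
      have hlt : x.1 < m := by
        refine lt_of_le_of_ne (hmax x hx) ?_
        intro hxm
        apply hx'
        obtain ⟨l, k⟩ := x
        simp only at hxm
        subst hxm
        rw [Finset.mem_map]
        refine ⟨k, ?_, rfl⟩
        rw [Finsupp.mem_support_iff] at hx ⊢
        exact hx
      exact C.F_mono hlt (F_mul_E (B.g x.1 x.2).2 _)
    have htop : (em.sum fun k r => (B.g m k : V) * ((r : C.E) : V)) ∈ C.F m := by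
      have h2 : (em.sum fun k r => (B.g m k : V) * ((r : C.E) : V)) =
          -((e none : V) + ∑ x ∈ e.some.support \ em.support.map φ,
            B.c (some x) * ((e.some x : C.E) : V)) := by
        rw [hsplit] at h
        rw [eq_neg_iff_add_eq_zero, ← h]
        abel
      rw [h2]
      exact (C.F m).neg_mem ((C.F m).add_mem (C.F_mono (Nat.zero_le m) (e none).2) hlow)
    have h0 : (em.sum fun k c => C.s (m + 1) (B.g m k) * C.qE c) = 0 := by
      rw [← s_succ_of_mem htop]
      have : (⟨em.sum fun k r => (B.g m k : V) * ((r : C.E) : V),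
          C.F_mono (Nat.le_succ m) htop⟩ : C.F (m + 1)) =
          em.sum fun k c => ⟨(B.g m k : V) * (c : V), F_mul_E (B.g m k).2 c⟩ := by
        apply Subtype.ext
        simp only [Finsupp.sum]
        push_cast
        rfl
      rw [this, Finsupp.sum, Finsupp.sum, map_sum]
      exact Finset.sum_congr rfl fun k _ => (s_mul_E _ _).symm
    have h8 : em k₀ = 0 := by rw [B.indep m em h0]; rfl
    rw [Finsupp.mem_support_iff] at hx₀
    exact hx₀ h8
  rw [key, Finsupp.sum_zero_index, add_zero] at h
  ext k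
  rcases k with _ | k
  · rw [h]; rfl
  · have : e.some k = 0 := by rw [key]; rfl
    rw [Finsupp.some_apply] at this
    rw [this]; rfl

end Chart

/-! ### in the form of the line -/

section line

variable {DD V Del : Type} [Ring DD] [Ring V] [Ring Del] {L : Line DD} {C : Chart DD V Del}
variable (hC : C.Inj) (hO : C.O = L.O) (hp : (C.pi : DD) = L.p) (hV : C.j.range = L.V)

include hC hO hV in
theorem exists_lift_E {J : Type} (e : J →₀ DD) (he : ∀ j, e j ∈ L.V ⊓ L.O) :
    ∃ e' : J →₀ C.E, ∀ j, C.j (e' j) = e j :=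
  ⟨e.mapRange (invE C) (invE_zero hC), fun j => by
    rw [Finsupp.mapRange_apply]
    exact j_invE (exists_E_of_mem hC hO hV (he j))⟩

theorem sum_map_j {J : Type} (e' : J →₀ C.E) (c : J → DD) :
    ((e'.mapRange (fun x : C.E => C.j x) (by simp)).sum fun j r => c j * r) =
      e'.sum fun j r => c j * C.j r :=
  Finsupp.sum_mapRange_index (fun _ => mul_zero _)

theorem sum_eq_of_lift {J : Type} {e : J →₀ DD} {e' : J →₀ C.E}
    (h : ∀ j, C.j (e' j) = e j) (c : J → DD) :
    (e.sum fun j r => c j * r) = e'.sum fun j r => c j * C.j r := by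
  rw [← sum_map_j]
  congr 1
  ext j
  rw [Finsupp.mapRange_apply, h]

include hC hO hp hV in
/-- **right basis of `O / π O` over `E = V ⊓ O`, containing `1`** -/
theorem rightOB (B : Chart.BasisData C.rightAct) :
    ∃ (J : Type) (j0 : J) (c : J → DD), c j0 = 1 ∧ (∀ j, c j ∈ L.O) ∧
      (∀ o ∈ L.O, ∃ e : J →₀ DD, (∀ j, e j ∈ L.V ⊓ L.O) ∧ ∃ o' ∈ L.O,
        o = (e.sum fun j r => c j * r) + L.p * o') ∧
      ∀ e : J →₀ DD, (∀ j, e j ∈ L.V ⊓ L.O) → ∀ o' ∈ L.O,
        (e.sum fun j r => c j * r) = L.p * o' → e = 0 := by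
  refine ⟨Option (B.K 0), none, fun k => B.cO k, rfl, fun k => ?_, ?_, ?_⟩
  · rw [← hO]; exact (B.cO k).2
  · intro o ho
    rw [← hO] at ho
    obtain ⟨e, o', h⟩ := B.cO_span ⟨o, ho⟩
    refine ⟨e.mapRange (fun x : C.E => C.j x) (by simp), fun j => ?_, o', ?_, ?_⟩
    · rw [Finsupp.mapRange_apply]; exact j_mem_inf hO hV _
    · rw [← hO]; exact o'.2
    · rw [sum_map_j, ← hp]; exact h
  · intro e he o' ho' h
    rw [← hO] at ho'
    obtain ⟨e', he'⟩ := exists_lift_E hC hO hV e he
    rw [sum_eq_of_lift he', ← hp] at h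
    have h0 := B.cO_indep hC e' ⟨o', ho'⟩ h
    ext j
    rw [← he', h0]
    simp

include hC hO hV in
/-- **right basis of `V` over `E = V ⊓ O`, containing `1`** -/
theorem rightVB (B : Chart.VData C) :
    ∃ (J : Type) (j0 : J) (c : J → DD), c j0 = 1 ∧ (∀ j, c j ∈ L.V) ∧
      (∀ v ∈ L.V, ∃ e : J →₀ DD, (∀ j, e j ∈ L.V ⊓ L.O) ∧ v = e.sum fun j r => c j * r) ∧
      ∀ e : J →₀ DD, (∀ j, e j ∈ L.V ⊓ L.O) → (e.sum fun j r => c j * r) = 0 → e = 0 := by
  refine ⟨Option (Σ l, B.K l), none, fun k => C.j (B.c k), map_one C.j, fun k => ?_, ?_, ?_⟩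
  · rw [← hV]; exact ⟨_, rfl⟩
  · intro v hv
    rw [← hV] at hv
    obtain ⟨v, rfl⟩ := hv
    obtain ⟨e, h⟩ := B.span' hC v
    refine ⟨e.mapRange (fun x : C.E => C.j x) (by simp), fun j => ?_, ?_⟩
    · rw [Finsupp.mapRange_apply]; exact j_mem_inf hO hV _
    · rw [sum_map_j]
      conv_lhs => rw [h]
      rw [Finsupp.sum, map_sum]
      exact Finset.sum_congr rfl fun k _ => map_mul _ _ _
  · intro e he h
    obtain ⟨e', he'⟩ := exists_lift_E hC hO hV e he
    rw [sum_eq_of_lift he'] at h
    have h1 : C.j (e'.sum fun k r => B.c k * (r : V)) = 0 := by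
      rw [← h, Finsupp.sum, map_sum]
      exact Finset.sum_congr rfl fun k _ => map_mul _ _ _
    have h2 := Chart.j_injective hC (h1.trans (map_zero _).symm)
    have h0 := B.indep' e' h2
    ext j
    rw [← he', h0]
    simp

end line

/-! ### from the symbol data -/

section sym

variable {DD V D D' : Type} [Ring DD] [Ring V] [DivisionRing D] [DivisionRing D'] {τ : Type}
variable {C : Chart DD V (PA D τ)} {κ : D' →+* D} {S : ℕ → AddSubgroup D}

/-- the symbols of degree `l` as a right `D'`-space -/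
def SymData.sub (H : SymData C κ S) (l : ℕ) :
    letI : Module D'ᵐᵒᵖ D := Module.compHom D (κ.op)
    Submodule D'ᵐᵒᵖ D :=
  letI : Module D'ᵐᵒᵖ D := Module.compHom D (κ.op)
  { S l with smul_mem' := fun x d hd => H.right l x.unop d hd }

/-- a right basis of `S l` over `D'` -/
theorem SymData.exists_basis (H : SymData C κ S) (l : ℕ) :
    ∃ (K : Type) (b : K → D), (∀ k, b k ∈ S l) ∧
      (∃ r : D → K →₀ D', (∀ d ∈ S l, d = (r d).sum fun k x => b k * κ x)) ∧
      ∀ (s : Finset K) (x : K → D'), (∑ k ∈ s, b k * κ (x k)) = 0 → ∀ k ∈ s, x k = 0 := by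
  let _ : Module D'ᵐᵒᵖ D := Module.compHom D (κ.op)
  let M := H.sub l
  let b := Module.Basis.ofVectorSpace D'ᵐᵒᵖ M
  refine ⟨_, fun k => (b k : D), fun k => (b k).2, ?_, ?_⟩
  · classical
    refine ⟨fun d => if h : d ∈ M then
      (b.repr ⟨d, h⟩).mapRange MulOpposite.unop rfl else 0, ?_⟩
    intro d hd
    have hd' : d ∈ M := hd
    beta_reduce
    rw [dif_pos hd', Finsupp.sum_mapRange_index (fun k => by simp)]
    have h1 := b.linearCombination_repr ⟨d, hd'⟩
    rw [Finsupp.linearCombination_apply] at h1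
    have h2 := congrArg (fun z : M => (z : D)) h1
    simp only [Finsupp.sum] at h2 ⊢
    refine h2.symm.trans ?_
    push_cast
    rfl
  · intro s x h k hk
    have h1 : ∑ k ∈ s, (MulOpposite.op (x k)) • b k = 0 := by
      apply Subtype.ext
      push_cast
      exact h
    have h2 := linearIndependent_iff'.1 b.linearIndependent s
      (fun k => MulOpposite.op (x k)) h1 k hk
    exact MulOpposite.op_injective h2

theorem mem_range_of_coeff (H : SymData C κ S) {l : ℕ} {d : D} (hd : d ∈ S l) :
    ∃ v : C.F l, C.s l v = cst τ d := by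
  refine (H.range l (cst τ d)).2 fun m => ?_
  classical
  rw [cst_apply, coeff_single, Finsupp.single_apply]
  split_ifs
  · exact hd
  · exact (S l).zero_mem

theorem qE_eqv_symm (H : SymData C κ S) (hC : C.Inj) (p : PA D' τ) :
    C.qE ((H.eqv hC).symm p) = mp τ κ p := by
  rw [← H.mp_eqv hC, RingEquiv.apply_symm_apply]

theorem SymData.exists_VData (H : SymData C κ S) (hC : C.Inj) : Nonempty (Chart.VData C) := by
  classical
  choose K b hb hr hi using fun l => H.exists_basis (l + 1)
  choose r hr using hr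
  choose g hg using fun l k => mem_range_of_coeff H (hb l k)
  refine ⟨⟨K, g, ?_, ?_⟩⟩
  · intro l v
    let d : PA D τ := C.s (l + 1) v
    have hd : ∀ m, d.coeff m ∈ S (l + 1) := (H.range (l + 1) d).1 ⟨v, rfl⟩
    let act := (H.eqv hC).toAddEquiv
    let P : K l →₀ C.E := ∑ m ∈ d.coeff.support, (r l (d.coeff m)).mapRange
        (fun x => act.symm (single m x)) (by simp)
    have hP : ∀ k m, m ∈ d.coeff.support → (act (P k)).coeff m = r l (d.coeff m) k := by
      intro k m hm
      simp only [P, Finsupp.finsetSum_apply, Finsupp.mapRange_apply, map_sum,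
        AddEquiv.apply_symm_apply]
      rw [coeff_sum, Finsupp.finsetSum_apply, Finset.sum_eq_single m]
      · rw [coeff_single, Finsupp.single_eq_same]
      · intro m' _ hm'
        rw [coeff_single, Finsupp.single_eq_of_ne (Ne.symm hm')]
      · intro h; exact absurd hm h
    have hP0 : ∀ k m, m ∉ d.coeff.support → (act (P k)).coeff m = 0 := by
      intro k m hm
      simp only [P, Finsupp.finsetSum_apply, Finsupp.mapRange_apply, map_sum,
        AddEquiv.apply_symm_apply]
      rw [coeff_sum, Finsupp.finsetSum_apply, Finset.sum_eq_zero]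
      intro m' hm'
      rw [coeff_single, Finsupp.single_eq_of_ne]
      rintro rfl
      exact hm hm'
    refine ⟨P, ?_⟩
    change d = _
    ext m
    have hterm : ∀ k, (C.s (l + 1) (g l k) * C.qE (P k)).coeff m =
        b l k * κ ((act (P k)).coeff m) := by
      intro k
      rw [hg, coeff_cst_mul, ← H.mp_eqv hC, mp_coeff]
      rfl
    rw [Finsupp.sum, coeff_sum, Finsupp.finsetSum_apply, Finset.sum_congr rfl fun k _ => hterm k]
    by_cases hm : m ∈ d.coeff.support
    · rw [Finset.sum_congr rfl fun k _ => by rw [hP k m hm]]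
      conv_lhs => rw [hr l _ (hd m)]
      rw [Finsupp.sum]
      apply Finset.sum_subset
      · intro k hk
        rw [Finsupp.mem_support_iff] at hk ⊢
        intro h0
        apply hk
        rw [← hP k m hm, h0, map_zero]
        rfl
      · intro k _ hk
        rw [Finsupp.notMem_support_iff.1 hk, map_zero, mul_zero]
    · rw [Finset.sum_eq_zero fun k _ => by rw [hP0 k m hm, map_zero, mul_zero]]
      exact Finsupp.notMem_support_iff.1 hm
  · intro l e h
    by_contra hne
    obtain ⟨k, hk⟩ := Finsupp.support_nonempty_iff.2 hne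
    have h2 : ∀ m, ((H.eqv hC) (e k)).coeff m = 0 := by
      intro m
      refine hi l e.support (fun k => ((H.eqv hC) (e k)).coeff m) ?_ k hk
      have h3 := congrArg (fun z : PA D τ => z.coeff m) h
      simp only [Finsupp.sum] at h3
      rw [coeff_sum, Finsupp.finsetSum_apply] at h3
      refine Eq.trans (Finset.sum_congr rfl fun k _ => ?_) h3
      rw [hg, coeff_cst_mul, ← H.mp_eqv hC, mp_coeff]
    have h3 : (H.eqv hC) (e k) = 0 := by
      ext m
      exact h2 m
    have h4 : e k = 0 := by
      rw [← (H.eqv hC).map_eq_zero_iff, h3]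
    exact (Finsupp.mem_support_iff.1 hk) h4

end sym

end Crest.Agent.R181.CU
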