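import Crest.Agent.R181.UT773a
import Crest.Agent.R181.OR836b

/-!
# R181, V-chain, block B4 (helper773): `UnivT` for the concrete rings

`S = V^∞ = U a th (Qinf Q) w`, `T = U a th Q w1`, `j : S → T⟦π⟧`, `Δ ⊂ T` the constants.
-/

set_option autoImplicit false
set_option linter.unusedSectionVars false

namespace Crest.Agent.R181.UT

open AddMonoidAlgebra Crest.Agent.R181.UR Crest.Agent.R181.RO Crest.Agent.R181.OR

section generic

universe u

variable {T S Δ : Type u} [Ring T] [Ring S] [Ring Δ]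
variable {j : S →+* PowerSeries T} {δ : S →+* Δ} {i : Δ →+* T} {p : S}

/-- the condition "`x^l j(s) ∈ V` ⇒ `ψ s` has degree `≤ l`" -/
def DegCond (h : Dat j δ i p) (V : Subring (DD h)) {A : Type*} [Ring A]
    (ψ : S →+* PowerSeries A) : Prop :=
  ∀ (l : ℕ) (s : S), xD h ^ l * (toOD h ⟨j s, j_mem_O s⟩ : DD h) ∈ V →
    ∀ n, l < n → PowerSeries.coeff n (ψ s) = 0

theorem pxD_pow (h : Dat j δ i p) (m : ℕ) : pD h ^ m * xD h ^ m = 1 := by
  induction m with
  | zero => simp
  | succ m ih =>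
    rw [pow_succ, pow_succ', mul_assoc, ← mul_assoc (pD h), pD_mul_xD, one_mul, ih]

/-- `UnivT` from a statement about homs `S → A⟦X⟧` and `Δ → A`. -/
noncomputable def univT₀ (h : Dat j δ i p) (V : Subring (DD h)) (hx : xD h ∈ V)
    (hV : ∀ v ∈ V, ∀ n : ℤ, 0 < n → (v : LaurentSeries T).coeff n = 0)
    (hgen : Subring.closure (Set.range i ∪ {t : T | ∃ (s : S) (n : ℕ),
      t = PowerSeries.coeff n (j s)}) = ⊤)
    (huniv : ∀ (A : Type u) [Ring A] (ψ : S →+* PowerSeries A) (β : Δ →+* A),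
      (∀ s, β (δ s) = PowerSeries.constantCoeff (ψ s)) → ψ p = PowerSeries.X → DegCond h V ψ →
      ∃ f : T →+* A, ψ = (PowerSeries.map f).comp j) :
    V868.UnivT (line h V hx hV) T where
  Θ := (DD h).subtype
  Θx := rfl
  ΘV := hV
  ΘO o ho n hn := (mem_OD_iff_coeff h).1 ho n hn
  gen := by
    have hco : ∀ (o : O j δ) (n : ℕ), PowerSeries.coeff n o.1 ∈
        Subring.closure {t : T | ∃ (d : DD h) (n : ℤ), t = ((DD h).subtype d).coeff n} := by
      intro o n
      apply Subring.subset_closure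
      refine ⟨toOD h o, n, ?_⟩
      show _ = (HahnSeries.ofPowerSeries ℤ _ o.1).coeff (n : ℤ)
      rw [HahnSeries.ofPowerSeries_apply_coeff]
    rw [eq_top_iff, ← hgen, Subring.closure_le]
    rintro _ (⟨d, rfl⟩ | ⟨s, n, rfl⟩)
    · obtain ⟨f, hf, h1⟩ := RO.exists_lift h d
      have := hco ⟨f, hf⟩ 0
      rwa [PowerSeries.coeff_zero_eq_constantCoeff_apply, h1] at this
    · exact hco ⟨j s, j_mem_O s⟩ n
  univ := by
    intro A _ θ hθ hcond
    let θ' : O j δ →+* PowerSeries A := θ.comp (toOD h)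
    have hθ' : θ' (pi h) = PowerSeries.X := by
      show θ (toOD h (pi h)) = _
      rw [toOD_pi]
      exact hθ
    let β₀ : O j δ →+* A := (PowerSeries.constantCoeff (R := A)).comp θ'
    have hker : ∀ x, q h x = 0 → β₀ x = 0 := by
      intro x hx
      obtain ⟨g, rfl⟩ := (q_eq_zero_iff h x).1 hx
      show PowerSeries.constantCoeff (θ' (pi h * g)) = 0
      rw [map_mul, hθ']
      simp
    have hβ₀ : ∀ x y, q h x = q h y → β₀ x = β₀ y := fun x y hxy => by
      rw [← sub_eq_zero, ← map_sub]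
      exact hker _ (by rw [map_sub, hxy, sub_self])
    choose r hr using q_surjective h
    let β : Δ →+* A :=
      { toFun := fun d => β₀ (r d)
        map_one' := by
          rw [← map_one β₀]; exact hβ₀ _ _ (by rw [hr, map_one])
        map_zero' := by
          rw [← map_zero β₀]; exact hβ₀ _ _ (by rw [hr, map_zero])
        map_mul' := fun x y => by
          rw [← map_mul β₀]; exact hβ₀ _ _ (by rw [hr, map_mul, hr, hr])
        map_add' := fun x y => by
          rw [← map_add β₀]; exact hβ₀ _ _ (by rw [hr, map_add, hr, hr]) }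
    have hβ : ∀ o, β (q h o) = PowerSeries.constantCoeff (θ' o) := fun o =>
      hβ₀ _ _ (hr _)
    let ψ : S →+* PowerSeries A := θ'.comp (j.codRestrict (O j δ) fun s => j_mem_O s)
    have hψ : ∀ s, ψ s = θ' ⟨j s, j_mem_O s⟩ := fun s => rfl
    obtain ⟨f, h5⟩ := huniv A ψ β (fun s => by rw [← q_j h s, hβ]; rfl)
      (by rw [hψ, ← hθ']; congr 1; exact Subtype.ext h.jp) (by
        intro l s hs n hn
        have hm : pD h ^ l * (xD h ^ l * (toOD h ⟨j s, j_mem_O s⟩ : DD h)) =
            (toOD h ⟨j s, j_mem_O s⟩ : DD h) := by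
          rw [← mul_assoc, pxD_pow, one_mul]
        have h1 : pD h ^ l * (xD h ^ l * (toOD h ⟨j s, j_mem_O s⟩ : DD h)) ∈ OD h := by
          rw [hm]; exact (toOD h ⟨j s, j_mem_O s⟩).2
        have := hcond _ hs l n h1 hn
        rw [← this]
        congr 1
        show θ _ = θ _
        congr 1
        exact Subtype.ext hm.symm)
    refine ⟨f, ?_⟩
    have h6 : θ' = (PowerSeries.map f).comp (O j δ).subtype := by
      apply OR.hom_ext h _ _ hθ'
      intro s
      rw [← hψ, h5]
      rfl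
    intro o n
    obtain ⟨g, rfl⟩ := toOD_surjective h o
    have h7 : θ (toOD h g) = θ' g := rfl
    rw [h7, h6]
    show _ = f ((HahnSeries.ofPowerSeries ℤ _ g.1).coeff (n : ℤ))
    rw [HahnSeries.ofPowerSeries_apply_coeff]
    simp

end generic

section univT

variable {F D D1 L I σ Δ : Type} [CommRing F] [Ring D] [Algebra F D] [Ring D1] [Algebra F D1]
  [CommRing L] [Algebra F L] [Fintype I] [Fintype σ] [DecidableEq σ] [Ring Δ]
  {a : I → ℕ} {th : I → I → F} {Q : I → MvPolynomial (Option (Option σ)) L}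
  {w : I → σ → D} {kap : D →+* D1} {w1 : I → Option σ → D1}

/-- the values of `j` on the generators -/
structure IsChain (kap : D →+* D1) (w1 : I → Option σ → D1)
    (j : U a th (Qinf Q) w →+* PowerSeries (U a th Q w1)) : Prop where
  hw : ∀ l v, w1 l (some v) = kap (w l v)
  D : ∀ d, j (iD a th (Qinf Q) w d) = PowerSeries.C (iD a th Q w1 (kap d))
  L : ∀ x, j (iL a th (Qinf Q) w (Polynomial.C x)) = PowerSeries.C (iL a th Q w1 x)
  X : j (iL a th (Qinf Q) w Polynomial.X) = PowerSeries.X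
  E : ∀ l, j (eta a th (Qinf Q) w l) = PowerSeries.C (eta a th Q w1 l) * PowerSeries.X +
    PowerSeries.C (iD a th Q w1 (w1 l none))

theorem IsChain.E' {j : U a th (Qinf Q) w →+* PowerSeries (U a th Q w1)} (hc : IsChain kap w1 j)
    (l : I) : j (eta a th (Qinf Q) w l) = PowerSeries.C (iD a th Q w1 (w1 l none)) +
    PowerSeries.X * PowerSeries.C (eta a th Q w1 l) := by
  rw [hc.E, add_comm, PowerSeries.X_mul]

theorem eq_C_of {A : Type*} [Ring A] (f : PowerSeries A)
    (hf : ∀ n, 0 < n → PowerSeries.coeff n f = 0) :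
    f = PowerSeries.C (PowerSeries.constantCoeff f) := by
  ext n
  rw [PowerSeries.coeff_C]
  split_ifs with hn
  · subst hn; simp
  · exact hf n (Nat.pos_of_ne_zero hn)

theorem eq_C_add_of {A : Type*} [Ring A] (f : PowerSeries A)
    (hf : ∀ n, 1 < n → PowerSeries.coeff n f = 0) :
    f = PowerSeries.C (PowerSeries.constantCoeff f) +
      PowerSeries.X * PowerSeries.C (PowerSeries.coeff 1 f) := by
  ext n
  rcases n with _ | _ | n
  · simp
  · rw [map_add, PowerSeries.coeff_succ_X_mul, PowerSeries.coeff_C, PowerSeries.coeff_C]; simp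
  · rw [hf _ (by omega), map_add, PowerSeries.coeff_succ_X_mul]; simp [PowerSeries.coeff_C]

/-- the hom `T → A` -/
theorem exists_hom' {j : U a th (Qinf Q) w →+* PowerSeries (U a th Q w1)}
    (hc : IsChain kap w1 j) {A : Type*} [Ring A] (ψ : U a th (Qinf Q) w →+* PowerSeries A)
    (ρ : D1 →+* A) (τ : L →+* A)
    (hb : ∀ c : F, ρ (algebraMap F D1 c) = τ (algebraMap F L c))
    (hD : ∀ x d, Commute (τ x) (ρ d))
    (hX : ψ (iL a th (Qinf Q) w Polynomial.X) = PowerSeries.X)
    (h1 : ∀ d, PowerSeries.constantCoeff (ψ (iD a th (Qinf Q) w d)) = ρ (kap d))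
    (h2 : ∀ x, PowerSeries.constantCoeff (ψ (iL a th (Qinf Q) w (Polynomial.C x))) = τ x)
    (h3 : ∀ l, PowerSeries.constantCoeff (ψ (eta a th (Qinf Q) w l)) = ρ (w1 l none))
    (g1 : ∀ d n, 0 < n → PowerSeries.coeff n (ψ (iD a th (Qinf Q) w d)) = 0)
    (g2 : ∀ x n, 0 < n → PowerSeries.coeff n (ψ (iL a th (Qinf Q) w (Polynomial.C x))) = 0)
    (g3 : ∀ l n, 1 < n → PowerSeries.coeff n (ψ (eta a th (Qinf Q) w l)) = 0) :
    ∃ f : U a th Q w1 →+* A, (∀ d, f (iD a th Q w1 d) = ρ d) ∧ (∀ x, f (iL a th Q w1 x) = τ x) ∧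
      ψ = (PowerSeries.map f).comp j := by
  have e1 : ∀ d, ψ (iD a th (Qinf Q) w d) = PowerSeries.C (ρ (kap d)) := fun d => by
    rw [← h1]; exact eq_C_of _ (g1 d)
  have e2 : ∀ x, ψ (iL a th (Qinf Q) w (Polynomial.C x)) = PowerSeries.C (τ x) := fun x => by
    rw [← h2]; exact eq_C_of _ (g2 x)
  have e3 : ∀ l, ψ (eta a th (Qinf Q) w l) = PowerSeries.C (ρ (w1 l none)) +
      PowerSeries.X * PowerSeries.C (PowerSeries.coeff 1 (ψ (eta a th (Qinf Q) w l))) := fun l => by
    rw [← h3]; exact eq_C_add_of _ (g3 l)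
  obtain ⟨f, hf1, hf2, hf3⟩ := exists_hom (Q := Q) (w1 := w1) (kap := kap) ψ ρ τ
    (fun l => PowerSeries.coeff 1 (ψ (eta a th (Qinf Q) w l))) hc.hw hX e1 e2 e3 hb hD
    (fun x l => by
      have h1 := (iL_comm a th (Qinf Q) w (Polynomial.C x) (eta a th (Qinf Q) w l)).map ψ
      rw [e2] at h1
      have h2 := congrArg (PowerSeries.coeff 1) h1.eq
      rw [PowerSeries.coeff_C_mul, PowerSeries.coeff_mul_C] at h2
      exact h2)
  refine ⟨f, hf1, hf2, ?_⟩
  apply hom_ext'
  · intro d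
    rw [e1, RingHom.comp_apply, hc.D, PowerSeries.map_C, hf1]
  · intro x
    have : ψ.comp (iL a th (Qinf Q) w) =
        ((PowerSeries.map f).comp j).comp (iL a th (Qinf Q) w) := by
      apply Polynomial.ringHom_ext
      · intro x
        simp only [RingHom.comp_apply]
        rw [e2, hc.L, PowerSeries.map_C, hf2]
      · simp only [RingHom.comp_apply]
        rw [hX, hc.X, PowerSeries.map_X]
    exact RingHom.congr_fun this x
  · intro l
    rw [e3, RingHom.comp_apply, hc.E', map_add, map_mul, PowerSeries.map_C, PowerSeries.map_C,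
      PowerSeries.map_X, hf1, hf3]

variable {j : U a th (Qinf Q) w →+* PowerSeries (U a th Q w1)}
  {δ : U a th (Qinf Q) w →+* Δ} {i : Δ →+* U a th Q w1}

/-- **`T` is the universal ring** -/
noncomputable def univT (hc : IsChain kap w1 j)
    (h : Dat j δ i (iL a th (Qinf Q) w Polynomial.X))
    (dl : D1 →+* Δ) (ll : L →+* Δ) (hdl : ∀ d, i (dl d) = iD a th Q w1 d)
    (hll : ∀ x, i (ll x) = iL a th Q w1 x)
    (V : Subring (DD h)) (hx : xD h ∈ V)
    (hV : ∀ v ∈ V, ∀ n : ℤ, 0 < n → (v : LaurentSeries (U a th Q w1)).coeff n = 0)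
    (hVD : ∀ d, (toOD h ⟨j (iD a th (Qinf Q) w d), j_mem_O _⟩ : DD h) ∈ V)
    (hVL : ∀ x, (toOD h ⟨j (iL a th (Qinf Q) w (Polynomial.C x)), j_mem_O _⟩ : DD h) ∈ V)
    (hVE : ∀ l, xD h * (toOD h ⟨j (eta a th (Qinf Q) w l), j_mem_O _⟩ : DD h) ∈ V) :
    V868.UnivT (line h V hx hV) (U a th Q w1) := by
  refine univT₀ h V hx hV ?_ ?_
  · rw [eq_top_iff]
    intro t _
    refine generation a th Q w1 (fun t => t ∈ Subring.closure (Set.range i ∪
      {t : U a th Q w1 | ∃ (s : U a th (Qinf Q) w) (n : ℕ), t = PowerSeries.coeff n (j s)}))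
      ?_ ?_ ?_ ?_ ?_ t
    · intro d
      exact Subring.subset_closure (Or.inl ⟨dl d, hdl d⟩)
    · intro x
      exact Subring.subset_closure (Or.inl ⟨ll x, hll x⟩)
    · intro l
      refine Subring.subset_closure (Or.inr ⟨eta a th (Qinf Q) w l, 1, ?_⟩)
      rw [hc.E', map_add, show (1 : ℕ) = 0 + 1 from rfl, PowerSeries.coeff_succ_X_mul,
        PowerSeries.coeff_C, PowerSeries.coeff_C]
      simp
    · intro x y hx hy; exact add_mem hx hy
    · intro x y hx hy; exact mul_mem hx hy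
  · intro A _ ψ β hβψ hψX hcond
    -- the values of `δ`
    have hδD : ∀ d, δ (iD a th (Qinf Q) w d) = dl (kap d) := fun d => h.inj (by
      rw [h.comp, hc.D, hdl]; simp)
    have hδL : ∀ x, δ (iL a th (Qinf Q) w (Polynomial.C x)) = ll x := fun d => h.inj (by
      rw [h.comp, hc.L, hll]; simp)
    have hδE : ∀ l, δ (eta a th (Qinf Q) w l) = dl (w1 l none) := fun d => h.inj (by
      rw [h.comp, hc.E, hdl]; simp)
    have hllc : ∀ x d, Commute (ll x) (dl d) := fun x d => h.inj (by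
      rw [map_mul, map_mul, hdl, hll]; exact iL_comm a th Q w1 x _)
    have hbase : ∀ c : F, dl (algebraMap F D1 c) = ll (algebraMap F L c) := fun c => h.inj (by
      rw [hdl, hll, iD_base])
    obtain ⟨f, -, -, hf⟩ := exists_hom' hc ψ (β.comp dl) (β.comp ll)
      (fun c => congrArg β (hbase c)) (fun x d => (hllc x d).map β) hψX
      (fun d => by rw [← hβψ, hδD]; rfl) (fun x => by rw [← hβψ, hδL]; rfl)
      (fun l => by rw [← hβψ, hδE]; rfl)
      (fun d n hn => hcond 0 _ (by rw [pow_zero, one_mul]; exact hVD d) n hn)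
      (fun d n hn => hcond 0 _ (by rw [pow_zero, one_mul]; exact hVL d) n hn)
      (fun l n hn => hcond 1 _ (by rw [pow_one]; exact hVE l) n hn)
    exact ⟨f, hf⟩

end univT

section concrete

variable {F D D1 L I σ : Type} [CommRing F] [Ring D] [Algebra F D] [Ring D1] [Algebra F D1]
  [CommRing L] [Algebra F L] [Fintype I] [Fintype σ] [DecidableEq σ]
  (a : I → ℕ) (th : I → I → F) {Q : I → MvPolynomial (Option (Option σ)) L}
  {w : I → σ → D} {kap : D →+* D1} {w1 : I → Option σ → D1}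
  (hk : ∀ i v, w1 i (some v) = kap (w i v))
  (hkF : ∀ c : F, kap (algebraMap F D c) = algebraMap F D1 c)

theorem commute_C_iL (x : L) (y : PowerSeries (U a th Q w1)) :
    Commute (PowerSeries.C (iL a th Q w1 x)) y := by
  show _ * _ = _ * _
  ext n
  rw [PowerSeries.coeff_C_mul, PowerSeries.coeff_mul_C]
  exact iL_comm a th Q w1 x _

/-- `V^∞ → T⟦π⟧`, `π ↦ X`, `η'' ↦ ξ + η X` -/
noncomputable def jinf : Vinf a th Q w →+* PowerSeries (U a th Q w1) :=
  chainInf a th hk hkF PowerSeries.C PowerSeries.X (fun y => (PowerSeries.commute_X y).symm)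
    (commute_C_iL a th)

theorem isChain_jinf : IsChain kap w1 (jinf a th (Q := Q) hk hkF) where
  hw := hk
  D d := chainInf_iD a th hk hkF _ _ _ _ d
  L x := chainInf_iL a th hk hkF _ _ _ _ x
  X := chainInf_X a th hk hkF _ _ _ _
  E l := chainInf_eta a th hk hkF _ _ _ _ l

/-- `T → T((π))` -/
noncomputable def CL : U a th Q w1 →+* LaurentSeries (U a th Q w1) :=
  (HahnSeries.ofPowerSeries ℤ (U a th Q w1)).comp PowerSeries.C

theorem CL_eq (t : U a th Q w1) : CL a th t = HahnSeries.single (0 : ℤ) t :=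
  HahnSeries.ofPowerSeries_C t

theorem commute_CL_iL (x : L) (y : LaurentSeries (U a th Q w1)) :
    Commute (CL a th (iL a th Q w1 x)) y := by
  show _ * _ = _ * _
  rw [CL_eq]
  ext n
  rw [HahnSeries.coeff_single_mul, HahnSeries.coeff_mul_single]
  exact iL_comm a th Q w1 x _

/-- `V' → T((π))`, `x ↦ π⁻¹`, `η' ↦ η + ξ x` -/
noncomputable def jV : Vp a th Q w →+* LaurentSeries (U a th Q w1) :=
  chainV a th hk hkF (CL a th) (HahnSeries.single (-1) 1) (fun y => single_comm (-1) y)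
    (commute_CL_iL a th)

@[simp] theorem jV_iD (d : D) : jV a th (Q := Q) hk hkF (iD a th _ w d) =
    CL a th (iD a th Q w1 (kap d)) := chainV_iD a th hk hkF _ _ _ _ d

@[simp] theorem jV_iL (x : L) : jV a th (Q := Q) hk hkF (iL a th _ w (Polynomial.C x)) =
    CL a th (iL a th Q w1 x) := chainV_iL a th hk hkF _ _ _ _ x

@[simp] theorem jV_X : jV a th (Q := Q) hk hkF (iL a th _ w Polynomial.X) =
    HahnSeries.single (-1) 1 := chainV_X a th hk hkF _ _ _ _

@[simp] theorem jV_eta (l : I) : jV a th (Q := Q) hk hkF (eta a th _ w l) =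
    CL a th (eta a th Q w1 l) + CL a th (iD a th Q w1 (w1 l none)) * HahnSeries.single (-1) 1 :=
  chainV_eta a th hk hkF _ _ _ _ l

/-- Laurent series which are polynomials in `x = π⁻¹` -/
def PolyX (T : Type*) [Ring T] : Subring (LaurentSeries T) where
  carrier := {f | ∀ n : ℤ, 0 < n → f.coeff n = 0}
  mul_mem' := by
    intro f g hf hg n hn
    rw [HahnSeries.coeff_mul]
    refine Finset.sum_eq_zero fun x hx => ?_
    rw [Finset.mem_addAntidiagonal] at hx
    exfalso
    have h1 : ¬ 0 < x.1 := fun h => hx.1 (hf _ h)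
    have h2 : ¬ 0 < x.2 := fun h => hx.2.1 (hg _ h)
    have := hx.2.2
    omega
  one_mem' := by
    intro n hn
    rw [HahnSeries.coeff_one, if_neg hn.ne']
  add_mem' := by
    intro f g hf hg n hn
    rw [HahnSeries.coeff_add, hf n hn, hg n hn, add_zero]
  zero_mem' := fun n _ => HahnSeries.coeff_zero
  neg_mem' := by
    intro f hf n hn
    rw [HahnSeries.coeff_neg, hf n hn, neg_zero]

theorem mem_PolyX {T : Type*} [Ring T] {f : LaurentSeries T} :
    f ∈ PolyX T ↔ ∀ n : ℤ, 0 < n → f.coeff n = 0 := Iff.rfl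

theorem single_mem_PolyX {T : Type*} [Ring T] (n : ℤ) (hn : n ≤ 0) (t : T) :
    HahnSeries.single n t ∈ PolyX T := by
  intro m hm
  rw [HahnSeries.coeff_single, if_neg (by omega)]

theorem jV_mem_PolyX (v : Vp a th Q w) : jV a th (Q := Q) hk hkF v ∈ PolyX (U a th Q w1) := by
  have hC : ∀ t : U a th Q w1, CL a th t ∈ PolyX (U a th Q w1) := fun t => by
    rw [CL_eq]; exact single_mem_PolyX 0 le_rfl t
  refine generation a th _ w (fun v => jV a th (Q := Q) hk hkF v ∈ PolyX (U a th Q w1))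
    ?_ ?_ ?_ ?_ ?_ v
  · intro d
    rw [jV_iD]; exact hC _
  · intro x
    induction x using Polynomial.induction_on with
    | C x => rw [jV_iL]; exact hC _
    | add x y hx hy => rw [map_add, map_add]; exact add_mem hx hy
    | monomial n x hx =>
      rw [pow_succ, ← mul_assoc, map_mul, map_mul, jV_X]
      exact mul_mem hx (single_mem_PolyX (-1) (by omega) 1)
  · intro l
    rw [jV_eta]
    exact add_mem (hC _) (mul_mem (hC _) (single_mem_PolyX (-1) (by omega) 1))
  · intro x y hx hy; rw [map_add]; exact add_mem hx hy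
  · intro x y hx hy; rw [map_mul]; exact mul_mem hx hy

variable {Δ : Type} [Ring Δ] {δ : Vinf a th Q w →+* Δ} {i : Δ →+* U a th Q w1}
  (h : Dat (jinf a th (Q := Q) hk hkF) δ i (iL a th _ w Polynomial.X))

/-- the subring `V` of `DD` : the image of `V'` -/
noncomputable def VS : Subring (DD h) := (jV a th (Q := Q) hk hkF).range.comap (DD h).subtype

theorem mem_VS {d : DD h} : d ∈ VS a th hk hkF h ↔
    ∃ v, jV a th (Q := Q) hk hkF v = (d : LaurentSeries (U a th Q w1)) := Iff.rfl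

theorem xD_mem_VS : xD h ∈ VS a th hk hkF h := ⟨_, jV_X a th hk hkF⟩

theorem VS_coeff (v : DD h) (hv : v ∈ VS a th hk hkF h) (n : ℤ) (hn : 0 < n) :
    (v : LaurentSeries (U a th Q w1)).coeff n = 0 := by
  obtain ⟨v', hv'⟩ := hv
  have := jV_mem_PolyX a th hk hkF v' n hn
  rw [hv'] at this
  exact this

theorem D_mem_VS (d : D) :
    (toOD h ⟨jinf a th (Q := Q) hk hkF (iD a th _ w d), j_mem_O _⟩ : DD h) ∈ VS a th hk hkF h := by
  refine ⟨iD a th _ w d, ?_⟩
  rw [jV_iD]
  show _ = HahnSeries.ofPowerSeries ℤ _ (jinf a th (Q := Q) hk hkF (iD a th _ w d))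
  rw [(isChain_jinf a th hk hkF).D]
  rfl

theorem L_mem_VS (x : L) : (toOD h ⟨jinf a th (Q := Q) hk hkF (iL a th _ w (Polynomial.C x)),
    j_mem_O _⟩ : DD h) ∈ VS a th hk hkF h := by
  refine ⟨iL a th _ w (Polynomial.C x), ?_⟩
  rw [jV_iL]
  show _ = HahnSeries.ofPowerSeries ℤ _ (jinf a th (Q := Q) hk hkF (iL a th _ w (Polynomial.C x)))
  rw [(isChain_jinf a th hk hkF).L]
  rfl

theorem E_mem_VS (l : I) : xD h * (toOD h ⟨jinf a th (Q := Q) hk hkF (eta a th _ w l),
    j_mem_O _⟩ : DD h) ∈ VS a th hk hkF h := by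
  refine ⟨eta a th _ w l, ?_⟩
  rw [jV_eta]
  show _ = HahnSeries.single (-1) 1 *
    HahnSeries.ofPowerSeries ℤ _ (jinf a th (Q := Q) hk hkF (eta a th _ w l))
  rw [(isChain_jinf a th hk hkF).E, map_add, map_mul, HahnSeries.ofPowerSeries_X, mul_add,
    ← single_comm 1, ← mul_assoc, single_mul_single', single_comm (-1)]
  have : (HahnSeries.single (-1 + 1 : ℤ) (1 : U a th Q w1) : LaurentSeries (U a th Q w1)) = 1 := by
    rw [neg_add_cancel]; rfl
  rw [this, one_mul]
  rfl

/-- **`UnivT` for the concrete rings.** -/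
noncomputable def univTc (dl : D1 →+* Δ) (ll : L →+* Δ) (hdl : ∀ d, i (dl d) = iD a th Q w1 d)
    (hll : ∀ x, i (ll x) = iL a th Q w1 x) :
    V868.UnivT (line h (VS a th hk hkF h) (xD_mem_VS a th hk hkF h) (VS_coeff a th hk hkF h))
      (U a th Q w1) :=
  univT (isChain_jinf a th hk hkF) h dl ll hdl hll _ _ _ (D_mem_VS a th hk hkF h)
    (L_mem_VS a th hk hkF h) (E_mem_VS a th hk hkF h)

end concrete

end Crest.Agent.R181.UT
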