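import Crest.Agent.R181.CU735f
import Crest.Agent.R181.CU735g
import Crest.Agent.R181.UT773b

/-!
# Lemma 3 for the concrete rings

Context of `UT773b`: `h : Dat (jinf a th hk hkF) δ i (iL X)`, `δ : V^∞ → PA D₁ τ`, `L = F[τ]`.
-/

set_option autoImplicit false
set_option linter.unusedSectionVars false

namespace Crest.Agent.R181.CU

open Crest.Agent.R181.UR Crest.Agent.R181.OR Crest.Agent.R181.RO Crest.Agent.R181.UT
open AddMonoidAlgebra
open scoped Polynomial

section jD

variable {F D D1 L I σ : Type} [CommRing F] [Ring D] [Algebra F D] [Ring D1] [Algebra F D1]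
  [CommRing L] [Algebra F L] [Fintype I] [Fintype σ] [DecidableEq σ]
  (a : I → ℕ) (th : I → I → F) {Q : I → MvPolynomial (Option (Option σ)) L}
  {w : I → σ → D} {kap : D →+* D1} {w1 : I → Option σ → D1}
  (hk : ∀ i v, w1 i (some v) = kap (w i v))
  (hkF : ∀ c : F, kap (algebraMap F D c) = algebraMap F D1 c)
  {Δ : Type} [Ring Δ] {δ : Vinf a th Q w →+* Δ} {i : Δ →+* U a th Q w1}
  (h : Dat (jinf a th (Q := Q) hk hkF) δ i (iL a th _ w Polynomial.X))

theorem jV_mem_DD (v : Vp a th Q w) : jV a th (Q := Q) hk hkF v ∈ DD h := by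
  have hC : ∀ s : Vinf a th Q w, HahnSeries.ofPowerSeries ℤ _ (jinf a th (Q := Q) hk hkF s) ∈ DD h :=
    fun s => ofPS_mem_DD h (j_mem_O s)
  refine generation a th _ w (fun v => jV a th (Q := Q) hk hkF v ∈ DD h)
    ?_ ?_ ?_ ?_ ?_ v
  · intro d
    rw [jV_iD]
    have := hC (iD a th _ w d)
    rwa [(isChain_jinf a th hk hkF).D] at this
  · intro x
    induction x using Polynomial.induction_on with
    | C x =>
      rw [jV_iL]
      have := hC (iL a th _ w (Polynomial.C x))
      rwa [(isChain_jinf a th hk hkF).L] at this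
    | add x y hx hy => rw [map_add, map_add]; exact add_mem hx hy
    | monomial n x hx =>
      rw [pow_succ, ← mul_assoc, map_mul, map_mul, jV_X]
      exact mul_mem hx (single_mem_DD h _)
  · intro l
    have h1 : jV a th (Q := Q) hk hkF (eta a th _ w l) = HahnSeries.single (-1) 1 *
        HahnSeries.ofPowerSeries ℤ _ (jinf a th (Q := Q) hk hkF (eta a th _ w l)) := by
      rw [jV_eta, (isChain_jinf a th hk hkF).E, map_add, map_mul, HahnSeries.ofPowerSeries_X,
        mul_add, ← single_comm 1, ← mul_assoc, single_mul_single', single_comm (-1)]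
      have : (HahnSeries.single (-1 + 1 : ℤ) (1 : U a th Q w1) :
          LaurentSeries (U a th Q w1)) = 1 := by
        rw [neg_add_cancel]; rfl
      rw [this, one_mul]
      rfl
    rw [h1]
    exact mul_mem (single_mem_DD h _) (hC _)
  · intro x y hx hy; rw [map_add]; exact add_mem hx hy
  · intro x y hx hy; rw [map_mul]; exact mul_mem hx hy

/-- `V' → DD` -/
noncomputable def jD : Vp a th Q w →+* DD h :=
  (jV a th (Q := Q) hk hkF).codRestrict (DD h) (jV_mem_DD a th hk hkF h)

theorem jD_coe (v : Vp a th Q w) :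
    ((jD a th hk hkF h v : DD h) : LaurentSeries (U a th Q w1)) = jV a th (Q := Q) hk hkF v := rfl

theorem jD_range : (jD a th hk hkF h).range = VS a th hk hkF h := by
  ext d
  rw [mem_VS]
  constructor
  · rintro ⟨v, rfl⟩
    exact ⟨v, rfl⟩
  · rintro ⟨v, hv⟩
    exact ⟨v, Subtype.ext hv⟩

/-- `RR → O` -/
noncomputable def BR : RR a th Q w →+* OD h := (jOD h).comp (RtoI a th Q w)

theorem qOD_BR (r : RR a th Q w) : qOD h (BR a th hk hkF h r) = δ (RtoI a th Q w r) := by
  rw [BR, RingHom.comp_apply, qOD_jOD]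

theorem hB (l : ℕ) (r : RR a th Q w) (hr : r ∈ (GR a th Q w).deg l) :
    ((oData h).pi : DD h) ^ l * jD a th hk hkF h (RtoV a th Q w r) = BR a th hk hkF h r := by
  refine rees_scale a th Q w (jD a th hk hkF h) ((OD h).subtype.comp (jOD h)) (pD h)
    (fun y => pD_comm h y) ?_ ?_ ?_ ?_ ?_ l r hr
  · intro d
    apply Subtype.ext
    change HahnSeries.ofPowerSeries ℤ _ (jinf a th (Q := Q) hk hkF (iD a th _ w d)) =
      jV a th (Q := Q) hk hkF (iD a th _ w d)
    rw [(isChain_jinf a th hk hkF).D, jV_iD]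
    rfl
  · intro x
    apply Subtype.ext
    change HahnSeries.ofPowerSeries ℤ _
      (jinf a th (Q := Q) hk hkF (iL a th _ w (Polynomial.C x))) =
      jV a th (Q := Q) hk hkF (iL a th _ w (Polynomial.C x))
    rw [(isChain_jinf a th hk hkF).L, jV_iL]
    rfl
  · apply Subtype.ext
    change (HahnSeries.single (1 : ℤ) 1 : LaurentSeries (U a th Q w1)) *
      jV a th (Q := Q) hk hkF (iL a th _ w Polynomial.X) = 1
    rw [jV_X, single_mul_single', add_neg_cancel]
    rfl
  · apply Subtype.ext
    change HahnSeries.ofPowerSeries ℤ _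
      (jinf a th (Q := Q) hk hkF (iL a th _ w Polynomial.X)) = HahnSeries.single 1 1
    rw [(isChain_jinf a th hk hkF).X, HahnSeries.ofPowerSeries_X]
  · intro l
    apply Subtype.ext
    change HahnSeries.ofPowerSeries ℤ _ (jinf a th (Q := Q) hk hkF (eta a th _ w l)) =
      (HahnSeries.single (1 : ℤ) 1 : LaurentSeries (U a th Q w1)) *
        jV a th (Q := Q) hk hkF (eta a th _ w l)
    rw [(isChain_jinf a th hk hkF).E, jV_eta, map_add, map_mul, HahnSeries.ofPowerSeries_X,
      mul_add, add_comm, ← single_comm 1, single_comm 1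
        (CL a th (iD a th Q w1 (w1 l none)) * HahnSeries.single (-1) 1), mul_assoc,
      single_mul_single', neg_add_cancel, add_comm]
    congr 1
    exact (mul_one _).symm

/-- the chart -/
noncomputable def chart : Chart (DD h) (Vp a th Q w) Δ :=
  mkChart (oData h) (GR a th Q w) (RtoV a th Q w) (RtoV_surjective a th Q w) (tR a th Q w)
    (tR_mem a th Q w) (RtoV_tR a th Q w) (jD a th hk hkF h) (BR a th hk hkF h)
    (hB a th hk hkF h)

/-- the line of `UT773b` -/
noncomputable abbrev lineS : V868.Line (DD h) :=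
  line h (VS a th hk hkF h) (xD_mem_VS a th hk hkF h) (VS_coeff a th hk hkF h)

theorem chart_O : (chart a th hk hkF h).O = (lineS a th hk hkF h).O := rfl

theorem chart_pi : ((chart a th hk hkF h).pi : DD h) = (lineS a th hk hkF h).p := rfl

theorem chart_j : (chart a th hk hkF h).j = jD a th hk hkF h := rfl

theorem chart_range : (chart a th hk hkF h).j.range = (lineS a th hk hkF h).V :=
  jD_range a th hk hkF h

variable (hker : ∀ r : Vinf a th Q w, δ r = 0 → Ito1 a th Q w r = 0)
  (hreg : ∀ y, xh a th Q w * y = 0 → y = 0)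

include hker hreg in
/-- **injectivity of symbols** -/
theorem chart_inj : (chart a th hk hkF h).Inj := by
  apply mkChart_inj
  intro l r hr h0
  have h1 : δ (RtoI a th Q w r) = 0 := by
    rw [← qOD_BR a th hk hkF h]; exact h0
  exact rees_inj a th Q w (RingHom.id _) Function.injective_id hreg l r hr (hker _ h1)

include hker hreg in
theorem jD_injective : Function.Injective (jD a th hk hkF h) :=
  Chart.j_injective (chart_inj a th hk hkF h hker hreg)

/-- **`V' = V`** -/
noncomputable def VpEquiv : Vp a th Q w ≃+* (lineS a th hk hkF h).V :=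
  (RingEquiv.ofBijective (jD a th hk hkF h).rangeRestrict
    ⟨fun _ _ hxy => jD_injective a th hk hkF h hker hreg (congrArg Subtype.val hxy),
      (jD a th hk hkF h).rangeRestrict_surjective⟩).trans
    (RingEquiv.subringCongr (jD_range a th hk hkF h))

theorem VpEquiv_coe (v : Vp a th Q w) :
    ((VpEquiv a th hk hkF h hker hreg v : (lineS a th hk hkF h).V) : DD h) =
      jD a th hk hkF h v := rfl

end jD

section main

variable {F D D1 I σ τ : Type} [CommRing F] [DivisionRing D] [Algebra F D] [DivisionRing D1]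
  [Algebra F D1] [Fintype I] [Fintype σ] [DecidableEq σ]
  (a : I → ℕ) (th : I → I → F)
  {Q : I → MvPolynomial (Option (Option σ)) (MvPolynomial τ F)}
  {w : I → σ → D} {kap : D →+* D1} {w1 : I → Option σ → D1}
  (hk : ∀ i v, w1 i (some v) = kap (w i v))
  (hkF : ∀ c : F, kap (algebraMap F D c) = algebraMap F D1 c)
  {δ : Vinf a th Q w →+* PA D1 τ} {i : PA D1 τ →+* U a th Q w1}
  (h : Dat (jinf a th (Q := Q) hk hkF) δ i (iL a th _ w Polynomial.X))
  (hres : IsRes a th kap w1 δ)
  (hker : ∀ r : Vinf a th Q w, δ r = 0 → Ito1 a th Q w r = 0)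
  (hreg : ∀ y, xh a th Q w * y = 0 → y = 0)

theorem oData_q_BR : (oData h).q.comp (BR a th hk hkF h) = δ.comp (RtoI a th Q w) :=
  RingHom.ext fun r => qOD_BR a th hk hkF h r

include hres in
/-- the symbol data -/
theorem chartSym : SymData (chart a th hk hkF h) kap
    (symS (GR a th Q w) ((oData h).q.comp (BR a th hk hkF h))) := by
  have hs : IsSym a th kap w1 ((oData h).q.comp (BR a th hk hkF h)) := by
    rw [oData_q_BR]
    exact hres.isSym
  exact symData (oData h) (GR a th Q w) (RtoV a th Q w) (RtoV_surjective a th Q w) (tR a th Q w)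
    (tR_mem a th Q w) (RtoV_tR a th Q w) (jD a th hk hkF h) (BR a th hk hkF h)
    (hB a th hk hkF h) kap hs.hκ hs.hmon (hs.hPS hkF) (hs.hP0 hkF)

/-- **left basis** -/
noncomputable def lbL : V868.LB (lineS a th hk hkF h) :=
  leftLB (chart_inj a th hk hkF h hker hreg) (chart_O a th hk hkF h) (chart_pi a th hk hkF h)
    (chart_range a th hk hkF h)
    ((chartSym a th hk hkF h hres).leftBD (chart_inj a th hk hkF h hker hreg))

/-- **right basis** -/
noncomputable def lbR : V868.LB (lineS a th hk hkF h).op :=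
  rightLB (chart_inj a th hk hkF h hker hreg) (chart_O a th hk hkF h) (chart_pi a th hk hkF h)
    (chart_range a th hk hkF h)
    ((chartSym a th hk hkF h hres).rightBD (chart_inj a th hk hkF h hker hreg))

include hres hker hreg in
/-- **495's `hOb`** -/
theorem hOb : ∃ (J : Type) (j0 : J) (c : J → DD h), c j0 = 1 ∧
    (∀ j, c j ∈ (lineS a th hk hkF h).O) ∧
    (∀ o ∈ (lineS a th hk hkF h).O, ∃ e : J →₀ DD h,
      (∀ j, e j ∈ (lineS a th hk hkF h).V ⊓ (lineS a th hk hkF h).O) ∧
      ∃ o' ∈ (lineS a th hk hkF h).O,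
        o = (e.sum fun j r => c j * r) + (lineS a th hk hkF h).p * o') ∧
    ∀ e : J →₀ DD h, (∀ j, e j ∈ (lineS a th hk hkF h).V ⊓ (lineS a th hk hkF h).O) →
      ∀ o' ∈ (lineS a th hk hkF h).O,
        (e.sum fun j r => c j * r) = (lineS a th hk hkF h).p * o' → e = 0 :=
  rightOB (chart_inj a th hk hkF h hker hreg) (chart_O a th hk hkF h) (chart_pi a th hk hkF h)
    (chart_range a th hk hkF h)
    ((chartSym a th hk hkF h hres).rightBD (chart_inj a th hk hkF h hker hreg))

include hres hker hreg in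
/-- **495's `hVb`** -/
theorem hVb : ∃ (J : Type) (j0 : J) (c : J → DD h), c j0 = 1 ∧
    (∀ j, c j ∈ (lineS a th hk hkF h).V) ∧
    (∀ v ∈ (lineS a th hk hkF h).V, ∃ e : J →₀ DD h,
      (∀ j, e j ∈ (lineS a th hk hkF h).V ⊓ (lineS a th hk hkF h).O) ∧
      v = e.sum fun j r => c j * r) ∧
    ∀ e : J →₀ DD h, (∀ j, e j ∈ (lineS a th hk hkF h).V ⊓ (lineS a th hk hkF h).O) →
      (e.sum fun j r => c j * r) = 0 → e = 0 :=
  rightVB (chart_inj a th hk hkF h hker hreg) (chart_O a th hk hkF h)
    (chart_range a th hk hkF h)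
    ((chartSym a th hk hkF h hres).exists_VData (chart_inj a th hk hkF h hker hreg)).some

end main

end Crest.Agent.R181.CU
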