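import Crest.Agent.R181.CU735h

/-!
# `E = V ⊓ O = D[τ]`
-/

set_option autoImplicit false
set_option linter.unusedSectionVars false

namespace Crest.Agent.R181.CU

open Crest.Agent.R181.UR Crest.Agent.R181.OR Crest.Agent.R181.RO Crest.Agent.R181.UT
open AddMonoidAlgebra
open scoped Polynomial

section abstr

variable {DD V Del : Type} [Ring DD] [Ring V] [Ring Del] {L : V868.Line DD} {C : Chart DD V Del}
variable (hC : C.Inj) (hO : C.O = L.O) (hV : C.j.range = L.V)

include hO hV in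
theorem j_mem_inf' (e : C.E) : C.j e ∈ L.V ⊓ L.O := j_mem_inf hO hV e

/-- `E → V ⊓ O` -/
noncomputable def toInf : C.E →+* ↥(L.V ⊓ L.O) :=
  (C.j.comp C.E.subtype).codRestrict (L.V ⊓ L.O) (fun e => j_mem_inf hO hV e)

/-- `E ≃ V ⊓ O` -/
noncomputable def infEquiv : C.E ≃+* ↥(L.V ⊓ L.O) :=
  RingEquiv.ofBijective (toInf hO hV) ⟨by
    intro x y hxy
    exact Subtype.ext (Chart.j_injective hC (congrArg Subtype.val hxy)), by
    rintro ⟨x, hx⟩
    obtain ⟨e, he⟩ := exists_E_of_mem hC hO hV hx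
    exact ⟨e, Subtype.ext he⟩⟩

theorem infEquiv_coe (e : C.E) : ((infEquiv hC hO hV e : ↥(L.V ⊓ L.O)) : DD) = C.j e := rfl

end abstr

section main

variable {F D D1 I σ τ : Type} [CommRing F] [DivisionRing D] [Algebra F D] [DivisionRing D1]
  [Algebra F D1] [Fintype I] [Fintype σ] [DecidableEq σ]
  (a : I → ℕ) (th : I → I → F)
  {Q : I → MvPolynomial (Option (Option σ)) (MvPolynomial τ F)}
  {w : I → σ → D} {kap : D →+* D1} {w1 : I → Option σ → D1}
  (hk : ∀ i v, w1 i (some v) = kap (w i v))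
  (hkF : ∀ c : F, kap (algebraMap F D c) = algebraMap F D1 c)
  {δ : Vinf a th Q w →+* PA D1 τ} {i : PA D1 τ →+* U a th Q w1}
  (h : Dat (jinf a th (Q := Q) hk hkF) δ i (iL a th _ w Polynomial.X))
  (hres : IsRes a th kap w1 δ)
  (hker : ∀ r : Vinf a th Q w, δ r = 0 → Ito1 a th Q w r = 0)
  (hreg : ∀ y, xh a th Q w * y = 0 → y = 0)

/-- **`V ⊓ O = D[τ]`** -/
noncomputable def EEquiv :
    ↥((lineS a th hk hkF h).V ⊓ (lineS a th hk hkF h).O) ≃+* PA D τ :=
  (infEquiv (L := lineS a th hk hkF h) (chart_inj a th hk hkF h hker hreg)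
    (chart_O a th hk hkF h) (chart_range a th hk hkF h)).symm.trans
    ((chartSym a th hk hkF h hres).eqv (chart_inj a th hk hkF h hker hreg))

end main

end Crest.Agent.R181.CU
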