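import Crest.Agent.R181.VP836b
import Crest.Agent.R181.UR396h

/-!
R181, V-chain (helper836): V1 over 825's `Chain`, part c: `T1 → Δ` injective, regularity on
`T^h ⊗ L` from `Reg X`, `Reg Y` from a left basis.
-/

set_option autoImplicit false
set_option linter.unusedSectionVars false

namespace Crest.Agent.R181.VP

open AddMonoidAlgebra Crest.Agent.R181.UR Crest.Agent.R181.TW Crest.Agent.R181.RO
open Crest.Agent.R181.OR Crest.Agent.R181.UT Crest.Agent.R181.BM
open scoped Polynomial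

variable {F I : Type} [Field F] [Fintype I] {n : ℕ} {d : TW.Dat F I n} {i : ℕ}
  {X : Lvl d i} {Y : Lvl d (i + 1)}

/-! ### `T1 → Δ` -/

theorem exists_desc {A B C : Type*} [Ring A] [Ring B] [Ring C] (f : A →+* B)
    (hf : Function.Surjective f) (g : A →+* C) (hk : ∀ a, f a = 0 → g a = 0)
    (hk' : ∀ a, g a = 0 → f a = 0) :
    ∃ ψ : B →+* C, (∀ a, ψ (f a) = g a) ∧ Function.Injective ψ := by
  have h1 : ∀ v v', f v = f v' → g v = g v' := by
    intro v v' h
    rw [← sub_eq_zero, ← map_sub]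
    exact hk _ (by rw [map_sub, h, sub_self])
  choose r hr using hf
  let ψ : B →+* C :=
    { toFun := fun t => g (r t)
      map_one' := by rw [← map_one g]; exact h1 _ _ (by rw [hr, map_one])
      map_zero' := by rw [← map_zero g]; exact h1 _ _ (by rw [hr, map_zero])
      map_mul' := fun x y => by
        rw [← map_mul]; exact h1 _ _ (by rw [hr, map_mul, hr, hr])
      map_add' := fun x y => by
        rw [← map_add]; exact h1 _ _ (by rw [hr, map_add, hr, hr]) }
  refine ⟨ψ, fun a => h1 _ _ (hr _), ?_⟩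
  rw [injective_iff_map_eq_zero]
  intro t ht
  have h2 : g (r t) = 0 := ht
  rw [← hr t]
  exact hk' _ h2

section psi

variable (s : Step X Y) {σ : Type} [Fintype σ] (lam : Fin n → MvPolynomial σ F)

theorem Ito1_X : Ito1 d.a d.th (d.Ql (i + 1) lam) X.w (iL d.a d.th _ X.w Polynomial.X) = 0 := by
  simp [Ito1]

theorem dlt_eq_zero (v : Vinf d.a d.th (d.Ql (i + 1) lam) X.w) (h : dlt s lam v = 0) :
    Ito1 d.a d.th (d.Ql (i + 1) lam) X.w v = 0 := by
  obtain ⟨ψ', hψ'⟩ := exists_factor (isU_U d.a d.th _ X.w)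
    (isU_U d.a d.th (d.Ql i (dl F i)) X.w) (red lam)
    (fun x => ⟨Polynomial.C x, by simp⟩) (p1 := Polynomial.X)
    (fun x hx => by
      have h : Polynomial.X ∣ x := by
        rw [Polynomial.X_dvd_iff, Polynomial.coeff_zero_eq_eval_zero]
        exact hx
      exact h) (Ito1 d.a d.th (d.Ql (i + 1) lam) X.w) (Ito1_X lam)
  have h1 : alpha (isU_U d.a d.th _ X.w) (isU_U d.a d.th (d.Ql i (dl F i)) X.w) (red lam) v = 0 := by
    apply mp_injective s.φ s.inj
    rw [map_zero]
    exact h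
  rw [← hψ', RingHom.comp_apply, h1, map_zero]

theorem exists_psi : ∃ ψ : T1 d.a d.th (d.Ql (i + 1) lam) X.w →+* PA Y.D σ,
    (∀ v, ψ (Ito1 d.a d.th (d.Ql (i + 1) lam) X.w v) = dlt s lam v) ∧ Function.Injective ψ := by
  refine exists_desc (Ito1 d.a d.th (d.Ql (i + 1) lam) X.w)
    (Ito1_surjective d.a d.th (d.Ql (i + 1) lam) X.w) (dlt s lam) ?_ (dlt_eq_zero s lam)
  intro v hv
  obtain ⟨y, rfl⟩ := Ito1_ker d.a d.th (d.Ql (i + 1) lam) X.w v hv
  rw [map_mul, dlt_iL, Polynomial.eval_X, map_zero, zero_mul]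

end psi

/-! ### regularity on `T^h ⊗ L` -/

theorem Reg.th (hX : Reg X) {σ : Type} [Fintype σ] (lam : Fin n → MvPolynomial σ F)
    (y : Th d.a d.th (d.Ql (i + 1) lam) X.w)
    (hy : xh d.a d.th (d.Ql (i + 1) lam) X.w * y = 0) : y = 0 := by
  let lam' : Fin n → (MvPolynomial σ F)[X] := fun t =>
    if (t : ℕ) = i then Polynomial.X else Polynomial.C (lam t) * 0
  have h1 : Qs (d.Ql (i + 1) lam) (Polynomial.C : MvPolynomial σ F →+* (MvPolynomial σ F)[X])
      0 Polynomial.X = d.Ql i lam' :=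
    Qs_Ql d (i := i) (Polynomial.C : MvPolynomial σ F →+* (MvPolynomial σ F)[X])
      (fun c => rfl) 0 Polynomial.X lam
  have key : ∀ (Q' : I → MvPolynomial (Option (Vr i)) (MvPolynomial σ F)[X]), Q' = d.Ql i lam' →
      ∀ y : U d.a d.th Q' X.w, iL d.a d.th Q' X.w Polynomial.X * y = 0 → y = 0 := by
    rintro _ rfl y hy
    exact hX.congr (Option σ) ((MvPolynomial.optionEquivLeft F σ).symm) lam' Polynomial.X
      Polynomial.X_ne_zero y hy
  exact key _ h1 y hy

/-! ### `Reg Y` from a left basis -/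

section regY

variable (s : Step X Y) {σ : Type} [Fintype σ] (lam : Fin n → MvPolynomial σ F) [Infinite F]
  (hNT : NT Y)

/-- the line of the chain step -/
noncomputable abbrev ln : V868.Line (DD (datOf s lam hNT)) :=
  line (datOf s lam hNT) (VS d.a d.th (hkap s) (hkapF s) (datOf s lam hNT))
    (xD_mem_VS d.a d.th (hkap s) (hkapF s) (datOf s lam hNT))
    (VS_coeff d.a d.th (hkap s) (hkapF s) (datOf s lam hNT))

/-- `UnivT` of the chain step -/
noncomputable def un : V868.UnivT (ln s lam hNT) (Y.U lam) :=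
  univTc d.a d.th (hkap s) (hkapF s) (datOf s lam hNT) (cst σ) (UR.mp σ (algebraMap F Y.D))
    (fun x => dz_cst d.a d.th _ Y.w x) (fun x => dz_mp lam x)

/-- the leading coefficient of an element of `O` -/
theorem coeff_zero_OD (o : DD (datOf s lam hNT)) (ho : o ∈ OD (datOf s lam hNT)) :
    ∃ δ : PA Y.D σ, (o : LaurentSeries (Y.U lam)).coeff 0 =
      dz d.a d.th (d.Ql (i + 1) lam) Y.w δ := by
  obtain ⟨g, hg, h1⟩ := ho
  obtain ⟨δ, hδ⟩ := exists_const (datOf s lam hNT) hg
  refine ⟨δ, ?_⟩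
  have h1' : HahnSeries.ofPowerSeries ℤ (Y.U lam) g = (o : LaurentSeries (Y.U lam)) := h1
  rw [← hδ, ← h1', ← PowerSeries.coeff_zero_eq_constantCoeff_apply]
  exact HahnSeries.ofPowerSeries_apply_coeff (Γ := ℤ) g 0

theorem reg_of_left (B : V868.LB (ln s lam hNT)) (x : MvPolynomial σ F) (hx : x ≠ 0)
    (y : Y.U lam) (hy : iL d.a d.th (d.Ql (i + 1) lam) Y.w x * y = 0) : y = 0 := by
  have hj := isChain_jinf d.a d.th (Q := d.Ql (i + 1) lam) (hkap s) (hkapF s)
  -- the element `x` of `O`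
  let xo : DD (datOf s lam hNT) :=
    (toOD (datOf s lam hNT) ⟨_, j_mem_O (iL d.a d.th _ X.w (Polynomial.C x))⟩ :
      OD (datOf s lam hNT))
  have hxo : (xo : LaurentSeries (Y.U lam)) =
      HahnSeries.single (0 : ℤ) (iL d.a d.th (d.Ql (i + 1) lam) Y.w x) := by
    show HahnSeries.ofPowerSeries ℤ (Y.U lam) (jinf d.a d.th (Q := d.Ql (i + 1) lam) (hkap s)
      (hkapF s) (iL d.a d.th _ X.w (Polynomial.C x))) = _
    rw [hj.L]
    exact HahnSeries.ofPowerSeries_C _
  refine regular_of_LB B (un s lam hNT) xo (iL d.a d.th (d.Ql (i + 1) lam) Y.w x)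
    (toOD (datOf s lam hNT) _).2 ?_ ?_ y hy
  · intro o _
    show ((xo : LaurentSeries (Y.U lam)) * (o : LaurentSeries (Y.U lam))).coeff 0 = _
    rw [hxo, HahnSeries.coeff_single_mul, sub_zero]
    rfl
  · intro o ho h0
    obtain ⟨δ, hδ⟩ := coeff_zero_OD s lam hNT o ho
    have h1 : (un s lam hNT).Θ o = (o : LaurentSeries (Y.U lam)) := rfl
    rw [h1, hδ] at h0 ⊢
    rw [← dz_mp, ← map_mul] at h0
    have h2 : UR.mp σ (algebraMap F Y.D) x * δ = 0 :=
      (datOf s lam hNT).inj (by rw [h0, map_zero])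
    rcases mul_eq_zero.1 h2 with h3 | h3
    · exact absurd (mp_injective (σ := σ) (algebraMap F Y.D) (algebraMap F Y.D).injective
        (h3.trans (map_zero (UR.mp σ (algebraMap F Y.D))).symm)) hx
    · rw [h3, map_zero]

end regY

end Crest.Agent.R181.VP
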