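import Crest.Agent.R181.CU735i
import Crest.Agent.R181.VP836c

/-!
# Lemma 3 over 825's chain: the instances of `CU735h`, `CU735i` for 836's `datOf s lam hNT`
-/

set_option autoImplicit false
set_option linter.unusedSectionVars false

namespace Crest.Agent.R181.CU

open AddMonoidAlgebra Crest.Agent.R181.UR Crest.Agent.R181.TW Crest.Agent.R181.RO
open Crest.Agent.R181.OR Crest.Agent.R181.UT Crest.Agent.R181.VP
open scoped Polynomial

variable {F I : Type} [Field F] [Fintype I] {n : ℕ} {d : TW.Dat F I n} {i : ℕ}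
  {X : Lvl d i} {Y : Lvl d (i + 1)} (s : Step X Y) {σ : Type} [Fintype σ]
  (lam : Fin n → MvPolynomial σ F)

theorem isRes_dlt : IsRes d.a d.th (kap s) Y.w (dlt s lam) where
  D x := dlt_iD s lam x
  L x := by
    rw [dlt_iL, Polynomial.eval_C]
    rfl
  X := by rw [dlt_iL, Polynomial.eval_X, map_zero]
  E l := dlt_eta s lam l

variable [Infinite F] (hNT : NT Y) (hX : Reg X)

/-- **left basis** -/
noncomputable def lbLn : V868.LB (ln s lam hNT) :=
  lbL d.a d.th (hkap s) (hkapF s) (datOf s lam hNT) (isRes_dlt s lam) (dlt_eq_zero s lam)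
    (hX.th lam)

/-- **right basis** -/
noncomputable def lbRn : V868.LB (ln s lam hNT).op :=
  lbR d.a d.th (hkap s) (hkapF s) (datOf s lam hNT) (isRes_dlt s lam) (dlt_eq_zero s lam)
    (hX.th lam)

include s in
/-- **V1, induction step**: `Reg X → Reg Y` -/
theorem reg_step (hX : Reg X) (hNT : NT Y) : Reg Y := by
  intro σ _ lam x hx y hy
  exact reg_of_left s lam hNT (lbLn s lam hNT hX) x hx y hy

/-- `V' = V` -/
noncomputable def VpEquivn : Vp d.a d.th (d.Ql (i + 1) lam) X.w ≃+* (ln s lam hNT).V :=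
  VpEquiv d.a d.th (hkap s) (hkapF s) (datOf s lam hNT) (dlt_eq_zero s lam) (hX.th lam)

/-- `V ⊓ O = D_i[σ]` -/
noncomputable def EEquivn : ↥((ln s lam hNT).V ⊓ (ln s lam hNT).O) ≃+* PA X.D σ :=
  EEquiv d.a d.th (hkap s) (hkapF s) (datOf s lam hNT) (isRes_dlt s lam) (dlt_eq_zero s lam)
    (hX.th lam)

include hX in
/-- 495's `hOb` -/
theorem hObn : ∃ (J : Type) (j0 : J) (c : J → DD (datOf s lam hNT)), c j0 = 1 ∧
    (∀ j, c j ∈ (ln s lam hNT).O) ∧
    (∀ o ∈ (ln s lam hNT).O, ∃ e : J →₀ DD (datOf s lam hNT),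
      (∀ j, e j ∈ (ln s lam hNT).V ⊓ (ln s lam hNT).O) ∧
      ∃ o' ∈ (ln s lam hNT).O,
        o = (e.sum fun j r => c j * r) + (ln s lam hNT).p * o') ∧
    ∀ e : J →₀ DD (datOf s lam hNT), (∀ j, e j ∈ (ln s lam hNT).V ⊓ (ln s lam hNT).O) →
      ∀ o' ∈ (ln s lam hNT).O,
        (e.sum fun j r => c j * r) = (ln s lam hNT).p * o' → e = 0 :=
  hOb d.a d.th (hkap s) (hkapF s) (datOf s lam hNT) (isRes_dlt s lam) (dlt_eq_zero s lam)
    (hX.th lam)

include hX in
/-- 495's `hVb` -/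
theorem hVbn : ∃ (J : Type) (j0 : J) (c : J → DD (datOf s lam hNT)), c j0 = 1 ∧
    (∀ j, c j ∈ (ln s lam hNT).V) ∧
    (∀ v ∈ (ln s lam hNT).V, ∃ e : J →₀ DD (datOf s lam hNT),
      (∀ j, e j ∈ (ln s lam hNT).V ⊓ (ln s lam hNT).O) ∧
      v = e.sum fun j r => c j * r) ∧
    ∀ e : J →₀ DD (datOf s lam hNT), (∀ j, e j ∈ (ln s lam hNT).V ⊓ (ln s lam hNT).O) →
      (e.sum fun j r => c j * r) = 0 → e = 0 :=
  hVb d.a d.th (hkap s) (hkapF s) (datOf s lam hNT) (isRes_dlt s lam) (dlt_eq_zero s lam)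
    (hX.th lam)

end Crest.Agent.R181.CU
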