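import Crest.Agent.R181.FR459a

/-!
# R181: change of rings `Ind φ M = S ⊗_R M` for noncommutative rings, flatness, FFR

`φ : R →+* S`, `M` a left `R`-module.
-/

namespace Crest.Agent.R181.FB

open Function

universe u v w w' w''

section Ind

variable {R : Type u} {S : Type v} [Ring R] [Ring S] (φ : R →+* S)

section Def
variable (M : Type w) [AddCommGroup M] [Module R M]

/-- the relations of `S ⊗_R M` -/
noncomputable def rel : Submodule S (M →₀ S) :=
  Submodule.span S ({x | ∃ m m' : M, x = Finsupp.single (m + m') 1 - Finsupp.single m 1 -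
      Finsupp.single m' 1} ∪
    {x | ∃ (r : R) (m : M), x = Finsupp.single (r • m) 1 - Finsupp.single m (φ r)})

/-- the induced module `S ⊗_R M` -/
def Ind : Type max v w := (M →₀ S) ⧸ rel φ M

noncomputable instance : AddCommGroup (Ind φ M) := inferInstanceAs (AddCommGroup ((M →₀ S) ⧸ rel φ M))
noncomputable instance : Module S (Ind φ M) := inferInstanceAs (Module S ((M →₀ S) ⧸ rel φ M))

end Def

variable {M : Type w} {N : Type w'} {P : Type w''} [AddCommGroup M] [Module R M]
  [AddCommGroup N] [Module R N] [AddCommGroup P] [Module R P]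

/-- the projection from the free module -/
noncomputable def pr (M : Type w) [AddCommGroup M] [Module R M] : (M →₀ S) →ₗ[S] Ind φ M :=
  (rel φ M).mkQ

theorem pr_surjective : Surjective (pr φ M) := (rel φ M).mkQ_surjective

theorem pr_eq_zero {x : M →₀ S} : pr φ M x = 0 ↔ x ∈ rel φ M :=
  Submodule.Quotient.mk_eq_zero _

/-- `m ↦ 1 ⊗ m` -/
noncomputable def mk : M →ₛₗ[φ] Ind φ M where
  toFun m := pr φ M (Finsupp.single m 1)
  map_add' m m' := by
    rw [← map_add, ← sub_eq_zero, ← map_sub, pr_eq_zero]
    apply Submodule.subset_span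
    left
    exact ⟨m, m', by abel⟩
  map_smul' r m := by
    rw [← map_smul, ← sub_eq_zero, ← map_sub, pr_eq_zero]
    apply Submodule.subset_span
    right
    exact ⟨r, m, by simp⟩

theorem mk_def (m : M) : mk φ m = pr φ M (Finsupp.single m 1) := rfl

theorem span_mk : Submodule.span S (Set.range (mk φ : M → Ind φ M)) = ⊤ := by
  rw [eq_top_iff]
  rintro y -
  obtain ⟨x, rfl⟩ := pr_surjective φ y
  induction x using Finsupp.induction_linear with
  | zero => rw [map_zero]; exact zero_mem _
  | add f g hf hg => rw [map_add]; exact add_mem hf hg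
  | single m s =>
    have h1 : (Finsupp.single m s : M →₀ S) = s • Finsupp.single m 1 := by simp
    rw [h1, map_smul]
    exact Submodule.smul_mem _ _ (Submodule.subset_span ⟨m, rfl⟩)

theorem ind_induction {p : Ind φ M → Prop} (x : Ind φ M) (h0 : p 0)
    (ha : ∀ x y, p x → p y → p (x + y)) (hs : ∀ (s : S) (m : M), p (s • mk φ m)) : p x := by
  obtain ⟨x, rfl⟩ := pr_surjective φ x
  induction x using Finsupp.induction_linear with
  | zero => rw [map_zero]; exact h0
  | add f g hf hg => rw [map_add]; exact ha _ _ hf hg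
  | single m s =>
    have h1 : (Finsupp.single m s : M →₀ S) = s • Finsupp.single m 1 := by simp
    rw [h1, map_smul]
    exact hs s m

variable {X : Type*} [AddCommGroup X] [Module S X]

/-- the universal property -/
noncomputable def lift (g : M →ₛₗ[φ] X) : Ind φ M →ₗ[S] X :=
  (rel φ M).liftQ (Finsupp.linearCombination S (g : M → X)) (by
    unfold rel
    rw [Submodule.span_le]
    rintro x (⟨m, m', rfl⟩ | ⟨r, m, rfl⟩)
    · simp [map_add]
    · simp)

theorem lift_pr (g : M →ₛₗ[φ] X) (x : M →₀ S) :
    lift φ g (pr φ M x) = Finsupp.linearCombination S (g : M → X) x := rfl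

@[simp] theorem lift_mk (g : M →ₛₗ[φ] X) (m : M) : lift φ g (mk φ m) = g m := by
  rw [mk_def, lift_pr]
  simp

theorem hom_ext {f g : Ind φ M →ₗ[S] X} (h : ∀ m, f (mk φ m) = g (mk φ m)) : f = g := by
  refine LinearMap.ext fun x => ?_
  induction x using ind_induction φ with
  | h0 => simp
  | ha x y hx hy => rw [map_add, map_add, hx, hy]
  | hs s m => rw [map_smul, map_smul, h]

/-- functoriality -/
noncomputable def map (f : M →ₗ[R] N) : Ind φ M →ₗ[S] Ind φ N := lift φ ((mk φ).comp f)

@[simp] theorem map_mk (f : M →ₗ[R] N) (m : M) : map φ f (mk φ m) = mk φ (f m) := by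
  simp [map]

theorem map_comp (g : N →ₗ[R] P) (f : M →ₗ[R] N) : map φ (g.comp f) = (map φ g).comp (map φ f) := by
  apply hom_ext
  intro m
  simp

theorem map_id : map φ (LinearMap.id : M →ₗ[R] M) = LinearMap.id := by
  apply hom_ext
  intro m
  simp

theorem map_zero_hom : map φ (0 : M →ₗ[R] N) = 0 := by
  apply hom_ext
  intro m
  simp

theorem map_surjective {f : M →ₗ[R] N} (hf : Surjective f) : Surjective (map φ f) := by
  intro y
  induction y using ind_induction φ with
  | h0 => exact ⟨0, map_zero _⟩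
  | ha x y hx hy =>
    obtain ⟨a, rfl⟩ := hx
    obtain ⟨b, rfl⟩ := hy
    exact ⟨a + b, map_add _ _ _⟩
  | hs s m =>
    obtain ⟨m', rfl⟩ := hf m
    exact ⟨s • mk φ m', by simp⟩

/-- right exactness -/
theorem map_exact {f : M →ₗ[R] N} {g : N →ₗ[R] P} (hg : Surjective g) (h : Exact f g) :
    Exact (map φ f) (map φ g) := by
  have key : ∀ n n' : N, g n = g n' →
      (LinearMap.range (map φ f)).mkQ (mk φ n) = (LinearMap.range (map φ f)).mkQ (mk φ n') := by
    intro n n' hnn
    obtain ⟨m, hm⟩ := (h (n - n')).mp (by rw [map_sub, hnn, sub_self])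
    rw [← sub_eq_zero, ← map_sub, ← map_sub, ← hm, ← map_mk, Submodule.mkQ_apply,
      Submodule.Quotient.mk_eq_zero]
    exact ⟨_, rfl⟩
  let σ : P → N := surjInv hg
  have hσ : ∀ p, g (σ p) = p := surjInv_eq hg
  let k : P →ₛₗ[φ] (Ind φ N ⧸ LinearMap.range (map φ f)) :=
    { toFun := fun p => (LinearMap.range (map φ f)).mkQ (mk φ (σ p))
      map_add' := fun p p' => by
        rw [← map_add, ← map_add]
        exact key _ _ (by rw [hσ, map_add, hσ, hσ])
      map_smul' := fun r p => by
        rw [← map_smul, ← map_smulₛₗ]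
        exact key _ _ (by rw [hσ, map_smul, hσ]) }
  have hk : (lift φ k).comp (map φ g) = (LinearMap.range (map φ f)).mkQ := by
    apply hom_ext
    intro n
    rw [LinearMap.comp_apply, map_mk, lift_mk]
    exact key _ _ (hσ _)
  intro y
  constructor
  · intro hy
    have h1 := LinearMap.congr_fun hk y
    rw [LinearMap.comp_apply, hy, map_zero, Submodule.mkQ_apply, eq_comm,
      Submodule.Quotient.mk_eq_zero] at h1
    exact h1
  · rintro ⟨x, rfl⟩
    have h1 : g.comp f = 0 := LinearMap.ext fun x => h.apply_apply_eq_zero x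
    have h2 : (map φ g).comp (map φ f) = 0 := by
      rw [← map_comp, h1]
      apply hom_ext
      intro m
      simp
    exact LinearMap.congr_fun h2 x

/-- an isomorphism induces an isomorphism -/
noncomputable def mapEquiv (e : M ≃ₗ[R] N) : Ind φ M ≃ₗ[S] Ind φ N :=
  LinearEquiv.ofLinearMap (map φ e.toLinearMap) (map φ e.symm.toLinearMap)
    (by rw [← map_comp]; simp [map_id])
    (by rw [← map_comp]; simp [map_id])

/-- `S ⊗ (M × N) = (S ⊗ M) × (S ⊗ N)` -/
noncomputable def indProd : Ind φ (M × N) ≃ₗ[S] (Ind φ M × Ind φ N) :=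
  LinearEquiv.ofLinearMap
    ((map φ (LinearMap.fst R M N)).prod (map φ (LinearMap.snd R M N)))
    ((map φ (LinearMap.inl R M N)).coprod (map φ (LinearMap.inr R M N)))
    (by
      apply LinearMap.prod_ext
      · apply hom_ext; intro m; simp
      · apply hom_ext; intro m; simp)
    (by
      apply hom_ext
      rintro ⟨m, n⟩
      simp [← map_add])

/-- a concrete model of the induced module -/
def IsInd (i : M →ₛₗ[φ] X) : Prop := Bijective (lift φ i)

end Ind

section Free

variable {R : Type u} {S : Type v} [Ring R] [Ring S] (φ : R →+* S) {ι : Type*}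

/-- `φ` coordinatewise on free modules -/
noncomputable def cf : (ι →₀ R) →ₛₗ[φ] (ι →₀ S) where
  toFun f := f.mapRange φ (map_zero φ)
  map_add' f g := Finsupp.mapRange_add (map_add φ) f g
  map_smul' r f := by
    ext i
    simp

@[simp] theorem cf_apply (f : ι →₀ R) (i : ι) : cf φ f i = φ (f i) := by
  simp [cf]

theorem cf_single (i : ι) (r : R) : cf φ (Finsupp.single i r) = Finsupp.single i (φ r) := by
  simp [cf]

/-- `S ⊗ R^(ι) = S^(ι)` -/
noncomputable def indFree (ι : Type*) : Ind φ (ι →₀ R) ≃ₗ[S] (ι →₀ S) :=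
  LinearEquiv.ofLinearMap (lift φ (cf φ))
    (Finsupp.linearCombination S fun i => mk φ (Finsupp.single i 1))
    (by
      apply Finsupp.lhom_ext'
      intro i
      apply LinearMap.ext_ring
      simp [cf_single])
    (by
      apply hom_ext
      intro f
      induction f using Finsupp.induction_linear with
      | zero => simp
      | add f g hf hg => rw [map_add, map_add, map_add, hf, hg]
      | single i r =>
        have h1 : (Finsupp.single i r : ι →₀ R) = r • Finsupp.single i 1 := by simp
        rw [h1, map_smulₛₗ, map_smul, map_smul]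
        simp [cf_single])

@[simp] theorem indFree_mk (f : ι →₀ R) : indFree φ ι (mk φ f) = cf φ f := by
  show lift φ (cf φ) (mk φ f) = _
  rw [lift_mk]

/-- **right flatness** (equational, for finite systems over finite free modules): the kernel of the
matrix `g` over `S` is spanned by the kernel of `g` over `R`. -/
def RFlat : Prop :=
  ∀ (l m : ℕ) (g : Fin l → Fin m → R) (v : Fin l → S), (∀ p, ∑ j, v j * φ (g j p) = 0) →
    v ∈ Submodule.span S {x : Fin l → S | ∃ r : Fin l → R, (∀ p, ∑ j, r j * g j p = 0) ∧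
      x = fun j => φ (r j)}

end Free

section Flat

variable {R : Type u} {S : Type v} [Ring R] [Ring S] (φ : R →+* S)
variable {M : Type w} {N : Type w'} {P : Type w''} [AddCommGroup M] [Module R M]
  [AddCommGroup N] [Module R N] [AddCommGroup P] [Module R P]

theorem exists_sum (x : Ind φ M) : ∃ (l : ℕ) (s : Fin l → S) (m : Fin l → M),
    x = ∑ j, s j • mk φ (m j) := by
  classical
  obtain ⟨f, rfl⟩ := pr_surjective φ x
  refine ⟨f.support.card, fun j => f (f.support.equivFin.symm j),
    fun j => (f.support.equivFin.symm j : M), ?_⟩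
  rw [Equiv.sum_comp f.support.equivFin.symm (fun m : f.support => f m • mk φ (m : M)),
    Finset.sum_coe_sort f.support (fun m => f m • mk φ m)]
  conv_lhs => rw [← Finsupp.sum_single f]
  rw [Finsupp.sum, map_sum]
  apply Finset.sum_congr rfl
  intro m _
  have h1 : (Finsupp.single m (f m) : M →₀ S) = f m • Finsupp.single m 1 := by simp
  rw [h1, map_smul, mk_def]

/-- Step 1: submodules of free modules -/
theorem RFlat.inj_free (h : RFlat φ) {ι : Type*} (K : Submodule R (ι →₀ R)) :
    Injective (map φ (M := K) (N := ι →₀ R) K.subtype) := by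
  classical
  rw [injective_iff_map_eq_zero]
  intro x hx
  obtain ⟨l, s, κ, rfl⟩ := exists_sum φ x
  let T : Finset ι := Finset.univ.biUnion fun j => (κ j : ι →₀ R).support
  let e := T.equivFin
  have hx' : ∑ j, s j • cf φ (κ j : ι →₀ R) = 0 := by
    have h1 := congrArg (indFree φ ι) hx
    simpa [map_sum] using h1
  have h2 := h l T.card (fun j p => (κ j : ι →₀ R) (e.symm p)) s (by
    intro p
    have := DFunLike.congr_fun hx' (e.symm p : ι)
    simpa [Finsupp.finsetSum_apply] using this)
  let Λ : (Fin l → S) →ₗ[S] Ind φ K :=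
    ∑ j, (LinearMap.toSpanSingleton S (Ind φ K) (mk φ (κ j))).comp (LinearMap.proj j)
  have hΛ : ∀ s : Fin l → S, Λ s = ∑ j, s j • mk φ (κ j) := by
    intro s
    simp [Λ]
  rw [← hΛ]
  have h3 : Submodule.span S {x : Fin l → S | ∃ r : Fin l → R,
      (∀ p, ∑ j, r j * (κ j : ι →₀ R) (e.symm p) = 0) ∧ x = fun j => φ (r j)} ≤
      LinearMap.ker Λ := by
    rw [Submodule.span_le]
    rintro _ ⟨r, hr, rfl⟩
    show Λ _ = 0
    rw [hΛ]
    have h4 : ∑ j, r j • κ j = 0 := by
      apply Subtype.ext
      ext i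
      by_cases hi : i ∈ T
      · have := hr (e ⟨i, hi⟩)
        simpa [Finsupp.finsetSum_apply] using this
      · have h5 : ∀ j, (κ j : ι →₀ R) i = 0 := by
          intro j
          by_contra h6
          exact hi (Finset.mem_biUnion.mpr ⟨j, Finset.mem_univ j, Finsupp.mem_support_iff.mpr h6⟩)
        simp [Finsupp.finsetSum_apply, h5]
    have h5 : ∑ j, φ (r j) • mk φ (κ j) = mk φ (∑ j, r j • κ j) := by
      rw [map_sum]
      exact Finset.sum_congr rfl fun j _ => (map_smulₛₗ _ _ _).symm
    rw [h5, h4, map_zero]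
  exact h3 h2

/-- flat ⇒ injections are preserved (all modules) -/
theorem RFlat.map_injective (h : RFlat φ) {f : M →ₗ[R] N} (hf : Injective f) :
    Injective (map φ f) := by
  let π : (N →₀ R) →ₗ[R] N := Finsupp.linearCombination R id
  have hπ : Surjective π := fun n => ⟨Finsupp.single n 1, by simp [π]⟩
  let KC : Submodule R (N →₀ R) := (LinearMap.range f).comap π
  let e : M ≃ₗ[R] LinearMap.range f := LinearEquiv.ofInjective f hf
  let α : KC →ₗ[R] M :=
    e.symm.toLinearMap.comp (LinearMap.codRestrict (LinearMap.range f) (π.comp KC.subtype)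
      (fun x => x.2))
  have hα : ∀ x : KC, f (α x) = π x := by
    intro x
    have h1 : (e (α x) : N) = f (α x) := rfl
    rw [← h1]
    show ((e (e.symm _) : LinearMap.range f) : N) = _
    rw [LinearEquiv.apply_symm_apply]
    rfl
  have hαs : Surjective α := by
    intro m
    obtain ⟨y, hy⟩ := hπ (f m)
    refine ⟨⟨y, ⟨m, hy.symm⟩⟩, ?_⟩
    apply hf
    rw [hα]
    exact hy
  have hKB : LinearMap.ker π ≤ KC := by
    intro x hx
    exact ⟨0, by rw [map_zero]; exact (LinearMap.mem_ker.mp hx).symm⟩
  rw [injective_iff_map_eq_zero]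
  intro y hy
  obtain ⟨z, rfl⟩ := map_surjective φ (M := KC) (N := M) hαs y
  have h1 : f.comp α = π.comp KC.subtype := LinearMap.ext hα
  have h2 : map φ π (map φ KC.subtype z) = 0 := by
    rw [← LinearMap.comp_apply, ← map_comp, ← h1, map_comp, LinearMap.comp_apply, hy]
  obtain ⟨t, ht⟩ := (FB.map_exact φ (M := LinearMap.ker π) (N := N →₀ R) (P := N) hπ
    (LinearMap.exact_subtype_ker_map π) _).mp h2
  have h3 : map φ (M := LinearMap.ker π) (N := N →₀ R) (LinearMap.ker π).subtype =
      (map φ (M := KC) (N := N →₀ R) KC.subtype).comp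
        (map φ (M := LinearMap.ker π) (N := KC) (Submodule.inclusion hKB)) := by
    rw [← map_comp]; rfl
  rw [h3, LinearMap.comp_apply] at ht
  have h4 := h.inj_free φ KC ht
  rw [← h4, ← LinearMap.comp_apply, ← map_comp]
  have h5 : α.comp (Submodule.inclusion hKB) = 0 := by
    ext x
    apply hf
    rw [LinearMap.comp_apply, hα, LinearMap.zero_apply, map_zero]
    exact x.2
  rw [h5]
  rw [map_zero_hom, LinearMap.zero_apply]

/-- flat ⇒ exact -/
theorem RFlat.map_exact (h : RFlat φ) {f : M →ₗ[R] N} {g : N →ₗ[R] P} (hfg : Exact f g) :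
    Exact (map φ f) (map φ g) := by
  let g' : N →ₗ[R] LinearMap.range g := g.rangeRestrict
  have h1 : Surjective g' := g.surjective_rangeRestrict
  have h2 : Exact f g' := by
    intro x
    rw [← hfg x]
    constructor
    · intro hx; exact congrArg Subtype.val hx
    · intro hx; exact Subtype.ext hx
  have h3 := FB.map_exact φ h1 h2
  have h4 := h.map_injective φ (Submodule.injective_subtype (LinearMap.range g))
  have h5 : g = (LinearMap.range g).subtype.comp g' := rfl
  intro x
  rw [← h3 x]
  constructor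
  · intro hx
    apply h4
    rw [map_zero, ← hx]
    conv_rhs => rw [h5, map_comp]
    rfl
  · intro hx
    conv_lhs => rw [h5, map_comp]
    rw [LinearMap.comp_apply, hx, map_zero]

/-- `b` is a right basis of `S` over `R` -/
def RBasis {W : Type*} (b : W → S) : Prop :=
  ∀ s : S, ∃! c : W →₀ R, s = c.sum fun w r => b w * φ r

/-- right free ⇒ right flat -/
theorem RBasis.flat {W : Type*} {b : W → S} (hb : RBasis φ b) : RFlat φ := by
  classical
  intro l m g v hv
  choose c hc huniq using fun j => hb (v j)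
  have h0 : ∀ c : W →₀ R, (c.sum fun w r => b w * φ r) = 0 → c = 0 := by
    intro c hc
    obtain ⟨c', -, h'⟩ := hb 0
    rw [h' c hc.symm, h' 0 (by simp)]
  -- `d p w = Σ_j c_j w * g j p`
  have h1 : ∀ p, ∀ w, ∑ j, c j w * g j p = 0 := by
    intro p
    let d : W →₀ R := ∑ j, (c j).mapRange (fun r => r * g j p) (zero_mul _)
    have hd : ∀ w, d w = ∑ j, c j w * g j p := by
      intro w
      simp [d, Finsupp.finsetSum_apply]
    have hd0 : d = 0 := by
      apply h0
      let L : (W →₀ R) →+ S := Finsupp.liftAddHom fun w =>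
        (AddMonoidHom.mulLeft (b w)).comp φ.toAddMonoidHom
      have hL : ∀ c : W →₀ R, L c = c.sum fun w r => b w * φ r := fun c => rfl
      rw [← hL, map_sum, ← hv p]
      apply Finset.sum_congr rfl
      intro j _
      rw [hL, Finsupp.sum_mapRange_index (by intro w; simp), hc j, Finsupp.sum_mul]
      apply Finsupp.sum_congr
      intro w _
      rw [map_mul, mul_assoc]
    intro w
    rw [← hd w, hd0]; rfl
  have h2 : v = ∑ w ∈ Finset.univ.biUnion (fun j => (c j).support), b w • fun j => φ (c j w) := by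
    ext j
    rw [Finset.sum_apply, hc j, Finsupp.sum]
    apply Finset.sum_subset
    · intro w hw
      exact Finset.mem_biUnion.mpr ⟨j, Finset.mem_univ j, hw⟩
    · intro w _ hw
      rw [Finsupp.notMem_support_iff.mp hw]; simp
  rw [h2]
  apply Submodule.sum_mem
  intro w _
  apply Submodule.smul_mem
  apply Submodule.subset_span
  exact ⟨fun j => c j w, fun p => h1 p w, rfl⟩

/-- `m ↦ Σ_w b_w ⊗ m_w` -/
noncomputable def theta (M : Type w) [AddCommGroup M] [Module R M] {W : Type*} (b : W → S) :
    (W →₀ M) →+ Ind φ M :=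
  Finsupp.liftAddHom fun w =>
    (DistribSMul.toAddMonoidHom (Ind φ M) (b w)).comp (mk φ).toAddMonoidHom

theorem theta_apply {W : Type*} (b : W → S) (m : W →₀ M) :
    theta φ M b m = m.sum fun w x => b w • mk φ x := rfl

theorem theta_single {W : Type*} (b : W → S) (w : W) (x : M) :
    theta φ M b (Finsupp.single w x) = b w • mk φ x := by
  rw [theta_apply, Finsupp.sum_single_index]
  rw [map_zero, smul_zero]

theorem map_theta {W : Type*} (b : W → S) (f : M →ₗ[R] N) (m : W →₀ M) :
    map φ f (theta φ M b m) = theta φ N b (m.mapRange f (map_zero f)) := by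
  rw [theta_apply, theta_apply, Finsupp.sum_mapRange_index (by intro w; simp), Finsupp.sum,
    map_sum]
  apply Finset.sum_congr rfl
  intro w _
  rw [map_smul, map_mk]

theorem RBasis.theta_surjective {W : Type*} {b : W → S} (hb : RBasis φ b) :
    Surjective (theta φ M b) := by
  intro y
  induction y using ind_induction φ with
  | h0 => exact ⟨0, map_zero _⟩
  | ha x y hx hy =>
    obtain ⟨a, rfl⟩ := hx
    obtain ⟨b, rfl⟩ := hy
    exact ⟨a + b, map_add _ _ _⟩
  | hs s m =>
    obtain ⟨c, hc, -⟩ := hb s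
    refine ⟨c.mapRange (fun r => r • m) (zero_smul _ _), ?_⟩
    rw [theta_apply, Finsupp.sum_mapRange_index (by intro w; simp), hc, Finsupp.sum, Finsupp.sum,
      Finset.sum_smul]
    apply Finset.sum_congr rfl
    intro w _
    rw [map_smulₛₗ, mul_smul]

theorem RBasis.theta_injective_free {W : Type*} {b : W → S} (hb : RBasis φ b) {ι : Type*} :
    Injective (theta φ (ι →₀ R) b) := by
  classical
  rw [injective_iff_map_eq_zero]
  intro m hm
  have h0 : ∀ c : W →₀ R, (c.sum fun w r => b w * φ r) = 0 → c = 0 := by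
    intro c hc
    obtain ⟨c', -, h'⟩ := hb 0
    rw [h' c hc.symm, h' 0 (by simp)]
  have h1 := congrArg (indFree φ ι) hm
  rw [map_zero, theta_apply, Finsupp.sum, map_sum] at h1
  ext w i
  have h2 : (m.mapRange (fun f : ι →₀ R => f i) rfl) = 0 := by
    apply h0
    rw [Finsupp.sum_mapRange_index (by intro w; simp), Finsupp.sum]
    have h3 := DFunLike.congr_fun h1 i
    rw [Finsupp.finsetSum_apply] at h3
    refine Eq.trans ?_ h3
    apply Finset.sum_congr rfl
    intro w _
    rw [map_smul, indFree_mk, Finsupp.smul_apply, cf_apply, smul_eq_mul]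
  have h3 := DFunLike.congr_fun h2 w
  simpa using h3

/-- **the induced module coordinatewise** -/
theorem RBasis.theta_bijective {W : Type*} {b : W → S} (hb : RBasis φ b) :
    Bijective (theta φ M b) := by
  refine ⟨?_, hb.theta_surjective φ⟩
  rw [injective_iff_map_eq_zero]
  intro m hm
  let π : (M →₀ R) →ₗ[R] M := Finsupp.linearCombination R id
  have hπ : Surjective π := fun n => ⟨Finsupp.single n 1, by simp [π]⟩
  obtain ⟨f, rfl⟩ := Finsupp.mapRange_surjective π (map_zero π) hπ m
  rw [← map_theta] at hm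
  obtain ⟨t, ht⟩ := (FB.map_exact φ (M := LinearMap.ker π) (N := M →₀ R) (P := M) hπ
    (LinearMap.exact_subtype_ker_map π) _).mp hm
  obtain ⟨k, rfl⟩ := hb.theta_surjective φ t
  rw [map_theta] at ht
  have h1 := hb.theta_injective_free φ ht
  rw [← h1]
  ext w
  simp

/-- the additive equivalence `(W →₀ M) ≃ S ⊗ M` -/
noncomputable def RBasis.equiv {W : Type*} {b : W → S} (hb : RBasis φ b) :
    (W →₀ M) ≃+ Ind φ M :=
  AddEquiv.ofBijective (theta φ M b) (hb.theta_bijective φ)

end Flat

section FFR

variable {R S : Type u} [Ring R] [Ring S] (φ : R →+* S)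

/-- `S ⊗ R^k = S^k` -/
noncomputable def indPow (k : ℕ) : Ind φ (Fin k → R) ≃ₗ[S] (Fin k → S) :=
  (mapEquiv φ (Finsupp.linearEquivFunOnFinite R R (Fin k)).symm).trans
    ((indFree φ (Fin k)).trans (Finsupp.linearEquivFunOnFinite S S (Fin k)))

theorem indPow_mk (k : ℕ) (v : Fin k → R) : indPow φ k (mk φ v) = fun i => φ (v i) := by
  ext i
  simp [indPow, mapEquiv]

theorem res_ind (h : RFlat φ) : ∀ {n : ℕ} {M : Type u} [AddCommGroup M] [Module R M],
    FR.Res R n M → FR.Res S n (Ind φ M)
  | 0, _, _, _, ⟨k, ⟨e⟩⟩ => ⟨k, ⟨(mapEquiv φ e).trans (indPow φ k)⟩⟩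
  | n + 1, M, _, _, ⟨k, f, hf, hk⟩ => by
    refine FR.Res.of_surj (indPow φ k) (map φ f) (map_surjective φ hf) ?_
    have h1 : Injective (map φ (LinearMap.ker f).subtype) :=
      h.map_injective φ (Submodule.injective_subtype _)
    have h2 : LinearMap.range (map φ (LinearMap.ker f).subtype) = LinearMap.ker (map φ f) :=
      (LinearMap.exact_iff.mp (FB.map_exact φ hf (LinearMap.exact_subtype_ker_map f))).symm
    exact (res_ind h hk).of_equiv ((LinearEquiv.ofInjective _ h1).trans (LinearEquiv.ofEq _ _ h2))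

/-- **flat base change of finite free resolutions** -/
theorem ffr_ind (h : RFlat φ) {M : Type u} [AddCommGroup M] [Module R M] (hM : FR.FFR R M) :
    FR.FFR S (Ind φ M) := by
  obtain ⟨n, hn⟩ := hM
  exact ⟨n, res_ind φ h hn⟩

/-- base change of stably free modules (no flatness) -/
theorem stFree_ind {M : Type u} [AddCommGroup M] [Module R M] (hM : FR.StFree R M) :
    FR.StFree S (Ind φ M) := by
  obtain ⟨m, n, ⟨e⟩⟩ := hM
  refine ⟨m, n, ⟨?_⟩⟩
  have e1 : (Ind φ M × (Fin m → S)) ≃ₗ[S] (Ind φ M × Ind φ (Fin m → R)) :=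
    LinearEquiv.prodCongr (LinearEquiv.refl S _) (indPow φ m).symm
  exact (e1.trans (indProd φ).symm).trans ((mapEquiv φ e).trans (indPow φ n))

/-- concrete model version -/
theorem ffr_of_isInd (h : RFlat φ) {M : Type u} [AddCommGroup M] [Module R M] {X : Type u}
    [AddCommGroup X] [Module S X] {i : M →ₛₗ[φ] X} (hi : IsInd φ i) (hM : FR.FFR R M) :
    FR.FFR S X :=
  (ffr_ind φ h hM).of_equiv (LinearEquiv.ofBijective (lift φ i) hi)

end FFR

end Crest.Agent.R181.FB
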