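import Crest.Agent.R181.FFR776a

/-! R181, V-chain: finite free resolutions over `R[X]`, `R` a noncommutative left noetherian ring.
`PM R N` is the `R[X]`-module `R[X] ⊗ N`, realised as finitely supported functions `ℕ → N`. -/

set_option autoImplicit false
set_option linter.dupNamespace false
set_option linter.unusedSectionVars false

namespace Crest.Agent.R181.FFR

open Function Polynomial

universe u

noncomputable section

/-- `R[X] ⊗ N` -/
def PM (_R : Type u) (N : Type u) [AddCommGroup N] : Type u := ℕ →₀ N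

/-- additive maps commuting with the coefficients and with `X` are `R[X]`-linear -/
def mkLin {R : Type*} [Ring R] {M M' : Type*} [AddCommGroup M] [AddCommGroup M'] [Module R[X] M]
    [Module R[X] M'] (f : M →+ M') (hC : ∀ (r : R) (m : M), f ((C r : R[X]) • m) = (C r : R[X]) • f m)
    (hX : ∀ m : M, f ((X : R[X]) • m) = (X : R[X]) • f m) : M →ₗ[R[X]] M' where
  toFun := f
  map_add' := f.map_add
  map_smul' := by
    intro p
    induction p using Polynomial.induction_on' with
    | add p q hp hq =>
      intro m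
      simp only [RingHom.id_apply] at hp hq ⊢
      rw [add_smul, map_add, hp, hq, add_smul]
    | monomial n a =>
      intro m
      simp only [RingHom.id_apply]
      rw [← C_mul_X_pow_eq_monomial, mul_smul, mul_smul, hC]
      congr 1
      induction n generalizing m with
      | zero => simp
      | succ n ih => rw [pow_succ, mul_smul, ih, hX, mul_smul]

@[simp] theorem mkLin_apply {R : Type*} [Ring R] {M M' : Type*} [AddCommGroup M] [AddCommGroup M']
    [Module R[X] M] [Module R[X] M'] (f : M →+ M')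
    (hC : ∀ (r : R) (m : M), f ((C r : R[X]) • m) = (C r : R[X]) • f m)
    (hX : ∀ m : M, f ((X : R[X]) • m) = (X : R[X]) • f m) (m : M) : mkLin f hC hX m = f m := rfl

namespace PM

variable {R : Type u} [Ring R] {N N' : Type u} [AddCommGroup N] [AddCommGroup N'] [Module R N]
  [Module R N']

instance : AddCommGroup (PM R N) := inferInstanceAs (AddCommGroup (ℕ →₀ N))
instance : Module R (PM R N) := inferInstanceAs (Module R (ℕ →₀ N))
instance : FunLike (PM R N) ℕ N := inferInstanceAs (FunLike (ℕ →₀ N) ℕ N)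

theorem ext {f g : PM R N} (h : ∀ k, f k = g k) : f = g := Finsupp.ext h

@[simp] theorem add_apply (f g : PM R N) (k : ℕ) : (f + g) k = f k + g k := rfl
@[simp] theorem sub_apply (f g : PM R N) (k : ℕ) : (f - g) k = f k - g k := rfl
@[simp] theorem zero_apply (k : ℕ) : (0 : PM R N) k = 0 := rfl
@[simp] theorem smul_apply (r : R) (f : PM R N) (k : ℕ) : (r • f) k = r • f k := rfl

/-- the coefficients vanish eventually -/
theorem exists_bound (f : PM R N) : ∃ d, ∀ k, d ≤ k → f k = 0 := by
  classical
  refine ⟨(Finsupp.support (f : ℕ →₀ N)).sup id + 1, fun k hk => ?_⟩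
  by_contra h
  have h1 : k ∈ Finsupp.support (f : ℕ →₀ N) := Finsupp.mem_support_iff.2 h
  have := Finset.le_sup (f := id) h1
  simp only [id] at this
  omega

/-- `X^k ⊗ m` -/
def single (R : Type u) (k : ℕ) (m : N) : PM R N := Finsupp.single k m

theorem single_apply (k : ℕ) (m : N) (j : ℕ) : single R k m j = if k = j then m else 0 := by
  classical
  exact Finsupp.single_apply

@[simp] theorem single_same (k : ℕ) (m : N) : single R k m k = m := Finsupp.single_eq_same

/-- build an element from a function with bounded support -/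
theorem exists_of_bounded (g : ℕ → N) (d : ℕ) (h : ∀ k, d ≤ k → g k = 0) :
    ∃ f : PM R N, ∀ k, f k = g k := by
  classical
  refine ⟨Finsupp.onFinset (Finset.range d) g (fun k hk => ?_), fun k => rfl⟩
  rw [Finset.mem_range]
  by_contra h1
  exact hk (h k (not_lt.1 h1))

/-- multiplication by `X` -/
def shift (R : Type u) (N : Type u) [AddCommGroup N] : AddMonoid.End (PM R N) :=
  (Finsupp.mapDomain.addMonoidHom Nat.succ : (ℕ →₀ N) →+ (ℕ →₀ N))

@[simp] theorem shift_succ (f : PM R N) (k : ℕ) : shift R N f (k + 1) = f k :=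
  Finsupp.mapDomain_apply Nat.succ_injective f k

@[simp] theorem shift_zero (f : PM R N) : shift R N f 0 = 0 :=
  Finsupp.mapDomain_of_notMem_range f 0 (by rintro ⟨k, hk⟩; exact Nat.succ_ne_zero k hk)

variable (R N) in
/-- the action of `R[X]` -/
def act : R[X] →+* AddMonoid.End (PM R N) :=
  eval₂RingHom' (Module.toAddMonoidEnd R (PM R N)) (shift R N) (by
    intro a
    ext f
    refine ext fun k => ?_
    change (a • shift R N f) k = (shift R N (a • f)) k
    cases k <;> simp)

instance : Module R[X] (PM R N) := Module.compHom (PM R N) (act R N)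

theorem C_smul (r : R) (f : PM R N) : (C r : R[X]) • f = r • f := by
  change (eval₂ (Module.toAddMonoidEnd R (PM R N)) (shift R N) (C r) : AddMonoid.End (PM R N)) f = _
  rw [eval₂_C]
  rfl

theorem X_smul (f : PM R N) : (X : R[X]) • f = shift R N f := by
  change (eval₂ (Module.toAddMonoidEnd R (PM R N)) (shift R N) X : AddMonoid.End (PM R N)) f = _
  rw [eval₂_X]

@[simp] theorem C_smul_apply (r : R) (f : PM R N) (k : ℕ) : ((C r : R[X]) • f) k = r • f k := by
  rw [C_smul]; rfl

@[simp] theorem X_smul_succ (f : PM R N) (k : ℕ) : ((X : R[X]) • f) (k + 1) = f k := by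
  rw [X_smul, shift_succ]

@[simp] theorem X_smul_zero (f : PM R N) : ((X : R[X]) • f) 0 = 0 := by
  rw [X_smul, shift_zero]

instance : IsScalarTower R R[X] (PM R N) := ⟨fun r p f => by
  rw [smul_eq_C_mul, mul_smul, C_smul]⟩

/-- functoriality -/
def map (f : N →ₗ[R] N') : PM R N →ₗ[R[X]] PM R N' :=
  mkLin (Finsupp.mapRange.addMonoidHom f.toAddMonoidHom : (ℕ →₀ N) →+ (ℕ →₀ N'))
    (fun r m => by
      refine PM.ext fun k => ?_
      rw [C_smul_apply]
      change f (((C r : R[X]) • m) k) = r • f (m k)
      rw [C_smul_apply, map_smul])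
    (fun m => by
      refine PM.ext fun k => ?_
      change f (((X : R[X]) • m) k) = _
      cases k with
      | zero => rw [X_smul_zero, X_smul_zero, map_zero]
      | succ k => rw [X_smul_succ, X_smul_succ]; rfl)

@[simp] theorem map_apply (f : N →ₗ[R] N') (m : PM R N) (k : ℕ) : map f m k = f (m k) := rfl

theorem map_injective {f : N →ₗ[R] N'} (hf : Injective f) : Injective (map f) := by
  intro a b h
  refine PM.ext fun k => hf ?_
  rw [← map_apply, ← map_apply, h]

theorem map_surjective {f : N →ₗ[R] N'} (hf : Surjective f) : Surjective (map f) := by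
  intro a
  obtain ⟨d, hd⟩ := exists_bound a
  choose g hg using hf
  obtain ⟨b, hb⟩ := exists_of_bounded (R := R) (fun k => if k < d then g (a k) else 0) d
    (fun k hk => if_neg (not_lt.2 hk))
  refine ⟨b, PM.ext fun k => ?_⟩
  rw [map_apply, hb]
  by_cases h : k < d
  · rw [if_pos h, hg]
  · rw [if_neg h, map_zero, hd k (not_lt.1 h)]

/-- functoriality for isomorphisms -/
def mapEquiv (e : N ≃ₗ[R] N') : PM R N ≃ₗ[R[X]] PM R N' :=
  LinearEquiv.ofBijective (map e.toLinearMap)
    ⟨map_injective e.injective, map_surjective e.surjective⟩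

/-- the kernel -/
theorem kerEquiv (f : N →ₗ[R] N') :
    Nonempty (PM R (LinearMap.ker f) ≃ₗ[R[X]] LinearMap.ker (map f)) := by
  let g : PM R (LinearMap.ker f) →ₗ[R[X]] LinearMap.ker (map f) :=
    LinearMap.codRestrict _ (map (LinearMap.ker f).subtype) (by
      intro a
      rw [LinearMap.mem_ker]
      refine PM.ext fun k => ?_
      rw [map_apply, map_apply]
      exact (a k).2)
  refine ⟨LinearEquiv.ofBijective g ⟨?_, ?_⟩⟩
  · intro a b h
    apply map_injective (f := (LinearMap.ker f).subtype) Subtype.val_injective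
    exact congrArg Subtype.val h
  · rintro ⟨a, ha⟩
    obtain ⟨d, hd⟩ := exists_bound a
    have h1 : ∀ k, a k ∈ LinearMap.ker f := by
      intro k
      rw [LinearMap.mem_ker, ← map_apply, LinearMap.mem_ker.1 ha]
      rfl
    obtain ⟨b, hb⟩ := exists_of_bounded (R := R) (fun k => (⟨a k, h1 k⟩ : LinearMap.ker f)) d
      (fun k hk => Subtype.ext (hd k hk))
    refine ⟨b, Subtype.ext (PM.ext fun k => ?_)⟩
    change (b k : N) = a k
    rw [hb]

/-- products -/
theorem prodEquiv : Nonempty (PM R (N × N') ≃ₗ[R[X]] (PM R N × PM R N')) := by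
  let g : PM R (N × N') →ₗ[R[X]] (PM R N × PM R N') :=
    (map (LinearMap.fst R N N')).prod (map (LinearMap.snd R N N'))
  refine ⟨LinearEquiv.ofBijective g ⟨?_, ?_⟩⟩
  · intro a b h
    refine PM.ext fun k => Prod.ext ?_ ?_
    · exact congrArg (fun z : PM R N × PM R N' => z.1 k) h
    · exact congrArg (fun z : PM R N × PM R N' => z.2 k) h
  · rintro ⟨a, b⟩
    obtain ⟨d, hd⟩ := exists_bound a
    obtain ⟨d', hd'⟩ := exists_bound b
    obtain ⟨c, hc⟩ := exists_of_bounded (R := R) (fun k => (a k, b k)) (max d d')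
      (fun k hk => Prod.ext (hd k (le_trans (le_max_left _ _) hk))
        (hd' k (le_trans (le_max_right _ _) hk)))
    refine ⟨c, Prod.ext (PM.ext fun k => ?_) (PM.ext fun k => ?_)⟩
    · change (c k).1 = a k
      rw [hc]
    · change (c k).2 = b k
      rw [hc]

/-- free modules -/
theorem piEquiv (n : ℕ) : Nonempty (PM R (Fin n → R) ≃ₗ[R[X]] (Fin n → R[X])) := by
  classical
  -- the inverse is easier to describe: coefficientwise
  have hex : ∀ p : Fin n → R[X], ∃ f : PM R (Fin n → R), ∀ k i, f k i = (p i).coeff k := by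
    intro p
    obtain ⟨f, hf⟩ := exists_of_bounded (R := R) (fun k i => (p i).coeff k)
      ((Finset.univ : Finset (Fin n)).sup (fun i => (p i).natDegree + 1)) (by
        intro k hk
        funext i
        have := Finset.le_sup (f := fun i => (p i).natDegree + 1) (Finset.mem_univ i)
        exact coeff_eq_zero_of_natDegree_lt (by omega))
    exact ⟨f, fun k i => congrFun (hf k) i⟩
  choose g hg using hex
  let G : (Fin n → R[X]) →+ PM R (Fin n → R) :=
    { toFun := g
      map_zero' := PM.ext fun k => by funext i; rw [hg]; simp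
      map_add' := fun p q => PM.ext fun k => by
        funext i
        change _ = g p k i + g q k i
        rw [hg, hg, hg]
        simp }
  let L : (Fin n → R[X]) →ₗ[R[X]] PM R (Fin n → R) :=
    mkLin G
      (fun r p => PM.ext fun k => by
        funext i
        change g _ k i = _
        rw [hg, C_smul_apply]
        change _ = r • (g p k i)
        rw [hg]
        simp)
      (fun p => PM.ext fun k => by
        funext i
        change g _ k i = _
        rw [hg]
        cases k with
        | zero => rw [X_smul_zero]; simp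
        | succ k =>
          rw [X_smul_succ]
          change _ = g p k i
          rw [hg]
          simp)
  refine ⟨(LinearEquiv.ofBijective L ⟨?_, ?_⟩).symm⟩
  · intro p q h
    funext i
    ext k
    rw [← hg, ← hg]
    exact congrArg (fun z : PM R (Fin n → R) => z k i) h
  · intro a
    obtain ⟨d, hd⟩ := exists_bound a
    refine ⟨fun i => ∑ k ∈ Finset.range d, monomial k (a k i), PM.ext fun k => ?_⟩
    funext i
    change g _ k i = _
    rw [hg, finsetSum_coeff]
    simp only [coeff_monomial]
    rw [Finset.sum_ite_eq' (Finset.range d) k (fun j => a j i)]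
    split_ifs with h
    · rfl
    · rw [Finset.mem_range, not_lt] at h
      rw [hd k h]
      rfl

end PM

variable {R : Type u} [Ring R]
variable {A B C' M N F G : Type u} [AddCommGroup M] [Module R M] [AddCommGroup N] [Module R N]
  [AddCommGroup F] [Module R F] [AddCommGroup G] [Module R G]

theorem FinFree.exists_equiv (h : FinFree R F) : ∃ n : ℕ, Nonempty (F ≃ₗ[R] (Fin n → R)) := by
  have := h.free
  have := h.fin
  by_cases hR : Subsingleton R
  · have : Subsingleton F := Module.subsingleton R F
    exact ⟨0, ⟨{ toFun := fun _ => 0, invFun := fun _ => 0, map_add' := by simp,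
                 map_smul' := by simp, left_inv := fun _ => Subsingleton.elim _ _,
                 right_inv := fun _ => Subsingleton.elim _ _ }⟩⟩
  · have : Nontrivial R := not_subsingleton_iff_nontrivial.1 hR
    have : Fintype (Module.Free.ChooseBasisIndex R F) := inferInstance
    let b := Module.Free.chooseBasis R F
    exact ⟨Fintype.card (Module.Free.ChooseBasisIndex R F),
      ⟨(b.reindex (Fintype.equivFin _)).equivFun⟩⟩

theorem FinFree.pm (h : FinFree R F) : FinFree R[X] (PM R F) := by
  obtain ⟨n, ⟨e⟩⟩ := h.exists_equiv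
  obtain ⟨e'⟩ := PM.piEquiv (R := R) n
  exact (FinFree.pi n).iso ((PM.mapEquiv e).trans e').symm

theorem StFree.pm (h : StFree R M) : StFree R[X] (PM R M) := by
  obtain ⟨F, _, _, G, _, _, hF, hG, ⟨e⟩⟩ := h
  obtain ⟨e'⟩ := PM.prodEquiv (R := R) (N := M) (N' := F)
  exact ⟨PM R F, _, _, PM R G, _, _, hF.pm, hG.pm, ⟨e'.symm.trans (PM.mapEquiv e)⟩⟩

theorem FF.pm : ∀ {n : ℕ} {M : Type u} [AddCommGroup M] [Module R M], FF R n M →
    FF R[X] n (PM R M)
  | 0, _, _, _, h => StFree.pm h
  | n + 1, M, _, _, h => by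
    obtain ⟨F, _, _, hF, f, hf, hk⟩ := h
    obtain ⟨e⟩ := PM.kerEquiv f
    exact ⟨PM R F, _, _, hF.pm, PM.map f, PM.map_surjective hf, (FF.pm hk).iso e⟩

theorem FFR.pm (h : FFR R M) : FFR R[X] (PM R M) := by
  obtain ⟨n, hn⟩ := h
  exact ⟨n, hn.pm⟩

/-! ### the left Hilbert basis theorem -/

section Noeth

/-- coefficients in degree `d` of the elements of `I` of degree `≤ d` -/
def lead (I : Submodule R[X] (PM R N)) (d : ℕ) : Submodule R N where
  carrier := {m | ∃ f ∈ I, (∀ k, d < k → f k = 0) ∧ f d = m}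
  zero_mem' := ⟨0, I.zero_mem, fun _ _ => rfl, rfl⟩
  add_mem' := by
    rintro a b ⟨f, hf, hf0, rfl⟩ ⟨g, hg, hg0, rfl⟩
    exact ⟨f + g, I.add_mem hf hg, fun k hk => by
      rw [PM.add_apply, hf0 k hk, hg0 k hk, add_zero], rfl⟩
  smul_mem' := by
    rintro r a ⟨f, hf, hf0, rfl⟩
    refine ⟨(C r : R[X]) • f, I.smul_mem _ hf, fun k hk => ?_, ?_⟩
    · rw [PM.C_smul_apply, hf0 k hk, smul_zero]
    · rw [PM.C_smul_apply]

theorem lead_mono_left {I J : Submodule R[X] (PM R N)} (h : I ≤ J) (d : ℕ) :
    lead I d ≤ lead J d := by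
  rintro m ⟨f, hf, h0, rfl⟩
  exact ⟨f, h hf, h0, rfl⟩

theorem lead_mono_right (I : Submodule R[X] (PM R N)) : Monotone (lead I) := by
  refine monotone_nat_of_le_succ fun d => ?_
  rintro m ⟨f, hf, h0, rfl⟩
  refine ⟨(X : R[X]) • f, I.smul_mem _ hf, fun k hk => ?_, PM.X_smul_succ f d⟩
  obtain ⟨j, rfl⟩ : ∃ j, k = j + 1 := ⟨k - 1, by omega⟩
  rw [PM.X_smul_succ, h0 j (by omega)]

theorem le_of_lead_le {I J : Submodule R[X] (PM R N)} (hIJ : I ≤ J)
    (h : ∀ d, lead J d ≤ lead I d) : J ≤ I := by
  have key : ∀ d, ∀ f ∈ J, (∀ k, d ≤ k → f k = 0) → f ∈ I := by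
    intro d
    induction d with
    | zero =>
      intro f _ h0
      have : f = 0 := PM.ext fun k => h0 k (Nat.zero_le k)
      rw [this]
      exact I.zero_mem
    | succ d ih =>
      intro f hf h0
      obtain ⟨g, hg, hg0, hgd⟩ := h d ⟨f, hf, fun k hk => h0 k hk, rfl⟩
      have h1 : f - g ∈ I := ih _ (J.sub_mem hf (hIJ hg)) (fun k hk => by
        rw [PM.sub_apply]
        rcases Nat.lt_or_ge d k with hlt | hge
        · rw [h0 k hlt, hg0 k hlt, sub_zero]
        · have : k = d := le_antisymm hge hk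
          rw [this, hgd, sub_self])
      have h2 := I.add_mem h1 hg
      rwa [sub_add_cancel] at h2
  intro f hf
  obtain ⟨d, hd⟩ := PM.exists_bound f
  exact key d f hf hd

theorem pm_isNoetherian (hN : IsNoetherian R N) : IsNoetherian R[X] (PM R N) := by
  rw [← monotone_stabilizes_iff_noetherian]
  intro f
  have hst := monotone_stabilizes_iff_noetherian.2 hN
  obtain ⟨s0, hs0⟩ := hst ⟨fun s => lead (f s) s, fun s t hst =>
    (lead_mono_left (f.monotone hst) s).trans (lead_mono_right (f t) hst)⟩
  have hfix := fun d => hst ⟨fun s => lead (f s) d, fun s t hst => lead_mono_left (f.monotone hst) d⟩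
  choose t ht using hfix
  refine ⟨max s0 ((Finset.range s0).sup t), fun s hs => le_antisymm (f.monotone hs) ?_⟩
  refine le_of_lead_le (f.monotone hs) fun d => ?_
  by_cases hd : d < s0
  · have h1 : t d ≤ (Finset.range s0).sup t := Finset.le_sup (Finset.mem_range.2 hd)
    have h2 : t d ≤ max s0 ((Finset.range s0).sup t) := h1.trans (le_max_right _ _)
    have h3 : lead (f (t d)) d = lead (f s) d := ht d s (h2.trans hs)
    rw [← h3]
    exact lead_mono_left (f.monotone h2) d
  · rw [not_lt] at hd
    have h1 : lead (f s) d ≤ lead (f (max s d)) (max s d) :=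
      (lead_mono_left (f.monotone (le_max_left s d)) d).trans
        (lead_mono_right _ (le_max_right s d))
    have h2 : lead (f s0) s0 = lead (f (max s d)) (max s d) :=
      hs0 (max s d) (hd.trans (le_max_right _ _))
    rw [← h2] at h1
    exact h1.trans ((lead_mono_left (f.monotone (le_max_left _ _)) s0).trans
      (lead_mono_right _ hd))

/-- left Hilbert basis theorem for noncommutative rings -/
theorem isNoetherianRing_poly (hR : IsNoetherianRing R) : IsNoetherianRing R[X] := by
  obtain ⟨e⟩ := PM.piEquiv (R := R) 1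
  have h1 : IsNoetherian R (Fin 1 → R) := by
    have : IsNoetherian R R := hR
    infer_instance
  have h2 : IsNoetherian R[X] (PM R (Fin 1 → R)) := pm_isNoetherian h1
  exact isNoetherian_of_linearEquiv (e.trans (LinearEquiv.funUnique (Fin 1) R[X] R[X]))

end Noeth

/-! ### the characteristic sequence -/

section Char

variable [Module R[X] M] [IsScalarTower R R[X] M]

theorem C_smul_eq (r : R) (m : M) : (C r : R[X]) • m = r • m := by
  have : (C r : R[X]) = r • (1 : R[X]) := by rw [smul_eq_C_mul, mul_one]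
  rw [this, smul_assoc, one_smul]

variable (R M) in
/-- multiplication by `X`, as an `R`-linear map -/
def xL : M →ₗ[R] M where
  toFun m := (X : R[X]) • m
  map_add' := smul_add _
  map_smul' r m := by
    simp only [RingHom.id_apply]
    rw [← C_smul_eq r m, ← C_smul_eq r ((X : R[X]) • m), ← mul_smul, ← mul_smul, X_mul_C]

@[simp] theorem xL_apply (m : M) : xL R M m = (X : R[X]) • m := rfl

/-- the filtration `M_n = M_0 + X M_0 + ... + X^n M_0` -/
def fil (S : Submodule R M) : ℕ → Submodule R M
  | 0 => S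
  | n + 1 => fil S n ⊔ (fil S n).map (xL R M)

theorem fil_mono (S : Submodule R M) : Monotone (fil S) :=
  monotone_nat_of_le_succ fun _ => le_sup_left

theorem X_smul_mem_fil (S : Submodule R M) {n : ℕ} {m : M} (h : m ∈ fil S n) :
    (X : R[X]) • m ∈ fil S (n + 1) :=
  Submodule.mem_sup_right (Submodule.mem_map_of_mem (f := xL R M) h)

theorem X_pow_smul_mem_fil (S : Submodule R M) {n : ℕ} {m : M} (h : m ∈ fil S n) (j : ℕ) :
    (X ^ j : R[X]) • m ∈ fil S (n + j) := by
  induction j with
  | zero => simpa using h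
  | succ j ih =>
    rw [pow_succ', mul_smul]
    exact X_smul_mem_fil S ih

theorem fil_fg {S : Submodule R M} (hS : S.FG) : ∀ n, (fil S n).FG
  | 0 => hS
  | n + 1 => (fil_fg hS n).sup ((fil_fg hS n).map _)

theorem exists_mem_fil {S : Submodule R M} (hS : Submodule.span R[X] (S : Set M) = ⊤) (m : M) :
    ∃ n, m ∈ fil S n := by
  have hm : m ∈ Submodule.span R[X] (S : Set M) := by rw [hS]; trivial
  induction hm using Submodule.span_induction with
  | mem x hx => exact ⟨0, hx⟩
  | zero => exact ⟨0, Submodule.zero_mem _⟩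
  | add x y _ _ hx hy =>
    obtain ⟨n, hn⟩ := hx
    obtain ⟨k, hk⟩ := hy
    exact ⟨max n k, Submodule.add_mem _ (fil_mono S (le_max_left _ _) hn)
      (fil_mono S (le_max_right _ _) hk)⟩
  | smul p x _ hx =>
    obtain ⟨n, hn⟩ := hx
    induction p using Polynomial.induction_on' with
    | add p q hp hq =>
      obtain ⟨a, ha⟩ := hp
      obtain ⟨b, hb⟩ := hq
      refine ⟨max a b, ?_⟩
      rw [add_smul]
      exact Submodule.add_mem _ (fil_mono S (le_max_left _ _) ha)
        (fil_mono S (le_max_right _ _) hb)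
    | monomial j r =>
      refine ⟨n + j, ?_⟩
      rw [← C_mul_X_pow_eq_monomial, mul_smul, C_smul_eq]
      exact Submodule.smul_mem _ _ (X_pow_smul_mem_fil S hn j)

/-- `M_{n+1} = M_n + X^{n+1} M_0` -/
theorem exists_of_mem_fil_succ (S : Submodule R M) : ∀ {n : ℕ} {y : M}, y ∈ fil S (n + 1) →
    ∃ z ∈ fil S n, ∃ m ∈ S, y = z + (X ^ (n + 1) : R[X]) • m
  | 0, y, h => by
    obtain ⟨z, hz, w, hw, rfl⟩ := Submodule.mem_sup.1 h
    obtain ⟨m, hm, rfl⟩ := Submodule.mem_map.1 hw
    exact ⟨z, hz, m, hm, by simp⟩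
  | n + 1, y, h => by
    obtain ⟨z, hz, w, hw, rfl⟩ := Submodule.mem_sup.1 h
    obtain ⟨v, hv, rfl⟩ := Submodule.mem_map.1 hw
    obtain ⟨z', hz', m, hm, rfl⟩ := exists_of_mem_fil_succ S hv
    refine ⟨z + (X : R[X]) • z', Submodule.add_mem _ hz (X_smul_mem_fil S hz'), m, hm, ?_⟩
    rw [xL_apply, smul_add, ← mul_smul, ← pow_succ']
    exact (add_assoc _ _ _).symm

/-- the stable range: `X y ∈ M_{n+1}` implies `y ∈ M_n` -/
theorem exists_stable {S : Submodule R M} (hS : IsNoetherian R S)
    (htop : Submodule.span R[X] (S : Set M) = ⊤) :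
    ∃ N, ∀ n, N ≤ n → ∀ y : M, (X : R[X]) • y ∈ fil S (n + 1) → y ∈ fil S n := by
  -- the chain `{m ∈ S | X^{j+1} m ∈ M_j}`
  let L : ℕ →o Submodule R S := ⟨fun j => (Submodule.comap ((xL R M) ^ (j + 1)) (fil S j)).comap
      S.subtype, by
    refine monotone_nat_of_le_succ fun j => ?_
    intro m hm
    rw [Submodule.mem_comap, Submodule.mem_comap] at hm ⊢
    rw [pow_succ' (xL R M) (j + 1)]
    exact X_smul_mem_fil S hm⟩
  have hLmem : ∀ j (m : S), m ∈ L j ↔ (X ^ (j + 1) : R[X]) • (m : M) ∈ fil S j := by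
    intro j m
    have h1 : ∀ (i : ℕ) (v : M), ((xL R M) ^ i) v = (X ^ i : R[X]) • v := by
      intro i
      induction i with
      | zero => intro v; simp
      | succ i ih =>
        intro v
        rw [pow_succ', Module.End.mul_apply, ih, xL_apply, ← mul_smul, ← pow_succ']
    change ((xL R M) ^ (j + 1)) (m : M) ∈ fil S j ↔ _
    rw [h1]
  obtain ⟨N, hN⟩ := monotone_stabilizes_iff_noetherian.2 hS L
  have hL : ∀ j, N ≤ j → L (j + 1) = L j := fun j hj =>
    (hN (j + 1) (by omega)).symm.trans (hN j hj)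
  have step : ∀ j, N ≤ j → ∀ y ∈ fil S (j + 1), (X : R[X]) • y ∈ fil S (j + 1) → y ∈ fil S j := by
    intro j hj y hy hxy
    obtain ⟨z, hz, m, hm, rfl⟩ := exists_of_mem_fil_succ S hy
    have h1 : (X : R[X]) • z ∈ fil S (j + 1) := X_smul_mem_fil S hz
    have h2 : (X ^ (j + 1 + 1) : R[X]) • m ∈ fil S (j + 1) := by
      rw [smul_add, ← mul_smul, ← pow_succ'] at hxy
      have := Submodule.sub_mem _ hxy h1
      rwa [add_sub_cancel_left] at this
    have h3 : (⟨m, hm⟩ : S) ∈ L (j + 1) := (hLmem _ _).2 h2
    rw [hL j hj] at h3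
    exact Submodule.add_mem _ hz ((hLmem _ _).1 h3)
  refine ⟨N, fun n hn y hy => ?_⟩
  obtain ⟨k, hk⟩ := exists_mem_fil htop y
  have down : ∀ t, y ∈ fil S (n + t) → y ∈ fil S n := by
    intro t
    induction t with
    | zero => exact id
    | succ t ih =>
      intro h
      exact ih (step (n + t) (by omega) y h (fil_mono S (by omega) hy))
  exact down k (fil_mono S (Nat.le_add_left _ _) hk)

theorem stable_pow {S : Submodule R M} {N : ℕ}
    (hN : ∀ n, N ≤ n → ∀ y : M, (X : R[X]) • y ∈ fil S (n + 1) → y ∈ fil S n) {n : ℕ}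
    (hn : N ≤ n) : ∀ (k : ℕ) (y : M), (X ^ k : R[X]) • y ∈ fil S (n + k) → y ∈ fil S n
  | 0, y, h => by simpa using h
  | k + 1, y, h => by
    rw [pow_succ', mul_smul] at h
    exact stable_pow hN hn k y (hN (n + k) (by omega) _ h)

/-- the `R[X]`-linear extension of an `R`-linear map `N → M` -/
theorem exists_ev (g : N →ₗ[R] M) : ∃ φ : PM R N →ₗ[R[X]] M,
    ∀ (f : PM R N) (d : ℕ), (∀ k, d ≤ k → f k = 0) →
      φ f = ∑ k ∈ Finset.range d, (X ^ k : R[X]) • g (f k) := by
  classical
  let a : (ℕ →₀ N) →+ M := Finsupp.liftAddHom (fun k =>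
    (DistribSMul.toAddMonoidHom M (X ^ k : R[X])).comp g.toAddMonoidHom)
  have ha : ∀ (f : PM R N) (d : ℕ), (∀ k, d ≤ k → f k = 0) →
      a f = ∑ k ∈ Finset.range d, (X ^ k : R[X]) • g (f k) := by
    intro f d hd
    change Finsupp.sum (f : ℕ →₀ N) (fun k m => (X ^ k : R[X]) • g m) = _
    refine Finsupp.sum_of_support_subset _ (fun k hk => ?_) _ (fun k _ => by simp)
    rw [Finset.mem_range]
    by_contra h
    exact (Finsupp.mem_support_iff.1 hk) (hd k (not_lt.1 h))
  refine ⟨mkLin a (fun r f => ?_) (fun f => ?_), fun f d hd => ha f d hd⟩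
  · obtain ⟨d, hd⟩ := PM.exists_bound f
    change a ((C r : R[X]) • f : PM R N) = (C r : R[X]) • a f
    rw [ha f d hd, ha _ d (fun k hk => by rw [PM.C_smul_apply, hd k hk, smul_zero]),
      Finset.smul_sum]
    refine Finset.sum_congr rfl fun k _ => ?_
    rw [PM.C_smul_apply, map_smul, ← C_smul_eq r (g (f k)), ← mul_smul, ← mul_smul, X_pow_mul_C]
  · obtain ⟨d, hd⟩ := PM.exists_bound f
    change a ((X : R[X]) • f : PM R N) = (X : R[X]) • a f
    rw [ha f d hd, ha _ (d + 1) (fun k hk => by
      obtain ⟨j, rfl⟩ : ∃ j, k = j + 1 := ⟨k - 1, by omega⟩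
      rw [PM.X_smul_succ, hd j (by omega)]), Finset.smul_sum, Finset.sum_range_succ']
    rw [PM.X_smul_zero, map_zero, smul_zero, add_zero]
    refine Finset.sum_congr rfl fun k _ => ?_
    rw [PM.X_smul_succ, ← mul_smul, pow_succ']

variable (R) in
/-- multiplication by `X`, as an `R[X]`-linear map -/
def mulX (P : Type u) [AddCommGroup P] [Module R[X] P] : P →ₗ[R[X]] P :=
  mkLin (DistribSMul.toAddMonoidHom P (X : R[X]))
    (fun r m => by
      change (X : R[X]) • (C r : R[X]) • m = (C r : R[X]) • (X : R[X]) • m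
      rw [← mul_smul, ← mul_smul, X_mul_C])
    (fun m => rfl)

@[simp] theorem mulX_apply {P : Type u} [AddCommGroup P] [Module R[X] P] (m : P) :
    mulX R P m = (X : R[X]) • m := rfl

/-- **the characteristic sequence** `0 → R[X] ⊗ M_n → R[X] ⊗ M_{n+1} → M → 0` -/
theorem exists_charSeq {S : Submodule R M} (hS : S.FG) (hn : IsNoetherian R S)
    (htop : Submodule.span R[X] (S : Set M) = ⊤) :
    ∃ (A B : Submodule R M), A.FG ∧ B.FG ∧ ∃ (i : PM R A →ₗ[R[X]] PM R B) (p : PM R B →ₗ[R[X]] M),
      Injective i ∧ Surjective p ∧ ∀ x, p x = 0 ↔ ∃ a, i a = x := by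
  obtain ⟨n, hst⟩ := exists_stable hn htop
  have hst' := hst n le_rfl
  have hpow := fun k y => stable_pow hst le_rfl k y
  let A := fil S n
  let B := fil S (n + 1)
  have hAB : A ≤ B := fil_mono S (Nat.le_succ n)
  let inc : A →ₗ[R] B := Submodule.inclusion hAB
  let xr : A →ₗ[R] B := LinearMap.codRestrict B ((xL R M).comp A.subtype)
    (fun a => X_smul_mem_fil S a.2)
  obtain ⟨φ, hφ⟩ := exists_ev B.subtype
  let ψ : PM R A →ₗ[R[X]] PM R B := (mulX R (PM R B)).comp (PM.map inc) - PM.map xr
  have hψ0 : ∀ f, ψ f 0 = - xr (f 0) := by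
    intro f
    change ((X : R[X]) • PM.map inc f) 0 - xr (f 0) = _
    rw [PM.X_smul_zero, zero_sub]
  have hψs : ∀ f k, ψ f (k + 1) = inc (f k) - xr (f (k + 1)) := by
    intro f k
    change ((X : R[X]) • PM.map inc f) (k + 1) - xr (f (k + 1)) = _
    rw [PM.X_smul_succ]
    rfl
  have hcomp : ∀ f, φ (ψ f) = 0 := by
    intro f
    obtain ⟨d, hd⟩ := PM.exists_bound f
    rw [hφ (ψ f) (d + 1) (fun k hk => by
      obtain ⟨j, rfl⟩ : ∃ j, k = j + 1 := ⟨k - 1, by omega⟩
      rw [hψs, hd j (by omega), hd (j + 1) (by omega), map_zero, map_zero, sub_zero])]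
    rw [Finset.sum_range_succ', hψ0]
    have h1 : ∀ k, (X ^ (k + 1) : R[X]) • B.subtype (ψ f (k + 1)) =
        (X ^ (k + 1) : R[X]) • (f k : M) - (X ^ (k + 1 + 1) : R[X]) • (f (k + 1) : M) := by
      intro k
      rw [hψs]
      change (X ^ (k + 1) : R[X]) • ((f k : M) - (X : R[X]) • (f (k + 1) : M)) = _
      rw [smul_sub, ← mul_smul, ← pow_succ]
    simp only [h1]
    rw [Finset.sum_range_sub']
    change _ + (X ^ 0 : R[X]) • (-((X : R[X]) • (f 0 : M))) = 0
    rw [hd d le_rfl]
    simp
  refine ⟨A, B, fil_fg hS n, fil_fg hS (n + 1), ψ, φ, ?_, ?_, fun x => ⟨?_, ?_⟩⟩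
  · rw [← LinearMap.ker_eq_bot, LinearMap.ker_eq_bot']
    intro f hf
    obtain ⟨d, hd⟩ := PM.exists_bound f
    have hdown : ∀ k, f (k + 1) = 0 → f k = 0 := by
      intro k hk
      have h1 := hψs f k
      rw [hf, hk, map_zero, sub_zero, PM.zero_apply] at h1
      exact Submodule.inclusion_injective hAB (by rw [map_zero]; exact h1.symm)
    refine PM.ext fun k => ?_
    have : ∀ t k, d ≤ k + t → f k = 0 := by
      intro t
      induction t with
      | zero => intro k hk; exact hd k hk
      | succ t ih => intro k hk; exact hdown k (ih (k + 1) (by omega))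
    exact this d k (by omega)
  · intro m
    obtain ⟨k, hk⟩ := exists_mem_fil htop m
    -- the range is everything
    have hr : ∀ m ∈ S, m ∈ LinearMap.range φ := by
      intro m hm
      refine ⟨PM.single R 0 ⟨m, fil_mono S (Nat.zero_le _) hm⟩, ?_⟩
      rw [hφ _ 1 (fun k hk => by rw [PM.single_apply, if_neg (by omega)])]
      simp
    have hr' : LinearMap.range φ = ⊤ := by
      rw [eq_top_iff, ← htop, Submodule.span_le]
      exact hr
    exact LinearMap.range_eq_top.1 hr' m
  · -- kernel, by induction on the degree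
    have key : ∀ d, ∀ x : PM R B, (∀ k, d < k → x k = 0) → φ x = 0 → ∃ a, ψ a = x := by
      intro d
      induction d with
      | zero =>
        intro x hx0 hx
        refine ⟨0, ?_⟩
        rw [hφ x 1 (fun k hk => hx0 k hk), Finset.sum_range_one] at hx
        rw [map_zero]
        refine (PM.ext fun k => ?_).symm
        cases k with
        | zero =>
          apply Subtype.ext
          simpa using hx
        | succ k => exact hx0 (k + 1) (Nat.succ_pos k)
      | succ d ih =>
        intro x hx0 hx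
        rw [hφ x (d + 1 + 1) (fun k hk => hx0 k hk), Finset.sum_range_succ] at hx
        have h1 : ∑ k ∈ Finset.range (d + 1), (X ^ k : R[X]) • B.subtype (x k) ∈
            fil S (n + (d + 1)) := by
          refine Submodule.sum_mem _ fun k hk => ?_
          rw [Finset.mem_range] at hk
          exact fil_mono S (by omega) (X_pow_smul_mem_fil S (x k).2 k)
        have h2 : (X ^ (d + 1) : R[X]) • B.subtype (x (d + 1)) ∈ fil S (n + (d + 1)) := by
          rw [eq_neg_of_add_eq_zero_right hx]
          exact Submodule.neg_mem _ h1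
        have h3 : (x (d + 1) : M) ∈ A := hpow _ _ h2
        let a0 : PM R A := PM.single R d ⟨_, h3⟩
        have h4 : φ (x - ψ a0) = 0 := by
          rw [map_sub, hcomp, sub_zero, hφ x (d + 1 + 1) (fun k hk => hx0 k hk),
            Finset.sum_range_succ]
          exact hx
        obtain ⟨a, ha⟩ := ih (x - ψ a0) (fun k hk => by
          obtain ⟨j, rfl⟩ : ∃ j, k = j + 1 := ⟨k - 1, by omega⟩
          rw [PM.sub_apply, hψs]
          rcases Nat.lt_or_ge d j with hlt | hge
          · rw [hx0 (j + 1) (by omega), PM.single_apply, PM.single_apply, if_neg (by omega),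
              if_neg (by omega), map_zero, map_zero, sub_zero, sub_zero]
          · have : j = d := by omega
            subst this
            rw [PM.single_same, PM.single_apply, if_neg (by omega), map_zero, sub_zero]
            apply Subtype.ext
            simp [inc]) h4
        exact ⟨a + a0, by rw [map_add, ha, sub_add_cancel]⟩
    intro hx
    obtain ⟨d, hd⟩ := PM.exists_bound x
    exact key d x (fun k hk => hd k hk.le) hx
  · rintro ⟨a, rfl⟩
    exact hcomp a

end Char

/-- left noetherian, and all finitely generated modules have finite free resolutions -/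
structure AllFFR (R : Type u) [Ring R] : Prop where
  noeth : IsNoetherianRing R
  ffr : ∀ (M : Type u) [AddCommGroup M] [Module R M], Module.Finite R M → FFR R M

/-- **Theorem.** If `R` is left noetherian and all finitely generated left `R`-modules have finite
free resolutions, the same is true of `R[X]`. -/
theorem AllFFR.poly (h : AllFFR R) : AllFFR R[X] := by
  refine ⟨isNoetherianRing_poly h.noeth, ?_⟩
  intro M _ _ hM
  let _ : Module R M := Module.compHom M (C : R →+* R[X])
  have : IsScalarTower R R[X] M := ⟨fun r p m => by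
    rw [smul_eq_C_mul, mul_smul]
    rfl⟩
  obtain ⟨T, hT⟩ := hM.fg_top
  let S : Submodule R M := Submodule.span R (T : Set M)
  have hSfg : S.FG := ⟨T, rfl⟩
  have := h.noeth
  have hSn : IsNoetherian R S := isNoetherian_of_fg_of_noetherian S hSfg
  have htop : Submodule.span R[X] (S : Set M) = ⊤ := by
    rw [eq_top_iff, ← hT]
    exact Submodule.span_mono Submodule.subset_span
  obtain ⟨A, B, hA, hB, i, p, hi, hp, hex⟩ := exists_charSeq hSfg hSn htop
  have hA' : FFR R A := h.ffr A (Module.Finite.iff_fg.2 hA)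
  have hB' : FFR R B := h.ffr B (Module.Finite.iff_fg.2 hB)
  exact FFR.quot hi hp hex hA'.pm hB'.pm

end

end Crest.Agent.R181.FFR
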