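import Crest.Agent.R181.FFR776b

/-! R181, V-chain: rings all of whose finitely generated left modules have finite free resolutions:
division rings, transport, polynomial rings in finitely many central variables. -/

set_option autoImplicit false
set_option linter.dupNamespace false
set_option linter.unusedSectionVars false

namespace Crest.Agent.R181.FFR

open Function Polynomial

universe u

/-- division rings -/
theorem AllFFR.of_divisionRing (D : Type u) [DivisionRing D] : AllFFR D :=
  ⟨inferInstance, fun _ _ _ hM => FinFree.ffr ⟨inferInstance, hM⟩⟩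

section Transport

variable {R S : Type u} [Ring R] [Ring S] (e : R ≃+* S)

/-- a semilinear additive equivalence, as a linear one for the transported structure -/
def linOfAdd {M M' : Type*} [AddCommGroup M] [AddCommGroup M'] [Module S M] [Module S M']
    (φ : M ≃+ M') (h : ∀ (s : S) (m : M), φ (s • m) = s • φ m) : M ≃ₗ[S] M' :=
  { φ with map_smul' := h }

include e in
theorem FinFree.transport {F F' : Type u} [AddCommGroup F] [Module R F] [AddCommGroup F']
    [Module S F'] (φ : F ≃+ F') (hφ : ∀ (r : R) (m : F), φ (r • m) = e r • φ m)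
    (h : FinFree R F) : FinFree S F' := by
  obtain ⟨k, ⟨g⟩⟩ := h.exists_equiv
  let ψ : (Fin k → R) ≃+ (Fin k → S) :=
    { toFun := fun v i => e (v i)
      invFun := fun v i => e.symm (v i)
      left_inv := fun v => by funext i; simp
      right_inv := fun v => by funext i; simp
      map_add' := fun v w => by funext i; simp }
  let χ : (Fin k → S) ≃+ F' := (ψ.symm.trans g.symm.toAddEquiv).trans φ
  refine (FinFree.pi (R := S) k).iso (linOfAdd χ fun s v => ?_)
  obtain ⟨v, rfl⟩ := ψ.surjective v
  obtain ⟨r, rfl⟩ := e.surjective s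
  have h1 : (e r) • ψ v = ψ (r • v) := by
    funext i
    change e r * e (v i) = e (r * v i)
    rw [map_mul]
  rw [h1]
  change φ (g.symm (ψ.symm (ψ (r • v)))) = e r • φ (g.symm (ψ.symm (ψ v)))
  rw [AddEquiv.symm_apply_apply, AddEquiv.symm_apply_apply, map_smul, hφ]

theorem StFree.transport {M M' : Type u} [AddCommGroup M] [Module R M] [AddCommGroup M']
    [Module S M'] (φ : M ≃+ M') (hφ : ∀ (r : R) (m : M), φ (r • m) = e r • φ m)
    (h : StFree R M) : StFree S M' := by
  obtain ⟨F, _, _, G, _, _, hF, hG, ⟨g⟩⟩ := h
  let _ : Module S F := Module.compHom F e.symm.toRingHom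
  let _ : Module S G := Module.compHom G e.symm.toRingHom
  have hsF : ∀ (r : R) (x : F), e r • x = r • x := by
    intro r x
    change e.symm (e r) • x = r • x
    rw [RingEquiv.symm_apply_apply]
  have hsG : ∀ (r : R) (x : G), e r • x = r • x := by
    intro r x
    change e.symm (e r) • x = r • x
    rw [RingEquiv.symm_apply_apply]
  have hF' : FinFree S F := hF.transport e (AddEquiv.refl F) (fun r m => (hsF r m).symm)
  have hG' : FinFree S G := hG.transport e (AddEquiv.refl G) (fun r m => (hsG r m).symm)
  let χ : (M' × F) ≃+ G := (AddEquiv.prodCongr φ.symm (AddEquiv.refl F)).trans g.toAddEquiv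
  refine ⟨F, _, _, G, _, _, hF', hG', ⟨linOfAdd χ ?_⟩⟩
  rintro s ⟨m, x⟩
  obtain ⟨r, rfl⟩ := e.surjective s
  obtain ⟨m, rfl⟩ := φ.surjective m
  change g (φ.symm (e r • φ m), e r • x) = e r • g (φ.symm (φ m), x)
  rw [← hφ, AddEquiv.symm_apply_apply, AddEquiv.symm_apply_apply, hsF, hsG, ← map_smul]
  rfl

theorem FF.transport : ∀ {n : ℕ} {M M' : Type u} [AddCommGroup M] [Module R M] [AddCommGroup M']
    [Module S M'] (φ : M ≃+ M') (_ : ∀ (r : R) (m : M), φ (r • m) = e r • φ m),
    FF R n M → FF S n M'
  | 0, _, _, _, _, _, _, φ, hφ, h => StFree.transport e φ hφ h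
  | n + 1, M, M', _, _, _, _, φ, hφ, h => by
    obtain ⟨F, _, _, hF, f, hf, hk⟩ := h
    let _ : Module S F := Module.compHom F e.symm.toRingHom
    have hsF : ∀ (r : R) (x : F), e r • x = r • x := by
      intro r x
      change e.symm (e r) • x = r • x
      rw [RingEquiv.symm_apply_apply]
    have hF' : FinFree S F := hF.transport e (AddEquiv.refl F) (fun r m => (hsF r m).symm)
    let f' : F →ₗ[S] M' :=
      { toFun := fun x => φ (f x)
        map_add' := fun x y => by rw [map_add, map_add]
        map_smul' := fun s x => by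
          obtain ⟨r, rfl⟩ := e.surjective s
          simp only [RingHom.id_apply]
          rw [hsF, map_smul, hφ] }
    have hmem : ∀ x, x ∈ LinearMap.ker f ↔ x ∈ LinearMap.ker f' := by
      intro x
      rw [LinearMap.mem_ker, LinearMap.mem_ker]
      change f x = 0 ↔ φ (f x) = 0
      exact (map_eq_zero_iff φ φ.injective).symm
    let κ : LinearMap.ker f ≃+ LinearMap.ker f' :=
      { toFun := fun x => ⟨x, (hmem _).1 x.2⟩
        invFun := fun x => ⟨x, (hmem _).2 x.2⟩
        left_inv := fun _ => rfl
        right_inv := fun _ => rfl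
        map_add' := fun _ _ => rfl }
    refine ⟨F, _, _, hF', f', φ.surjective.comp hf, FF.transport κ (fun r x => ?_) hk⟩
    apply Subtype.ext
    exact (hsF r x).symm

theorem FFR.transport {M M' : Type u} [AddCommGroup M] [Module R M] [AddCommGroup M']
    [Module S M'] (φ : M ≃+ M') (hφ : ∀ (r : R) (m : M), φ (r • m) = e r • φ m)
    (h : FFR R M) : FFR S M' := by
  obtain ⟨n, hn⟩ := h
  exact ⟨n, FF.transport e φ hφ hn⟩

include e in
/-- invariance under ring isomorphisms -/
theorem AllFFR.congr (h : AllFFR R) : AllFFR S := by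
  have := h.noeth
  refine ⟨isNoetherianRing_of_ringEquiv R e, ?_⟩
  intro M _ _ hM
  let _ : Module R M := Module.compHom M e.toRingHom
  have hs : ∀ (r : R) (m : M), r • m = e r • m := fun _ _ => rfl
  obtain ⟨T, hT⟩ := hM.fg_top
  have hfin : Module.Finite R M := by
    refine ⟨⟨T, ?_⟩⟩
    rw [eq_top_iff]
    intro m _
    have hm : m ∈ Submodule.span S (T : Set M) := by rw [hT]; trivial
    induction hm using Submodule.span_induction with
    | mem x hx => exact Submodule.subset_span hx
    | zero => exact Submodule.zero_mem _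
    | add x y _ _ hx hy => exact Submodule.add_mem _ (hx trivial) (hy trivial)
    | smul s x _ hx =>
      obtain ⟨r, rfl⟩ := e.surjective s
      rw [← hs]
      exact Submodule.smul_mem _ _ (hx trivial)
  exact FFR.transport e (AddEquiv.refl M) (fun r m => hs r m) (h.ffr M hfin)

end Transport

section Poly

/-- the additive equivalence splitting off one variable -/
noncomputable def optAdd (σ : Type*) : (Option σ →₀ ℕ) ≃+ ℕ × (σ →₀ ℕ) :=
  { Finsupp.optionEquiv with
    map_add' := fun f g => by
      refine Prod.ext ?_ ?_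
      · simp [Finsupp.optionEquiv]
      · ext i
        simp [Finsupp.optionEquiv] }

/-- splitting off one central variable -/
noncomputable def optRing (D : Type*) [Ring D] (σ : Type*) :
    AddMonoidAlgebra D (Option σ →₀ ℕ) ≃+* (AddMonoidAlgebra D (σ →₀ ℕ))[X] :=
  ((AddMonoidAlgebra.mapDomainRingEquiv D (optAdd σ)).trans
    AddMonoidAlgebra.curryRingEquiv).trans (toFinsuppIso _).symm

/-- `D[x_v, v ∈ σ]`, `σ` finite, the variables central -/
theorem AllFFR.addMonoidAlgebra {D : Type u} [Ring D] (h : AllFFR D) (σ : Type) [Finite σ] :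
    AllFFR (AddMonoidAlgebra D (σ →₀ ℕ)) := by
  induction σ using Finite.induction_empty_option with
  | of_equiv e ih =>
    exact AllFFR.congr (AddMonoidAlgebra.mapDomainRingEquiv D (Finsupp.domCongr e)) ih
  | h_empty =>
    have ε : D ≃+* AddMonoidAlgebra D (PEmpty →₀ ℕ) :=
      (AddMonoidAlgebra.uniqueRingEquiv (R := D) (PEmpty →₀ ℕ)).symm
    exact AllFFR.congr ε h
  | h_option ih => exact AllFFR.congr (optRing D _).symm ih.poly

/-- polynomial rings over a commutative ring -/
theorem AllFFR.mvPolynomial {K : Type u} [CommRing K] (h : AllFFR K) (σ : Type) [Finite σ] :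
    AllFFR (MvPolynomial σ K) := h.addMonoidAlgebra σ

end Poly

end Crest.Agent.R181.FFR
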