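import Crest.Agent.R181.FR459a
import Crest.Agent.R181.FFR776a

/-!
# R181: bridge between the two (equivalent) definitions of finite free resolutions
-/

namespace Crest.Agent.R181.FR

universe u

variable {R : Type u} [Ring R] {M : Type u} [AddCommGroup M] [Module R M]

theorem stFree_iff : StFree R M ↔ Crest.Agent.R181.FFR.StFree R M := by
  constructor
  · rintro ⟨m, n, ⟨e⟩⟩
    exact Crest.Agent.R181.FFR.StFree.of_fin e
  · intro h
    exact h.exists_fin

theorem ffr_of_res : ∀ {n : ℕ} {M : Type u} [AddCommGroup M] [Module R M],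
    Res R n M → Crest.Agent.R181.FFR.FFR R M
  | 0, _, _, _, ⟨k, ⟨e⟩⟩ => ((Crest.Agent.R181.FFR.FinFree.pi k).ffr).iso e.symm
  | n + 1, M, _, _, ⟨k, f, hf, h⟩ => by
    refine Crest.Agent.R181.FFR.FFR.quot (i := (LinearMap.ker f).subtype) (p := f)
      (Submodule.subtype_injective _) hf ?_ (ffr_of_res h) (Crest.Agent.R181.FFR.FinFree.pi k).ffr
    intro x
    exact ⟨fun hx => ⟨⟨x, hx⟩, rfl⟩, fun ⟨a, ha⟩ => ha ▸ a.2⟩

theorem ffr_of_ff : ∀ {n : ℕ} {M : Type u} [AddCommGroup M] [Module R M],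
    Crest.Agent.R181.FFR.FF R n M → FFR R M
  | 0, _, _, _, h => (stFree_iff.mpr h).ffr
  | n + 1, M, _, _, h => by
    have hfin : Module.Finite R M := h.fin
    obtain ⟨k, f, hf⟩ := Module.Finite.exists_fin' R M
    exact FFR.of_surj f hf (ffr_of_ff (h.ker (Crest.Agent.R181.FFR.FinFree.pi k) hf))

/-- the two definitions agree -/
theorem ffr_iff : FFR R M ↔ Crest.Agent.R181.FFR.FFR R M :=
  ⟨fun ⟨_, h⟩ => ffr_of_res h, fun ⟨_, h⟩ => ffr_of_ff h⟩

end Crest.Agent.R181.FR
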