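import Mathlib
import Crest.Agent.R181.FR459a

/-!
R181, V3 base: commutative rings all of whose finitely generated modules have finite free
resolutions.  Descent along `S → S/t`, localisation, ring isomorphisms, `B[t] → B`.
-/

namespace Crest.Agent.R181.V3

open Polynomial Crest.Agent.R181.FR

/-- all finitely generated modules have finite free resolutions -/
def Good (R : Type) [Ring R] : Prop :=
  ∀ (M : Type) [AddCommGroup M] [Module R M] [Module.Finite R M], FFR R M

section quot

variable {S B : Type} [CommRing S] [CommRing B] (π : S →+* B) (t : S)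

theorem res_quot (hπ : Function.Surjective π) (hker : ∀ s, π s = 0 ↔ ∃ s', s = t * s')
    (ht : ∀ s, t * s = 0 → s = 0) (n : ℕ) :
    ∀ (N Q : Type) [AddCommGroup N] [Module S N] [AddCommGroup Q] [Module B Q] (p : N →+ Q),
      (∀ s x, p (s • x) = π s • p x) → Function.Surjective p →
      (∀ x, p x = 0 ↔ ∃ y, x = t • y) → (∀ x : N, t • x = 0 → x = 0) → Res S n N → Res B n Q := by
  induction n with
  | zero =>
    intro N Q _ _ _ _ p hps hpsurj hpker htN ⟨k, ⟨e⟩⟩
    refine ⟨k, ⟨?_⟩⟩
    let g : (Fin k → B) →ₗ[B] Q := Fintype.linearCombination B (fun i => p (e.symm (Pi.single i 1)))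
    have hg : ∀ s : Fin k → S, g (fun i => π (s i)) = p (e.symm s) := by
      intro s
      simp only [g, Fintype.linearCombination_apply]
      have : s = ∑ i, s i • (Pi.single i (1:S) : Fin k → S) := by
        ext j
        simp [Finset.sum_apply, Pi.single_apply]
      conv_rhs => rw [this]
      simp [map_sum, hps]
    refine (LinearEquiv.ofBijective g ⟨?_, ?_⟩).symm
    · rw [injective_iff_map_eq_zero]
      intro b hb
      choose s hs using fun i => hπ (b i)
      have hb' : b = fun i => π (s i) := by ext i; rw [hs]
      rw [hb', hg] at hb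
      obtain ⟨y, hy⟩ := (hpker _).1 hb
      have h1 : s = t • e y := by
        have := congrArg e hy
        simpa using this
      rw [hb']
      ext i
      exact (hker _).2 ⟨e y i, by rw [h1]; rfl⟩
    · intro q
      obtain ⟨x, rfl⟩ := hpsurj q
      exact ⟨fun i => π (e x i), by rw [hg]; simp⟩
  | succ n ih =>
    intro N Q _ _ _ _ p hps hpsurj hpker htN ⟨k, f, hf, hK⟩
    let g : (Fin k → B) →ₗ[B] Q := Fintype.linearCombination B (fun i => p (f (Pi.single i 1)))
    have hg : ∀ s : Fin k → S, g (fun i => π (s i)) = p (f s) := by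
      intro s
      simp only [g, Fintype.linearCombination_apply]
      have : s = ∑ i, s i • (Pi.single i (1:S) : Fin k → S) := by
        ext j
        simp [Finset.sum_apply, Pi.single_apply]
      conv_rhs => rw [this]
      simp [map_sum, hps]
    refine ⟨k, g, ?_, ?_⟩
    · intro q
      obtain ⟨x, rfl⟩ := hpsurj q
      obtain ⟨s, rfl⟩ := hf x
      exact ⟨fun i => π (s i), hg s⟩
    · let p' : LinearMap.ker f →+ LinearMap.ker g :=
        { toFun := fun s => ⟨fun i => π (s.1 i), by
            rw [LinearMap.mem_ker, hg, LinearMap.mem_ker.1 s.2, map_zero]⟩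
          map_zero' := by ext i; simp
          map_add' := by intro a b; ext i; simp }
      refine ih (LinearMap.ker f) (LinearMap.ker g) p' ?_ ?_ ?_ ?_ hK
      · intro s x
        ext i
        simp [p']
      · rintro ⟨b, hb⟩
        choose s hs using fun i => hπ (b i)
        have hb' : b = fun i => π (s i) := by ext i; rw [hs]
        subst hb'
        rw [LinearMap.mem_ker, hg] at hb
        obtain ⟨y, hy⟩ := (hpker _).1 hb
        obtain ⟨s', rfl⟩ := hf y
        refine ⟨⟨s - t • s', ?_⟩, ?_⟩
        · rw [LinearMap.mem_ker, map_sub, map_smul, hy, sub_self]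
        · ext i
          have : π t = 0 := (hker t).2 ⟨1, by simp⟩
          simp [p', this]
      · rintro ⟨s, hs⟩
        constructor
        · intro h
          have h' : ∀ i, π (s i) = 0 := fun i => congrFun (congrArg Subtype.val h) i
          choose s' hs' using fun i => (hker _).1 (h' i)
          have hs'' : s = t • s' := by ext i; rw [hs' i]; rfl
          refine ⟨⟨s', ?_⟩, ?_⟩
          · rw [LinearMap.mem_ker] at hs ⊢
            apply htN
            rw [← map_smul, ← hs'', hs]
          · ext i; exact hs' i
        · rintro ⟨y, hy⟩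
          ext i
          have : s i = t * y.1 i := congrFun (congrArg Subtype.val hy) i
          have h2 : π t = 0 := (hker t).2 ⟨1, by simp⟩
          simp [p', this, h2]
      · rintro ⟨s, hs⟩ h
        ext i
        exact ht _ (congrFun (congrArg Subtype.val h) i)

end quot

section loc

variable {R A : Type} [CommRing R] [CommRing A]

/-- elementwise localisation -/
structure IsLoc (S : Submonoid R) (φ : R →+* A) : Prop where
  unit : ∀ s ∈ S, IsUnit (φ s)
  surj : ∀ a, ∃ r, ∃ s ∈ S, φ s * a = φ r
  ker : ∀ r, φ r = 0 → ∃ s ∈ S, s * r = 0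

theorem IsLoc.pi_surj {S : Submonoid R} {φ : R →+* A} (h : IsLoc S φ) {k : ℕ} (a : Fin k → A) :
    ∃ r : Fin k → R, ∃ s ∈ S, ∀ i, φ s * a i = φ (r i) := by
  choose r s hs h' using fun i => h.surj (a i)
  refine ⟨fun i => (∏ j ∈ Finset.univ.erase i, s j) * r i, ∏ j, s j, ?_, ?_⟩
  · exact Submonoid.prod_mem _ (fun i _ => hs i)
  · intro i
    rw [← Finset.mul_prod_erase Finset.univ s (Finset.mem_univ i), map_mul, map_mul, ← h' i]
    ring

theorem IsLoc.pi_ker {S : Submonoid R} {φ : R →+* A} (h : IsLoc S φ) {k : ℕ} (r : Fin k → R)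
    (hr : ∀ i, φ (r i) = 0) : ∃ s ∈ S, ∀ i, s * r i = 0 := by
  choose s hs h' using fun i => h.ker (r i) (hr i)
  refine ⟨∏ j, s j, Submonoid.prod_mem _ (fun i _ => hs i), ?_⟩
  intro i
  rw [← Finset.mul_prod_erase Finset.univ s (Finset.mem_univ i), mul_comm (s i), mul_assoc, h' i,
    mul_zero]

theorem res_loc {S : Submonoid R} {φ : R →+* A} (h : IsLoc S φ) (n : ℕ) :
    ∀ (N Q : Type) [AddCommGroup N] [Module R N] [AddCommGroup Q] [Module A Q] (p : N →+ Q),
      (∀ s x, p (s • x) = φ s • p x) → (∀ q, ∃ x, ∃ s ∈ S, φ s • q = p x) →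
      (∀ x, p x = 0 → ∃ s ∈ S, s • x = 0) → Res R n N → Res A n Q := by
  have cancel : ∀ (Q : Type) [AddCommGroup Q] [Module A Q] (s : R) (_ : s ∈ S) (q : Q),
      φ s • q = 0 → q = 0 := by
    intro Q _ _ s hs q hq
    obtain ⟨u, hu⟩ := h.unit s hs
    have := congrArg (fun y => (↑(u⁻¹) : A) • y) hq
    simpa [← hu, smul_smul] using this
  induction n with
  | zero =>
    intro N Q _ _ _ _ p hps hpsurj hpker ⟨k, ⟨e⟩⟩
    refine ⟨k, ⟨?_⟩⟩
    let g : (Fin k → A) →ₗ[A] Q := Fintype.linearCombination A (fun i => p (e.symm (Pi.single i 1)))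
    have hg : ∀ s : Fin k → R, g (fun i => φ (s i)) = p (e.symm s) := by
      intro s
      simp only [g, Fintype.linearCombination_apply]
      have : s = ∑ i, s i • (Pi.single i (1:R) : Fin k → R) := by
        ext j
        simp [Finset.sum_apply, Pi.single_apply]
      conv_rhs => rw [this]
      simp [map_sum, hps]
    refine (LinearEquiv.ofBijective g ⟨?_, ?_⟩).symm
    · rw [injective_iff_map_eq_zero]
      intro b hb
      obtain ⟨r, s, hs, hr⟩ := h.pi_surj b
      have hb' : φ s • b = fun i => φ (r i) := by ext i; simp [hr]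
      apply cancel (Fin k → A) s hs
      have h1 : g (φ s • b) = 0 := by rw [map_smul, hb, smul_zero]
      rw [hb', hg] at h1
      obtain ⟨s', hs', h2⟩ := hpker _ h1
      have h3 : s' • r = 0 := by
        have := congrArg e h2
        simpa using this
      rw [hb']
      apply cancel (Fin k → A) s' hs'
      ext i
      have := congrArg φ (congrFun h3 i)
      simpa using this
    · intro q
      obtain ⟨x, s, hs, hx⟩ := hpsurj q
      obtain ⟨u, hu⟩ := h.unit s hs
      refine ⟨(↑(u⁻¹) : A) • (fun i => φ (e x i)), ?_⟩
      rw [map_smul, hg, LinearEquiv.symm_apply_apply, ← hx, ← hu, smul_smul]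
      simp
  | succ n ih =>
    intro N Q _ _ _ _ p hps hpsurj hpker ⟨k, f, hf, hK⟩
    let g : (Fin k → A) →ₗ[A] Q := Fintype.linearCombination A (fun i => p (f (Pi.single i 1)))
    have hg : ∀ s : Fin k → R, g (fun i => φ (s i)) = p (f s) := by
      intro s
      simp only [g, Fintype.linearCombination_apply]
      have : s = ∑ i, s i • (Pi.single i (1:R) : Fin k → R) := by
        ext j
        simp [Finset.sum_apply, Pi.single_apply]
      conv_rhs => rw [this]
      simp [map_sum, hps]
    refine ⟨k, g, ?_, ?_⟩
    · intro q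
      obtain ⟨x, s, hs, hx⟩ := hpsurj q
      obtain ⟨y, rfl⟩ := hf x
      obtain ⟨u, hu⟩ := h.unit s hs
      refine ⟨(↑(u⁻¹) : A) • (fun i => φ (y i)), ?_⟩
      rw [map_smul, hg, ← hx, ← hu, smul_smul]
      simp
    · let p' : LinearMap.ker f →+ LinearMap.ker g :=
        { toFun := fun s => ⟨fun i => φ (s.1 i), by
            rw [LinearMap.mem_ker, hg, LinearMap.mem_ker.1 s.2, map_zero]⟩
          map_zero' := by ext i; simp
          map_add' := by intro a b; ext i; simp }
      refine ih (LinearMap.ker f) (LinearMap.ker g) p' ?_ ?_ ?_ hK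
      · intro s x
        ext i
        simp [p']
      · rintro ⟨b, hb⟩
        obtain ⟨r, s, hs, hr⟩ := h.pi_surj b
        have hb' : φ s • b = fun i => φ (r i) := by ext i; simp [hr]
        have h1 : g (φ s • b) = 0 := by rw [map_smul, LinearMap.mem_ker.1 hb, smul_zero]
        rw [hb', hg] at h1
        obtain ⟨s', hs', h2⟩ := hpker _ h1
        refine ⟨⟨s' • r, ?_⟩, s' * s, S.mul_mem hs' hs, ?_⟩
        · rw [LinearMap.mem_ker, map_smul, h2]
        · ext i
          have := congrFun hb' i
          simp only [Pi.smul_apply, smul_eq_mul] at this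
          simp [p', mul_assoc, this]
      · rintro ⟨s, hs⟩ h0
        have h' : ∀ i, φ (s i) = 0 := fun i => congrFun (congrArg Subtype.val h0) i
        obtain ⟨s', hs', h2⟩ := h.pi_ker s h'
        refine ⟨s', hs', ?_⟩
        ext i
        exact h2 i

theorem Good.of_isLoc {S : Submonoid R} {φ : R →+* A} (h : IsLoc S φ) (hR : Good R) :
    Good A := by
  intro M _ _ hM
  obtain ⟨k, f, hf⟩ := Module.Finite.exists_fin' A M
  let _ : Module R M := Module.compHom M φ
  have hsm : ∀ (r : R) (m : M), r • m = φ r • m := fun r m => rfl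
  let M0 : Submodule R M := Submodule.span R (Set.range fun i => f (Pi.single i 1))
  have : Module.Finite R M0 :=
    Module.Finite.iff_fg.2 (Submodule.fg_span (Set.finite_range _))
  obtain ⟨n, hn⟩ := hR M0
  refine ⟨n, res_loc h n M0 M (M0.subtype.toAddMonoidHom) ?_ ?_ ?_ hn⟩
  · intro s x; rfl
  · intro q
    obtain ⟨a, rfl⟩ := hf q
    obtain ⟨r, s, hs, hr⟩ := h.pi_surj a
    refine ⟨⟨φ s • f a, ?_⟩, s, hs, rfl⟩
    have : φ s • f a = ∑ i, r i • f (Pi.single i 1) := by
      rw [← map_smul]
      have h1 : φ s • a = ∑ i, φ (r i) • (Pi.single i (1:A) : Fin k → A) := by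
        ext j
        simp [Finset.sum_apply, Pi.single_apply, hr]
      rw [h1, map_sum]
      exact Finset.sum_congr rfl fun i _ => by rw [map_smul, hsm]
    rw [this]
    exact Submodule.sum_mem _ fun i _ => Submodule.smul_mem _ _
      (Submodule.subset_span ⟨i, rfl⟩)
  · intro x hx
    refine ⟨1, S.one_mem, ?_⟩
    have : x = 0 := Subtype.ext hx
    rw [this, smul_zero]

theorem Good.of_equiv (e : R ≃+* A) (hR : Good R) : Good A :=
  Good.of_isLoc (S := ⊥) (φ := e.toRingHom)
    { unit := by rintro s hs; rw [Submonoid.mem_bot.1 hs]; simp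
      surj := fun a => ⟨e.symm a, 1, Submonoid.one_mem _, by simp⟩
      ker := fun r hr => ⟨1, Submonoid.one_mem _, by
        rw [one_mul]; exact (map_eq_zero_iff e e.injective).1 hr⟩ } hR

theorem Good.of_isLocalization (S : Submonoid R) [Algebra R A] [IsLocalization S A]
    (hR : Good R) : Good A :=
  Good.of_isLoc (S := S) (φ := algebraMap R A)
    { unit := fun s hs => IsLocalization.map_units A ⟨s, hs⟩
      surj := fun a => by
        obtain ⟨⟨r, s⟩, h⟩ := IsLocalization.surj S a
        exact ⟨r, s.1, s.2, by rw [mul_comm]; exact h⟩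
      ker := fun r hr => by
        obtain ⟨c, hc⟩ := (IsLocalization.map_eq_zero_iff S A r).1 hr
        exact ⟨c.1, c.2, hc⟩ } hR

end loc

section poly

variable {B : Type} [CommRing B]

theorem Good.of_polynomial (h : Good B[X]) : Good B := by
  intro M _ _ hM
  classical
  have : Module.Finite B[X] (PolynomialModule B M) := by
    obtain ⟨s, hs⟩ := hM.1
    refine ⟨⟨s.image (fun m => PolynomialModule.single B 0 m), ?_⟩⟩
    rw [eq_top_iff]
    rintro x -
    induction x using PolynomialModule.induction_linear with
    | zero => exact Submodule.zero_mem _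
    | add f g hf hg => exact Submodule.add_mem _ hf hg
    | single i m =>
      have hm : m ∈ Submodule.span B (s : Set M) := by rw [hs]; trivial
      have key : ∀ m ∈ Submodule.span B (s : Set M), (PolynomialModule.single B 0 m) ∈
          Submodule.span B[X] ((s.image (fun m => PolynomialModule.single B 0 m) :
            Finset (PolynomialModule B M)) : Set (PolynomialModule B M)) := by
        intro m hm
        induction hm using Submodule.span_induction with
        | mem x hx =>
          exact Submodule.subset_span (by simpa using ⟨x, hx, rfl⟩)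
        | zero => simp
        | add x y _ _ hx hy =>
          rw [PolynomialModule.single_add]
          exact Submodule.add_mem _ hx hy
        | smul a x _ hx =>
          have : PolynomialModule.single B 0 (a • x) =
              (C a : B[X]) • PolynomialModule.single B 0 x := by
            rw [← monomial_zero_left, PolynomialModule.monomial_smul_single]
          rw [this]
          exact Submodule.smul_mem _ _ hx
      have h2 : PolynomialModule.single B i m =
          (monomial i (1:B)) • PolynomialModule.single B 0 m := by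
        rw [PolynomialModule.monomial_smul_single]; simp
      rw [h2]
      exact Submodule.smul_mem _ _ (key m hm)
  obtain ⟨n, hn⟩ := h (PolynomialModule B M)
  have hX : ∀ (x : PolynomialModule B M) (n : ℕ),
      ((X : B[X]) • x).coeff n = if 1 ≤ n then x.coeff (n - 1) else 0 := by
    intro x n
    rw [← monomial_one_one_eq_X, PolynomialModule.monomial_smul_apply]
    simp
  refine ⟨n, res_quot (constantCoeff : B[X] →+* B) X ?_ ?_ ?_ n (PolynomialModule B M) M
    { toFun := fun x => x.coeff 0, map_zero' := rfl, map_add' := fun x y => rfl } ?_ ?_ ?_ ?_ hn⟩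
  · exact fun b => ⟨C b, by simp⟩
  · intro s
    rw [constantCoeff_apply, ← X_dvd_iff]
    exact Iff.rfl
  · intro s hs
    ext n
    have := congrArg (fun q => q.coeff (n+1)) hs
    simpa using this
  · intro s x
    change (s • x).coeff 0 = constantCoeff s • x.coeff 0
    rw [PolynomialModule.smul_apply]
    simp
  · intro m
    refine ⟨PolynomialModule.single B 0 m, ?_⟩
    change (PolynomialModule.single B 0 m).coeff 0 = m
    rw [PolynomialModule.coeff_single, Finsupp.single_eq_same]
  · intro x
    constructor
    · intro hx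
      change x.coeff 0 = 0 at hx
      refine ⟨PolynomialModule.ofCoeff B (x.coeff.comapDomain (· + 1)
        (fun a _ b _ h => by simpa using h)), ?_⟩
      apply PolynomialModule.coeff_injective
      ext n
      rw [hX]
      cases n with
      | zero => simpa using hx
      | succ n =>
        simp only [Nat.le_add_left, if_true, Nat.add_sub_cancel]
        rfl
    · rintro ⟨y, rfl⟩
      change (X • y).coeff 0 = 0
      rw [hX]; simp
  · intro x hx
    apply PolynomialModule.coeff_injective
    ext n
    have := hX x (n+1)
    rw [hx] at this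
    simpa using this.symm

end poly

end Crest.Agent.R181.V3
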