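import Crest.Agent.R181.FFR776c
import Crest.Agent.R181.FR459b
import Crest.Agent.R181.V3386a

/-! R181, V-chain: `AllFFR` in the language of helper459 (`FR.FFR`) and helper386 (`V3.Good`). -/

set_option autoImplicit false

namespace Crest.Agent.R181.FFR

/-- all finitely generated modules have finite free resolutions, in the form `V3.Good` -/
theorem AllFFR.good {R : Type} [Ring R] (h : AllFFR R) : V3.Good R :=
  fun M _ _ _ => FR.ffr_iff.2 (h.ffr M inferInstance)

theorem AllFFR.of_good {R : Type} [Ring R] (hn : IsNoetherianRing R) (h : V3.Good R) : AllFFR R :=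
  ⟨hn, fun M _ _ _ => FR.ffr_iff.1 (h M)⟩

/-- `k[x_v, v ∈ σ]` is good, `k` a field, `σ` finite -/
theorem good_mvPolynomial (k : Type) [Field k] (σ : Type) [Finite σ] :
    V3.Good (MvPolynomial σ k) :=
  ((AllFFR.of_divisionRing k).mvPolynomial σ).good

/-- `D[x_v, v ∈ σ]` is good, `D` a division ring, the finitely many variables central -/
theorem good_addMonoidAlgebra (D : Type) [DivisionRing D] (σ : Type) [Finite σ] :
    V3.Good (AddMonoidAlgebra D (σ →₀ ℕ)) :=
  ((AllFFR.of_divisionRing D).addMonoidAlgebra σ).good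

/-- the ring `D[x_v, v ∈ σ]` is left noetherian -/
theorem isNoetherianRing_addMonoidAlgebra (D : Type) [DivisionRing D] (σ : Type) [Finite σ] :
    IsNoetherianRing (AddMonoidAlgebra D (σ →₀ ℕ)) :=
  ((AllFFR.of_divisionRing D).addMonoidAlgebra σ).noeth

end Crest.Agent.R181.FFR
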