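import Mathlib

/-!
R181, growth of finitely generated modules over a polynomial ring over a field
(helper396).  `growth`: if `I` kills `M` and every prime `P ≥ I` has transcendence degree
at most `t`, then for every finite set `S` of `M` the dimension of
`span {p • s | totalDegree p ≤ d, s ∈ S}` is at most `C * (d+1)^t`.
-/

set_option linter.unusedSectionVars false

open MvPolynomial

namespace Crest.Agent.R181.GR

universe u v w

variable {K : Type u} [Field K] {V : Type v} {M : Type w} [AddCommGroup M] [Module K M]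
  [Module (MvPolynomial V K) M] [IsScalarTower K (MvPolynomial V K) M]

/-- the span of `p • x` for `totalDegree p ≤ d`, `x ∈ S`. -/
def fil (K : Type u) [Field K] (V : Type v) {M : Type w} [AddCommGroup M] [Module K M]
    [Module (MvPolynomial V K) M] (S : Set M) (d : ℕ) : Submodule K M :=
  Submodule.span K {y | ∃ p : MvPolynomial V K, p.totalDegree ≤ d ∧ ∃ x ∈ S, y = p • x}

/-- auxiliary filtration. -/
def aux {s : ℕ} {ι : Type*} (Z : Fin s → MvPolynomial V K) (b : ι → MvPolynomial V K)
    (S : Set M) (e : ℕ) : Submodule K M :=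
  Submodule.span K {y | ∃ q : MvPolynomial (Fin s) K, (∀ i, q.degreeOf i ≤ e) ∧
    ∃ (j : ι), ∃ x ∈ S, y = (aeval Z q * b j) • x}

lemma aux_mono {s : ℕ} {ι : Type*} (Z : Fin s → MvPolynomial V K) (b : ι → MvPolynomial V K)
    (S : Set M) {e e' : ℕ} (h : e ≤ e') : aux Z b S e ≤ aux Z b S e' := by
  apply Submodule.span_mono
  rintro y ⟨q, hq, j, x, hx, rfl⟩
  exact ⟨q, fun i => (hq i).trans h, j, x, hx, rfl⟩

lemma aux_finrank {s : ℕ} {ι : Type*} [Fintype ι] (Z : Fin s → MvPolynomial V K)
    (b : ι → MvPolynomial V K) (S : Finset M) (e : ℕ) :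
    Module.Finite K (aux Z b (S : Set M) e) ∧
    Module.finrank K (aux Z b (S : Set M) e) ≤ (e + 1) ^ s * (Fintype.card ι * S.card) := by
  classical
  let f : (Fin s → Fin (e + 1)) × ι × S → M := fun x =>
    (aeval Z (monomial (Finsupp.equivFunOnFinite.symm fun i => (x.1 i : ℕ)) (1 : K)) * b x.2.1)
      • (x.2.2 : M)
  have h1 : aux Z b (S : Set M) e ≤ Submodule.span K (Set.range f) := by
    apply Submodule.span_le.2
    rintro y ⟨q, hq, j, x, hx, rfl⟩
    have h2 : q = ∑ α ∈ q.support, coeff α q • monomial α (1 : K) := by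
      conv_lhs => rw [q.as_sum]
      refine Finset.sum_congr rfl fun α _ => ?_
      rw [smul_monomial, smul_eq_mul, mul_one]
    rw [h2, map_sum, Finset.sum_mul, Finset.sum_smul]
    refine Submodule.sum_mem _ fun α hα => ?_
    rw [map_smul, smul_mul_assoc, smul_assoc]
    refine Submodule.smul_mem _ _ (Submodule.subset_span ?_)
    refine ⟨(fun i => ⟨α i, Nat.lt_succ_of_le ((monomial_le_degreeOf i hα).trans (hq i))⟩, j,
      ⟨x, hx⟩), ?_⟩
    have h3 : (Finsupp.equivFunOnFinite.symm fun i => α i) = α := by ext i; rfl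
    simp only [f, h3]
  have : Module.Finite K (Submodule.span K (Set.range f)) :=
    Module.Finite.span_of_finite K (Set.finite_range f)
  refine ⟨Submodule.finiteDimensional_of_le h1, ?_⟩
  calc Module.finrank K (aux Z b (S : Set M) e)
      ≤ Module.finrank K (Submodule.span K (Set.range f)) := Submodule.finrank_mono h1
    _ ≤ Fintype.card ((Fin s → Fin (e + 1)) × ι × S) := finrank_range_le_card f
    _ = _ := by simp

lemma normalA (A : Type*) [CommRing A] [Nontrivial A] [Algebra K A] [Algebra.FiniteType K A] :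
    ∃ (s : ℕ) (g : MvPolynomial (Fin s) K →ₐ[K] A) (r : ℕ) (b : Fin r → A),
      (∀ a : A, ∃ c : Fin r → MvPolynomial (Fin s) K, a = ∑ j, g (c j) * b j) ∧
      ∃ Q : Ideal A, Q.IsPrime ∧ ∀ q, g q ∈ Q → q = 0 := by
  obtain ⟨s, g, hg, hfin⟩ := exists_finite_inj_algHom_of_fg K A
  let _ : Algebra (MvPolynomial (Fin s) K) A := g.toRingHom.toAlgebra
  have hfin' : Module.Finite (MvPolynomial (Fin s) K) A := hfin
  obtain ⟨r, b, hb⟩ := Module.Finite.exists_fin (R := MvPolynomial (Fin s) K) (M := A)
  refine ⟨s, g, r, b, ?_, ?_⟩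
  · intro a
    have h1 : a ∈ Submodule.span (MvPolynomial (Fin s) K) (Set.range b) := by
      rw [hb]; trivial
    obtain ⟨c, hc⟩ := (Submodule.mem_span_range_iff_exists_fun _).1 h1
    refine ⟨c, ?_⟩
    rw [← hc]
    refine Finset.sum_congr rfl fun j _ => ?_
    rw [Algebra.smul_def]
    rfl
  · obtain ⟨Q, -, hQ, hQc⟩ := Ideal.exists_ideal_over_prime_of_isIntegral
      (R := MvPolynomial (Fin s) K) (S := A) ⊥ ⊥ (by
        intro q hq
        have h0 : g q = 0 := hq
        exact (map_eq_zero_iff g hg).1 h0)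
    refine ⟨Q, hQ, ?_⟩
    intro q hq
    have h1 : q ∈ Q.comap (algebraMap (MvPolynomial (Fin s) K) A) := hq
    rw [hQc] at h1
    exact h1

/-- Noether normalisation modulo `I`, with a prime above `I` over which it stays injective. -/
lemma normal [Finite V] (I : Ideal (MvPolynomial V K)) (hI : I ≠ ⊤) :
    ∃ (s : ℕ) (Z : Fin s → MvPolynomial V K) (r : ℕ) (b : Fin r → MvPolynomial V K),
      (∀ a : MvPolynomial V K, ∃ c : Fin r → MvPolynomial (Fin s) K,
        a - ∑ j, aeval Z (c j) * b j ∈ I) ∧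
      ∃ P : Ideal (MvPolynomial V K), P.IsPrime ∧ I ≤ P ∧
        ∀ q : MvPolynomial (Fin s) K, aeval Z q ∈ P → q = 0 := by
  have : Nontrivial (MvPolynomial V K ⧸ I) := Ideal.Quotient.nontrivial_iff.2 hI
  obtain ⟨s, g, r, b', hb', Q, hQ, hQg⟩ := normalA (K := K) (MvPolynomial V K ⧸ I)
  choose Z hZ using fun i : Fin s => Ideal.Quotient.mk_surjective (g (X i))
  have hgZ : ∀ q, Ideal.Quotient.mk I (aeval Z q) = g q := by
    intro q
    have : ((Ideal.Quotient.mkₐ K I).comp (aeval Z)) = g := by
      apply MvPolynomial.algHom_ext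
      intro i
      simp [hZ]
    exact DFunLike.congr_fun this q
  choose b hb using fun j : Fin r => Ideal.Quotient.mk_surjective (b' j)
  refine ⟨s, Z, r, b, ?_, Q.comap (Ideal.Quotient.mk I), inferInstance, ?_, ?_⟩
  · intro a
    obtain ⟨c, hc⟩ := hb' (Ideal.Quotient.mk I a)
    refine ⟨c, ?_⟩
    rw [← Ideal.Quotient.eq_zero_iff_mem, map_sub, map_sum, hc, sub_eq_zero]
    refine Finset.sum_congr rfl fun j _ => ?_
    rw [map_mul, hgZ, hb]
  · intro a ha
    rw [Ideal.mem_comap, Ideal.Quotient.eq_zero_iff_mem.2 ha]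
    exact Q.zero_mem
  · intro q hq
    rw [Ideal.mem_comap, hgZ] at hq
    exact hQg q hq

/-- structure constants and a uniform degree bound -/
lemma bound [Fintype V] {s r : ℕ} (c0 : Fin r → MvPolynomial (Fin s) K)
    (c : V → Fin r → Fin r → MvPolynomial (Fin s) K) :
    ∃ D : ℕ, (∀ j i, (c0 j).degreeOf i ≤ D) ∧ ∀ v j k i, (c v j k).degreeOf i ≤ D := by
  refine ⟨(∑ j, ∑ i, (c0 j).degreeOf i) + ∑ v, ∑ j, ∑ k, ∑ i, (c v j k).degreeOf i, ?_, ?_⟩
  · intro j i
    refine le_trans ?_ (Nat.le_add_right _ _)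
    exact (Finset.single_le_sum (f := fun i => (c0 j).degreeOf i) (fun _ _ => Nat.zero_le _)
      (Finset.mem_univ i)).trans
      (Finset.single_le_sum (f := fun j => ∑ i, (c0 j).degreeOf i)
        (fun _ _ => Nat.zero_le _) (Finset.mem_univ j))
  · intro v j k i
    refine le_trans ?_ (Nat.le_add_left _ _)
    exact (Finset.single_le_sum (f := fun i => (c v j k).degreeOf i)
      (fun _ _ => Nat.zero_le _) (Finset.mem_univ i)).trans
      ((Finset.single_le_sum (f := fun k => ∑ i, (c v j k).degreeOf i)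
        (fun _ _ => Nat.zero_le _) (Finset.mem_univ k)).trans
      ((Finset.single_le_sum (f := fun j => ∑ k, ∑ i, (c v j k).degreeOf i)
        (fun _ _ => Nat.zero_le _) (Finset.mem_univ j)).trans
      (Finset.single_le_sum (f := fun v => ∑ j, ∑ k, ∑ i, (c v j k).degreeOf i)
        (fun _ _ => Nat.zero_le _) (Finset.mem_univ v))))

/-- multiplication by a variable moves `aux` by `D` -/
lemma aux_mul {s r : ℕ} (Z : Fin s → MvPolynomial V K) (b : Fin r → MvPolynomial V K)
    (S : Set M) (D : ℕ) (v : V) (c : Fin r → Fin r → MvPolynomial (Fin s) K)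
    (hc : ∀ j, ∀ x : M, (X v * b j) • x = ∑ k, (aeval Z (c j k) * b k) • x)
    (hD : ∀ j k i, (c j k).degreeOf i ≤ D) (e : ℕ) (y : M) (hy : y ∈ aux Z b S e) :
    (X v : MvPolynomial V K) • y ∈ aux Z b S (e + D) := by
  induction hy using Submodule.span_induction with
  | mem y hy =>
    obtain ⟨q, hq, j, x, hx, rfl⟩ := hy
    have h1 : (X v : MvPolynomial V K) • (aeval Z q * b j) • x =
        ∑ k, (aeval Z (q * c j k) * b k) • x := by
      rw [smul_smul, show (X v : MvPolynomial V K) * (aeval Z q * b j) =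
        aeval Z q * (X v * b j) by ring, mul_smul, hc j x, Finset.smul_sum]
      refine Finset.sum_congr rfl fun k _ => ?_
      rw [smul_smul, map_mul, mul_assoc]
    rw [h1]
    refine Submodule.sum_mem _ fun k _ => Submodule.subset_span ?_
    exact ⟨q * c j k, fun i => (degreeOf_mul_le _ _ _).trans
      (Nat.add_le_add (hq i) (hD j k i)), k, x, hx, rfl⟩
  | zero => rw [smul_zero]; exact Submodule.zero_mem _
  | add y z _ _ hy hz => rw [smul_add]; exact Submodule.add_mem _ hy hz
  | smul a y _ hy =>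
    have : (X v : MvPolynomial V K) • a • y = a • (X v : MvPolynomial V K) • y := by
      rw [← algebraMap_smul (MvPolynomial V K) a y, smul_smul, mul_comm, ← smul_smul,
        algebraMap_smul]
    rw [this]
    exact Submodule.smul_mem _ _ hy

/-- Growth: `I` kills `M`, transcendence degree of every prime above `I` at most `t`. -/
theorem growth' [Finite V] (I : Ideal (MvPolynomial V K))
    (hIM : ∀ p ∈ I, ∀ x : M, p • x = 0) (t : ℕ)
    (ht : ∀ P : Ideal (MvPolynomial V K), P.IsPrime → I ≤ P →
      ∀ (s : ℕ) (z : Fin s → MvPolynomial V K ⧸ P), AlgebraicIndependent K z → s ≤ t)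
    (S : Finset M) : ∃ C : ℕ, ∀ d : ℕ, Module.Finite K (fil K V (S : Set M) d) ∧
      Module.finrank K (fil K V (S : Set M) d) ≤ C * (d + 1) ^ t := by
  classical
  have := Fintype.ofFinite V
  by_cases hI : I = ⊤
  · have h0 : ∀ x : M, x = 0 := fun x => by
      have := hIM 1 (by rw [hI]; trivial) x
      rwa [one_smul] at this
    have : Subsingleton M := ⟨fun x y => by rw [h0 x, h0 y]⟩
    refine ⟨0, fun d => ⟨inferInstance, ?_⟩⟩
    rw [Module.finrank_zero_of_subsingleton]
    exact Nat.zero_le _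
  obtain ⟨s, Z, r, b, hb, P, hP, hIP, hZ⟩ := normal I hI
  have hst : s ≤ t := by
    refine ht P hP hIP s (fun i => Ideal.Quotient.mk P (Z i)) ?_
    rw [algebraicIndependent_iff]
    intro q hq
    apply hZ q
    rw [← Ideal.Quotient.eq_zero_iff_mem, ← hq]
    have : ((Ideal.Quotient.mkₐ K P).comp (aeval Z)) =
        aeval (fun i => Ideal.Quotient.mk P (Z i)) := by
      apply MvPolynomial.algHom_ext
      intro i
      simp
    exact DFunLike.congr_fun this q
  -- structure constants
  obtain ⟨c0, hc0⟩ := hb 1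
  choose c hc using fun (v : V) (j : Fin r) => hb (X v * b j)
  obtain ⟨D, hD0, hD⟩ := bound c0 c
  have key : ∀ a : MvPolynomial V K, ∀ e : Fin r → MvPolynomial (Fin s) K,
      a - ∑ j, aeval Z (e j) * b j ∈ I → ∀ x : M, a • x = ∑ j, (aeval Z (e j) * b j) • x := by
    intro a e he x
    have := hIM _ he x
    rw [sub_smul, sub_eq_zero, Finset.sum_smul] at this
    exact this
  have hmul : ∀ (v : V) (e : ℕ), ∀ y ∈ aux Z b (S : Set M) e,
      (X v : MvPolynomial V K) • y ∈ aux Z b (S : Set M) (e + D) := fun v e y hy =>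
    aux_mul Z b (S : Set M) D v (c v) (fun j x => key _ _ (hc v j) x) (hD v) e y hy
  have hmon : ∀ (d : ℕ) (α : V →₀ ℕ), α.degree ≤ d → ∀ x ∈ (S : Set M),
      (monomial α (1 : K) : MvPolynomial V K) • x ∈ aux Z b (S : Set M) (D * d + D) := by
    intro d
    induction d with
    | zero =>
      intro α hα x hx
      have : α = 0 := (Finsupp.degree_eq_zero_iff α).1 (Nat.le_zero.1 hα)
      subst this
      have h1 : (monomial (0 : V →₀ ℕ) (1 : K) : MvPolynomial V K) = 1 := rfl
      rw [h1, key _ _ hc0 x]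
      refine Submodule.sum_mem _ fun k _ => Submodule.subset_span ?_
      exact ⟨c0 k, fun i => by simpa using hD0 k i, k, x, hx, rfl⟩
    | succ d ih =>
      intro α hα x hx
      by_cases h0 : α = 0
      · have h5 := ih α (by rw [h0]; simp) x hx
        have h6 : D * d + D ≤ D * (d + 1) + D := by
          rw [Nat.mul_succ]
          omega
        exact aux_mono Z b (S : Set M) h6 h5
      · obtain ⟨v, hv⟩ := Finsupp.ne_iff.1 h0
        have hv' : 1 ≤ α v := Nat.one_le_iff_ne_zero.2 hv
        have h1 : α = Finsupp.single v 1 + (α - Finsupp.single v 1) := by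
          ext w
          by_cases hw : v = w
          · subst hw; simp; omega
          · simp [Finsupp.single_eq_of_ne' hw]
        have h2 : (α - Finsupp.single v 1).degree ≤ d := by
          have := congrArg Finsupp.degree h1
          rw [map_add, Finsupp.degree_single] at this
          omega
        rw [h1, ← one_mul (1 : K), ← monomial_mul, mul_smul]
        have h3 := hmul v _ _ (ih _ h2 x hx)
        rw [show D * (d + 1) + D = D * d + D + D by ring]
        exact h3
  have hfil : ∀ d, fil K V (S : Set M) d ≤ aux Z b (S : Set M) (D * d + D) := by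
    intro d
    apply Submodule.span_le.2
    rintro y ⟨p, hp, x, hx, rfl⟩
    have h2 : p = ∑ α ∈ p.support, coeff α p • monomial α (1 : K) := by
      conv_lhs => rw [p.as_sum]
      refine Finset.sum_congr rfl fun α _ => ?_
      rw [smul_monomial, smul_eq_mul, mul_one]
    rw [h2, Finset.sum_smul]
    refine Submodule.sum_mem _ fun α hα => ?_
    rw [smul_assoc]
    refine Submodule.smul_mem _ _ (hmon d α ?_ x hx)
    exact (le_totalDegree hα).trans hp
  refine ⟨(D + 1) ^ s * (r * S.card), fun d => ?_⟩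
  obtain ⟨hf, hr⟩ := aux_finrank Z b S (D * d + D)
  refine ⟨Submodule.finiteDimensional_of_le (hfil d), ?_⟩
  calc Module.finrank K (fil K V (S : Set M) d)
      ≤ Module.finrank K (aux Z b (S : Set M) (D * d + D)) := Submodule.finrank_mono (hfil d)
    _ ≤ (D * d + D + 1) ^ s * (r * S.card) := by simpa using hr
    _ ≤ ((D + 1) * (d + 1)) ^ s * (r * S.card) := by
      refine Nat.mul_le_mul_right _ (Nat.pow_le_pow_left ?_ _)
      nlinarith
    _ = (D + 1) ^ s * (r * S.card) * (d + 1) ^ s := by rw [mul_pow]; ring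
    _ ≤ (D + 1) ^ s * (r * S.card) * (d + 1) ^ t :=
      Nat.mul_le_mul_left _ (Nat.pow_le_pow_right (Nat.succ_pos d) hst)

/-- Growth: `I` kills `M`, transcendence degree of every prime above `I` at most `t`. -/
theorem growth [Finite V] (I : Ideal (MvPolynomial V K))
    (hIM : ∀ p ∈ I, ∀ x : M, p • x = 0) (t : ℕ)
    (ht : ∀ P : Ideal (MvPolynomial V K), P.IsPrime → I ≤ P →
      Algebra.trdeg K (MvPolynomial V K ⧸ P) ≤ (t : Cardinal))
    (S : Finset M) : ∃ C : ℕ, ∀ d : ℕ, Module.Finite K (fil K V (S : Set M) d) ∧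
      Module.finrank K (fil K V (S : Set M) d) ≤ C * (d + 1) ^ t := by
  refine growth' I hIM t (fun P hP hIP s z hz => ?_) S
  have h4 := hz.lift_cardinalMk_le_trdeg.trans ((Cardinal.lift_le).2 (ht P hP hIP))
  simpa using h4

end Crest.Agent.R181.GR
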