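import Mathlib

/-!
R181, block (I3) of the index theorem (helper735 #11789): codimension lemma.
Part a: symmetric multilinear forms all of whose contractions have rank one.
-/

set_option autoImplicit false

namespace Crest.Agent.R181.IC

open Function Finset

section MultiB

variable {K : Type*} [Field K] {V : Type*} [AddCommGroup V] [Module K V]
  {ι : Type*} [Fintype ι] [DecidableEq ι]

/-- The rank one identity for the pair of slots `i, j` and the vector `e`. -/
def RankOneAt (M : MultilinearMap K (fun _ : ι => V) K) (e : V) (i j : ι) : Prop :=
  ∀ (v : ι → V) (x y : V),
    M (update (update v i e) j e) * M (update (update v i x) j y) =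
      M (update (update v i x) j e) * M (update (update v i y) j e)

/-- zero case -/
theorem zero_of_const_zero (M : MultilinearMap K (fun _ : ι => V) K) (e : V)
    (h : ∀ i j : ι, i ≠ j → RankOneAt M e i j)
    (h0 : M (fun _ => e) = 0) (j : ι) (v : ι → V) (hv : v j = e) : M v = 0 := by
  classical
  have key : ∀ n : ℕ, ∀ S : Finset ι, S.card = n → j ∉ S → ∀ v : ι → V,
      (∀ i, i ∉ S → v i = e) → M v = 0 := by
    intro n
    induction n with
    | zero =>
      intro S hS _ v hv
      rw [Finset.card_eq_zero] at hS
      subst hS
      have : v = fun _ => e := by
        funext i; exact hv i (by simp)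
      rw [this]; exact h0
    | succ n ih =>
      intro S hS hj v hv
      obtain ⟨i, hi⟩ : S.Nonempty := by
        rw [← Finset.card_pos]; omega
      have hij : i ≠ j := fun h' => hj (h' ▸ hi)
      have h1 := h i j hij v (v i) (v i)
      have h2 : M (update (update v i e) j e) = 0 := by
        apply ih (S.erase i) (by rw [Finset.card_erase_of_mem hi]; omega)
          (fun h' => hj (Finset.mem_of_mem_erase h'))
        intro k hk
        by_cases hkj : k = j
        · subst hkj; simp
        · rw [update_of_ne hkj]
          by_cases hki : k = i
          · subst hki; simp
          · rw [update_of_ne hki]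
            apply hv
            intro h'
            exact hk (Finset.mem_erase.2 ⟨hki, h'⟩)
      have h3 : update (update v i (v i)) j e = v := by
        rw [update_eq_self]
        rw [← hv j hj, update_eq_self]
      rw [h2, h3, zero_mul] at h1
      exact (mul_self_eq_zero.1 h1.symm)
  exact key _ (univ.erase j) rfl (by simp) v (by
    intro i hi
    have : i = j := by
      by_contra h'
      exact hi (by simp [h'])
    rw [this, hv])

/-- nonzero case -/
theorem pure_of_const_ne_zero (M : MultilinearMap K (fun _ : ι => V) K)
    (hM : ∀ (σ : Equiv.Perm ι) (v : ι → V), M (v ∘ σ) = M v) (e : V)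
    (h : ∀ i j : ι, i ≠ j → RankOneAt M e i j)
    (h0 : M (fun _ => e) ≠ 0) :
    ∃ lam : V →ₗ[K] K, ∀ v : ι → V, M v = M (fun _ => e) * ∏ i, lam (v i) := by
  classical
  rcases isEmpty_or_nonempty ι with hι | ⟨⟨i0⟩⟩
  · refine ⟨0, fun v => ?_⟩
    have : v = fun _ => e := Subsingleton.elim _ _
    rw [this]; simp
  set c := M (fun _ => e) with hc
  set lam : V →ₗ[K] K := c⁻¹ • M.toLinearMap (fun _ => e) i0 with hlam
  have hlam_apply : ∀ x, lam x = c⁻¹ * M (update (fun _ => e) i0 x) := by
    intro x; rfl
  have hsym : ∀ (i : ι) (x : V), M (update (fun _ => e) i x) = c * lam x := by
    intro i x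
    rw [hlam_apply, mul_inv_cancel_left₀ h0]
    have h1 := hM (Equiv.swap i i0) (update (fun _ => e) i0 x)
    rw [← h1]
    congr 1
    funext k
    simp only [Function.comp]
    by_cases hk : k = i
    · subst hk
      simp
    · by_cases hk0 : k = i0
      · subst hk0
        rw [Equiv.swap_apply_right, update_of_ne hk]
        by_cases hik : i = k
        · exact absurd hik.symm hk
        · rw [update_of_ne hik]
      · rw [Equiv.swap_apply_of_ne_of_ne hk hk0, update_of_ne hk, update_of_ne hk0]
  have hlam_e : lam e = 1 := by
    have h1 := hsym i0 e
    have h2 : update (fun _ : ι => e) i0 e = fun _ => e := by simp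
    rw [h2, ← hc] at h1
    have : c * 1 = c * lam e := by rw [mul_one]; exact h1
    exact (mul_left_cancel₀ h0 this).symm
  refine ⟨lam, ?_⟩
  have key : ∀ n : ℕ, ∀ S : Finset ι, S.card = n → ∀ v : ι → V,
      (∀ i, i ∉ S → v i = e) → M v = c * ∏ i ∈ S, lam (v i) := by
    intro n
    induction n using Nat.strong_induction_on with
    | _ n ih =>
    intro S hS v hv
    rcases Nat.lt_or_ge n 2 with hn | hn
    · interval_cases n
      · rw [Finset.card_eq_zero] at hS
        subst hS
        have : v = fun _ => e := by
          funext i; exact hv i (by simp)
        rw [this]; simp [hc]
      · rw [Finset.card_eq_one] at hS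
        obtain ⟨i, rfl⟩ := hS
        have : v = update (fun _ => e) i (v i) := by
          funext k
          by_cases hk : k = i
          · subst hk; simp
          · rw [update_of_ne hk]; exact hv k (by simpa using hk)
        rw [Finset.prod_singleton, this, hsym]
        simp
    · obtain ⟨i1, hi1, i2, hi2, hi12⟩ := Finset.one_lt_card.1 (by omega : 1 < S.card)
      -- inner induction
      have inner : ∀ m : ℕ, ∀ v : ι → V, (∀ i, i ∉ S → v i = e) →
          (((S.erase i1).erase i2).filter (fun i => lam (v i) = 0)).card = m →
          M v = c * ∏ i ∈ S, lam (v i) := by
        intro m
        induction m with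
        | zero =>
          intro v hv hcard
          rw [Finset.card_eq_zero, Finset.filter_eq_empty_iff] at hcard
          have h1 := h i1 i2 hi12 v (v i1) (v i2)
          set P := ∏ i ∈ (S.erase i1).erase i2, lam (v i) with hP
          have hP0 : P ≠ 0 := by
            rw [hP, Finset.prod_ne_zero_iff]
            intro i hi
            exact hcard hi
          have hi2' : i2 ∈ S.erase i1 := Finset.mem_erase.2 ⟨hi12.symm, hi2⟩
          have hc1 : (S.erase i1).card = n - 1 := by rw [Finset.card_erase_of_mem hi1, hS]
          have hc2 : ((S.erase i1).erase i2).card = n - 1 - 1 := by
            rw [Finset.card_erase_of_mem hi2', hc1]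
          have e1 : M (update (update v i1 e) i2 e) = c * P := by
            rw [ih (n-1-1) (by omega) ((S.erase i1).erase i2) hc2]
            · congr 1
              apply Finset.prod_congr rfl
              intro i hi
              have h2 : i ≠ i2 := (Finset.mem_erase.1 hi).1
              have h3 : i ≠ i1 := (Finset.mem_erase.1 (Finset.mem_erase.1 hi).2).1
              rw [update_of_ne h2, update_of_ne h3]
            · intro i hi
              by_cases h2 : i = i2
              · subst h2; simp
              · rw [update_of_ne h2]
                by_cases h3 : i = i1
                · subst h3; simp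
                · rw [update_of_ne h3]
                  apply hv
                  intro h'
                  exact hi (Finset.mem_erase.2 ⟨h2, Finset.mem_erase.2 ⟨h3, h'⟩⟩)
          have hSe : S.erase i2 = insert i1 ((S.erase i1).erase i2) := by
            ext k
            simp only [Finset.mem_erase, Finset.mem_insert]
            constructor
            · rintro ⟨h2, h3⟩
              by_cases hk : k = i1
              · exact Or.inl hk
              · exact Or.inr ⟨h2, hk, h3⟩
            · rintro (h2 | ⟨h2, h3, h4⟩)
              · subst h2; exact ⟨hi12, hi1⟩
              · exact ⟨h2, h4⟩
          have hni1 : i1 ∉ (S.erase i1).erase i2 := by simp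
          have e2 : ∀ x : V, M (update (update v i1 x) i2 e) = c * (lam x * P) := by
            intro x
            rw [ih (n-1) (by omega) (S.erase i2) (by rw [Finset.card_erase_of_mem hi2, hS])]
            · rw [hSe, Finset.prod_insert hni1]
              congr 1
              rw [update_of_ne hi12, update_self]
              congr 1
              apply Finset.prod_congr rfl
              intro i hi
              have h2 : i ≠ i2 := (Finset.mem_erase.1 hi).1
              have h3 : i ≠ i1 := (Finset.mem_erase.1 (Finset.mem_erase.1 hi).2).1
              rw [update_of_ne h2, update_of_ne h3]
            · intro i hi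
              by_cases h2 : i = i2
              · subst h2; simp
              · rw [update_of_ne h2]
                have h3 : i ≠ i1 := by
                  rintro rfl
                  exact hi (Finset.mem_erase.2 ⟨h2, hi1⟩)
                rw [update_of_ne h3]
                apply hv
                intro h'
                exact hi (Finset.mem_erase.2 ⟨h2, h'⟩)
          rw [e1, e2, e2, update_eq_self, update_eq_self] at h1
          have hSprod : ∏ i ∈ S, lam (v i) = lam (v i1) * (lam (v i2) * P) := by
            rw [← Finset.mul_prod_erase S _ hi1, ← Finset.mul_prod_erase (S.erase i1) _ hi2']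
          rw [hSprod]
          have hcP : c * P ≠ 0 := mul_ne_zero h0 hP0
          apply mul_left_cancel₀ hcP
          rw [h1]; ring
        | succ m ihm =>
          intro v hv hcard
          obtain ⟨i3, hi3⟩ : (((S.erase i1).erase i2).filter (fun i => lam (v i) = 0)).Nonempty := by
            rw [← Finset.card_pos]; omega
          have hi3' := (Finset.mem_filter.1 hi3).1
          have hl3 : lam (v i3) = 0 := (Finset.mem_filter.1 hi3).2
          have hi3S : i3 ∈ S := Finset.mem_of_mem_erase (Finset.mem_of_mem_erase hi3')
          have hadd := M.map_update_add v i3 (v i3) e
          rw [update_eq_self] at hadd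
          have t1 : M (update v i3 (v i3 + e)) = c * ∏ i ∈ S.erase i3, lam (v i) := by
            rw [ihm (update v i3 (v i3 + e))]
            · congr 1
              rw [← Finset.mul_prod_erase S _ hi3S, update_self, map_add, hl3, hlam_e, zero_add,
                one_mul]
              apply Finset.prod_congr rfl
              intro i hi
              rw [update_of_ne (Finset.mem_erase.1 hi).1]
            · intro i hi
              have : i ≠ i3 := by rintro rfl; exact hi hi3S
              rw [update_of_ne this]; exact hv i hi
            · have : (((S.erase i1).erase i2).filter
                  (fun i => lam (update v i3 (v i3 + e) i) = 0)) =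
                  (((S.erase i1).erase i2).filter (fun i => lam (v i) = 0)).erase i3 := by
                ext k
                simp only [Finset.mem_filter, Finset.mem_erase]
                by_cases hk : k = i3
                · subst hk
                  rw [update_self, map_add, hl3, hlam_e]
                  simp
                · rw [update_of_ne hk]
                  simp [hk]
              rw [this, Finset.card_erase_of_mem hi3, hcard]
              rfl
          have t2 : M (update v i3 e) = c * ∏ i ∈ S.erase i3, lam (v i) := by
            rw [ih (n-1) (by omega) (S.erase i3) (by rw [Finset.card_erase_of_mem hi3S, hS])]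
            · congr 1
              apply Finset.prod_congr rfl
              intro i hi
              rw [update_of_ne (Finset.mem_erase.1 hi).1]
            · intro i hi
              by_cases h2 : i = i3
              · subst h2; simp
              · rw [update_of_ne h2]
                apply hv
                intro h'
                exact hi (Finset.mem_erase.2 ⟨h2, h'⟩)
          rw [t1, t2] at hadd
          have : M v = 0 := by
            have := hadd
            linear_combination -this
          rw [this, ← Finset.mul_prod_erase S _ hi3S, hl3]
          ring
      exact inner _ v hv rfl
  intro v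
  rw [key _ univ rfl v (by simp)]

end MultiB

end Crest.Agent.R181.IC
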