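import Mathlib
import Crest.Agent.R181.IC573a

/-!
R181, block (I3) of the index theorem (helper735 #11789): codimension lemma.
Part b: a point of codimension at most one killed by all contractions of a symmetric tensor
forces the tensor to be a multiple of a pure power.
-/

set_option autoImplicit false
set_option linter.unusedSectionVars false

namespace Crest.Agent.R181.IC

open Function Finset

section Ev

variable {K : Type*} [Field K] {J : Type*} [Fintype J] [DecidableEq J]
  {ι : Type*} [Fintype ι] [DecidableEq ι]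

/-- A tensor is a multiple of a pure power. -/
def IsPurePow (Φ : (ι → J) → K) : Prop :=
  ∃ (κ : K) (lam : J → K), ∀ v, Φ v = κ * ∏ i, lam (v i)

/-- The multilinear extension of a tensor to an algebra `A`. -/
noncomputable def ev (Φ : (ι → J) → K) (A : Type*) [CommRing A] [Algebra K A] :
    MultilinearMap A (fun _ : ι => J → A) A :=
  ∑ v : ι → J, algebraMap K A (Φ v) •
    (MultilinearMap.mkPiAlgebra A ι A).compLinearMap (fun i => LinearMap.proj (v i))

theorem ev_apply (Φ : (ι → J) → K) (A : Type*) [CommRing A] [Algebra K A] (l : ι → J → A) :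
    ev Φ A l = ∑ v : ι → J, algebraMap K A (Φ v) * ∏ i, l i (v i) := by
  simp [ev]

theorem map_ev (Φ : (ι → J) → K) {A B : Type*} [CommRing A] [Algebra K A] [CommRing B]
    [Algebra K B] (f : A →ₐ[K] B) (l : ι → J → A) :
    f (ev Φ A l) = ev Φ B (fun i j => f (l i j)) := by
  simp [ev_apply, map_sum, map_mul, map_prod]

theorem ev_symm (Φ : (ι → J) → K) (hΦ : ∀ (σ : Equiv.Perm ι) (v : ι → J), Φ (v ∘ σ) = Φ v)
    (A : Type*) [CommRing A] [Algebra K A] (σ : Equiv.Perm ι) (l : ι → J → A) :
    ev Φ A (l ∘ σ) = ev Φ A l := by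
  rw [ev_apply, ev_apply]
  refine Fintype.sum_equiv (Equiv.arrowCongr σ (Equiv.refl J)) _ _ ?_
  intro v
  have h1 : Φ ((Equiv.arrowCongr σ (Equiv.refl J)) v) = Φ v := by
    have : (Equiv.arrowCongr σ (Equiv.refl J)) v = v ∘ σ.symm := by
      funext i; simp [Equiv.arrowCongr]
    rw [this, hΦ]
  rw [h1]
  congr 1
  refine Fintype.prod_equiv σ _ _ ?_
  intro i
  simp [Equiv.arrowCongr]

theorem prod_single (v w : ι → J) (A : Type*) [CommRing A] :
    (∏ i, (Pi.single (v i) 1 : J → A) (w i)) = if w = v then 1 else 0 := by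
  classical
  split_ifs with h
  · subst h; simp
  · obtain ⟨i, hi⟩ : ∃ i, w i ≠ v i := by
      by_contra hcon
      push Not at hcon
      exact h (funext hcon)
    apply Finset.prod_eq_zero (Finset.mem_univ i)
    rw [Pi.single_eq_of_ne hi]

theorem ev_single (Φ : (ι → J) → K) (A : Type*) [CommRing A] [Algebra K A] (v : ι → J) :
    ev Φ A (fun i => Pi.single (v i) 1) = algebraMap K A (Φ v) := by
  classical
  rw [ev_apply]
  simp only [prod_single]
  simp

/-- Expansion in one slot. -/
theorem ev_expand (Φ : (ι → J) → K) (A : Type*) [CommRing A] [Algebra K A] (l : ι → J → A)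
    (i : ι) (x : J → A) :
    ev Φ A (update l i x) = ∑ r : J, x r * ev Φ A (update l i (Pi.single r 1)) := by
  classical
  have hx : x = ∑ r : J, x r • (Pi.single r (1 : A) : J → A) := by
    funext j
    simp [Finset.sum_apply, Pi.single_apply]
  conv_lhs => rw [hx]
  rw [MultilinearMap.map_update_sum]
  apply Finset.sum_congr rfl
  intro r _
  rw [MultilinearMap.map_update_smul, smul_eq_mul]

end Ev

section Point

variable {K : Type*} [Field K] {Ω : Type*} [Field Ω] [Algebra K Ω]
  {J : Type*} [Fintype J] [DecidableEq J]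
  {ι : Type*} [Fintype ι] [DecidableEq ι]

/-- The generic point in the slots other than `i0, z`. -/
noncomputable def Wgen (K : Type*) [Field K] (J : Type*) {ι : Type*} [DecidableEq ι] (i0 z : ι) :
    ι → J → MvPolynomial ({i : ι // i ≠ i0 ∧ i ≠ z} × J) K := fun i j =>
  if h : i ≠ i0 ∧ i ≠ z then MvPolynomial.X (⟨i, h⟩, j) else 0

/-- The contraction with `x` in slot `i0`, `y` in slot `z` as a polynomial. -/
noncomputable def bgen (Φ : (ι → J) → K) (i0 z : ι) (x y : J → K) :
    MvPolynomial ({i : ι // i ≠ i0 ∧ i ≠ z} × J) K :=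
  ev Φ (MvPolynomial ({i : ι // i ≠ i0 ∧ i ≠ z} × J) K)
    (update (update (Wgen K J i0 z) i0 (fun j => MvPolynomial.C (x j))) z
      (fun j => MvPolynomial.C (y j)))

theorem aeval_bgen (Φ : (ι → J) → K) (i0 z : ι) (A : Type*) [CommRing A] [Algebra K A]
    (m : ι → J → A) (x y : J → K) :
    MvPolynomial.aeval (fun t : {i : ι // i ≠ i0 ∧ i ≠ z} × J => m t.1.1 t.2) (bgen Φ i0 z x y) =
      ev Φ A (update (update m i0 (fun j => algebraMap K A (x j))) z
        (fun j => algebraMap K A (y j))) := by
  rw [bgen, map_ev]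
  congr 1
  funext i j
  by_cases h1 : i = z
  · subst h1; simp
  · by_cases h2 : i = i0
    · subst h2; simp [h1]
    · simp [h1, h2, Wgen]

/-- Main step: the point is generic except possibly at one coordinate `(i0, j0)`. -/
theorem rankOne_of_point (Φ : (ι → J) → K)
    (hΦ : ∀ (σ : Equiv.Perm ι) (v : ι → J), Φ (v ∘ σ) = Φ v)
    (i0 z : ι) (hiz : i0 ≠ z) (j0 : J) (l : ι → J → Ω)
    (hz : ∀ j, ev Φ Ω (update l z (Pi.single j 1)) = 0)
    (hT : AlgebraicIndependent K
      (fun t : {t : ι × J // t.1 ≠ z ∧ t ≠ (i0, j0)} => l t.1.1 t.1.2)) :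
    RankOneAt (ev Φ K) (Pi.single j0 1) i0 z ∧
      (Φ ≠ 0 → ∃ v, ev Φ K (update (update v i0 (Pi.single j0 1)) z (Pi.single j0 1)) ≠ 0) := by
  classical
  -- the rest variables
  let Rest := {i : ι // i ≠ i0 ∧ i ≠ z}
  let lr : Rest × J → Ω := fun t => l t.1.1 t.2
  let le : {j : J // j ≠ j0} → Ω := fun j => l i0 j.1
  have hsum : AlgebraicIndependent K (Sum.elim le lr) := by
    let g : {j : J // j ≠ j0} ⊕ (Rest × J) → {t : ι × J // t.1 ≠ z ∧ t ≠ (i0, j0)} :=
      Sum.elim (fun j => ⟨(i0, j.1), hiz, fun h => j.2 (Prod.ext_iff.1 h).2⟩)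
        (fun t => ⟨(t.1.1, t.2), t.1.2.2, fun h => t.1.2.1 (Prod.ext_iff.1 h).1⟩)
    have hg : Function.Injective g := by
      rintro (a | a) (b | b) hab
      · simp only [g, Sum.elim_inl, Subtype.mk.injEq, Prod.mk.injEq, true_and] at hab
        exact congrArg Sum.inl (Subtype.ext hab)
      · simp only [g, Sum.elim_inl, Sum.elim_inr, Subtype.mk.injEq, Prod.mk.injEq] at hab
        exact absurd hab.1.symm b.1.2.1
      · simp only [g, Sum.elim_inl, Sum.elim_inr, Subtype.mk.injEq, Prod.mk.injEq] at hab
        exact absurd hab.1 a.1.2.1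
      · simp only [g, Sum.elim_inr, Subtype.mk.injEq, Prod.mk.injEq] at hab
        exact congrArg Sum.inr (Prod.ext (Subtype.ext hab.1) hab.2)
    have := hT.comp g hg
    convert this using 1
    funext s
    rcases s with s | s <;> rfl
  rw [AlgebraicIndependent.sumElim_iff] at hsum
  obtain ⟨hlr, hle⟩ := hsum
  have hlin := hle.linearIndependent
  -- `B x y`
  let hat : (J → K) → (J → Ω) := fun x j => algebraMap K Ω (x j)
  let B : (J → K) → (J → K) → Ω := fun x y => ev Φ Ω (update (update l i0 (hat x)) z (hat y))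
  have hbB : ∀ x y, MvPolynomial.aeval lr (bgen Φ i0 z x y) = B x y := by
    intro x y
    exact aeval_bgen Φ i0 z Ω l x y
  have hbK : ∀ (v : ι → J → K) (x y : J → K),
      MvPolynomial.aeval (fun t : Rest × J => v t.1.1 t.2) (bgen Φ i0 z x y) =
        ev Φ K (update (update v i0 x) z y) := by
    intro v x y
    exact aeval_bgen Φ i0 z K v x y
  have hhat : ∀ r, hat (Pi.single r 1) = Pi.single r 1 := by
    intro r
    funext j
    by_cases h : j = r
    · subst h; simp [hat]
    · simp [hat, h]
  -- symmetry of `B`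
  have hBsymm : ∀ x y, B x y = B y x := by
    intro x y
    simp only [B]
    rw [← ev_symm Φ hΦ Ω (Equiv.swap i0 z) (update (update l i0 (hat y)) z (hat x))]
    congr 1
    funext k
    simp only [Function.comp]
    by_cases h1 : k = z
    · subst h1
      rw [Equiv.swap_apply_right, update_self, update_of_ne hiz, update_self]
    · by_cases h2 : k = i0
      · subst h2
        rw [Equiv.swap_apply_left, update_self, update_of_ne hiz, update_self]
      · rw [Equiv.swap_apply_of_ne_of_ne h2 h1, update_of_ne h1, update_of_ne h2,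
          update_of_ne h1, update_of_ne h2]
  -- the kernel relation
  have hker : ∀ y, ∑ r : J, l i0 r * B (Pi.single r 1) y = 0 := by
    intro y
    have h1 : ev Φ Ω (update l z (hat y)) = 0 := by
      rw [ev_expand]
      apply Finset.sum_eq_zero
      intro r _
      rw [hz, mul_zero]
    have h2 : update l z (hat y) = update (update l z (hat y)) i0 (l i0) := by
      funext k
      by_cases h : k = i0
      · subst h; rw [update_self, update_of_ne hiz]
      · rw [update_of_ne h]
    rw [h2, ev_expand] at h1
    rw [← h1]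
    apply Finset.sum_congr rfl
    intro r _
    congr 1
    simp only [B]
    rw [hhat, update_comm hiz]
  -- elements of the adjoin
  let R' := Algebra.adjoin K (Set.range lr)
  have hBmem : ∀ x y, B x y ∈ R' := by
    intro x y
    rw [← hbB x y]
    simp only [R', Algebra.adjoin_range_eq_range_aeval]
    exact ⟨bgen Φ i0 z x y, rfl⟩
  have hindep : ∀ c : J → Ω, (∀ r, c r ∈ R') → c j0 = 0 → ∑ r : J, l i0 r * c r = 0 →
      ∀ r, c r = 0 := by
    intro c hc hc0 hsum r
    by_cases hr : r = j0
    · rw [hr, hc0]
    rw [Fintype.linearIndependent_iff] at hlin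
    have := hlin (fun j => ⟨c j.1, hc j.1⟩) (by
      have h1 : ∑ r : J, l i0 r * c r = ∑ j : {j : J // j ≠ j0}, l i0 j.1 * c j.1 := by
        rw [← Finset.sum_subtype (univ.filter (fun j => j ≠ j0)) (by simp)
          (fun r => l i0 r * c r), Finset.sum_filter]
        apply Finset.sum_congr rfl
        intro r _
        by_cases h : r = j0
        · subst h; simp [hc0]
        · simp [h]
      rw [← hsum, h1]
      apply Finset.sum_congr rfl
      intro j _
      rw [mul_comm]
      rfl) ⟨r, hr⟩
    have := congrArg Subtype.val this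
    exact this
  set e : J → K := Pi.single j0 1 with he
  have hBj0 : ∀ y, B (Pi.single j0 1) y = B e y := fun y => rfl
  -- rank one relation for rows
  have hrow : ∀ y y' r, B e y' * B (Pi.single r 1) y = B e y * B (Pi.single r 1) y' := by
    intro y y' r
    have h1 := hindep (fun r => B e y' * B (Pi.single r 1) y - B e y * B (Pi.single r 1) y')
      (fun r => R'.sub_mem (R'.mul_mem (hBmem _ _) (hBmem _ _))
        (R'.mul_mem (hBmem _ _) (hBmem _ _)))
      (by simp only [hBj0]; ring)
      (by
        have h2 := hker y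
        have h3 := hker y'
        have : ∑ r : J, l i0 r * (B e y' * B (Pi.single r 1) y - B e y * B (Pi.single r 1) y') =
            B e y' * ∑ r : J, l i0 r * B (Pi.single r 1) y -
              B e y * ∑ r : J, l i0 r * B (Pi.single r 1) y' := by
          rw [Finset.mul_sum, Finset.mul_sum, ← Finset.sum_sub_distrib]
          apply Finset.sum_congr rfl
          intro r _
          ring
        rw [this, h2, h3]; ring) r
    linear_combination h1
  have hBx : ∀ x y, B x y = ∑ r : J, algebraMap K Ω (x r) * B (Pi.single r 1) y := by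
    intro x y
    simp only [B]
    rw [update_comm hiz, ev_expand]
    apply Finset.sum_congr rfl
    intro r _
    rw [hhat, update_comm hiz.symm]
  have hrank : ∀ x y, B e e * B x y = B x e * B y e := by
    intro x y
    rw [hBx x y, hBx x e, Finset.mul_sum, Finset.sum_mul]
    apply Finset.sum_congr rfl
    intro r _
    have := hrow y e r
    rw [hBsymm y e]
    linear_combination (algebraMap K Ω (x r)) * this
  have hpoly : ∀ x y, bgen Φ i0 z e e * bgen Φ i0 z x y = bgen Φ i0 z x e * bgen Φ i0 z y e := by
    intro x y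
    apply sub_eq_zero.1
    apply hlr.eq_zero_of_aeval_eq_zero
    rw [map_sub, map_mul, map_mul, hbB, hbB, hbB, hbB, hrank, sub_self]
  refine ⟨?_, ?_⟩
  · intro v x y
    have := congrArg (MvPolynomial.aeval (fun t : Rest × J => v t.1.1 t.2)) (hpoly x y)
    rw [map_mul, map_mul, hbK, hbK, hbK, hbK] at this
    exact this
  · intro hΦ0
    by_contra hcon
    push Not at hcon
    apply hΦ0
    have hz0 : ∀ v : ι → J, v i0 = j0 → v z = j0 → Φ v = 0 := by
      intro v h1 h2
      have h3 := hcon (fun i => Pi.single (v i) 1)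
      have h4 : update (update (fun i => (Pi.single (v i) 1 : J → K)) i0 (Pi.single j0 1)) z
          (Pi.single j0 1) = fun i => Pi.single (v i) 1 := by
        funext k
        by_cases hk1 : k = z
        · subst hk1; rw [update_self, h2]
        · rw [update_of_ne hk1]
          by_cases hk2 : k = i0
          · subst hk2; rw [update_self, h1]
          · rw [update_of_ne hk2]
      rw [h4, ev_single] at h3
      simpa using h3
    have hBee : B e e = 0 := by
      simp only [B]
      rw [ev_apply]
      apply Finset.sum_eq_zero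
      intro v _
      by_cases h1 : v i0 = j0
      · by_cases h2 : v z = j0
        · rw [hz0 v h1 h2]; simp
        · rw [Finset.prod_eq_zero (Finset.mem_univ z), mul_zero]
          rw [update_self]
          simp [hat, he, h2]
      · rw [Finset.prod_eq_zero (Finset.mem_univ i0), mul_zero]
        rw [update_of_ne hiz, update_self]
        simp [hat, he, h1]
    have h1 : ∀ r, B (Pi.single r 1) e = 0 := 
      hindep (fun r => B (Pi.single r 1) e) (fun r => hBmem _ _) hBee (hker e)
    have h2 : ∀ y, B y e = 0 := by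
      intro y
      rw [hBx]
      apply Finset.sum_eq_zero
      intro r _
      rw [h1, mul_zero]
    have h3 : ∀ y r, B (Pi.single r 1) y = 0 := by
      intro y
      exact hindep (fun r => B (Pi.single r 1) y) (fun r => hBmem _ _)
        (by show B e y = 0
            rw [hBsymm, h2]) (hker y)
    have h4 : ∀ x y, B x y = 0 := by
      intro x y
      rw [hBx]
      apply Finset.sum_eq_zero
      intro r _
      rw [h3, mul_zero]
    have h5 : ∀ x y, bgen Φ i0 z x y = 0 := by
      intro x y
      apply hlr.eq_zero_of_aeval_eq_zero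
      rw [hbB, h4]
    funext v
    have h6 := hbK (fun i => Pi.single (v i) 1) (Pi.single (v i0) 1) (Pi.single (v z) 1)
    rw [h5, map_zero, update_eq_self, update_eq_self, ev_single] at h6
    simpa using h6.symm

/-- A symmetric tensor whose contractions vanish at a point of codimension at most one is a
multiple of a pure power. -/
theorem isPurePow_of_point (Φ : (ι → J) → K)
    (hΦ : ∀ (σ : Equiv.Perm ι) (v : ι → J), Φ (v ∘ σ) = Φ v)
    (i0 z : ι) (hiz : i0 ≠ z) (j0 : J) (l : ι → J → Ω)
    (hz : ∀ j, ev Φ Ω (update l z (Pi.single j 1)) = 0)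
    (hT : AlgebraicIndependent K
      (fun t : {t : ι × J // t.1 ≠ z ∧ t ≠ (i0, j0)} => l t.1.1 t.1.2)) :
    IsPurePow Φ := by
  classical
  by_cases hΦ0 : Φ = 0
  · exact ⟨0, 0, fun v => by simp [hΦ0]⟩
  obtain ⟨h1, h2⟩ := rankOne_of_point Φ hΦ i0 z hiz j0 l hz hT
  obtain ⟨v0, hv0⟩ := h2 hΦ0
  have hM : ∀ (σ : Equiv.Perm ι) (v : ι → J → K), ev Φ K (v ∘ σ) = ev Φ K v :=
    fun σ v => ev_symm Φ hΦ K σ v
  have hall : ∀ i j : ι, i ≠ j → RankOneAt (ev Φ K) (Pi.single j0 1) i j := by
    intro i j hij v x y
    obtain ⟨σ, hσ1, hσ2⟩ : ∃ σ : Equiv.Perm ι, σ i0 = i ∧ σ z = j := by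
      refine ⟨Equiv.swap (Equiv.swap i0 i z) j * Equiv.swap i0 i, ?_, ?_⟩
      · rw [Equiv.Perm.mul_apply, Equiv.swap_apply_left]
        apply Equiv.swap_apply_of_ne_of_ne _ hij
        intro h
        have h3 : Equiv.swap i0 i i0 = Equiv.swap i0 i z := by
          rw [Equiv.swap_apply_left]; exact h
        exact hiz ((Equiv.swap i0 i).injective h3)
      · rw [Equiv.Perm.mul_apply, Equiv.swap_apply_left]
    have hre : ∀ a b : J → K, ev Φ K (update (update v i a) j b) =
        ev Φ K (update (update (v ∘ σ) i0 a) z b) := by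
      intro a b
      rw [← hM σ (update (update v i a) j b)]
      congr 1
      funext k
      simp only [Function.comp]
      by_cases hk : k = z
      · subst hk; rw [hσ2, update_self, update_self]
      · have h3 : σ k ≠ j := fun h => hk (σ.injective (h.trans hσ2.symm))
        rw [update_of_ne h3, update_of_ne hk]
        by_cases hk' : k = i0
        · subst hk'; rw [hσ1, update_self, update_self]
        · have h4 : σ k ≠ i := fun h => hk' (σ.injective (h.trans hσ1.symm))
          rw [update_of_ne h4, update_of_ne hk']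
          rfl
    rw [hre, hre, hre, hre]
    exact h1 (v ∘ σ) x y
  by_cases hc : ev Φ K (fun _ => Pi.single j0 1) = 0
  · exact absurd (zero_of_const_zero (ev Φ K) (Pi.single j0 1) hall hc z _ (by simp)) hv0
  · obtain ⟨lam, hlam⟩ := pure_of_const_ne_zero (ev Φ K) hM (Pi.single j0 1) hall hc
    refine ⟨ev Φ K (fun _ => Pi.single j0 1), fun j => lam (Pi.single j 1), fun v => ?_⟩
    rw [← hlam (fun i => Pi.single (v i) 1), ev_single]
    rfl

end Point

end Crest.Agent.R181.IC
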