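import Mathlib
import Crest.Agent.R181.IC573b

/-!
R181, block (I3) of the index theorem (helper735 #11789): codimension lemma.
Part c: the form with `Fin.snoc` (one block), and the form with `m` blocks and a point `y`.
-/

set_option autoImplicit false
set_option linter.unusedSectionVars false

namespace Crest.Agent.R181.IC

open Function Finset

section OneBlock

variable {K : Type*} [Field K] {Ω : Type*} [Field Ω] [Algebra K Ω]
  {J : Type*} [Fintype J] [DecidableEq J] {b : ℕ}

/-- The contraction of all slots but the last. -/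
noncomputable def contr (Φ : (Fin (b + 1) → J) → K) (l : Fin b → J → Ω) (j : J) : Ω :=
  ∑ v : Fin b → J, algebraMap K Ω (Φ (Fin.snoc v j)) * ∏ i, l i (v i)

theorem contr_eq_ev (Φ : (Fin (b + 1) → J) → K) (l : Fin b → J → Ω) (j : J) :
    ev Φ Ω (update (Fin.snoc l (fun _ => 0) : Fin (b + 1) → J → Ω) (Fin.last b)
      (Pi.single j 1)) = contr Φ l j := by
  classical
  rw [ev_apply, contr, ← (Fin.snocEquiv (fun _ : Fin (b + 1) => J)).sum_comp,
    Fintype.sum_prod_type]
  rw [Finset.sum_eq_single j]
  · apply Finset.sum_congr rfl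
    intro v _
    have h1 : (Fin.snocEquiv (fun _ : Fin (b + 1) => J)) (j, v) = Fin.snoc v j := rfl
    rw [h1, Fin.prod_univ_castSucc]
    congr 1
    simp only [Fin.snoc_castSucc, Fin.snoc_last, update_self, Pi.single_eq_same, mul_one]
    apply Finset.prod_congr rfl
    intro i _
    rw [update_of_ne (Fin.castSucc_lt_last i).ne, Fin.snoc_castSucc]
  · intro r _ hr
    apply Finset.sum_eq_zero
    intro v _
    have h1 : (Fin.snocEquiv (fun _ : Fin (b + 1) => J)) (r, v) = Fin.snoc v r := rfl
    rw [h1, Fin.prod_univ_castSucc]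
    simp only [Fin.snoc_last, update_self]
    rw [Pi.single_eq_of_ne hr, mul_zero, mul_zero]
  · intro h; exact absurd (Finset.mem_univ j) h

/-- (CD1), finset form. -/
theorem card_le_of_contr_eq_zero (Φ : (Fin (b + 1) → J) → K)
    (hΦ : ∀ (σ : Equiv.Perm (Fin (b + 1))) (v : Fin (b + 1) → J), Φ (v ∘ σ) = Φ v)
    (hnp : ¬ IsPurePow Φ) (l : Fin b → J → Ω) (hl : ∀ j, contr Φ l j = 0)
    (T : Finset (Fin b × J))
    (hT : AlgebraicIndependent K (fun t : T => l t.1.1 t.1.2)) :
    T.card + 2 ≤ b * Fintype.card J := by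
  classical
  by_contra hcon
  push Not at hcon
  apply hnp
  rcases isEmpty_or_nonempty J with hJ | hJ
  · exact ⟨0, fun _ => 0, fun v => (hJ.false (v 0)).elim⟩
  rcases Nat.eq_zero_or_pos b with hb | hb
  · subst hb
    refine ⟨0, fun _ => 0, fun v => ?_⟩
    have h1 := hl (v (Fin.last 0))
    simp only [contr, Finset.univ_unique, Finset.sum_singleton, Finset.univ_eq_empty,
      Finset.prod_empty, mul_one] at h1
    have h2 : Φ v = 0 := by
      have h3 : (Fin.snoc (default : Fin 0 → J) (v (Fin.last 0)) : Fin (0 + 1) → J) = v := by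
        funext i
        have hi : i = Fin.last 0 := Fin.ext (by have := i.2; simp)
        subst hi
        rw [Fin.snoc_last]
      rw [h3] at h1
      simpa using h1
    rw [h2, zero_mul]
  · obtain ⟨p, hp⟩ : ∃ p : Fin b × J, ∀ t : Fin b × J, t ≠ p → t ∈ T := by
      have hcard : (univ \ T : Finset (Fin b × J)).card ≤ 1 := by
        rw [Finset.card_sdiff_of_subset (Finset.subset_univ T), Finset.card_univ,
          Fintype.card_prod, Fintype.card_fin]
        omega
      rcases (univ \ T : Finset (Fin b × J)).eq_empty_or_nonempty with he | ⟨p, hp⟩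
      · refine ⟨(⟨0, hb⟩, Classical.arbitrary J), fun t _ => ?_⟩
        by_contra ht
        have : t ∈ (univ \ T : Finset (Fin b × J)) := by simp [ht]
        rw [he] at this
        simp at this
      · refine ⟨p, fun t ht => ?_⟩
        by_contra hnt
        have h1 : t ∈ (univ \ T : Finset (Fin b × J)) := by simp [hnt]
        exact ht (Finset.card_le_one.1 hcard t h1 p hp)
    refine isPurePow_of_point Φ hΦ p.1.castSucc (Fin.last b) (Fin.castSucc_lt_last _).ne p.2
      (Fin.snoc l (fun _ => 0) : Fin (b + 1) → J → Ω) ?_ ?_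
    · intro j
      rw [contr_eq_ev]; exact hl j
    · let g : {t : Fin (b + 1) × J // t.1 ≠ Fin.last b ∧ t ≠ (p.1.castSucc, p.2)} → T :=
        fun t => ⟨(t.1.1.castPred t.2.1, t.1.2), hp _ (by
          intro h
          apply t.2.2
          have h1 := (Prod.ext_iff.1 h).1
          have h2 := (Prod.ext_iff.1 h).2
          simp only at h1 h2
          apply Prod.ext
          · exact (Fin.castSucc_castPred t.1.1 t.2.1).symm.trans (congrArg Fin.castSucc h1)
          · exact h2)⟩
      have hg : Function.Injective g := by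
        intro a c hac
        simp only [g, Subtype.mk.injEq, Prod.mk.injEq] at hac
        apply Subtype.ext
        apply Prod.ext
        · have := hac.1
          rwa [Fin.castPred_inj] at this
        · exact hac.2
      have h1 := hT.comp g hg
      convert h1 using 1
      funext t
      simp only [Function.comp, g]
      conv_lhs => rw [← Fin.castSucc_castPred t.1.1 t.2.1]
      rw [Fin.snoc_castSucc]

end OneBlock

section Spec

variable {K : Type*} [Field K] {J : Type*} [Fintype J] {ι : Type*} [Fintype ι] {c : ℕ}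

/-- Specialisation of a point of an extension field to the algebraic closure. -/
theorem exists_specialization {L : Type*} [Field L] [Algebra K L] {σ : Type*} [Finite σ]
    (x : σ → L) : ∃ x' : σ → AlgebraicClosure K, ∀ p : MvPolynomial σ K,
      MvPolynomial.aeval x p = 0 → MvPolynomial.aeval x' p = 0 := by
  classical
  let P : Ideal (MvPolynomial σ K) := RingHom.ker (MvPolynomial.aeval x : MvPolynomial σ K →ₐ[K] L)
  have hP : P ≠ ⊤ := RingHom.ker_ne_top _
  obtain ⟨M, hM, hPM⟩ := Ideal.exists_le_maximal P hP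
  let _ : Field (MvPolynomial σ K ⧸ M) := Ideal.Quotient.field M
  have : Algebra.FiniteType K (MvPolynomial σ K ⧸ M) :=
    Algebra.FiniteType.of_surjective (Ideal.Quotient.mkₐ K M) (Ideal.Quotient.mkₐ_surjective K M)
  have : Module.Finite K (MvPolynomial σ K ⧸ M) :=
    finite_of_finite_type_of_isJacobsonRing K (MvPolynomial σ K ⧸ M)
  let f : (MvPolynomial σ K ⧸ M) →ₐ[K] AlgebraicClosure K := IsAlgClosed.lift
  refine ⟨fun i => f (Ideal.Quotient.mkₐ K M (MvPolynomial.X i)), fun p hp => ?_⟩
  have h1 : MvPolynomial.aeval (fun i => f (Ideal.Quotient.mkₐ K M (MvPolynomial.X i))) p =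
      f (Ideal.Quotient.mkₐ K M p) := by
    have : (MvPolynomial.aeval (fun i => f (Ideal.Quotient.mkₐ K M (MvPolynomial.X i)))) =
        (f.comp (Ideal.Quotient.mkₐ K M)) := by
      apply MvPolynomial.algHom_ext
      intro i
      simp
    rw [this]; rfl
  rw [h1]
  have h2 : p ∈ M := hPM hp
  have h3 : Ideal.Quotient.mkₐ K M p = 0 := Ideal.Quotient.eq_zero_iff_mem.2 h2
  rw [h3, map_zero]

/-- No nonzero combination of the tensors over the algebraic closure is a multiple of a pure
power. -/
def Bpf (φ : Fin c → (ι → J) → K) : Prop :=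
  ∀ y : Fin c → AlgebraicClosure K, y ≠ 0 →
    ¬ IsPurePow (fun v => ∑ s, y s * algebraMap K (AlgebraicClosure K) (φ s v))

theorem not_isPurePow_of_bpf (φ : Fin c → (ι → J) → K) (hb : Bpf φ) {L : Type*} [Field L]
    [Algebra K L] (y : Fin c → L) (hy : y ≠ 0) :
    ¬ IsPurePow (fun v => ∑ s, y s * algebraMap K L (φ s v)) := by
  classical
  rintro ⟨κ, lam, h⟩
  obtain ⟨s0, hs0⟩ : ∃ s, y s ≠ 0 := by
    by_contra hcon
    push Not at hcon
    exact hy (funext hcon)
  let x : Fin c ⊕ (Unit ⊕ J) → L :=
    Sum.elim (fun s => y s / y s0) (Sum.elim (fun _ => κ / y s0) lam)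
  obtain ⟨x', hx'⟩ := exists_specialization (K := K) x
  refine hb (fun s => x' (Sum.inl s)) ?_ ⟨x' (Sum.inr (Sum.inl ())),
    fun j => x' (Sum.inr (Sum.inr j)), fun v => ?_⟩
  · intro h0
    have h1 := hx' (MvPolynomial.X (Sum.inl s0) - 1) (by
      simp only [map_sub, MvPolynomial.aeval_X, map_one, x, Sum.elim_inl]
      rw [div_self hs0, sub_self])
    simp only [map_sub, MvPolynomial.aeval_X, map_one] at h1
    have h2 := congrFun h0 s0
    simp only [Pi.zero_apply] at h2
    rw [h2] at h1
    simp at h1
  · have h1 := hx' ((∑ s, MvPolynomial.X (Sum.inl s) * MvPolynomial.C (φ s v)) -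
        MvPolynomial.X (Sum.inr (Sum.inl ())) * ∏ i, MvPolynomial.X (Sum.inr (Sum.inr (v i)))) (by
      simp only [map_sub, map_sum, map_mul, map_prod, MvPolynomial.aeval_X, MvPolynomial.algHom_C,
        x, Sum.elim_inl, Sum.elim_inr]
      have h2 := h v
      simp only at h2
      have h3 : ∑ s, y s / y s0 * algebraMap K L (φ s v) =
          (∑ s, y s * algebraMap K L (φ s v)) / y s0 := by
        rw [Finset.sum_div]
        apply Finset.sum_congr rfl
        intro s _
        ring
      rw [h3, h2]; ring)
    simp only [map_sub, map_sum, map_mul, map_prod, MvPolynomial.aeval_X,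
      MvPolynomial.algHom_C] at h1
    exact sub_eq_zero.1 h1

/-- Over an algebraically closed field it is enough to look at `K`-points. -/
theorem bpf_of_isAlgClosed [IsAlgClosed K] (φ : Fin c → (ι → J) → K)
    (h : ∀ y : Fin c → K, y ≠ 0 → ¬ IsPurePow (fun v => ∑ s, y s * φ s v)) : Bpf φ := by
  classical
  rintro y hy ⟨κ, lam, hk⟩
  have hbij : Function.Bijective (algebraMap K (AlgebraicClosure K)) :=
    IsAlgClosed.algebraMap_bijective_of_isIntegral
  choose g hg using hbij.2
  refine h (fun s => g (y s)) ?_ ⟨g κ, fun j => g (lam j), fun v => ?_⟩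
  · intro h0
    apply hy
    funext s
    have := congrFun h0 s
    simp only [Pi.zero_apply] at this
    rw [← hg (y s), this, map_zero]; rfl
  · apply hbij.1
    rw [map_sum, map_mul, map_prod]
    simp only [map_mul, hg]
    exact hk v

end Spec

section Blocks

variable {K : Type*} [Field K] {Ω : Type*} [Field Ω] [Algebra K Ω]
  {J : Type*} [Fintype J] [DecidableEq J] {b c m : ℕ}

/-- (CD2), finset form: `m` blocks and a point `y`. -/
theorem card_le_of_blocks (φ : Fin c → (Fin (b + 1) → J) → K)
    (hφ : ∀ s (σ : Equiv.Perm (Fin (b + 1))) (v : Fin (b + 1) → J), φ s (v ∘ σ) = φ s v)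
    (hb : Bpf φ) (y : Fin c → Ω) (hy : y ≠ 0) (l : Fin m → Fin b → J → Ω)
    (hl : ∀ k j, ∑ s, y s * contr (φ s) (l k) j = 0)
    (T : Finset (Fin m × Fin b × J))
    (hT : AlgebraicIndependent K (fun t : T => l t.1.1 t.1.2.1 t.1.2.2)) :
    T.card + 2 * m + 1 ≤ m * (b * Fintype.card J) + c := by
  classical
  obtain ⟨s0, hs0⟩ : ∃ s, y s ≠ 0 := by
    by_contra hcon
    push Not at hcon
    exact hy (funext hcon)
  -- normalise
  let y' : Fin c → Ω := fun s => y s / y s0
  have hy's0 : y' s0 = 1 := div_self hs0
  have hl' : ∀ k j, ∑ s, y' s * contr (φ s) (l k) j = 0 := by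
    intro k j
    have h1 : ∑ s, y' s * contr (φ s) (l k) j = (∑ s, y s * contr (φ s) (l k) j) / y s0 := by
      rw [Finset.sum_div]
      apply Finset.sum_congr rfl
      intro s _
      simp only [y']
      ring
    rw [h1, hl, zero_div]
  let L : IntermediateField K Ω := IntermediateField.adjoin K (Set.range y')
  have hyL : ∀ s, y' s ∈ L := fun s => IntermediateField.subset_adjoin K _ ⟨s, rfl⟩
  let yL : Fin c → L := fun s => ⟨y' s, hyL s⟩
  have hyL0 : yL ≠ 0 := by
    intro h
    have h1 := congrArg Subtype.val (congrFun h s0)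
    simp only [yL, hy's0] at h1
    exact one_ne_zero h1
  let Φ : (Fin (b + 1) → J) → L := fun v => ∑ s, yL s * algebraMap K L (φ s v)
  have hΦ : ∀ (σ : Equiv.Perm (Fin (b + 1))) (v : Fin (b + 1) → J), Φ (v ∘ σ) = Φ v := by
    intro σ v
    simp only [Φ, hφ]
  have hΦnp : ¬ IsPurePow Φ := not_isPurePow_of_bpf φ hb yL hyL0
  have hcontr : ∀ k j, contr Φ (l k) j = 0 := by
    intro k j
    rw [← hl' k j]
    simp only [contr, Φ, map_sum, map_mul, Finset.sum_mul, Finset.mul_sum]
    rw [Finset.sum_comm]
    apply Finset.sum_congr rfl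
    intro s _
    apply Finset.sum_congr rfl
    intro v _
    have h1 : algebraMap L Ω (yL s) = y' s := rfl
    have h2 : algebraMap L Ω (algebraMap K L (φ s (Fin.snoc v j))) =
        algebraMap K Ω (φ s (Fin.snoc v j)) := rfl
    rw [h1, h2, mul_assoc]
  -- bases of the blocks over `L`
  let f : Fin m → Fin b × J → Ω := fun k t => l k t.1 t.2
  have hbas : ∀ k, ∃ S : Finset (Fin b × J), S.card + 2 ≤ b * Fintype.card J ∧
      ∀ t, IsAlgebraic (Algebra.adjoin L (f k '' (S : Set (Fin b × J)))) (f k t) := by
    intro k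
    obtain ⟨I, hI⟩ := (AlgebraicIndependent.matroid L Ω).exists_isBasis (Set.range (f k))
    rw [AlgebraicIndependent.matroid_isBasis_iff] at hI
    obtain ⟨hI1, hI2, hI3⟩ := hI
    have hsurj : Set.SurjOn (f k) Set.univ I := by
      intro x hx
      obtain ⟨t, rfl⟩ := hI2 hx
      exact ⟨t, Set.mem_univ _, rfl⟩
    obtain ⟨S, _, hS⟩ := hsurj.exists_bijOn_subset
    have hSf : S.Finite := Set.toFinite S
    refine ⟨hSf.toFinset, ?_, ?_⟩
    · apply card_le_of_contr_eq_zero Φ hΦ hΦnp (l k) (hcontr k)
      let g : hSf.toFinset → I := fun t => ⟨f k t.1, hS.1 (hSf.mem_toFinset.1 t.2)⟩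
      have hg : Function.Injective g := by
        intro a a' haa
        simp only [g, Subtype.mk.injEq] at haa
        exact Subtype.ext (hS.2.1 (hSf.mem_toFinset.1 a.2) (hSf.mem_toFinset.1 a'.2) haa)
      exact hI1.comp g hg
    · intro t
      rw [hSf.coe_toFinset, hS.image_eq]
      exact hI3 _ ⟨t, rfl⟩
  choose S hS1 hS2 using hbas
  -- the generating set
  let G : Finset Ω := (univ.erase s0).image y' ∪ univ.biUnion (fun k => (S k).image (f k))
  have hGcard : G.card + 2 * m + 1 ≤ m * (b * Fintype.card J) + c := by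
    have h1 : G.card ≤ (c - 1) + ∑ k, (S k).card := by
      refine (Finset.card_union_le _ _).trans (Nat.add_le_add ?_ ?_)
      · refine Finset.card_image_le.trans ?_
        rw [Finset.card_erase_of_mem (Finset.mem_univ _), Finset.card_univ, Fintype.card_fin]
      · refine Finset.card_biUnion_le.trans ?_
        exact Finset.sum_le_sum (fun k _ => Finset.card_image_le)
    have h2 : ∑ k : Fin m, ((S k).card + 2) ≤ ∑ k : Fin m, b * Fintype.card J :=
      Finset.sum_le_sum (fun k _ => hS1 k)
    rw [Finset.sum_add_distrib] at h2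
    simp only [Finset.sum_const, Finset.card_univ, Fintype.card_fin, smul_eq_mul] at h2
    have h3 : 1 ≤ c := by
      have := s0.pos
      omega
    omega
  have hy'G : ∀ s, y' s ∈ IntermediateField.adjoin K (G : Set Ω) := by
    intro s
    by_cases hs : s = s0
    · rw [hs, hy's0]; exact one_mem _
    · apply IntermediateField.subset_adjoin
      simp only [G, Finset.coe_union, Finset.coe_image, Set.mem_union, Set.mem_image,
        Finset.mem_coe]
      left
      exact ⟨s, by simp [hs], rfl⟩
  have hLG : L ≤ IntermediateField.adjoin K (G : Set Ω) := by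
    rw [IntermediateField.adjoin_le_iff]
    rintro _ ⟨s, rfl⟩
    exact hy'G s
  have halg : ∀ k t, IsAlgebraic (Algebra.adjoin K (G : Set Ω)) (f k t) := by
    intro k t
    rw [← IntermediateField.isAlgebraic_adjoin_iff (F := K) (E := Ω)]
    have h1 := hS2 k t
    let f1 : Algebra.adjoin L (f k '' (S k : Set (Fin b × J))) →+*
        IntermediateField.adjoin K (G : Set Ω) :=
      { toFun := fun x => ⟨x.1, by
          have hx := x.2
          refine Algebra.adjoin_induction (p := fun z _ => z ∈ IntermediateField.adjoin K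
            (G : Set Ω)) ?_ ?_ ?_ ?_ hx
          · rintro _ ⟨u, hu, rfl⟩
            apply IntermediateField.subset_adjoin
            simp only [G, Finset.coe_union, Set.mem_union, Finset.mem_coe, Finset.mem_biUnion,
              Finset.mem_image]
            right
            exact ⟨k, Finset.mem_univ _, u, hu, rfl⟩
          · intro r
            exact hLG r.2
          · intro _ _ _ _ h2 h3
            exact add_mem h2 h3
          · intro _ _ _ _ h2 h3
            exact mul_mem h2 h3⟩
        map_one' := rfl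
        map_mul' := fun _ _ => rfl
        map_zero' := rfl
        map_add' := fun _ _ => rfl }
    have hf1 : Function.Injective f1 := by
      intro x x' hxx
      exact Subtype.ext (congrArg
        (fun z : IntermediateField.adjoin K (G : Set Ω) => (z : Ω)) hxx)
    exact h1.ringHom_of_comp_eq f1 (RingHom.id Ω) hf1 rfl
  -- count
  have hinj : Function.Injective (fun t : T => l t.1.1 t.1.2.1 t.1.2.2) := hT.injective
  have hind : (AlgebraicIndependent.matroid K Ω).Indep
      (Set.range (fun t : T => l t.1.1 t.1.2.1 t.1.2.2)) := by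
    rw [AlgebraicIndependent.matroid_indep_iff]
    exact hT.coe_range
  have hsub : Set.range (fun t : T => l t.1.1 t.1.2.1 t.1.2.2) ⊆
      (AlgebraicIndependent.matroid K Ω).closure (G : Set Ω) := by
    rintro _ ⟨t, rfl⟩
    rw [AlgebraicIndependent.matroid_closure_eq]
    exact halg t.1.1 t.1.2
  have h1 := hind.encard_le_eRk_of_subset hsub
  rw [Matroid.eRk_closure_eq] at h1
  have h2 := h1.trans ((AlgebraicIndependent.matroid K Ω).eRk_le_encard (G : Set Ω))
  rw [Set.encard_coe_eq_coe_finsetCard] at h2
  have h3 : (Set.range (fun t : T => l t.1.1 t.1.2.1 t.1.2.2)).encard = (T.card : ℕ∞) := by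
    rw [← Set.image_univ, hinj.encard_image, Set.encard_univ]
    simp
  rw [h3] at h2
  have h4 : T.card ≤ G.card := by exact_mod_cast h2
  omega

end Blocks

end Crest.Agent.R181.IC
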