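import Mathlib
import Crest.Agent.R181.IC573c

/-!
R181, block (I3) of the index theorem (helper735 #11789): codimension lemma.
Part d: forms with `Algebra.trdeg`, for quotients of the polynomial ring by a prime ideal, and
with minors.
-/

set_option autoImplicit false
set_option linter.unusedSectionVars false

namespace Crest.Agent.R181.IC

open Function Finset Matrix

/-- Bound for the transcendence degree from the cardinalities of independent subfamilies of a
generating family. -/
theorem trdeg_add_le_of_forall_card {K : Type*} [Field K] {A : Type*} [CommRing A] [IsDomain A]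
    [Algebra K A] {σ : Type*} [Finite σ] (x : σ → A)
    [Algebra.IsAlgebraic (Algebra.adjoin K (Set.range x)) A] (r N : ℕ)
    (h : ∀ T : Finset σ, AlgebraicIndependent K (fun t : T => x t) → T.card + r ≤ N) :
    Algebra.trdeg K A + r ≤ N := by
  classical
  obtain ⟨I, hI1, hI2⟩ := exists_isTranscendenceBasis_subset (R := K) (A := A) (Set.range x)
  have hsurj : Set.SurjOn x Set.univ I := by
    intro z hz
    obtain ⟨t, rfl⟩ := hI1 hz
    exact ⟨t, Set.mem_univ _, rfl⟩
  obtain ⟨S, _, hS⟩ := hsurj.exists_bijOn_subset
  have hSf : S.Finite := Set.toFinite S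
  have h1 := h hSf.toFinset (by
    let g : hSf.toFinset → I := fun t => ⟨x t.1, hS.1 (hSf.mem_toFinset.1 t.2)⟩
    have hg : Function.Injective g := by
      intro a a' haa
      simp only [g, Subtype.mk.injEq] at haa
      exact Subtype.ext (hS.2.1 (hSf.mem_toFinset.1 a.2) (hSf.mem_toFinset.1 a'.2) haa)
    exact hI2.1.comp g hg)
  have h2 : Algebra.trdeg K A = (hSf.toFinset.card : Cardinal) := by
    rw [← hI2.cardinalMk_eq_trdeg]
    have := hSf.fintype
    let e := hS.equiv
    have : Fintype I := Fintype.ofEquiv S e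
    rw [Cardinal.mk_fintype, ← Fintype.card_congr e, Set.Finite.card_toFinset]
  rw [h2]
  exact_mod_cast h1

section Forms

variable {K : Type*} [Field K] {J : Type*} [Fintype J] [DecidableEq J] {b c m : ℕ}

/-- The matrix `b_{s,(k,j)}` of contractions over a `K`-algebra. -/
noncomputable def cmat {A : Type*} [CommRing A] [Algebra K A]
    (φ : Fin c → (Fin (b + 1) → J) → K) (l : Fin m → Fin b → J → A) :
    Matrix (Fin c) (Fin m × J) A := fun s p =>
  ∑ v : Fin b → J, algebraMap K A (φ s (Fin.snoc v p.2)) * ∏ i, l p.1 i (v i)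

theorem map_cmat {A B : Type*} [CommRing A] [Algebra K A] [CommRing B] [Algebra K B]
    (f : A →ₐ[K] B) (φ : Fin c → (Fin (b + 1) → J) → K) (l : Fin m → Fin b → J → A)
    (s : Fin c) (p : Fin m × J) :
    f (cmat φ l s p) = cmat φ (fun k i j => f (l k i j)) s p := by
  simp [cmat, map_sum, map_mul, map_prod]

/-- (CD2), with the `trdeg` of any domain algebraic over the algebra generated by the point, and
the hypothesis that all maximal minors of the contraction matrix vanish at the point. -/
theorem trdeg_le_of_minors (φ : Fin c → (Fin (b + 1) → J) → K)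
    (hφ : ∀ s (σ : Equiv.Perm (Fin (b + 1))) (v : Fin (b + 1) → J), φ s (v ∘ σ) = φ s v)
    (hb : Bpf φ) {A : Type*} [CommRing A] [IsDomain A] [Algebra K A]
    (l : Fin m → Fin b → J → A)
    [Algebra.IsAlgebraic (Algebra.adjoin K
      (Set.range (fun t : Fin m × Fin b × J => l t.1 t.2.1 t.2.2))) A]
    (hmin : ∀ g : Fin c → Fin m × J, ((cmat φ l).submatrix id g).det = 0) :
    Algebra.trdeg K A + (2 * m + 1 : ℕ) ≤ (m * (b * Fintype.card J) + c : ℕ) := by
  classical
  refine trdeg_add_le_of_forall_card (fun t : Fin m × Fin b × J => l t.1 t.2.1 t.2.2)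
    (2 * m + 1) (m * (b * Fintype.card J) + c) ?_
  intro T hT
  let Ω := FractionRing A
  have hinj : Function.Injective (algebraMap A Ω) := IsFractionRing.injective A Ω
  let ιA : A →ₐ[K] Ω := IsScalarTower.toAlgHom K A Ω
  have hιA : ∀ x, ιA x = algebraMap A Ω x := fun x => rfl
  -- a nonzero vector killing all rows
  obtain ⟨y, hy, hyk⟩ : ∃ y : Fin c → Ω, y ≠ 0 ∧ ∀ p, ∑ s, y s * ιA (cmat φ l s p) = 0 := by
    let M : Matrix (Fin c) (Fin m × J) Ω := (cmat φ l).map ιA
    by_contra hcon
    push Not at hcon
    have hli : LinearIndependent Ω (fun s : Fin c => M s) := by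
      rw [Fintype.linearIndependent_iff]
      intro y hy0
      by_contra hne
      push Not at hne
      obtain ⟨s0, hs0⟩ := hne
      obtain ⟨p, hp⟩ := hcon y (fun h => hs0 (congrFun h s0))
      apply hp
      have := congrFun hy0 p
      simpa [Finset.sum_apply, M] using this
    have hrank : M.rank = c := by
      rw [(show LinearIndependent Ω M.row from hli).rank_matrix]
      simp
    obtain ⟨g, hg⟩ : ∃ g : Fin c → Fin m × J, (M.submatrix id g).det ≠ 0 := by
      have h1 : LinearIndependent Ω (fun s : Fin c => M s) := hli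
      -- the columns span `Ω^c`
      have h2 : Submodule.span Ω (Set.range M.col) = ⊤ := by
        apply Submodule.eq_top_of_finrank_eq
        rw [← Matrix.rank_eq_finrank_span_cols, hrank]
        simp
      obtain ⟨κ, a, hainj, haspan, hali⟩ := exists_linearIndependent' Ω (M.col)
      rw [h2] at haspan
      have hfin : Finite κ := Finite.of_injective a hainj
      have := Fintype.ofFinite κ
      let B : Module.Basis κ Ω (Fin c → Ω) := Module.Basis.mk hali haspan.ge
      have hcard : Fintype.card κ = Fintype.card (Fin c) := by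
        have h3 := Module.finrank_eq_card_basis B
        rw [← h3]; simp
      let e : Fin c ≃ κ := (Fintype.equivOfCardEq hcard).symm
      refine ⟨a ∘ e, ?_⟩
      have h4 : LinearIndependent Ω (fun i : Fin c => (M.submatrix id (a ∘ e))ᵀ i) := by
        have h5 := hali.comp e e.injective
        exact h5
      have h6 : IsUnit (M.submatrix id (a ∘ e))ᵀ := by
        rw [← Matrix.linearIndependent_rows_iff_isUnit]
        exact h4
      rw [Matrix.isUnit_iff_isUnit_det, Matrix.det_transpose] at h6
      exact h6.ne_zero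
    apply hg
    have h7 : M.submatrix id g = ((cmat φ l).submatrix id g).map ιA := rfl
    have h8 : (((cmat φ l).submatrix id g).map ιA).det = ιA (((cmat φ l).submatrix id g).det) := by
      rw [AlgHom.map_det]; rfl
    rw [h7, h8, hmin g, map_zero]
  have h1 := card_le_of_blocks (K := K) (Ω := Ω) φ hφ hb y hy (fun k i j => ιA (l k i j)) (by
    intro k j
    have := hyk (k, j)
    simp only [map_cmat] at this
    exact this) T (by
    have h2 := (AlgHom.algebraicIndependent_iff ιA (x := fun t : T => l t.1.1 t.1.2.1 t.1.2.2)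
      hinj).2 hT
    exact h2)
  omega

/-- (CD3): a prime ideal of the polynomial ring containing all maximal minors of the generic
contraction matrix. -/
theorem trdeg_quotient_le (φ : Fin c → (Fin (b + 1) → J) → K)
    (hφ : ∀ s (σ : Equiv.Perm (Fin (b + 1))) (v : Fin (b + 1) → J), φ s (v ∘ σ) = φ s v)
    (hb : Bpf φ) (P : Ideal (MvPolynomial (Fin m × Fin b × J) K)) [P.IsPrime]
    (hmin : ∀ g : Fin c → Fin m × J,
      ((cmat φ (fun k i j => (MvPolynomial.X (k, i, j) :
        MvPolynomial (Fin m × Fin b × J) K))).submatrix id g).det ∈ P) :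
    Algebra.trdeg K (MvPolynomial (Fin m × Fin b × J) K ⧸ P) + (2 * m + 1 : ℕ) ≤
      (m * (b * Fintype.card J) + c : ℕ) := by
  classical
  let A := MvPolynomial (Fin m × Fin b × J) K ⧸ P
  let q : MvPolynomial (Fin m × Fin b × J) K →ₐ[K] A := Ideal.Quotient.mkₐ K P
  have hadj : Algebra.adjoin K (Set.range (fun t : Fin m × Fin b × J =>
      q (MvPolynomial.X (t.1, t.2.1, t.2.2)))) = ⊤ := by
    have h1 : Set.range (fun t : Fin m × Fin b × J =>
        q (MvPolynomial.X (t.1, t.2.1, t.2.2))) = q '' (Set.range MvPolynomial.X) := by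
      rw [← Set.range_comp]; rfl
    rw [h1, ← AlgHom.map_adjoin, MvPolynomial.adjoin_range_X, Algebra.map_top,
      AlgHom.range_eq_top]
    exact Ideal.Quotient.mkₐ_surjective K P
  have hal : Algebra.IsAlgebraic (Algebra.adjoin K (Set.range (fun t : Fin m × Fin b × J =>
      q (MvPolynomial.X (t.1, t.2.1, t.2.2))))) A := by
    refine ⟨fun x => ?_⟩
    have hx : x ∈ Algebra.adjoin K (Set.range (fun t : Fin m × Fin b × J =>
      q (MvPolynomial.X (t.1, t.2.1, t.2.2)))) := by rw [hadj]; trivial
    exact isAlgebraic_algebraMap (⟨x, hx⟩ : Algebra.adjoin K (Set.range (fun t : Fin m × Fin b × J =>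
      q (MvPolynomial.X (t.1, t.2.1, t.2.2)))))
  refine trdeg_le_of_minors φ hφ hb (A := A) (fun k i j => q (MvPolynomial.X (k, i, j))) ?_
  intro g
  have h1 : ((cmat φ (fun k i j => q (MvPolynomial.X (k, i, j)))).submatrix id g) =
      (((cmat φ (fun k i j => (MvPolynomial.X (k, i, j) :
        MvPolynomial (Fin m × Fin b × J) K))).submatrix id g)).map q := by
    ext s p
    simp only [Matrix.submatrix_apply, Matrix.map_apply, id]
    rw [map_cmat]
  rw [h1]
  have h2 : ((((cmat φ (fun k i j => (MvPolynomial.X (k, i, j) :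
        MvPolynomial (Fin m × Fin b × J) K))).submatrix id g)).map q).det =
      q (((cmat φ (fun k i j => (MvPolynomial.X (k, i, j) :
        MvPolynomial (Fin m × Fin b × J) K))).submatrix id g)).det := by
    rw [AlgHom.map_det]; rfl
  rw [h2]
  exact Ideal.Quotient.eq_zero_iff_mem.2 (hmin g)

end Forms

end Crest.Agent.R181.IC
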