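import Crest.Agent.R181.GR396a
import Crest.Agent.R181.IC573d

/-!
R181 (helper396): growth of modules killed by powers of the maximal minors of the generic
contraction matrix of `m` blocks.
-/

set_option autoImplicit false
set_option linter.unusedSectionVars false

open MvPolynomial

namespace Crest.Agent.R181.GR

variable {K : Type*} [Field K] {J : Type*} [Fintype J] [DecidableEq J] {b c m : ℕ}
  {M : Type*} [AddCommGroup M] [Module K M]
  [Module (MvPolynomial (Fin m × Fin b × J) K) M]
  [IsScalarTower K (MvPolynomial (Fin m × Fin b × J) K) M]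

/-- (G3): growth of a module killed by the `N`-th powers of the maximal minors. -/
theorem growth_minors (φ : Fin c → (Fin (b + 1) → J) → K)
    (hφ : ∀ s (σ : Equiv.Perm (Fin (b + 1))) (v : Fin (b + 1) → J), φ s (v ∘ σ) = φ s v)
    (hb : IC.Bpf φ) (N : ℕ)
    (hM : ∀ g : Fin c → Fin m × J, ∀ x : M,
      (((IC.cmat φ (fun k i j => (MvPolynomial.X (k, i, j) :
        MvPolynomial (Fin m × Fin b × J) K))).submatrix id g).det ^ N) • x = 0)
    (t : ℕ) (ht : m * (b * Fintype.card J) + c ≤ t + (2 * m + 1)) (S : Finset M) :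
    ∃ C : ℕ, ∀ d : ℕ, Module.Finite K (fil K (Fin m × Fin b × J) (S : Set M) d) ∧
      Module.finrank K (fil K (Fin m × Fin b × J) (S : Set M) d) ≤ C * (d + 1) ^ t := by
  let I : Ideal (MvPolynomial (Fin m × Fin b × J) K) := Ideal.span (Set.range
    fun g : Fin c → Fin m × J => ((IC.cmat φ (fun k i j => (MvPolynomial.X (k, i, j) :
        MvPolynomial (Fin m × Fin b × J) K))).submatrix id g).det ^ N)
  refine growth I ?_ t ?_ S
  · intro p hp
    induction hp using Submodule.span_induction with
    | mem p hp =>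
      obtain ⟨g, rfl⟩ := hp
      exact hM g
    | zero => intro x; rw [zero_smul]
    | add p q _ _ hp hq => intro x; rw [add_smul, hp x, hq x, add_zero]
    | smul a p _ hp => intro x; rw [smul_eq_mul, mul_smul, hp x, smul_zero]
  · intro P hP hIP
    have h1 := IC.trdeg_quotient_le φ hφ hb P (fun g => by
      have h2 : ((IC.cmat φ (fun k i j => (MvPolynomial.X (k, i, j) :
        MvPolynomial (Fin m × Fin b × J) K))).submatrix id g).det ^ N ∈ P :=
        hIP (Ideal.subset_span ⟨g, rfl⟩)
      exact hP.mem_of_pow_mem N h2)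
    have h3 : Algebra.trdeg K (MvPolynomial (Fin m × Fin b × J) K ⧸ P) + (2 * m + 1 : ℕ) ≤
        (t : Cardinal) + (2 * m + 1 : ℕ) := by
      refine h1.trans ?_
      exact_mod_cast ht
    exact (Cardinal.add_le_add_iff_of_lt_aleph0 (Cardinal.natCast_lt_aleph0)).1 h3

end Crest.Agent.R181.GR
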