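import Mathlib

/-!
# R181, block H: the killing lemma (abstract form)

Everything takes place in one ring `B` (in the application: polynomials in central variables with
coefficients in the additive endomorphisms of a module).
-/

set_option autoImplicit false

namespace Crest.Agent.R181.H

open Finset

section Ident

variable {B : Type*} [Ring B]

/-- `∑_{u+v=a-1} w^u y w^v`. -/
def Dn (w y : B) : ℕ → B
  | 0 => 0
  | a + 1 => w * Dn w y a + y * w ^ a

/-- `∑_{u+v+t=a-2} w^u z w^v κ w^t`. -/
def En (w z κ : B) : ℕ → B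
  | 0 => 0
  | a + 1 => w * En w z κ a + z * Dn w κ a

/-- auxiliary element for the derivative identity. -/
def Gn (w z : B) : ℕ → B
  | 0 => 0
  | a + 1 => w * Gn w z a + Dn w z a

variable (w y z κ : B) (a : ℕ)

@[simp] theorem Dn_zero : Dn w y 0 = 0 := rfl
theorem Dn_succ : Dn w y (a + 1) = w * Dn w y a + y * w ^ a := rfl
@[simp] theorem En_zero : En w z κ 0 = 0 := rfl
theorem En_succ : En w z κ (a + 1) = w * En w z κ a + z * Dn w κ a := rfl
@[simp] theorem Gn_zero : Gn w z 0 = 0 := rfl
theorem Gn_succ : Gn w z (a + 1) = w * Gn w z a + Dn w z a := rfl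

theorem Dn_succ' : Dn w y (a + 1) = Dn w y a * w + w ^ a * y := by
  induction a with
  | zero => simp [Dn_succ]
  | succ a ih =>
    have e1 : Dn w y (a + 1 + 1) = w * (Dn w y a * w + w ^ a * y) + y * w ^ (a + 1) := by
      rw [Dn_succ, ih]
    rw [e1, Dn_succ w y a, pow_succ w a]
    have e2 : w * w ^ a = w ^ a * w := (pow_succ' w a).symm.trans (pow_succ w a)
    rw [mul_add, add_mul, ← mul_assoc w (w ^ a) y, e2]
    simp only [mul_assoc]
    abel

theorem En_succ' : En w z κ (a + 1) = En w z κ a * w + Dn w z a * κ := by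
  induction a with
  | zero => simp [En_succ]
  | succ a ih =>
    have e1 : En w z κ (a + 1 + 1) = w * (En w z κ a * w + Dn w z a * κ)
        + z * (Dn w κ a * w + w ^ a * κ) := by
      rw [En_succ, ih, Dn_succ' w κ a]
    rw [e1, En_succ w z κ a, Dn_succ w z a]
    simp only [mul_add, add_mul, mul_assoc]
    abel

theorem comm_Dn : w * Dn w y a - Dn w y a * w = w ^ a * y - y * w ^ a := by
  have h1 := Dn_succ w y a
  have h2 := Dn_succ' w y a
  rw [h1] at h2
  have : w * Dn w y a = Dn w y a * w + w ^ a * y - y * w ^ a := by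
    rw [← h2]; abel
  rw [this]; abel

theorem comm_En : w * En w z κ a - En w z κ a * w = Dn w z a * κ - z * Dn w κ a := by
  have h1 := En_succ w z κ a
  have h2 := En_succ' w z κ a
  rw [h1] at h2
  have : w * En w z κ a = En w z κ a * w + Dn w z a * κ - z * Dn w κ a := by
    rw [← h2]; abel
  rw [this]; abel

theorem Dn_eq : Dn w z a = (a : B) * w ^ (a - 1) * z - (w * Gn w z a - Gn w z a * w) := by
  induction a with
  | zero => simp
  | succ a ih =>
    have h1 : z * w ^ a = w ^ a * z - (w * Dn w z a - Dn w z a * w) := by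
      rw [comm_Dn]; abel
    cases a with
    | zero => simp [Dn_succ, Gn_succ]
    | succ a =>
      have h2 : w * Dn w z (a + 1) = w * (((a + 1 : ℕ) : B) * w ^ a * z
        - (w * Gn w z (a + 1) - Gn w z (a + 1) * w)) := by
        conv_lhs => rw [ih]
        simp
      have h3 : w * (((a + 1 : ℕ) : B) * w ^ a * z) = ((a + 1 : ℕ) : B) * w ^ (a + 1) * z := by
        rw [← mul_assoc, ← mul_assoc, ← (Nat.cast_commute (a + 1) w).eq, pow_succ', mul_assoc,
          mul_assoc, mul_assoc, mul_assoc]
      rw [mul_sub, h3] at h2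
      calc Dn w z (a + 1 + 1) = w * Dn w z (a + 1) + z * w ^ (a + 1) := rfl
        _ = (((a + 1 : ℕ) : B) * w ^ (a + 1) * z - w * (w * Gn w z (a + 1) - Gn w z (a + 1) * w))
            + (w ^ (a + 1) * z - (w * Dn w z (a + 1) - Dn w z (a + 1) * w)) := by
            rw [← h1, ← h2]
        _ = _ := by
            rw [Nat.add_sub_cancel, Gn_succ w z (a + 1)]
            push_cast
            simp only [mul_add, add_mul, mul_sub, mul_assoc, one_mul]
            abel

/-- derivations: commutator with a power -/
theorem comm_pow (d : B) : d * w ^ a - w ^ a * d = Dn w (d * w - w * d) a := by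
  induction a with
  | zero => simp
  | succ a ih =>
    rw [Dn_succ, ← ih, pow_succ']
    noncomm_ring

theorem Dn_add (y z : B) : Dn w (y + z) a = Dn w y a + Dn w z a := by
  induction a with
  | zero => simp
  | succ a ih => rw [Dn_succ, ih, Dn_succ, Dn_succ]; noncomm_ring

theorem Dn_sub (y z : B) : Dn w (y - z) a = Dn w y a - Dn w z a := by
  induction a with
  | zero => simp
  | succ a ih => rw [Dn_succ, ih, Dn_succ, Dn_succ]; noncomm_ring

theorem Dn_zero_right : Dn w (0 : B) a = 0 := by
  induction a with
  | zero => simp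
  | succ a ih => rw [Dn_succ, ih]; simp

/-- `x` commuting with `w` can be pulled out on the left -/
theorem Dn_mul_left {x : B} (hx : Commute x w) : Dn w (x * y) a = x * Dn w y a := by
  induction a with
  | zero => simp
  | succ a ih =>
    rw [Dn_succ, ih, Dn_succ, mul_add, ← mul_assoc, ← hx.eq]
    simp only [mul_assoc]

theorem Dn_mul_right {x : B} (hx : Commute x w) : Dn w (y * x) a = Dn w y a * x := by
  induction a with
  | zero => simp
  | succ a ih =>
    rw [Dn_succ, ih, Dn_succ, add_mul, mul_assoc y x, (hx.pow_right a).eq]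
    simp only [mul_assoc]

theorem Dn_comm (η : B) : Dn w (w * η - η * w) a = w ^ a * η - η * w ^ a := by
  have := comm_pow w a (-η)
  have h2 : w * η - η * w = (-η) * w - w * (-η) := by noncomm_ring
  rw [h2, ← this]; noncomm_ring

theorem Dn_mem {S : Subring B} (hw : w ∈ S) (hy : y ∈ S) : Dn w y a ∈ S := by
  induction a with
  | zero => exact S.zero_mem
  | succ a ih => exact S.add_mem (S.mul_mem hw ih) (S.mul_mem hy (S.pow_mem hw _))

theorem En_mem {S : Subring B} (hw : w ∈ S) (hz : z ∈ S) (hκ : κ ∈ S) : En w z κ a ∈ S := by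
  induction a with
  | zero => exact S.zero_mem
  | succ a ih => exact S.add_mem (S.mul_mem hw ih) (S.mul_mem hz (Dn_mem _ _ _ hw hκ))

theorem Gn_mem {S : Subring B} (hw : w ∈ S) (hz : z ∈ S) : Gn w z a ∈ S := by
  induction a with
  | zero => exact S.zero_mem
  | succ a ih => exact S.add_mem (S.mul_mem hw ih) (Dn_mem _ _ _ hw hz)

end Ident

end Crest.Agent.R181.H
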