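import Crest.Agent.R181.H1

/-!
# R181, block H: the killing lemma, abstract form
-/

set_option autoImplicit false

namespace Crest.Agent.R181.H

open Finset

noncomputable section

/-- The data of the killing lemma. -/
structure KData (B F : Type*) [Ring B] [Field F] (r : ℕ) where
  /-- number of variables is `r + 1` -/
  φ : MvPolynomial (Fin (r + 1)) F →+* B
  /-- the operators -/
  w : Fin r → B
  a : Fin r → ℕ
  /-- the forms -/
  f : Fin (r + 1) → MvPolynomial (Fin (r + 1)) F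
  /-- right hand sides -/
  Q : Fin r → MvPolynomial (Fin (r + 1)) F
  c : Fin r → F
  θ : Fin r → Fin r → F
  /-- the distinguished variable -/
  k : Fin (r + 1)
  ha : ∀ i, 2 ≤ a i
  hX : ∀ t b, Commute (φ (MvPolynomial.X t)) b
  hwF : ∀ i u, Commute (φ (MvPolynomial.C u)) (w i)
  hww : ∀ i l, Commute (w i) (w l)
  hw : ∀ i, w i ^ a i = φ (Q i) + ∑ l ∈ univ.filter (fun l => i < l), φ (MvPolynomial.C (θ i l)) * w l ^ a i
  hc : ∀ i, c i ≠ 0
  hQ : ∀ i, Q i - MvPolynomial.C (c i) * f i.succ ∈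
    Ideal.span (f '' {j | j ≤ i.castSucc})
  hf : ∃ M, (MvPolynomial.X k : MvPolynomial (Fin (r + 1)) F) ^ M ∈ Ideal.span (Set.range f)

namespace KData

variable {B F : Type*} [Ring B] [Field F] {r : ℕ} (K : KData B F r)

/-- scalars -/
def j : F →+* B := K.φ.comp MvPolynomial.C

/-- the element x_k -/
def x : B := K.φ (MvPolynomial.X K.k)

theorem x_comm (b : B) : Commute K.x b := K.hX _ _

/-- an element `G` of `B` obtained by a connection `∇` differentiating a parameter of the `i`-th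
relation only. -/
def Par (i : Fin r) (G : B) : Prop :=
  ∃ (nb : B) (d : F → F), (∀ u, nb * K.j u - K.j u * nb = K.j (d u)) ∧
    (∀ l, i < l → nb * K.φ (K.Q l) - K.φ (K.Q l) * nb = 0) ∧
    (∀ l m, i < l → nb * K.j (K.θ l m) - K.j (K.θ l m) * nb = 0) ∧
    G = (nb * K.φ (K.Q i) - K.φ (K.Q i) * nb) +
      ∑ m ∈ univ.filter (fun m => i < m), (nb * K.j (K.θ i m) - K.j (K.θ i m) * nb) * K.w m ^ K.a i

/-- `F`-linear elements. -/
def Lin : Subring B := Subring.centralizer (Set.range K.j)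

theorem mem_Lin {b : B} : b ∈ K.Lin ↔ ∀ u, Commute (K.j u) b := by
  unfold Lin
  rw [Subring.mem_centralizer_iff]
  constructor
  · intro h u
    exact h _ ⟨u, rfl⟩
  · rintro h _ ⟨u, rfl⟩
    exact h u

/-- `F`-linear elements commuting with `w l` for `l > i` (as naturals `≥ i`). -/
def Cen (i : ℕ) : Subring B :=
  Subring.centralizer (Set.range K.j ∪ {b | ∃ l : Fin r, i ≤ l ∧ b = K.w l})

theorem mem_Cen {i : ℕ} {b : B} :
    b ∈ K.Cen i ↔ b ∈ K.Lin ∧ ∀ l : Fin r, i ≤ l → Commute (K.w l) b := by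
  unfold Cen
  rw [Subring.mem_centralizer_iff, mem_Lin]
  constructor
  · intro h
    exact ⟨fun u => h _ (Or.inl ⟨u, rfl⟩), fun l hl => h _ (Or.inr ⟨l, hl, rfl⟩)⟩
  · rintro ⟨h1, h2⟩ g (⟨u, rfl⟩ | ⟨l, hl, rfl⟩)
    · exact h1 u
    · exact h2 l hl

theorem φ_comm_w (p : MvPolynomial (Fin (r + 1)) F) (i : Fin r) : Commute (K.φ p) (K.w i) := by
  induction p using MvPolynomial.induction_on with
  | C u => exact K.hwF i u
  | add p q hp hq => rw [map_add]; exact hp.add_left hq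
  | mul_X p t hp => rw [map_mul]; exact hp.mul_left (K.hX t _)

theorem φ_comm_Lin (p : MvPolynomial (Fin (r + 1)) F) {b : B} (hb : b ∈ K.Lin) :
    Commute (K.φ p) b := by
  rw [mem_Lin] at hb
  induction p using MvPolynomial.induction_on with
  | C u => exact hb u
  | add p q hp hq => rw [map_add]; exact hp.add_left hq
  | mul_X p t hp => rw [map_mul]; exact hp.mul_left (K.hX t _)

theorem w_mem_Lin (i : Fin r) : K.w i ∈ K.Lin := by
  rw [mem_Lin]; intro u; exact K.hwF i u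

theorem w_mem_Cen (i : Fin r) (m : ℕ) : K.w i ∈ K.Cen m := by
  rw [mem_Cen]; exact ⟨K.w_mem_Lin i, fun l _ => K.hww l i⟩

theorem φ_mem_Lin (p : MvPolynomial (Fin (r + 1)) F) : K.φ p ∈ K.Lin := by
  rw [mem_Lin]; intro u
  show K.φ _ * K.φ _ = K.φ _ * K.φ _
  rw [← map_mul, ← map_mul, mul_comm]

theorem φ_mem_Cen (p : MvPolynomial (Fin (r + 1)) F) (m : ℕ) : K.φ p ∈ K.Cen m := by
  rw [mem_Cen]; exact ⟨K.φ_mem_Lin p, fun l _ => (K.φ_comm_w p l).symm⟩

theorem x_mem_Cen (m : ℕ) : K.x ∈ K.Cen m := K.φ_mem_Cen _ m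

/-- cocycles: `F`-linear families, conditions only for indices `≥ i`. -/
structure IsCoc (i : ℕ) (ζ : Fin r → B) : Prop where
  lin : ∀ l : Fin r, i ≤ l → ζ l ∈ K.Lin
  comm : ∀ l m : Fin r, i ≤ l → i ≤ m → K.w l * ζ m - ζ m * K.w l = K.w m * ζ l - ζ l * K.w m
  rel : ∀ l : Fin r, i ≤ l → Dn (K.w l) (ζ l) (K.a l) =
    ∑ m ∈ univ.filter (fun m => l < m), K.j (K.θ l m) * Dn (K.w m) (ζ m) (K.a l)

/-- `K(i)`: the killing statement for the sub-tuple of indices `≥ i`. -/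
def Kill (i : ℕ) : Prop :=
  ∀ ζ : Fin r → B, K.IsCoc i ζ → ∃ (M : ℕ) (η : B), η ∈ K.Lin ∧
    ∀ l : Fin r, i ≤ l → K.x ^ M * ζ l = K.w l * η - η * K.w l

/-- the commutative ring of multipliers -/
def PP : Subring B := Subring.closure (Set.range K.φ ∪ Set.range K.w)

theorem PP_comm : ∀ b ∈ K.PP, ∀ b' ∈ K.PP, b * b' = b' * b := by
  have h0 : ∀ b ∈ (Set.range K.φ ∪ Set.range K.w), ∀ b' ∈ (Set.range K.φ ∪ Set.range K.w),
      b * b' = b' * b := by
    rintro _ (⟨p, rfl⟩ | ⟨i, rfl⟩) _ (⟨q, rfl⟩ | ⟨l, rfl⟩)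
    · rw [← map_mul, ← map_mul, mul_comm]
    · exact (K.φ_comm_w p l).eq
    · exact (K.φ_comm_w q i).symm.eq
    · exact (K.hww i l).eq
  intro b hb b' hb'
  have := Subring.isMulCommutative_closure (s := Set.range K.φ ∪ Set.range K.w) h0
  exact congrArg Subtype.val (this.is_comm.comm (⟨b, hb⟩ : Subring.closure _) ⟨b', hb'⟩)

instance instPPComm : CommRing K.PP :=
  { (inferInstance : Ring K.PP) with
    mul_comm := fun b b' => Subtype.ext (K.PP_comm b.1 b.2 b'.1 b'.2) }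

theorem PP_le_Cen (m : ℕ) : K.PP ≤ K.Cen m := by
  unfold PP
  rw [Subring.closure_le]
  rintro _ (⟨p, rfl⟩ | ⟨i, rfl⟩)
  · exact K.φ_mem_Cen p m
  · exact K.w_mem_Cen i m

theorem PP_comm_w {b : B} (hb : b ∈ K.PP) (i : Fin r) : Commute b (K.w i) := by
  have := (K.mem_Cen.1 (K.PP_le_Cen 0 hb)).2 i (Nat.zero_le _)
  exact this.symm

theorem φ_mem_PP (p : MvPolynomial (Fin (r + 1)) F) : K.φ p ∈ K.PP :=
  Subring.subset_closure (Or.inl ⟨p, rfl⟩)

theorem w_mem_PP (i : Fin r) : K.w i ∈ K.PP := Subring.subset_closure (Or.inr ⟨i, rfl⟩)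

/-- The ideal of multipliers of `ζ`. -/
def bId (i : Fin r) (ζ : B) : Ideal K.PP where
  carrier := {b | ∃ (M : ℕ) (η : B), η ∈ K.Cen (i + 1) ∧
    K.x ^ M * (b.1 * ζ) = K.w i * η - η * K.w i}
  zero_mem' := ⟨0, 0, (K.Cen _).zero_mem, by simp⟩
  add_mem' := by
    rintro b b' ⟨M, η, h1, h2⟩ ⟨M', η', h1', h2'⟩
    refine ⟨M + M', K.x ^ M' * η + K.x ^ M * η', ?_, ?_⟩
    · exact (K.Cen _).add_mem ((K.Cen _).mul_mem ((K.Cen _).pow_mem (K.x_mem_Cen _) _) h1)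
        ((K.Cen _).mul_mem ((K.Cen _).pow_mem (K.x_mem_Cen _) _) h1')
    · have e1 : K.w i * (K.x ^ M' * η) = K.x ^ M' * (K.w i * η) := by
        rw [← mul_assoc, ← ((K.x_comm (K.w i)).pow_left M').eq, mul_assoc]
      have e2 : K.w i * (K.x ^ M * η') = K.x ^ M * (K.w i * η') := by
        rw [← mul_assoc, ← ((K.x_comm (K.w i)).pow_left M).eq, mul_assoc]
      show K.x ^ (M + M') * ((b.1 + b'.1) * ζ) = _
      rw [mul_add, add_mul, e1, e2, add_mul (K.x ^ M' * η), mul_add, pow_add]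
      have e3 : K.x ^ M * K.x ^ M' * (b.1 * ζ) = K.x ^ M' * (K.x ^ M * (b.1 * ζ)) := by
        rw [← mul_assoc (K.x ^ M'), (pow_mul_comm K.x M M')]
      rw [e3, h2, mul_assoc (K.x ^ M) (K.x ^ M'), h2', mul_sub, mul_sub, mul_assoc, mul_assoc]
      abel
  smul_mem' := by
    rintro p b ⟨M, η, h1, h2⟩
    refine ⟨M, p.1 * η, (K.Cen _).mul_mem (K.PP_le_Cen _ p.2) h1, ?_⟩
    show K.x ^ M * ((p.1 * b.1) * ζ) = _
    have e1 : K.x ^ M * (p.1 * b.1 * ζ) = p.1 * (K.x ^ M * (b.1 * ζ)) := by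
      rw [mul_assoc p.1, ← mul_assoc, ((K.x_comm p.1).pow_left M).eq, mul_assoc]
    rw [e1, h2, mul_sub]
    rw [← mul_assoc, (K.PP_comm_w p.2 i).eq]
    simp only [mul_assoc]

theorem mem_bId {i : Fin r} {ζ : B} {b : K.PP} : b ∈ K.bId i ζ ↔ ∃ (M : ℕ) (η : B),
    η ∈ K.Cen (i + 1) ∧ K.x ^ M * (b.1 * ζ) = K.w i * η - η * K.w i := Iff.rfl

end KData

end

end Crest.Agent.R181.H
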