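import Crest.Agent.R181.H2

/-!
# R181, block H: proof of the killing lemma
-/

set_option autoImplicit false

namespace Crest.Agent.R181.H

open Finset

noncomputable section

namespace KData

variable {B F : Type*} [Ring B] [Field F] {r : ℕ} (K : KData B F r)

theorem x_pow_comm (M : ℕ) (b : B) : K.x ^ M * b = b * K.x ^ M := ((K.x_comm b).pow_left M).eq

theorem br_mem_Lin {nb : B} {d : F → F} (hnb : ∀ u, nb * K.j u - K.j u * nb = K.j (d u)) {b : B}
    (hb : b ∈ K.Lin) : nb * b - b * nb ∈ K.Lin := by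
  rw [mem_Lin] at hb ⊢
  intro u
  have h1 : K.j u * nb = nb * K.j u - K.j (d u) := by rw [← hnb]; abel
  have h2 := (hb u).eq
  have h3 := (hb (d u)).eq
  show K.j u * (nb * b - b * nb) = (nb * b - b * nb) * K.j u
  have e1 : K.j u * (nb * b) = nb * b * K.j u - b * K.j (d u) := by
    rw [← mul_assoc, h1, sub_mul, h3, mul_assoc, h2, mul_assoc]
  have e2 : K.j u * (b * nb) = b * nb * K.j u - b * K.j (d u) := by
    rw [← mul_assoc, h2, mul_assoc, h1, mul_sub, mul_assoc]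
  rw [mul_sub, e1, e2, sub_mul]
  abel

/-- the connection gives a cocycle -/
theorem coc_of_par {i : Fin r} {nb : B} {d : F → F}
    (hnb : ∀ u, nb * K.j u - K.j u * nb = K.j (d u))
    (hQ : ∀ l, i < l → nb * K.φ (K.Q l) - K.φ (K.Q l) * nb = 0)
    (hθ : ∀ l m, i < l → nb * K.j (K.θ l m) - K.j (K.θ l m) * nb = 0) :
    K.IsCoc (i + 1) (fun l => nb * K.w l - K.w l * nb) := by
  refine ⟨fun l _ => K.br_mem_Lin hnb (K.w_mem_Lin l), ?_, ?_⟩
  · intro l m _ _
    have h := (K.hww l m).eq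
    have : K.w l * (nb * K.w m - K.w m * nb) - (nb * K.w m - K.w m * nb) * K.w l
      - (K.w m * (nb * K.w l - K.w l * nb) - (nb * K.w l - K.w l * nb) * K.w m)
      = nb * (K.w l * K.w m - K.w m * K.w l) - (K.w l * K.w m - K.w m * K.w l) * nb := by
      noncomm_ring
    rw [h, sub_self, mul_zero, zero_mul, sub_zero] at this
    exact sub_eq_zero.1 this
  · intro l hl
    have hl' : i < l := by
      rw [Fin.lt_def]; omega
    have h1 := comm_pow (K.w l) (K.a l) nb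
    rw [← h1, K.hw l, mul_add, add_mul, Finset.mul_sum, Finset.sum_mul]
    have h2 := hQ l hl'
    have : nb * K.φ (K.Q l) + ∑ m ∈ univ.filter (fun m => l < m),
        nb * (K.φ (MvPolynomial.C (K.θ l m)) * K.w m ^ K.a l) -
        (K.φ (K.Q l) * nb + ∑ m ∈ univ.filter (fun m => l < m),
          K.φ (MvPolynomial.C (K.θ l m)) * K.w m ^ K.a l * nb)
        = (nb * K.φ (K.Q l) - K.φ (K.Q l) * nb) + ∑ m ∈ univ.filter (fun m => l < m),
          (nb * (K.j (K.θ l m) * K.w m ^ K.a l) - K.j (K.θ l m) * K.w m ^ K.a l * nb) := by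
      rw [Finset.sum_sub_distrib]
      show nb * K.φ (K.Q l) + ∑ m ∈ univ.filter (fun m => l < m),
        nb * (K.j (K.θ l m) * K.w m ^ K.a l) -
        (K.φ (K.Q l) * nb + ∑ m ∈ univ.filter (fun m => l < m),
          K.j (K.θ l m) * K.w m ^ K.a l * nb) = _
      abel
    rw [this, h2, zero_add]
    apply Finset.sum_congr rfl
    intro m _
    rw [← comm_pow (K.w m) (K.a l) nb]
    have h3 : nb * K.j (K.θ l m) = K.j (K.θ l m) * nb := sub_eq_zero.1 (hθ l m hl')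
    rw [← mul_assoc, h3]
    noncomm_ring

theorem step1 {i : Fin r} (hK : K.Kill (i + 1)) {G ζ : B} (hP : K.Par i G) (hG : G ∈ K.PP)
    (hζ : ζ ∈ K.Cen (i + 1)) (hGζ : Commute G ζ) (hD : Dn (K.w i) ζ (K.a i) = 0) :
    (⟨G, hG⟩ : K.PP) ∈ K.bId i ζ := by
  obtain ⟨nb, d, hnb, hQ, hθ, hGeq⟩ := hP
  obtain ⟨M, η, hη, hM⟩ := hK _ (K.coc_of_par hnb hQ hθ)
  set N : B := K.x ^ M * nb + η with hN
  have hηL := K.mem_Lin.1 hη
  have hbr : ∀ b : B, N * b - b * N = K.x ^ M * (nb * b - b * nb) + (η * b - b * η) := by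
    intro b
    rw [hN, add_mul, mul_add, ← mul_assoc b, ← K.x_pow_comm M b, mul_sub]
    simp only [mul_assoc]
    abel
  have hNw : ∀ l : Fin r, i < l → Commute N (K.w l) := by
    intro l hl
    have h1 := hM l (by rw [Fin.lt_def] at hl; omega)
    have h2 := hbr (K.w l)
    rw [h1] at h2
    have : N * K.w l - K.w l * N = 0 := by rw [h2]; abel
    exact sub_eq_zero.1 this
  set κ : B := N * K.w i - K.w i * N with hκ
  have hκL : κ ∈ K.Lin := by
    rw [hκ, hbr]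
    exact K.Lin.add_mem (K.Lin.mul_mem (K.Lin.pow_mem (K.φ_mem_Lin _) _)
      (K.br_mem_Lin hnb (K.w_mem_Lin i)))
      (K.Lin.sub_mem (K.Lin.mul_mem hη (K.w_mem_Lin i)) (K.Lin.mul_mem (K.w_mem_Lin i) hη))
  have hκC : κ ∈ K.Cen (i + 1) := by
    rw [mem_Cen]
    refine ⟨hκL, fun l hl => ?_⟩
    have hl' : i < l := by rw [Fin.lt_def]; omega
    have c1 := (hNw l hl').symm
    have c2 := K.hww l i
    exact (c1.mul_right c2).sub_right (c2.mul_right c1)
  have hDκ : Dn (K.w i) κ (K.a i) = K.x ^ M * G := by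
    rw [hκ, ← comm_pow, K.hw i, mul_add N, add_mul (K.φ (K.Q i)), Finset.mul_sum, Finset.sum_mul]
    have e0 : N * K.φ (K.Q i) - K.φ (K.Q i) * N
        = K.x ^ M * (nb * K.φ (K.Q i) - K.φ (K.Q i) * nb) := by
      rw [hbr, (K.φ_comm_Lin (K.Q i) hη).eq, sub_self, add_zero]
    have e1 : ∀ m ∈ univ.filter (fun m => i < m),
        N * (K.φ (MvPolynomial.C (K.θ i m)) * K.w m ^ K.a i)
        - K.φ (MvPolynomial.C (K.θ i m)) * K.w m ^ K.a i * N
        = K.x ^ M * ((nb * K.j (K.θ i m) - K.j (K.θ i m) * nb) * K.w m ^ K.a i) := by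
      intro m hm
      have hm' : i < m := (Finset.mem_filter.1 hm).2
      have h1 : K.w m ^ K.a i * N = N * K.w m ^ K.a i := ((hNw m hm').pow_right _).eq.symm
      have h2 := hbr (K.j (K.θ i m))
      rw [(hηL (K.θ i m)).eq, sub_self, add_zero] at h2
      show N * (K.j (K.θ i m) * K.w m ^ K.a i) - K.j (K.θ i m) * K.w m ^ K.a i * N = _
      rw [mul_assoc (K.j (K.θ i m)), h1, ← mul_assoc, ← mul_assoc, ← sub_mul, h2]
      simp only [mul_assoc]
    have : N * K.φ (K.Q i) + ∑ m ∈ univ.filter (fun m => i < m),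
        N * (K.φ (MvPolynomial.C (K.θ i m)) * K.w m ^ K.a i) -
        (K.φ (K.Q i) * N + ∑ m ∈ univ.filter (fun m => i < m),
          K.φ (MvPolynomial.C (K.θ i m)) * K.w m ^ K.a i * N)
        = (N * K.φ (K.Q i) - K.φ (K.Q i) * N) + ∑ m ∈ univ.filter (fun m => i < m),
          (N * (K.φ (MvPolynomial.C (K.θ i m)) * K.w m ^ K.a i)
            - K.φ (MvPolynomial.C (K.θ i m)) * K.w m ^ K.a i * N) := by
      rw [Finset.sum_sub_distrib]
      abel
    rw [this, e0, Finset.sum_congr rfl e1, ← Finset.mul_sum, ← mul_add, ← hGeq]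
  have hE := comm_En (K.w i) ζ κ (K.a i)
  rw [hD, hDκ, zero_mul, zero_sub] at hE
  rw [mem_bId]
  refine ⟨M, -En (K.w i) ζ κ (K.a i), (K.Cen _).neg_mem (En_mem _ _ _ _ (K.w_mem_Cen i _) hζ hκC),
    ?_⟩
  show K.x ^ M * (G * ζ) = _
  rw [mul_neg, neg_mul, sub_neg_eq_add, neg_add_eq_sub, ← neg_sub, hE, neg_neg, hGζ.eq,
    ← mul_assoc, K.x_pow_comm M ζ, mul_assoc]

theorem step2 [CharZero F] {i : Fin r} {ζ : B} (hζ : ζ ∈ K.Cen (i + 1))
    (hD : Dn (K.w i) ζ (K.a i) = 0) :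
    (⟨K.w i, K.w_mem_PP i⟩ : K.PP) ^ (K.a i - 1) ∈ K.bId i ζ := by
  have h1 : ((K.a i : ℕ) : K.PP) * (⟨K.w i, K.w_mem_PP i⟩ : K.PP) ^ (K.a i - 1) ∈ K.bId i ζ := by
    rw [mem_bId]
    refine ⟨0, Gn (K.w i) ζ (K.a i), Gn_mem _ _ _ (K.w_mem_Cen i _) hζ, ?_⟩
    have h2 := Dn_eq (K.w i) ζ (K.a i)
    rw [hD] at h2
    rw [pow_zero, one_mul]
    have h3 := (sub_eq_zero.1 h2.symm)
    rw [← h3]
    push_cast
    rfl
  have h2 := (K.bId i ζ).mul_mem_left
    (⟨K.φ (MvPolynomial.C ((K.a i : F)⁻¹)), K.φ_mem_PP _⟩ : K.PP) h1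
  rw [← mul_assoc] at h2
  have h3 : (⟨K.φ (MvPolynomial.C ((K.a i : F)⁻¹)), K.φ_mem_PP _⟩ : K.PP) * ((K.a i : ℕ) : K.PP)
      = 1 := by
    apply Subtype.ext
    show K.φ (MvPolynomial.C ((K.a i : F)⁻¹)) * (((K.a i : ℕ) : K.PP) : B) = 1
    have : (((K.a i : ℕ) : K.PP) : B) = K.φ (MvPolynomial.C (K.a i : F)) := by
      push_cast
      rw [map_natCast, map_natCast]
    rw [this, ← map_mul, ← map_mul, inv_mul_cancel₀, map_one, map_one]
    have := K.ha i
    exact Nat.cast_ne_zero.2 (by omega)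
  rwa [h3, one_mul] at h2

end KData

end

end Crest.Agent.R181.H
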