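import Mathlib

/-!
# The radical computation of the killing lemma (H3)

`R` is a commutative ring, `b` an ideal of `R`, `xk` an element some power of which lies in the
ideal generated by the `φ j` (the restricted forms `f_j^V`), `w l` are the operators.
-/

set_option autoImplicit false

namespace Crest.Agent.R181.H3R

variable {R : Type*} [CommRing R] {n : ℕ}

/-- The radical part of the killing lemma. -/
theorem xk_mem_radical (b : Ideal R) (xk : R) (φ w : Fin n → R) (a : Fin n → ℕ) (i : Fin n)
    (ha : ∀ l, i < l → 1 ≤ a l)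
    (hN : ∃ N : ℕ, xk ^ N ∈ Ideal.span (Set.range φ))
    (hφi : ∀ j, j ≤ i → ∃ e : ℕ, xk ^ e * φ j ∈ b)
    (hwl : ∀ l, i < l → ∃ e e' : ℕ, xk ^ e * w l ^ e' ∈ b)
    (hrel : ∀ l, i < l → ∃ (u : R) (r t : Fin n → R), IsUnit u ∧
      w l ^ a l - (u * φ l + ∑ j ∈ Finset.univ.filter (fun j => j < l), r j * φ j) -
        ∑ m ∈ Finset.univ.filter (fun m => l < m), t m * w m ^ a l ∈ b) :
    xk ∈ b.radical := by
  classical
  rw [Ideal.radical_eq_sInf, Ideal.mem_sInf]
  rintro P ⟨hbP, hP⟩
  by_contra hx
  have hxe : ∀ e : ℕ, xk ^ e ∉ P := fun e h => hx (hP.mem_of_pow_mem e h)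
  have h1 : ∀ j, j ≤ i → φ j ∈ P := by
    intro j hj
    obtain ⟨e, he⟩ := hφi j hj
    exact (hP.mem_or_mem (hbP he)).resolve_left (hxe e)
  have h2 : ∀ l, i < l → w l ∈ P := by
    intro l hl
    obtain ⟨e, e', he⟩ := hwl l hl
    exact hP.mem_of_pow_mem e' ((hP.mem_or_mem (hbP he)).resolve_left (hxe e))
  have h3 : ∀ k : ℕ, ∀ l : Fin n, l.1 ≤ k → φ l ∈ P := by
    intro k
    induction k with
    | zero =>
      intro l hl
      by_cases hli : l ≤ i
      · exact h1 l hli
      · exfalso
        push Not at hli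
        rw [Fin.lt_def] at hli
        omega
    | succ k ih =>
      intro l hl
      by_cases hli : l ≤ i
      · exact h1 l hli
      · push Not at hli
        obtain ⟨u, r, t, hu, hmem⟩ := hrel l hli
        have h4 : w l ^ a l ∈ P := P.pow_mem_of_mem (h2 l hli) _ (ha l hli)
        have h5 : ∑ m ∈ Finset.univ.filter (fun m => l < m), t m * w m ^ a l ∈ P := by
          refine P.sum_mem fun m hm => ?_
          rw [Finset.mem_filter] at hm
          exact P.mul_mem_left _ (P.pow_mem_of_mem (h2 m (hli.trans hm.2)) _ (ha l hli))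
        have h6 : ∑ j ∈ Finset.univ.filter (fun j => j < l), r j * φ j ∈ P := by
          refine P.sum_mem fun j hj => ?_
          rw [Finset.mem_filter] at hj
          refine P.mul_mem_left _ (ih j ?_)
          have := hj.2
          rw [Fin.lt_def] at this
          omega
        have h7 : u * φ l ∈ P := by
          have h8 := P.sub_mem (P.sub_mem (P.sub_mem h4 h5) (hbP hmem)) h6
          have h9 : w l ^ a l - ∑ m ∈ Finset.univ.filter (fun m => l < m), t m * w m ^ a l -
              (w l ^ a l - (u * φ l + ∑ j ∈ Finset.univ.filter (fun j => j < l), r j * φ j) -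
                ∑ m ∈ Finset.univ.filter (fun m => l < m), t m * w m ^ a l) -
              ∑ j ∈ Finset.univ.filter (fun j => j < l), r j * φ j = u * φ l := by ring
          rwa [h9] at h8
        rcases hP.mem_or_mem h7 with h8 | h8
        · exact absurd (Ideal.eq_top_of_isUnit_mem _ h8 hu) hP.ne_top
        · exact h8
  obtain ⟨N, hN⟩ := hN
  apply hxe N
  have h4 : Ideal.span (Set.range φ) ≤ P := by
    rw [Ideal.span_le]
    rintro _ ⟨j, rfl⟩
    exact h3 j.1 j le_rfl
  exact h4 hN

end Crest.Agent.R181.H3R
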