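import Crest.Agent.R181.H3

/-!
# R181, block H: proof of the killing lemma, end
-/

set_option autoImplicit false

namespace Crest.Agent.R181.H

open Finset

noncomputable section

namespace KData

variable {B F : Type*} [Ring B] [Field F] {r : ℕ} (K : KData B F r)

/-- `φ` with values in the commutative ring `PP`. -/
def φP : MvPolynomial (Fin (r + 1)) F →+* K.PP := K.φ.codRestrict K.PP K.φ_mem_PP

theorem step3 [CharZero F] {i : Fin r} (hK : K.Kill (i + 1))
    (hPf : K.Par i (K.φ (K.f i.succ)))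
    (hPj : ∀ j, j ≤ i.castSucc → ∃ e, K.Par i (K.φ (MvPolynomial.X K.k ^ e * K.f j)))
    (hPw : ∀ m, i < m → K.Par i (K.w m ^ K.a i))
    {ζ : B} (hζ : ζ ∈ K.Cen (i + 1)) (hD : Dn (K.w i) ζ (K.a i) = 0) :
    (1 : K.PP) ∈ K.bId i ζ := by
  by_contra hcon
  -- the ideal is saturated with respect to `x`
  set xP : K.PP := ⟨K.x, K.φ_mem_PP _⟩ with hxP
  have hsat : ∀ M : ℕ, xP ^ M ∉ K.bId i ζ := by
    intro M hM
    apply hcon
    obtain ⟨M', η, h1, h2⟩ := K.mem_bId.1 hM
    rw [mem_bId]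
    refine ⟨M' + M, η, h1, ?_⟩
    rw [← h2, pow_add]
    show _ = K.x ^ M' * (K.x ^ M * ζ)
    rw [mul_assoc]
    congr 2
    exact one_mul ζ
  obtain ⟨p, hp, hle, hdis⟩ := Ideal.exists_le_prime_disjoint (K.bId i ζ) (Submonoid.powers xP) (by
    rw [Set.disjoint_left]
    rintro _ h1 ⟨M, rfl⟩
    exact hsat M h1)
  have hx : xP ∉ p := by
    intro h
    exact Set.disjoint_left.1 hdis h ⟨1, pow_one _⟩
  have hζL : ζ ∈ K.Lin := (K.mem_Cen.1 hζ).1
  have hwm : ∀ m : Fin r, i < m → (⟨K.w m, K.w_mem_PP m⟩ : K.PP) ∈ p := by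
    intro m hm
    have h1 := K.step1 hK (hPw m hm) (K.PP.pow_mem (K.w_mem_PP m) _) hζ
      (((K.mem_Cen.1 hζ).2 m (by rw [Fin.lt_def] at hm; omega)).pow_left _) hD
    have h2 : (⟨K.w m, K.w_mem_PP m⟩ : K.PP) ^ K.a i ∈ p := hle h1
    exact hp.mem_of_pow_mem _ h2
  have hwi : (⟨K.w i, K.w_mem_PP i⟩ : K.PP) ∈ p :=
    hp.mem_of_pow_mem _ (hle (K.step2 hζ hD))
  have hf1 : ∀ j, j ≤ i.castSucc → K.φP (K.f j) ∈ p := by
    intro j hj
    obtain ⟨e, he⟩ := hPj j hj
    have h1 := hle (K.step1 hK he (K.φ_mem_PP _) hζ (K.φ_comm_Lin _ hζL) hD)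
    have h2 : (⟨K.φ (MvPolynomial.X K.k ^ e * K.f j), K.φ_mem_PP _⟩ : K.PP)
        = xP ^ e * K.φP (K.f j) := by
      apply Subtype.ext
      show K.φ _ = K.x ^ e * K.φ (K.f j)
      rw [map_mul, map_pow]
      rfl
    rw [h2] at h1
    rcases hp.mem_or_mem h1 with h3 | h3
    · exact absurd (hp.mem_of_pow_mem _ h3) hx
    · exact h3
  have hf2 : K.φP (K.f i.succ) ∈ p :=
    hle (K.step1 hK hPf (K.φ_mem_PP _) hζ (K.φ_comm_Lin _ hζL) hD)
  -- all `f j` are in `p`
  have key : ∀ m : ℕ, ∀ hm : m < r + 1, K.φP (K.f ⟨m, hm⟩) ∈ p := by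
    intro m
    induction m using Nat.strong_induction_on with
    | _ m ih =>
      intro hm
      by_cases h1 : (⟨m, hm⟩ : Fin (r + 1)) ≤ i.castSucc
      · exact hf1 _ h1
      by_cases h2 : (⟨m, hm⟩ : Fin (r + 1)) = i.succ
      · rw [h2]; exact hf2
      -- `m = l.succ`, `l > i`
      have hmi : (i : ℕ) + 1 < m := by
        rw [Fin.le_def] at h1
        rw [Fin.ext_iff] at h2
        simp only [Fin.val_castSucc, Fin.val_succ] at h1 h2
        omega
      obtain ⟨l, rfl⟩ : ∃ l, m = l + 1 := ⟨m - 1, by omega⟩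
      have hl : l < r := by omega
      set L : Fin r := ⟨l, hl⟩ with hL
      have hiL : i < L := by rw [Fin.lt_def]; show (i : ℕ) < l; omega
      have hQ : K.φP (K.Q L) ∈ p := by
        have h3 : (⟨K.w L, K.w_mem_PP L⟩ : K.PP) ^ K.a L = K.φP (K.Q L) +
            ∑ m ∈ univ.filter (fun m => L < m), K.φP (MvPolynomial.C (K.θ L m)) *
              (⟨K.w m, K.w_mem_PP m⟩ : K.PP) ^ K.a L := by
          apply Subtype.ext
          push_cast
          exact K.hw L
        have h4 : (⟨K.w L, K.w_mem_PP L⟩ : K.PP) ^ K.a L ∈ p :=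
          Ideal.pow_mem_of_mem _ (hwm L hiL) _ (by have := K.ha L; omega)
        have h5 : ∑ m ∈ univ.filter (fun m => L < m), K.φP (MvPolynomial.C (K.θ L m)) *
              (⟨K.w m, K.w_mem_PP m⟩ : K.PP) ^ K.a L ∈ p := by
          apply Ideal.sum_mem
          intro m hm
          apply Ideal.mul_mem_left
          exact Ideal.pow_mem_of_mem _ (hwm m (hiL.trans (Finset.mem_filter.1 hm).2)) _
            (by have := K.ha L; omega)
        have h6 : K.φP (K.Q L) = (⟨K.w L, K.w_mem_PP L⟩ : K.PP) ^ K.a L -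
            ∑ m ∈ univ.filter (fun m => L < m), K.φP (MvPolynomial.C (K.θ L m)) *
              (⟨K.w m, K.w_mem_PP m⟩ : K.PP) ^ K.a L := by
          rw [h3]; ring
        rw [h6]
        exact Ideal.sub_mem _ h4 h5
      have h7 : K.φP (K.Q L - MvPolynomial.C (K.c L) * K.f L.succ) ∈ p := by
        have h8 := Ideal.mem_map_of_mem K.φP (K.hQ L)
        rw [Ideal.map_span] at h8
        refine (Ideal.span_le.2 ?_) h8
        rintro _ ⟨_, ⟨j, hj, rfl⟩, rfl⟩
        have hj' : (j : ℕ) ≤ l := by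
          have := Fin.le_def.1 hj
          simpa using this
        exact ih j (by omega) j.2
      rw [map_sub] at h7
      have h9 : K.φP (MvPolynomial.C (K.c L) * K.f L.succ) ∈ p := by
        have := Ideal.sub_mem _ hQ h7
        rwa [sub_sub_cancel] at this
      have h10 := Ideal.mul_mem_left p (K.φP (MvPolynomial.C (K.c L)⁻¹)) h9
      rw [← map_mul, ← mul_assoc, ← map_mul, inv_mul_cancel₀ (K.hc L), map_one, one_mul] at h10
      have h11 : (⟨l + 1, hm⟩ : Fin (r + 1)) = L.succ := by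
        apply Fin.ext; simp [hL]
      rw [h11]
      exact h10
  obtain ⟨M, hM⟩ := K.hf
  have h12 := Ideal.mem_map_of_mem K.φP hM
  rw [Ideal.map_span, map_pow] at h12
  have h13 : Ideal.span (K.φP '' Set.range K.f) ≤ p := by
    rw [Ideal.span_le]
    rintro _ ⟨_, ⟨j, rfl⟩, rfl⟩
    exact key j.1 j.2
  have h14 : K.φP (MvPolynomial.X K.k) = xP := rfl
  rw [h14] at h12
  exact hx (hp.mem_of_pow_mem _ (h13 h12))

theorem step4 [CharZero F] {i : Fin r} (hK : K.Kill (i + 1))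
    (hPf : K.Par i (K.φ (K.f i.succ)))
    (hPj : ∀ j, j ≤ i.castSucc → ∃ e, K.Par i (K.φ (MvPolynomial.X K.k ^ e * K.f j)))
    (hPw : ∀ m, i < m → K.Par i (K.w m ^ K.a i)) : K.Kill i := by
  intro ζ hζ
  have hζ1 : K.IsCoc (i + 1) ζ := ⟨fun l hl => hζ.lin l (by omega),
    fun l m hl hm => hζ.comm l m (by omega) (by omega), fun l hl => hζ.rel l (by omega)⟩
  obtain ⟨M, η, hη, hM⟩ := hK ζ hζ1
  set ζ' : B := K.x ^ M * ζ i - (K.w i * η - η * K.w i) with hζ'
  have hL' : ζ' ∈ K.Lin := K.Lin.sub_mem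
    (K.Lin.mul_mem (K.Lin.pow_mem (K.φ_mem_Lin _) _) (hζ.lin i le_rfl))
    (K.Lin.sub_mem (K.Lin.mul_mem (K.w_mem_Lin i) hη) (K.Lin.mul_mem hη (K.w_mem_Lin i)))
  have hC' : ζ' ∈ K.Cen (i + 1) := by
    rw [mem_Cen]
    refine ⟨hL', fun l hl => ?_⟩
    have h1 := hζ.comm l i (by omega) le_rfl
    have h2 := hM l hl
    have h3 := (K.hww l i).eq
    have h4 : K.w l * (K.x ^ M * ζ i) = K.x ^ M * (K.w l * ζ i) := by
      rw [← mul_assoc, ← K.x_pow_comm M (K.w l), mul_assoc]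
    have h5 : K.w i * (K.x ^ M * ζ l) = K.x ^ M * (K.w i * ζ l) := by
      rw [← mul_assoc, ← K.x_pow_comm M (K.w i), mul_assoc]
    have h6 : K.w l * ζ i = K.w i * ζ l - ζ l * K.w i + ζ i * K.w l := by
      rw [← h1]; abel
    show K.w l * ζ' = ζ' * K.w l
    rw [hζ', mul_sub, h4, h6, mul_add, mul_sub, ← h5, h2, ← mul_assoc (K.x ^ M) (ζ l), h2,
      sub_mul (K.x ^ M * ζ i), mul_assoc (K.x ^ M) (ζ i)]
    have h7 : K.w i * (K.w l * η - η * K.w l) - (K.w l * η - η * K.w l) * K.w i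
      - K.w l * (K.w i * η - η * K.w i) + (K.w i * η - η * K.w i) * K.w l
      = - ((K.w l * K.w i - K.w i * K.w l) * η) + η * (K.w l * K.w i - K.w i * K.w l) := by
      noncomm_ring
    rw [h3, sub_self, zero_mul, mul_zero, neg_zero, add_zero] at h7
    have h8 : K.w i * (K.w l * η - η * K.w l) - (K.w l * η - η * K.w l) * K.w i
      = K.w l * (K.w i * η - η * K.w i) - (K.w i * η - η * K.w i) * K.w l := by
      rw [← sub_eq_zero, ← h7]; abel
    rw [h8]
    abel
  have hcomm : ∀ p, K.φ p * η - η * K.φ p = 0 := fun p => by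
    rw [(K.φ_comm_Lin p hη).eq, sub_self]
  have hD' : Dn (K.w i) ζ' (K.a i) = 0 := by
    rw [hζ', Dn_sub, Dn_mul_left _ _ _ ((K.x_comm _).pow_left M), Dn_comm, hζ.rel i le_rfl]
    have e1 : K.x ^ M * ∑ m ∈ univ.filter (fun m => i < m), K.j (K.θ i m) * Dn (K.w m) (ζ m) (K.a i)
        = ∑ m ∈ univ.filter (fun m => i < m),
          K.j (K.θ i m) * (K.w m ^ K.a i * η - η * K.w m ^ K.a i) := by
      rw [Finset.mul_sum]
      apply Finset.sum_congr rfl
      intro m hm
      have hm' : i < m := (Finset.mem_filter.1 hm).2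
      rw [← Dn_comm, ← hM m (by rw [Fin.lt_def] at hm'; omega),
        Dn_mul_left _ _ _ ((K.x_comm _).pow_left M), ← mul_assoc, K.x_pow_comm, mul_assoc]
    have e2 : K.w i ^ K.a i * η - η * K.w i ^ K.a i
        = ∑ m ∈ univ.filter (fun m => i < m),
          K.j (K.θ i m) * (K.w m ^ K.a i * η - η * K.w m ^ K.a i) := by
      rw [K.hw i, add_mul, mul_add, Finset.mul_sum, Finset.sum_mul]
      have : K.φ (K.Q i) * η + ∑ m ∈ univ.filter (fun m => i < m),
            K.φ (MvPolynomial.C (K.θ i m)) * K.w m ^ K.a i * η -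
          (η * K.φ (K.Q i) + ∑ m ∈ univ.filter (fun m => i < m),
            η * (K.φ (MvPolynomial.C (K.θ i m)) * K.w m ^ K.a i))
          = (K.φ (K.Q i) * η - η * K.φ (K.Q i)) + ∑ m ∈ univ.filter (fun m => i < m),
            (K.φ (MvPolynomial.C (K.θ i m)) * K.w m ^ K.a i * η -
              η * (K.φ (MvPolynomial.C (K.θ i m)) * K.w m ^ K.a i)) := by
        rw [Finset.sum_sub_distrib]; abel
      rw [this, hcomm, zero_add]
      apply Finset.sum_congr rfl
      intro m _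
      have h1 : K.φ (MvPolynomial.C (K.θ i m)) * η = η * K.φ (MvPolynomial.C (K.θ i m)) :=
        sub_eq_zero.1 (hcomm _)
      rw [← mul_assoc η, ← h1]
      show _ = K.φ (MvPolynomial.C (K.θ i m)) * _
      simp only [mul_sub, mul_assoc]
    rw [e1, e2, sub_self]
  obtain ⟨M', η', h1', h2'⟩ := K.mem_bId.1 (K.step3 hK hPf hPj hPw hC' hD')
  have h2'' : K.x ^ M' * ζ' = K.w i * η' - η' * K.w i := by
    rw [← h2']
    congr 1
    exact (one_mul ζ').symm
  refine ⟨M' + M, K.x ^ M' * η + η', ?_, ?_⟩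
  · exact K.Lin.add_mem (K.Lin.mul_mem (K.Lin.pow_mem (K.φ_mem_Lin _) _) hη) (K.mem_Cen.1 h1').1
  · intro l hl
    have e0 : ∀ b : B, b * (K.x ^ M' * η) = K.x ^ M' * (b * η) := by
      intro b; rw [← mul_assoc, ← K.x_pow_comm M' b, mul_assoc]
    by_cases hli : (i : ℕ) + 1 ≤ l
    · have h3 := ((K.mem_Cen.1 h1').2 l hli).eq
      rw [pow_add, mul_assoc, hM l hli, mul_add, add_mul, e0, h3, mul_sub]
      simp only [mul_assoc]
      abel
    · have : l = i := by apply Fin.ext; omega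
      subst this
      have h4 : K.x ^ M * ζ l = ζ' + (K.w l * η - η * K.w l) := by rw [hζ']; abel
      rw [pow_add, mul_assoc, h4, mul_add, h2'', mul_add, add_mul, e0, mul_sub]
      simp only [mul_assoc]
      abel

/-- **Killing lemma.** -/
theorem kill [CharZero F]
    (hPf : ∀ i, K.Par i (K.φ (K.f i.succ)))
    (hPj : ∀ i j, j ≤ i.castSucc → ∃ e, K.Par i (K.φ (MvPolynomial.X K.k ^ e * K.f j)))
    (hPw : ∀ i m, i < m → K.Par i (K.w m ^ K.a i)) : K.Kill 0 := by
  have : ∀ m : ℕ, m ≤ r → K.Kill (r - m) := by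
    intro m
    induction m with
    | zero =>
      intro _ ζ _
      refine ⟨0, 0, K.Lin.zero_mem, fun l hl => ?_⟩
      exact absurd l.2 (by omega)
    | succ m ih =>
      intro hm
      have h1 := ih (by omega)
      set i : Fin r := ⟨r - (m + 1), by omega⟩ with hi
      have h2 : r - m = (i : ℕ) + 1 := by show r - m = r - (m + 1) + 1; omega
      rw [h2] at h1
      exact K.step4 h1 (hPf i) (hPj i) (hPw i)
  have h := this r le_rfl
  rwa [Nat.sub_self] at h

end KData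

end

end Crest.Agent.R181.H
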