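import Crest.Agent.R181.UR396a

/-!
# R181, block H: polynomials in central variables over a noncommutative ring
-/

set_option autoImplicit false
set_option linter.unusedSectionVars false

namespace Crest.Agent.R181.H

open Finset
open Crest.Agent.R181.UR

noncomputable section

namespace Px

variable {A : Type*} [Ring A] {σ : Type*}

theorem var_eq (t : σ) : (var A t) = AddMonoidAlgebra.single (Finsupp.single t 1) 1 := rfl

theorem coeff_C_mul (a : A) (f : PA A σ) (m : σ →₀ ℕ) : (cst σ a * f).coeff m = a * f.coeff m := by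
  rw [cst_apply, AddMonoidAlgebra.coeff_single_zero_mul]

theorem coeff_mul_C (a : A) (f : PA A σ) (m : σ →₀ ℕ) : (f * cst σ a).coeff m = f.coeff m * a := by
  rw [cst_apply, AddMonoidAlgebra.coeff_mul_single_zero]

theorem coeff_X_mul (t : σ) (f : PA A σ) (m : σ →₀ ℕ) :
    (var A t * f).coeff (m + Finsupp.single t 1) = f.coeff m := by
  rw [(var_comm t f).eq, var_eq, AddMonoidAlgebra.coeff_mul_single_add, mul_one]

theorem coeff_X_mul' (t : σ) (f : PA A σ) (m : σ →₀ ℕ) (h : m t = 0) :
    (var A t * f).coeff m = 0 := by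
  rw [(var_comm t f).eq, var_eq]
  apply AddMonoidAlgebra.coeff_mul_single_of_forall_add_ne
  rintro d rfl
  simp at h

/-- induction principle: additive, and closed on terms -/
theorem ind {P : PA A σ → Prop} (f : PA A σ) (h0 : P 0) (ha : ∀ f g, P f → P g → P (f + g))
    (hs : ∀ m a, P (AddMonoidAlgebra.single m a)) : P f :=
  AddMonoidAlgebra.induction_linear f h0 ha hs

/-- `V`-supported exponent -/
def In (V : Set σ) (m : σ →₀ ℕ) : Prop := ∀ t, t ∉ V → m t = 0

theorem In_zero (V : Set σ) : In V (0 : σ →₀ ℕ) := fun _ _ => rfl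

theorem In_add (V : Set σ) (m m' : σ →₀ ℕ) : In V (m + m') ↔ In V m ∧ In V m' := by
  unfold In
  constructor
  · intro h
    refine ⟨fun t ht => ?_, fun t ht => ?_⟩
    · have := h t ht
      rw [Finsupp.add_apply] at this
      omega
    · have := h t ht
      rw [Finsupp.add_apply] at this
      omega
  · rintro ⟨h1, h2⟩ t ht
    rw [Finsupp.add_apply, h1 t ht, h2 t ht]

theorem In_single {V : Set σ} {t : σ} : In V (Finsupp.single t 1) ↔ t ∈ V := by
  classical
  constructor
  · intro h
    by_contra h1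
    have := h t h1
    simp at this
  · intro h s hs
    rw [Finsupp.single_apply, if_neg]
    rintro rfl
    exact hs h

theorem In_mono {V W : Set σ} (h : V ⊆ W) {m : σ →₀ ℕ} (hm : In V m) : In W m :=
  fun t ht => hm t fun h1 => ht (h h1)

/-- `V`-supported, homogeneous of degree `d`. -/
def Sup (A : Type*) [Ring A] {σ : Type*} (V : Set σ) (d : ℕ) : AddSubgroup (PA A σ) where
  carrier := {f | ∀ m, f.coeff m ≠ 0 → In V m ∧ m.degree = d}
  zero_mem' := by intro m h; exact absurd rfl h
  add_mem' := by
    intro f g hf hg m h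
    rw [AddMonoidAlgebra.coeff_add, Finsupp.add_apply] at h
    by_cases h1 : f.coeff m = 0
    · exact hg m (by rwa [h1, zero_add] at h)
    · exact hf m h1
  neg_mem' := by
    intro f hf m h
    apply hf m
    intro h1
    apply h
    simp [h1]

theorem mem_Sup {V : Set σ} {d : ℕ} {f : PA A σ} :
    f ∈ Sup A V d ↔ ∀ m, f.coeff m ≠ 0 → In V m ∧ m.degree = d := Iff.rfl

theorem Sup_mono {V W : Set σ} (h : V ⊆ W) {d : ℕ} {f : PA A σ} (hf : f ∈ Sup A V d) :
    f ∈ Sup A W d := fun m hm => ⟨In_mono h (hf m hm).1, (hf m hm).2⟩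

theorem single_mem_Sup {V : Set σ} {m : σ →₀ ℕ} (hm : In V m) (a : A) :
    AddMonoidAlgebra.single m a ∈ Sup A V m.degree := by
  classical
  intro m' h
  rw [AddMonoidAlgebra.coeff_single, Finsupp.single_apply] at h
  by_cases h1 : m = m'
  · subst h1; exact ⟨hm, rfl⟩
  · rw [if_neg h1] at h; exact absurd rfl h

theorem C_mem_Sup (V : Set σ) (a : A) : (cst σ a : PA A σ) ∈ Sup A V 0 := by
  have := single_mem_Sup (V := V) (In_zero V) a
  rwa [map_zero] at this

theorem monom_mem_Sup {V : Set σ} {t : σ} (ht : t ∈ V) (a : A) :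
    (AddMonoidAlgebra.single (Finsupp.single t 1) a : PA A σ) ∈ Sup A V 1 := by
  have := single_mem_Sup (V := V) (In_single.2 ht) a
  rwa [Finsupp.degree_single] at this

theorem X_mem_Sup {V : Set σ} {t : σ} (ht : t ∈ V) : (var A t : PA A σ) ∈ Sup A V 1 :=
  monom_mem_Sup ht 1

theorem mul_mem_Sup {V : Set σ} {d e : ℕ} {f g : PA A σ} (hf : f ∈ Sup A V d)
    (hg : g ∈ Sup A V e) : f * g ∈ Sup A V (d + e) := by
  classical
  intro m hm
  have h1 : m ∈ (f * g).coeff.support := Finsupp.mem_support_iff.2 hm
  have h2 := AddMonoidAlgebra.support_coeff_mul_subset f g h1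
  rw [Finset.mem_add] at h2
  obtain ⟨m1, hm1, m2, hm2, rfl⟩ := h2
  have h3 := hf m1 (Finsupp.mem_support_iff.1 hm1)
  have h4 := hg m2 (Finsupp.mem_support_iff.1 hm2)
  refine ⟨(In_add V _ _).2 ⟨h3.1, h4.1⟩, ?_⟩
  rw [map_add, h3.2, h4.2]

theorem pow_mem_Sup {V : Set σ} {d : ℕ} {f : PA A σ} (hf : f ∈ Sup A V d) (e : ℕ) :
    f ^ e ∈ Sup A V (e * d) := by
  induction e with
  | zero => rw [pow_zero, zero_mul]; exact C_mem_Sup V (1 : A)
  | succ e ih => rw [pow_succ, Nat.succ_mul]; exact mul_mem_Sup ih hf

theorem map_mem_Sup {A' : Type*} [Ring A'] (g : A →+* A') {V : Set σ} {d : ℕ} {f : PA A σ}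
    (hf : f ∈ Sup A V d) : mp σ g f ∈ Sup A' V d := by
  intro m hm
  apply hf m
  intro h
  apply hm
  rw [mp_coeff, h, map_zero]

theorem lf_mem_Sup [Fintype σ] (w : σ → A) : lf w ∈ Sup A (Set.univ : Set σ) 1 := by
  unfold lf
  exact sum_mem fun v _ => monom_mem_Sup (Set.mem_univ v) _

/-- homogeneous component -/
def hc (d : ℕ) : PA A σ →+ PA A σ where
  toFun f := .ofCoeff (f.coeff.filter (fun m => m.degree = d))
  map_zero' := by ext m; simp [Finsupp.filter_zero]
  map_add' f g := by ext m; simp [Finsupp.filter_add]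

theorem coeff_hc (d : ℕ) (f : PA A σ) (m : σ →₀ ℕ) :
    (hc d f).coeff m = if m.degree = d then f.coeff m else 0 := by
  show (f.coeff.filter (fun m => m.degree = d)) m = _
  rw [Finsupp.filter_apply]

theorem hc_single (d : ℕ) (m : σ →₀ ℕ) (a : A) :
    hc d (AddMonoidAlgebra.single m a) = if m.degree = d then AddMonoidAlgebra.single m a else 0 := by
  classical
  ext m'
  rw [coeff_hc]
  by_cases h : m = m'
  · subst h
    split_ifs <;> simp
  · have h2 : (AddMonoidAlgebra.single m a : PA A σ).coeff m' = 0 := by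
      rw [AddMonoidAlgebra.coeff_single, Finsupp.single_apply, if_neg h]
    rw [h2, ite_self]
    split_ifs
    · exact h2.symm
    · rfl

theorem hc_of_mem {V : Set σ} {d : ℕ} {f : PA A σ} (hf : f ∈ Sup A V d) : hc d f = f := by
  ext m
  rw [coeff_hc]
  split_ifs with h
  · rfl
  · by_contra h1
    exact h (hf m (fun h2 => h1 h2.symm)).2

theorem hc_single_mul (d : ℕ) (m : σ →₀ ℕ) (a : A) (f : PA A σ) :
    hc (m.degree + d) (AddMonoidAlgebra.single m a * f) = AddMonoidAlgebra.single m a * hc d f := by
  induction f using Px.ind with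
  | h0 => simp
  | ha f g hf hg => rw [mul_add, map_add, hf, hg, map_add, mul_add]
  | hs m' b =>
    rw [AddMonoidAlgebra.single_mul_single, hc_single, hc_single, map_add]
    by_cases h : m'.degree = d
    · rw [if_pos h, if_pos (by rw [h]), AddMonoidAlgebra.single_mul_single]
    · rw [if_neg h, if_neg (by omega), mul_zero]

theorem hc_mul_single (d : ℕ) (m : σ →₀ ℕ) (a : A) (f : PA A σ) :
    hc (m.degree + d) (f * AddMonoidAlgebra.single m a) = hc d f * AddMonoidAlgebra.single m a := by
  induction f using Px.ind with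
  | h0 => simp
  | ha f g hf hg => rw [add_mul, map_add, hf, hg, map_add, add_mul]
  | hs m' b =>
    rw [AddMonoidAlgebra.single_mul_single, hc_single, hc_single, map_add]
    by_cases h : m'.degree = d
    · rw [if_pos h, if_pos (by rw [h]; ring), AddMonoidAlgebra.single_mul_single]
    · rw [if_neg h, if_neg (by omega), zero_mul]

theorem hc_mul {V : Set σ} {e d : ℕ} {g : PA A σ} (hg : g ∈ Sup A V e) (f : PA A σ) :
    hc (e + d) (g * f) = g * hc d f := by
  have h : ∀ m ∈ g.coeff.support, hc (e + d) (AddMonoidAlgebra.single m (g.coeff m) * f)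
      = AddMonoidAlgebra.single m (g.coeff m) * hc d f := by
    intro m hm
    rw [← (hg m (Finsupp.mem_support_iff.1 hm)).2, hc_single_mul]
  have h2 : g = ∑ m ∈ g.coeff.support, AddMonoidAlgebra.single m (g.coeff m) :=
    (AddMonoidAlgebra.sum_coeff_single g).symm
  conv_lhs => rw [h2, Finset.sum_mul, map_sum]
  conv_rhs => rw [h2, Finset.sum_mul]
  exact Finset.sum_congr rfl h

theorem hc_mul' {V : Set σ} {e d : ℕ} {g : PA A σ} (hg : g ∈ Sup A V e) (f : PA A σ) :
    hc (e + d) (f * g) = hc d f * g := by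
  have h : ∀ m ∈ g.coeff.support, hc (e + d) (f * AddMonoidAlgebra.single m (g.coeff m))
      = hc d f * AddMonoidAlgebra.single m (g.coeff m) := by
    intro m hm
    rw [← (hg m (Finsupp.mem_support_iff.1 hm)).2, hc_mul_single]
  have h2 : g = ∑ m ∈ g.coeff.support, AddMonoidAlgebra.single m (g.coeff m) :=
    (AddMonoidAlgebra.sum_coeff_single g).symm
  conv_lhs => rw [h2, Finset.mul_sum, map_sum]
  conv_rhs => rw [h2, Finset.mul_sum]
  exact Finset.sum_congr rfl h

open Classical in
/-- setting the variables outside of `V` to zero, on monomials -/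
def resMon (A : Type*) [Ring A] {σ : Type*} (V : Set σ) :
    Multiplicative (σ →₀ ℕ) →* PA A σ where
  toFun m := if In V m.toAdd then AddMonoidAlgebra.single m.toAdd 1 else 0
  map_one' := by
    rw [toAdd_one, if_pos (In_zero V)]
    rfl
  map_mul' m m' := by
    rw [toAdd_mul]
    have hs := In_add V m.toAdd m'.toAdd
    by_cases h1 : In V m.toAdd
    · by_cases h2 : In V m'.toAdd
      · rw [if_pos h1, if_pos h2, if_pos (hs.2 ⟨h1, h2⟩), AddMonoidAlgebra.single_mul_single,
          one_mul]
      · rw [if_neg h2, if_neg (fun h => h2 (hs.1 h).2), mul_zero]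
    · rw [if_neg h1, if_neg (fun h => h1 (hs.1 h).1), zero_mul]

theorem resMon_comm (V : Set σ) (a : A) (m : Multiplicative (σ →₀ ℕ)) :
    Commute (cst σ a : PA A σ) (resMon A V m) := by
  classical
  show Commute (cst σ a) (if In V m.toAdd then AddMonoidAlgebra.single m.toAdd 1 else 0)
  split_ifs
  · show cst σ a * AddMonoidAlgebra.single m.toAdd 1 = AddMonoidAlgebra.single m.toAdd 1 * cst σ a
    rw [cst_apply, AddMonoidAlgebra.single_mul_single, AddMonoidAlgebra.single_mul_single, zero_add,
      add_zero, mul_one, one_mul]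
  · exact Commute.zero_right _

/-- setting the variables outside of `V` to zero -/
def res (V : Set σ) : PA A σ →+* PA A σ :=
  AddMonoidAlgebra.liftNCRingHom (cst σ : A →+* PA A σ) (resMon A V) (resMon_comm V)

open Classical in
theorem res_single (V : Set σ) (m : σ →₀ ℕ) (a : A) :
    res V (AddMonoidAlgebra.single m a) = if In V m then AddMonoidAlgebra.single m a else 0 := by
  have h : res V (AddMonoidAlgebra.single m a) = cst σ a * resMon A V (Multiplicative.ofAdd m) := by
    unfold res
    exact AddMonoidAlgebra.liftNCRingHom_single ..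
  rw [h]
  show cst σ a * (if In V m then AddMonoidAlgebra.single m 1 else 0) = _
  split_ifs
  · rw [cst_apply, AddMonoidAlgebra.single_mul_single, zero_add, mul_one]
  · rw [mul_zero]

open Classical in
theorem coeff_res (V : Set σ) (f : PA A σ) (m : σ →₀ ℕ) :
    (res V f).coeff m = if In V m then f.coeff m else 0 := by
  induction f using Px.ind with
  | h0 => simp
  | ha f g hf hg =>
    rw [map_add, AddMonoidAlgebra.coeff_add, Finsupp.add_apply, hf, hg, AddMonoidAlgebra.coeff_add,
      Finsupp.add_apply]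
    split_ifs <;> simp
  | hs m' b =>
    rw [res_single]
    by_cases h : m' = m
    · subst h; split_ifs <;> simp
    · have h2 : (AddMonoidAlgebra.single m' b : PA A σ).coeff m = 0 := by
        rw [AddMonoidAlgebra.coeff_single, Finsupp.single_apply, if_neg h]
      rw [h2, ite_self]
      split_ifs
      · exact h2
      · rfl

theorem res_C (V : Set σ) (a : A) : res V (cst σ a : PA A σ) = cst σ a := by
  classical
  rw [cst_apply, res_single, if_pos (In_zero V)]

theorem res_X_of_mem {V : Set σ} {t : σ} (ht : t ∈ V) : res V (var A t : PA A σ) = var A t := by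
  classical
  rw [var_eq, res_single, if_pos (In_single.2 ht)]

theorem res_X_of_notMem {V : Set σ} {t : σ} (ht : t ∉ V) :
    res V (var A t : PA A σ) = 0 := by
  classical
  rw [var_eq, res_single, if_neg (fun h => ht (In_single.1 h))]

theorem res_of_mem {V : Set σ} {d : ℕ} {f : PA A σ} (hf : f ∈ Sup A V d) :
    res V f = f := by
  classical
  ext m
  rw [coeff_res]
  split_ifs with h
  · rfl
  · by_contra h1
    exact h (hf m (fun h2 => h1 h2.symm)).1

theorem res_mem_Sup {V W : Set σ} {d : ℕ} {f : PA A σ} (hf : f ∈ Sup A W d) :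
    res V f ∈ Sup A V d := by
  classical
  intro m hm
  rw [coeff_res] at hm
  split_ifs at hm with h
  · exact ⟨h, (hf m hm).2⟩
  · exact absurd rfl hm

theorem hc_mem_Sup {V : Set σ} (d : ℕ) (f : PA A σ) : hc d (res V f) ∈ Sup A V d := by
  classical
  intro m hm
  rw [coeff_hc] at hm
  split_ifs at hm with h
  · rw [coeff_res] at hm
    split_ifs at hm with h'
    · exact ⟨h', h⟩
    · exact absurd rfl hm
  · exact absurd rfl hm

theorem hc_mem_Sup_univ (d : ℕ) (f : PA A σ) : hc d f ∈ Sup A (Set.univ : Set σ) d := by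
  intro m hm
  rw [coeff_hc] at hm
  split_ifs at hm with h
  · exact ⟨fun t ht => absurd (Set.mem_univ t) ht, h⟩
  · exact absurd rfl hm

theorem res_map {A' : Type*} [Ring A'] (g : A →+* A') (V : Set σ) (f : PA A σ) :
    res V (mp σ g f) = mp σ g (res V f) := by
  classical
  ext m
  rw [coeff_res, mp_coeff, mp_coeff, coeff_res]
  split_ifs <;> simp

/-- division by a variable -/
def divX (t : σ) (f : PA A σ) : PA A σ := f.divOf (Finsupp.single t 1)

theorem coeff_divX (t : σ) (f : PA A σ) (m : σ →₀ ℕ) :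
    (divX t f).coeff m = f.coeff (m + Finsupp.single t 1) := by
  unfold divX
  rw [AddMonoidAlgebra.coeff_divOf, add_comm]

theorem X_mul_divX {t : σ} {f : PA A σ} (h : ∀ m, m t = 0 → f.coeff m = 0) :
    var A t * divX t f = f := by
  classical
  ext m
  by_cases hm : m t = 0
  · rw [coeff_X_mul' t _ m hm, h m hm]
  · have : m = (m - Finsupp.single t 1) + Finsupp.single t 1 := by
      rw [tsub_add_cancel_of_le]
      rw [Finsupp.single_le_iff]
      omega
    rw [this, coeff_X_mul, coeff_divX]

theorem divX_X_mul (t : σ) (f : PA A σ) : divX t (var A t * f) = f := by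
  ext m
  rw [coeff_divX, coeff_X_mul]

theorem X_mul_inj (t : σ) {f g : PA A σ} (h : var A t * f = var A t * g) : f = g := by
  rw [← divX_X_mul t f, h, divX_X_mul]

theorem X_pow_mul_inj (t : σ) (M : ℕ) {f g : PA A σ} (h : var A t ^ M * f = var A t ^ M * g) :
    f = g := by
  induction M with
  | zero => simpa using h
  | succ M ih =>
    rw [pow_succ', mul_assoc, mul_assoc] at h
    exact ih (X_mul_inj t h)

theorem divX_mem_Sup {V : Set σ} {d : ℕ} {t : σ} {f : PA A σ}
    (hf : f ∈ Sup A V (d + 1)) : divX t f ∈ Sup A V d := by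
  intro m hm
  rw [coeff_divX] at hm
  obtain ⟨h1, h2⟩ := hf _ hm
  refine ⟨((In_add V _ _).1 h1).1, ?_⟩
  rw [map_add, Finsupp.degree_single] at h2
  omega

/-- If `f` vanishes when the variable `t` is set to zero then `f` is a multiple of `t`. -/
theorem exists_X_mul {t : σ} {d : ℕ} {f : PA A σ} (hf : f ∈ Sup A (Set.univ : Set σ) (d + 1))
    (h : res {s | s ≠ t} f = 0) : ∃ g ∈ Sup A (Set.univ : Set σ) d, f = var A t * g := by
  classical
  refine ⟨divX t f, divX_mem_Sup hf, (X_mul_divX ?_).symm⟩
  intro m hm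
  have : (res {s | s ≠ t} f).coeff m = 0 := by rw [h]; rfl
  rw [coeff_res, if_pos] at this
  · exact this
  · intro s hs
    rw [Set.mem_setOf_eq, not_not] at hs
    rw [hs, hm]

/-- Two elements are equal if they commute with constants... centralizer of constants,
coefficientwise. -/
theorem commute_C_iff {a : A} {f : PA A σ} :
    Commute (cst σ a : PA A σ) f ↔ ∀ m, Commute a (f.coeff m) := by
  constructor
  · intro h m
    have := congrArg (fun x : PA A σ => x.coeff m) h.eq
    simp only [coeff_C_mul, coeff_mul_C] at this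
    exact this
  · intro h
    show cst σ a * f = f * cst σ a
    ext m
    rw [coeff_C_mul, coeff_mul_C]
    exact h m

end Px

end

end Crest.Agent.R181.H
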