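import Crest.Agent.R181.H4
import Crest.Agent.R181.H5

/-!
# R181, block H: the parameter field, derivations and connections
-/

set_option autoImplicit false
set_option linter.unusedSectionVars false

namespace Crest.Agent.R181.H

open Finset
open Crest.Agent.R181.UR

noncomputable section

/-- partial derivatives on the field of rational functions -/
theorem exists_der (P : Type) (p : P) :
    ∃ d : Derivation ℂ (FractionRing (MvPolynomial P ℂ)) (FractionRing (MvPolynomial P ℂ)),
      (d (algebraMap (MvPolynomial P ℂ) _ (MvPolynomial.X p)) = 1) ∧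
      ∀ q, q ≠ p → d (algebraMap (MvPolynomial P ℂ) _ (MvPolynomial.X q)) = 0 := by
  classical
  set R := MvPolynomial P ℂ with hR
  set K := FractionRing R with hK
  let g0 : R →ₐ[ℂ] DualNumber K := MvPolynomial.aeval (fun q =>
    TrivSqZeroExt.inl (algebraMap R K (MvPolynomial.X q)) +
      TrivSqZeroExt.inr (if q = p then (1 : K) else 0))
  have hgX : ∀ q, g0 (MvPolynomial.X q) = TrivSqZeroExt.inl (algebraMap R K (MvPolynomial.X q)) +
      TrivSqZeroExt.inr (if q = p then (1 : K) else 0) := fun q => MvPolynomial.aeval_X _ _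
  have hfst : ∀ x : R, (g0 x).fst = algebraMap R K x := by
    intro x
    have h1 : (TrivSqZeroExt.fstHom ℂ K K).comp g0 = Algebra.algHom ℂ R K := by
      apply MvPolynomial.algHom_ext
      intro q
      show (g0 (MvPolynomial.X q)).fst = algebraMap R K (MvPolynomial.X q)
      rw [hgX]
      simp
    exact DFunLike.congr_fun h1 x
  have hun : ∀ y : nonZeroDivisors R, IsUnit ((g0 : R →+* DualNumber K) y) := by
    intro y
    rw [TrivSqZeroExt.isUnit_iff_isUnit_fst]
    show IsUnit (g0 y).fst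
    rw [hfst]
    exact IsLocalization.map_units K y
  let g : K →+* DualNumber K := IsLocalization.lift (M := nonZeroDivisors R) hun
  have hg : ∀ x : R, g (algebraMap R K x) = g0 x := fun x => IsLocalization.lift_eq hun x
  have hgf : ∀ u : K, (g u).fst = u := by
    have h1 : ((TrivSqZeroExt.fstHom ℂ K K : DualNumber K →ₐ[ℂ] K) : DualNumber K →+* K).comp g
        = RingHom.id K := by
      apply IsLocalization.ringHom_ext (nonZeroDivisors R)
      ext x
      · simp [hg, hfst]
      · simp [hg, hfst]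
    intro u
    exact DFunLike.congr_fun h1 u
  have hgc : ∀ z : ℂ, g (algebraMap ℂ K z) = algebraMap ℂ (DualNumber K) z := by
    intro z
    rw [IsScalarTower.algebraMap_apply ℂ R K, hg]
    exact g0.commutes z
  refine ⟨Derivation.mk' ⟨⟨fun u => (g u).snd, fun u v => by simp⟩, fun z u => ?_⟩ ?_, ?_, ?_⟩
  · show (g (z • u)).snd = z • (g u).snd
    rw [Algebra.smul_def, map_mul, hgc, TrivSqZeroExt.snd_mul, hgf]
    have h1 : (algebraMap ℂ (DualNumber K) z).fst = algebraMap ℂ K z := rfl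
    have h2 : (algebraMap ℂ (DualNumber K) z).snd = 0 := rfl
    rw [h1, h2]
    simp [Algebra.smul_def]
  · intro u v
    show (g (u * v)).snd = u • (g v).snd + v • (g u).snd
    rw [map_mul, TrivSqZeroExt.snd_mul, hgf, hgf]
    simp [mul_comm]
  · show (g (algebraMap R K (MvPolynomial.X p))).snd = 1
    rw [hg, hgX]
    simp
  · intro q hq
    show (g (algebraMap R K (MvPolynomial.X q))).snd = 0
    rw [hg, hgX]
    simp [hq]

/-- connections on a vector space -/
theorem exists_conn {F : Type*} [Field F] [Algebra ℂ F] (d : Derivation ℂ F F) {E : Type*} [AddCommGroup E]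
    (τ : F →+* AddMonoid.End E) :
    ∃ nb : AddMonoid.End E, ∀ u, nb * τ u - τ u * nb = τ (d u) := by
  let _ : Module F E := Module.compHom E τ
  have hs : ∀ (u : F) (e : E), u • e = τ u e := fun _ _ => rfl
  let b := Module.Basis.ofVectorSpace F E
  let nb : E →+ E := b.repr.toAddEquiv.symm.toAddMonoidHom.comp
    ((Finsupp.mapRange.addMonoidHom (d : F →ₗ[ℂ] F).toAddMonoidHom).comp
      b.repr.toAddEquiv.toAddMonoidHom)
  refine ⟨nb, fun u => ?_⟩
  ext e
  show nb (τ u e) - τ u (nb e) = τ (d u) e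
  rw [← hs, ← hs, ← hs]
  apply b.repr.injective
  ext i
  have h1 : ∀ e', b.repr (nb e') i = d (b.repr e' i) := by
    intro e'
    simp [nb]
  rw [map_sub, Finsupp.sub_apply, h1, LinearEquiv.map_smul b.repr, LinearEquiv.map_smul b.repr,
    LinearEquiv.map_smul b.repr, Finsupp.smul_apply, Finsupp.smul_apply, Finsupp.smul_apply, h1,
    smul_eq_mul, smul_eq_mul, smul_eq_mul, Derivation.leibniz, smul_eq_mul, smul_eq_mul]
  ring

/-- The parameters of the tower. `n = r + 1` variables, `r` operators. -/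
structure Prm (r : ℕ) (F : Type) [Field F] [Algebra ℂ F] where
  a : Fin (r + 1) → ℕ
  f : Fin (r + 1) → MvPolynomial (Fin (r + 1)) ℂ
  c : Fin r → F
  cc : Fin r → Fin (r + 1) → Fin (r + 1) → F
  θ : Fin r → Fin r → F
  ha : ∀ i, 2 ≤ a i
  mono : Monotone a
  hom : ∀ i, (f i).IsHomogeneous (a i)
  hf : ∀ t, ∃ M : ℕ, (MvPolynomial.X t : MvPolynomial (Fin (r + 1)) ℂ) ^ M ∈
    Ideal.span (Set.range f)
  hc : ∀ i, c i ≠ 0
  dc : ∀ i, ∃ d : Derivation ℂ F F, (d (c i) = 1 ∧ ∀ i', i' ≠ i → d (c i') = 0) ∧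
    (∀ i' j l, d (cc i' j l) = 0) ∧ ∀ i' m, d (θ i' m) = 0
  dcc : ∀ i j l, ∃ d : Derivation ℂ F F, (∀ i', d (c i') = 0) ∧
    (d (cc i j l) = 1 ∧ ∀ i' j' l', (i', j', l') ≠ (i, j, l) → d (cc i' j' l') = 0) ∧
    ∀ i' m, d (θ i' m) = 0
  dθ : ∀ i m, ∃ d : Derivation ℂ F F, (∀ i', d (c i') = 0) ∧
    (∀ i' j' l', d (cc i' j' l') = 0) ∧
    (d (θ i m) = 1 ∧ ∀ i' m', (i', m') ≠ (i, m) → d (θ i' m') = 0)

namespace Prm

/-- parameters exist -/
theorem exists_prm (r : ℕ) (a : Fin (r + 1) → ℕ) (f : Fin (r + 1) → MvPolynomial (Fin (r + 1)) ℂ)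
    (ha : ∀ i, 2 ≤ a i) (mono : Monotone a) (hom : ∀ i, (f i).IsHomogeneous (a i))
    (hf : ∀ t, ∃ M : ℕ, (MvPolynomial.X t : MvPolynomial (Fin (r + 1)) ℂ) ^ M ∈
      Ideal.span (Set.range f)) :
    ∃ (F : Type) (_ : Field F) (_ : Algebra ℂ F) (P : Prm r F), P.a = a ∧ P.f = f := by
  let I := Fin r ⊕ ((Fin r × Fin (r + 1) × Fin (r + 1)) ⊕ (Fin r × Fin r))
  let z : I → FractionRing (MvPolynomial I ℂ) := fun p =>
    algebraMap (MvPolynomial I ℂ) _ (MvPolynomial.X p)
  have hd : ∀ p : I, ∃ d : Derivation ℂ (FractionRing (MvPolynomial I ℂ))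
      (FractionRing (MvPolynomial I ℂ)), d (z p) = 1 ∧ ∀ q, q ≠ p → d (z q) = 0 :=
    fun p => exists_der I p
  refine ⟨FractionRing (MvPolynomial I ℂ), inferInstance, inferInstance,
    { a := a
      f := f
      c := fun i => z (Sum.inl i)
      cc := fun i j l => z (Sum.inr (Sum.inl (i, j, l)))
      θ := fun i m => z (Sum.inr (Sum.inr (i, m)))
      ha := ha
      mono := mono
      hom := hom
      hf := hf
      hc := ?_
      dc := ?_
      dcc := ?_
      dθ := ?_ }, rfl, rfl⟩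
  · intro i h
    obtain ⟨d, h1, _⟩ := hd (Sum.inl i)
    rw [h, map_zero] at h1
    exact zero_ne_one h1
  · intro i
    obtain ⟨d, h1, h2⟩ := hd (Sum.inl i)
    refine ⟨d, ⟨h1, fun i' h => h2 _ fun h' => h (Sum.inl_injective h')⟩, fun i' j l => h2 _ (by simp),
      fun i' m => h2 _ (by simp)⟩
  · intro i j l
    obtain ⟨d, h1, h2⟩ := hd (Sum.inr (Sum.inl (i, j, l)))
    refine ⟨d, fun i' => h2 _ (by simp), ⟨h1, fun i' j' l' h => h2 _ fun h' => h ?_⟩,
      fun i' m => h2 _ fun h' => Sum.inr_ne_inl (Sum.inr_injective h')⟩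
    exact Sum.inl_injective (Sum.inr_injective h')
  · intro i m
    obtain ⟨d, h1, h2⟩ := hd (Sum.inr (Sum.inr (i, m)))
    refine ⟨d, fun i' => h2 _ (by simp), fun i' j' l' => h2 _ fun h' =>
      Sum.inl_ne_inr (Sum.inr_injective h'), h1, fun i' m' h => h2 _ fun h' => h ?_⟩
    exact Sum.inr_injective (Sum.inr_injective h')

variable {r : ℕ} {F : Type} [Field F] [Algebra ℂ F] (P : Prm r F)

/-- the forms over `F` -/
def fF (j : Fin (r + 1)) : MvPolynomial (Fin (r + 1)) F := MvPolynomial.map (algebraMap ℂ F) (P.f j)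

/-- the right hand sides `q_i` -/
def Q (i : Fin r) : MvPolynomial (Fin (r + 1)) F :=
  MvPolynomial.C (P.c i) * P.fF i.succ +
    ∑ j ∈ univ.filter (fun j => j ≤ i.castSucc), ∑ l,
      MvPolynomial.C (P.cc i j l) * (MvPolynomial.X l ^ (P.a i.succ - P.a j) * P.fF j)

/-- the degrees of the operators -/
def b (i : Fin r) : ℕ := P.a i.succ

/-- the coefficients `θ` -/
def th (i l : Fin r) : F := if i < l then P.θ i l else 0

theorem fF_hom (j : Fin (r + 1)) : (P.fF j).IsHomogeneous (P.a j) := (P.hom j).map _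

theorem Q_hom (i : Fin r) : (P.Q i).IsHomogeneous (P.b i) := by
  unfold Q b
  apply MvPolynomial.IsHomogeneous.add
  · have := (MvPolynomial.isHomogeneous_C (Fin (r + 1)) (P.c i)).mul (P.fF_hom i.succ)
    rwa [zero_add] at this
  · refine MvPolynomial.IsHomogeneous.sum _ _ _ fun j hj => ?_
    refine MvPolynomial.IsHomogeneous.sum _ _ _ fun l _ => ?_
    have h1 : P.a j ≤ P.a i.succ := by
      apply P.mono
      rw [mem_filter] at hj
      exact hj.2.trans (Fin.castSucc_lt_succ).le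
    have := (MvPolynomial.isHomogeneous_C (Fin (r + 1)) (P.cc i j l)).mul
      (((MvPolynomial.isHomogeneous_X F l).pow (P.a i.succ - P.a j)).mul (P.fF_hom j))
    have h2 : 0 + (1 * (P.a i.succ - P.a j) + P.a j) = P.a i.succ := by omega
    rwa [h2] at this

theorem hfF (t : Fin (r + 1)) : ∃ M : ℕ, (MvPolynomial.X t : MvPolynomial (Fin (r + 1)) F) ^ M ∈
    Ideal.span (Set.range P.fF) := by
  obtain ⟨M, hM⟩ := P.hf t
  refine ⟨M, ?_⟩
  have h1 := Ideal.mem_map_of_mem (MvPolynomial.map (algebraMap ℂ F)) hM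
  rw [Ideal.map_span, map_pow, MvPolynomial.map_X] at h1
  convert h1 using 2
  ext x
  simp [fF]

end Prm

end

end Crest.Agent.R181.H
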