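import Crest.Agent.R181.H6

/-!
# R181, block H: the killing lemma for tuples of linear forms
-/

set_option autoImplicit false
set_option linter.unusedSectionVars false

namespace Crest.Agent.R181.H

open Finset
open Crest.Agent.R181.UR

noncomputable section

theorem mp_MvC {F R σ : Type*} [CommRing F] [Ring R] (τ : F →+* R) (u : F) :
    mp σ τ (MvPolynomial.C u : MvPolynomial σ F) = cst σ (τ u) := mp_cst τ u

theorem mp_MvX {F R σ : Type*} [CommRing F] [Ring R] (τ : F →+* R) (v : σ) :
    mp σ τ (MvPolynomial.X v : MvPolynomial σ F) = var R v := mp_var τ v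

/-- first order deformations of tuples -/
structure IsZ {r : ℕ} {F : Type} [CommRing F] {σ : Type} [Fintype σ] (b : Fin r → ℕ)
    (th : Fin r → Fin r → F) {R : Type*} [Ring R] (τ : F →+* R) (w : Fin r → σ → R)
    (ζ : Fin r → PA R σ) : Prop where
  lin : ∀ l u, Commute (cst σ (τ u)) (ζ l)
  comm : ∀ l m, lf (w l) * ζ m - ζ m * lf (w l) = lf (w m) * ζ l - ζ l * lf (w m)
  rel : ∀ l, Dn (lf (w l)) (ζ l) (b l) =
    ∑ m, cst σ (τ (th l m)) * Dn (lf (w m)) (ζ m) (b l)

/-- a linear map commuting with `τ` -/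
def IsF {F : Type} [CommRing F] {σ : Type} {R : Type*} [Ring R] (τ : F →+* R) (η : PA R σ) : Prop :=
  ∀ u, Commute (cst σ (τ u)) η

/-- connections exist for `τ` -/
def Conn {F : Type} [Field F] [Algebra ℂ F] {R : Type*} [Ring R] (τ : F →+* R) : Prop :=
  ∀ d : Derivation ℂ F F, ∃ nb : R, ∀ u, nb * τ u - τ u * nb = τ (d u)

/-- substitutions of variables -/
def IsSub {r : ℕ} {F : Type} [Field F] {σ : Type} (g : Fin (r + 1) → MvPolynomial σ F) : Prop :=
  ∀ t, g t = 0 ∨ ∃ v, g t = MvPolynomial.X v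

namespace Prm

variable {r : ℕ} {F : Type} [Field F] [Algebra ℂ F] (P : Prm r F)
variable {σ : Type}

/-- the right hand sides in the variables `σ` -/
def Qs (g : Fin (r + 1) → MvPolynomial σ F) (i : Fin r) : MvPolynomial σ F :=
  MvPolynomial.aeval g (P.Q i)

/-- the relations of the tuple -/
def Tup [Fintype σ] (g : Fin (r + 1) → MvPolynomial σ F) {R : Type*} [Ring R] (τ : F →+* R)
    (w : Fin r → σ → R) : Prop :=
  IsTuple P.b P.th (P.Qs g) τ w

section kd

variable (g : Fin (r + 1) → MvPolynomial σ F) {R : Type*} [Ring R] (τ : F →+* R)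

/-- the structure map -/
def phi : MvPolynomial (Fin (r + 1)) F →+* PA R σ :=
  (mp σ τ).comp (MvPolynomial.aeval g : MvPolynomial (Fin (r + 1)) F →ₐ[F] MvPolynomial σ F).toRingHom

theorem phi_apply (p : MvPolynomial (Fin (r + 1)) F) :
    phi g τ p = mp σ τ (MvPolynomial.aeval g p) := rfl

theorem phi_C (u : F) : phi g τ (MvPolynomial.C u) = cst σ (τ u) := by
  rw [phi_apply, MvPolynomial.aeval_C]
  exact mp_MvC τ u

theorem phi_X (t : Fin (r + 1)) : phi g τ (MvPolynomial.X t) = mp σ τ (g t) := by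
  rw [phi_apply, MvPolynomial.aeval_X]

variable {g} (hg : IsSub g)
include hg

theorem phi_X_comm (t : Fin (r + 1)) (y : PA R σ) : Commute (phi g τ (MvPolynomial.X t)) y := by
  rw [phi_X]
  rcases hg t with h | ⟨v, h⟩
  · rw [h, map_zero]; exact Commute.zero_left y
  · rw [h, mp_MvX]; exact var_comm v y

variable {τ} {nb : R} {d : Derivation ℂ F F} (hnb : ∀ u, nb * τ u - τ u * nb = τ (d u))
include hnb

/-- closed under products: elements of `MvPolynomial` killed by the connection -/
theorem br_mul {p q : MvPolynomial (Fin (r + 1)) F} {p' q' : PA R σ}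
    (hp : cst σ nb * phi g τ p - phi g τ p * cst σ nb = p')
    (hq : cst σ nb * phi g τ q - phi g τ q * cst σ nb = q') :
    cst σ nb * phi g τ (p * q) - phi g τ (p * q) * cst σ nb =
      p' * phi g τ q + phi g τ p * q' := by
  rw [← hp, ← hq, map_mul]
  noncomm_ring

theorem br_C (u : F) : cst σ nb * phi g τ (MvPolynomial.C u) - phi g τ (MvPolynomial.C u) * cst σ nb
    = phi g τ (MvPolynomial.C (d u)) := by
  rw [phi_C, phi_C, ← map_mul, ← map_mul, ← map_sub, hnb]

theorem br_X (t : Fin (r + 1)) :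
    cst σ nb * phi g τ (MvPolynomial.X t) - phi g τ (MvPolynomial.X t) * cst σ nb = 0 := by
  rw [(phi_X_comm τ hg t _).eq, sub_self]

/-- polynomials with constant coefficients are horizontal -/
theorem br_const (p : MvPolynomial (Fin (r + 1)) ℂ) :
    cst σ nb * phi g τ (MvPolynomial.map (algebraMap ℂ F) p) -
      phi g τ (MvPolynomial.map (algebraMap ℂ F) p) * cst σ nb = 0 := by
  induction p using MvPolynomial.induction_on with
  | C z =>
    rw [MvPolynomial.map_C, br_C hg hnb, Derivation.map_algebraMap, map_zero, map_zero]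
  | add p q hp hq =>
    rw [map_add, map_add, mul_add, add_mul]
    rw [sub_eq_zero] at hp hq ⊢
    rw [hp, hq]
  | mul_X p t hp =>
    rw [map_mul, MvPolynomial.map_X, br_mul hg hnb hp (br_X hg hnb t)]
    simp

theorem br_Xpow (t : Fin (r + 1)) (e : ℕ) {p : MvPolynomial (Fin (r + 1)) F}
    (hp : cst σ nb * phi g τ p - phi g τ p * cst σ nb = 0) :
    cst σ nb * phi g τ (MvPolynomial.X t ^ e * p) - phi g τ (MvPolynomial.X t ^ e * p) * cst σ nb
      = 0 := by
  induction e with
  | zero => simpa using hp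
  | succ e ih =>
    rw [pow_succ', mul_assoc, br_mul hg hnb (br_X hg hnb t) ih]
    simp

theorem br_C_mul (u : F) {p : MvPolynomial (Fin (r + 1)) F}
    (hp : cst σ nb * phi g τ p - phi g τ p * cst σ nb = 0) :
    cst σ nb * phi g τ (MvPolynomial.C u * p) - phi g τ (MvPolynomial.C u * p) * cst σ nb
      = phi g τ (MvPolynomial.C (d u) * p) := by
  rw [br_mul hg hnb (br_C hg hnb u) hp, map_mul, mul_zero, add_zero]

/-- derivative of `q_i` -/
theorem br_Q (i : Fin r) :
    cst σ nb * phi g τ (P.Q i) - phi g τ (P.Q i) * cst σ nb =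
      phi g τ (MvPolynomial.C (d (P.c i)) * P.fF i.succ +
        ∑ j ∈ univ.filter (fun j => j ≤ i.castSucc), ∑ l,
        MvPolynomial.C (d (P.cc i j l)) * (MvPolynomial.X l ^ (P.a i.succ - P.a j) * P.fF j)) := by
  have h1 : ∀ j, cst σ nb * phi g τ (P.fF j) - phi g τ (P.fF j) * cst σ nb = 0 :=
    fun j => br_const hg hnb _
  unfold Q
  rw [map_add, map_add, mul_add, add_mul, add_sub_add_comm, br_C_mul hg hnb _ (h1 _)]
  congr 1
  simp only [map_sum, Finset.mul_sum, Finset.sum_mul, ← Finset.sum_sub_distrib]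
  refine Finset.sum_congr rfl fun j _ => Finset.sum_congr rfl fun l _ => ?_
  exact br_C_mul hg hnb _ (br_Xpow hg hnb l _ (h1 j))

end kd

variable [Fintype σ] {g : Fin (r + 1) → MvPolynomial σ F} {R : Type*} [Ring R] {τ : F →+* R}
  {w : Fin r → σ → R}

theorem cst_comm_lf {R σ : Type*} [Ring R] [Fintype σ] {a : R} {w : σ → R}
    (h : ∀ v, Commute a (w v)) : Commute (cst σ a) (lf w) := by
  unfold lf
  refine Commute.sum_right _ _ _ fun v _ => ?_
  rw [cst_apply, commute_iff_eq, AddMonoidAlgebra.single_mul_single,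
    AddMonoidAlgebra.single_mul_single, zero_add, add_zero, (h v).eq]

/-- the abstract data of the killing lemma -/
def toKData (hg : IsSub g) (hw : P.Tup g τ w) (hF : ∀ i v u, Commute (τ u) (w i v))
    (k : Fin (r + 1)) : KData (PA R σ) F r where
  φ := phi g τ
  w := fun i => lf (w i)
  a := P.b
  f := P.fF
  Q := P.Q
  c := P.c
  θ := P.θ
  k := k
  ha := fun i => P.ha _
  hX := phi_X_comm τ hg
  hwF := fun i u => by
    rw [phi_C]
    exact cst_comm_lf fun v => hF i v u
  hww := fun i l => hw.comm i l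
  hw := fun i => by
    rw [hw.rel i, phi_apply]
    congr 1
    rw [Finset.sum_filter]
    refine Finset.sum_congr rfl fun l _ => ?_
    rw [phi_C]
    unfold th
    split_ifs
    · rfl
    · simp
  hc := P.hc
  hQ := fun i => by
    unfold Q
    rw [add_sub_cancel_left]
    refine Ideal.sum_mem _ fun j hj => Ideal.sum_mem _ fun l _ => ?_
    apply Ideal.mul_mem_left
    apply Ideal.mul_mem_left
    apply Ideal.subset_span
    rw [mem_filter] at hj
    exact ⟨j, hj.2, rfl⟩
  hf := P.hfF k

/-- **Killing lemma** for tuples of linear forms. -/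
theorem kill (hg : IsSub g) (hτ : Conn τ) (hw : P.Tup g τ w)
    (hF : ∀ i v u, Commute (τ u) (w i v)) {k : Fin (r + 1)} {v : σ} (hk : g k = MvPolynomial.X v)
    {ζ : Fin r → PA R σ} (hζ : IsZ P.b P.th τ w ζ) {d : ℕ}
    (hd : ∀ l, ζ l ∈ Px.Sup R Set.univ (d + 1)) :
    ∃ M, ∃ η ∈ Px.Sup R (Set.univ : Set σ) (d + M), IsF τ η ∧
      ∀ l, var R v ^ M * ζ l = lf (w l) * η - η * lf (w l) := by
  have : CharZero F := charZero_of_injective_algebraMap (algebraMap ℂ F).injective
  set K := P.toKData hg hw hF k with hK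
  have hx : K.x = var R v := by
    show phi g τ (MvPolynomial.X k) = _
    rw [phi_X, hk, mp_MvX]
  have hj : ∀ u, K.j u = cst σ (τ u) := fun u => phi_C g τ u
  -- derivatives of q_i
  have hder : ∀ (d : Derivation ℂ F F), ∃ nb : PA R σ, (∀ u, nb * K.j u - K.j u * nb = K.j (d u)) ∧
      ∀ i, nb * K.φ (K.Q i) - K.φ (K.Q i) * nb =
      phi g τ (MvPolynomial.C (d (P.c i)) * P.fF i.succ +
        ∑ j ∈ univ.filter (fun j => j ≤ i.castSucc), ∑ l,
        MvPolynomial.C (d (P.cc i j l)) * (MvPolynomial.X l ^ (P.a i.succ - P.a j) * P.fF j)) := by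
    intro d
    obtain ⟨nb, hnb⟩ := hτ d
    refine ⟨cst σ nb, fun u => ?_, fun i => P.br_Q hg hnb i⟩
    rw [hj, hj, ← map_mul, ← map_mul, ← map_sub, hnb]
  have h0 : K.Kill 0 := by
    apply K.kill
    · intro i
      obtain ⟨d, ⟨h1, h1'⟩, h2, h3⟩ := P.dc i
      obtain ⟨nb, hnb, hQ⟩ := hder d
      refine ⟨nb, d, hnb, fun l hl => ?_, fun l m _ => ?_, ?_⟩
      · rw [hQ, h1' l (ne_of_gt hl)]
        simp [h2]
      · rw [hnb]
        show K.j (d (P.θ l m)) = 0
        rw [h3, map_zero]
      · rw [hQ, h1]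
        have : ∀ m, nb * K.j (K.θ i m) - K.j (K.θ i m) * nb = 0 := by
          intro m
          rw [hnb]
          show K.j (d (P.θ i m)) = 0
          rw [h3, map_zero]
        simp only [this, h2]
        simp
        rfl
    · intro i j hij
      obtain ⟨d, h1, ⟨h2, h2'⟩, h3⟩ := P.dcc i j k
      obtain ⟨nb, hnb, hQ⟩ := hder d
      refine ⟨P.a i.succ - P.a j, nb, d, hnb, fun l hl => ?_, fun l m _ => ?_, ?_⟩
      · rw [hQ, h1]
        have : ∀ j' l', d (P.cc l j' l') = 0 := by
          intro j' l'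
          apply h2'
          intro h
          rw [Prod.mk.injEq] at h
          exact (ne_of_gt hl) h.1
        simp [this]
      · rw [hnb]
        show K.j (d (P.θ l m)) = 0
        rw [h3, map_zero]
      · rw [hQ, h1]
        have : ∀ m, nb * K.j (K.θ i m) - K.j (K.θ i m) * nb = 0 := by
          intro m
          rw [hnb]
          show K.j (d (P.θ i m)) = 0
          rw [h3, map_zero]
        simp only [this]
        rw [Finset.sum_eq_single j, Finset.sum_eq_single k, h2]
        · simp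
          rfl
        · intro l' _ hl'
          rw [h2' i j l' (by intro h; rw [Prod.mk.injEq, Prod.mk.injEq] at h; exact hl' h.2.2)]
          simp
        · simp
        · intro j' _ hj'
          apply Finset.sum_eq_zero
          intro l' _
          rw [h2' i j' l' (by intro h; rw [Prod.mk.injEq, Prod.mk.injEq] at h; exact hj' h.2.1)]
          simp
        · intro h
          exact (h (Finset.mem_filter.2 ⟨mem_univ j, hij⟩)).elim
    · intro i m him
      obtain ⟨d, h1, h2, ⟨h3, h3'⟩⟩ := P.dθ i m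
      obtain ⟨nb, hnb, hQ⟩ := hder d
      refine ⟨nb, d, hnb, fun l hl => ?_, fun l m' hl => ?_, ?_⟩
      · rw [hQ, h1]
        simp [h2]
      · rw [hnb]
        show K.j (d (P.θ l m')) = 0
        rw [h3' l m' (by intro h; rw [Prod.mk.injEq] at h; exact (ne_of_gt hl) h.1), map_zero]
      · rw [hQ, h1]
        have e1 : ∀ m', m' ≠ m → nb * K.j (K.θ i m') - K.j (K.θ i m') * nb = 0 := by
          intro m' hm'
          rw [hnb]
          show K.j (d (P.θ i m')) = 0
          rw [h3' i m' (by intro h; rw [Prod.mk.injEq] at h; exact hm' h.2), map_zero]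
        have e2 : nb * K.j (K.θ i m) - K.j (K.θ i m) * nb = 1 := by
          rw [hnb]
          show K.j (d (P.θ i m)) = 1
          rw [h3, map_one]
        rw [Finset.sum_eq_single m (fun m' _ hm' => by rw [e1 m' hm', zero_mul])
          (fun h => absurd (Finset.mem_filter.2 ⟨mem_univ _, him⟩) h), e2]
        simp [h2]
  have hcoc : K.IsCoc 0 ζ := by
    refine ⟨fun l _ => ?_, fun l m _ _ => hζ.comm l m, fun l _ => ?_⟩
    · rw [KData.mem_Lin]
      intro u
      rw [hj]
      exact hζ.lin l u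
    · show Dn (lf (w l)) (ζ l) (P.b l) = ∑ m ∈ univ.filter (fun m => l < m),
        phi g τ (MvPolynomial.C (P.θ l m)) * Dn (lf (w m)) (ζ m) (P.b l)
      rw [hζ.rel l, Finset.sum_filter]
      refine Finset.sum_congr rfl fun m _ => ?_
      rw [phi_C]
      unfold th
      split_ifs
      · rfl
      · simp
  obtain ⟨M, η, hη, h1⟩ := h0 ζ hcoc
  refine ⟨M, Px.hc (d + M) η, Px.hc_mem_Sup_univ _ _, ?_, ?_⟩
  · intro u
    rw [KData.mem_Lin] at hη
    have h2 := hη u
    rw [hj] at h2
    have h3 : (cst σ (τ u) : PA R σ) ∈ Px.Sup R Set.univ 0 := Px.C_mem_Sup _ _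
    have h4 := congrArg (Px.hc (0 + (d + M))) h2.eq
    rw [Px.hc_mul h3, Px.hc_mul' h3] at h4
    exact h4
  · intro l
    have h2 := h1 l (Nat.zero_le _)
    rw [hx] at h2
    have h3 : (lf (w l)) ∈ Px.Sup R (Set.univ : Set σ) 1 := Px.lf_mem_Sup _
    have h4 := congrArg (Px.hc (1 + (d + M))) h2
    have h5 : var R v ^ M * ζ l ∈ Px.Sup R (Set.univ : Set σ) (1 + (d + M)) := by
      have := Px.mul_mem_Sup (Px.pow_mem_Sup (Px.X_mem_Sup (A := R) (Set.mem_univ v)) M) (hd l)
      have e : M * 1 + (d + 1) = 1 + (d + M) := by ring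
      rwa [e] at this
    rw [Px.hc_of_mem h5] at h4
    rw [h4, map_sub]
    show Px.hc (1 + (d + M)) (lf (w l) * η) - Px.hc (1 + (d + M)) (η * lf (w l)) = _
    rw [Px.hc_mul h3, Px.hc_mul' h3]

end Prm

end

end Crest.Agent.R181.H
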