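import Crest.Agent.R181.H7
import Crest.Agent.R181.UR396b

/-!
# R181, block H: first order deformations, calculus
-/

set_option autoImplicit false
set_option linter.unusedSectionVars false

namespace Crest.Agent.R181.H

open Finset
open Crest.Agent.R181.UR

noncomputable section

/-- homogeneous polynomials -/
abbrev Hd (R : Type*) [Ring R] (σ : Type*) (d : ℕ) : AddSubgroup (PA R σ) :=
  Px.Sup R (Set.univ : Set σ) d

theorem mem_Hd {R σ : Type*} [Ring R] {d : ℕ} {f : PA R σ} :
    f ∈ Hd R σ d ↔ ∀ m, f.coeff m ≠ 0 → m.degree = d :=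
  ⟨fun h m hm => (h m hm).2, fun h m hm => ⟨fun t ht => absurd (Set.mem_univ t) ht, h m hm⟩⟩

theorem map_Dn {B B' : Type*} [Ring B] [Ring B'] (Φ : B →+* B') (w y : B) (a : ℕ) :
    Φ (Dn w y a) = Dn (Φ w) (Φ y) a := by
  induction a with
  | zero => simp
  | succ a ih => rw [Dn_succ, Dn_succ, map_add, map_mul, map_mul, map_pow, ih]

/-! ### setting the variable `none` to zero -/

section r0

variable {R : Type*} [Ring R] {σ : Type}

/-- inclusion of exponents -/
def io (m : σ →₀ ℕ) : Option σ →₀ ℕ := m.mapDomain Option.some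

theorem io_none (m : σ →₀ ℕ) : io m none = 0 :=
  Finsupp.mapDomain_of_notMem_range m none (by simp)

theorem io_some (m : σ →₀ ℕ) (t : σ) : io m (some t) = m t :=
  Finsupp.mapDomain_apply (Option.some_injective σ) m t

theorem some_io (m : σ →₀ ℕ) : (io m).some = m := by
  ext t; rw [Finsupp.some_apply, io_some]

theorem io_of_none {m : Option σ →₀ ℕ} (h : m none = 0) : io m.some = m := by
  ext t
  cases t with
  | none => rw [io_none, h]
  | some t => rw [io_some, Finsupp.some_apply]

theorem io_add (m m' : σ →₀ ℕ) : io (m + m') = io m + io m' := Finsupp.mapDomain_add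

theorem degree_io (m : σ →₀ ℕ) : (io m).degree = m.degree := Finsupp.degree_mapDomain _ _

/-- `x_none = 0` on monomials -/
def r0Mon (R : Type*) [Ring R] (σ : Type) : Multiplicative (Option σ →₀ ℕ) →* PA R σ where
  toFun m := if m.toAdd none = 0 then AddMonoidAlgebra.single m.toAdd.some 1 else 0
  map_one' := by
    rw [toAdd_one, Finsupp.some_zero]
    exact if_pos rfl
  map_mul' m m' := by
    rw [toAdd_mul, Finsupp.add_apply, Finsupp.some_add]
    by_cases h1 : m.toAdd none = 0
    · by_cases h2 : m'.toAdd none = 0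
      · rw [if_pos h1, if_pos h2, if_pos (by omega), AddMonoidAlgebra.single_mul_single, one_mul]
      · rw [if_neg h2, if_neg (by omega), mul_zero]
    · rw [if_neg h1, if_neg (by omega), zero_mul]

theorem r0Mon_comm (a : R) (m : Multiplicative (Option σ →₀ ℕ)) :
    Commute (cst σ a) (r0Mon R σ m) := by
  show Commute (cst σ a) (if m.toAdd none = 0 then AddMonoidAlgebra.single m.toAdd.some 1 else 0)
  split_ifs
  · show cst σ a * AddMonoidAlgebra.single _ 1 = AddMonoidAlgebra.single _ 1 * cst σ a
    rw [cst_apply, AddMonoidAlgebra.single_mul_single, AddMonoidAlgebra.single_mul_single, zero_add,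
      add_zero, mul_one, one_mul]
  · exact Commute.zero_right _

/-- setting the variable `none` to zero -/
def r0 : PA R (Option σ) →+* PA R σ :=
  AddMonoidAlgebra.liftNCRingHom (cst σ : R →+* PA R σ) (r0Mon R σ) r0Mon_comm

theorem r0_single (m : Option σ →₀ ℕ) (a : R) :
    r0 (AddMonoidAlgebra.single m a) =
      if m none = 0 then AddMonoidAlgebra.single m.some a else 0 := by
  have h : r0 (AddMonoidAlgebra.single m a) = cst σ a * r0Mon R σ (Multiplicative.ofAdd m) := by
    unfold r0
    exact AddMonoidAlgebra.liftNCRingHom_single ..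
  rw [h]
  show cst σ a * (if m none = 0 then AddMonoidAlgebra.single m.some 1 else 0) = _
  split_ifs
  · rw [cst_apply, AddMonoidAlgebra.single_mul_single, zero_add, mul_one]
  · rw [mul_zero]

theorem coeff_r0 (f : PA R (Option σ)) (m : σ →₀ ℕ) : (r0 f).coeff m = f.coeff (io m) := by
  classical
  induction f using Px.ind with
  | h0 => simp
  | ha f g hf hg =>
    rw [map_add, AddMonoidAlgebra.coeff_add, Finsupp.add_apply, hf, hg, AddMonoidAlgebra.coeff_add,
      Finsupp.add_apply]
  | hs m' b =>
    rw [r0_single, AddMonoidAlgebra.coeff_single, Finsupp.single_apply]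
    by_cases h : m' = io m
    · subst h
      rw [if_pos (io_none m), if_pos rfl, some_io, AddMonoidAlgebra.coeff_single,
        Finsupp.single_eq_same]
    · rw [if_neg h]
      split_ifs with h2
      · rw [AddMonoidAlgebra.coeff_single, Finsupp.single_apply, if_neg]
        rintro rfl
        exact h (io_of_none h2).symm
      · rfl

@[simp] theorem r0_cst (a : R) : r0 (cst (Option σ) a) = cst σ a := by
  rw [cst_apply, r0_single, Finsupp.some_zero]
  exact if_pos rfl

@[simp] theorem r0_var_none : r0 (var R (none : Option σ)) = 0 := by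
  rw [Px.var_eq, r0_single, if_neg]
  simp

theorem r0_mem_Hd {d : ℕ} {f : PA R (Option σ)} (hf : f ∈ Hd R (Option σ) d) :
    r0 f ∈ Hd R σ d := by
  rw [mem_Hd] at hf ⊢
  intro m hm
  rw [coeff_r0] at hm
  rw [← degree_io]
  exact hf _ hm

theorem exists_none_mul {d : ℕ} {f : PA R (Option σ)} (hf : f ∈ Hd R (Option σ) (d + 1))
    (h : r0 f = 0) : ∃ g ∈ Hd R (Option σ) d, f = var R none * g := by
  refine ⟨Px.divX none f, Px.divX_mem_Sup hf, (Px.X_mul_divX ?_).symm⟩
  intro m hm
  rw [← io_of_none hm, ← coeff_r0, h]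
  rfl

theorem r0_lf [Fintype σ] {I : Type} (w : I → σ → R) (η : I → R) (i : I) :
    r0 (lf (ext' w η i)) = lf (w i) := by
  unfold lf
  rw [map_sum, Fintype.sum_option, r0_single, if_neg (by simp), zero_add]
  refine Finset.sum_congr rfl fun v _ => ?_
  rw [r0_single, if_pos (by simp), Finsupp.some_single_some]
  rfl

theorem lf_ext' [Fintype σ] {I : Type} (w : I → σ → R) (η η' : I → R) (i : I) :
    lf (ext' w (fun i => η i + η' i) i) = lf (ext' w η i) + var R none * cst (Option σ) (η' i) := by
  unfold lf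
  rw [Fintype.sum_option, Fintype.sum_option]
  have h1 : (AddMonoidAlgebra.single (Finsupp.single none 1)
      (ext' w (fun i => η i + η' i) i none) : PA R (Option σ)) =
      AddMonoidAlgebra.single (Finsupp.single none 1) (ext' w η i none) +
        var R none * cst (Option σ) (η' i) := by
    rw [Px.var_eq, cst_apply, AddMonoidAlgebra.single_mul_single, add_zero, one_mul,
      ← AddMonoidAlgebra.single_add]
    rfl
  rw [h1]
  have h2 : ∀ v : σ, (AddMonoidAlgebra.single (Finsupp.single (some v) 1)
      (ext' w (fun i => η i + η' i) i (some v)) : PA R (Option σ)) =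
      AddMonoidAlgebra.single (Finsupp.single (some v) 1) (ext' w η i (some v)) := fun v => rfl
  simp only [h2]
  abel

/-- inclusion of monomials -/
def embMon (R : Type*) [Ring R] (σ : Type) : Multiplicative (σ →₀ ℕ) →* PA R (Option σ) where
  toFun m := AddMonoidAlgebra.single (io m.toAdd) 1
  map_one' := by
    rw [toAdd_one]
    have : io (0 : σ →₀ ℕ) = 0 := Finsupp.mapDomain_zero
    rw [this]
    rfl
  map_mul' m m' := by
    rw [toAdd_mul, io_add, AddMonoidAlgebra.single_mul_single, one_mul]

theorem embMon_comm (a : R) (m : Multiplicative (σ →₀ ℕ)) :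
    Commute (cst (Option σ) a) (embMon R σ m) := by
  show cst (Option σ) a * AddMonoidAlgebra.single _ 1 = AddMonoidAlgebra.single _ 1 * cst _ a
  rw [cst_apply, AddMonoidAlgebra.single_mul_single, AddMonoidAlgebra.single_mul_single, zero_add,
      add_zero, mul_one, one_mul]

/-- inclusion -/
def emb : PA R σ →+* PA R (Option σ) :=
  AddMonoidAlgebra.liftNCRingHom (cst (Option σ) : R →+* PA R (Option σ)) (embMon R σ) embMon_comm

theorem emb_single (m : σ →₀ ℕ) (a : R) :
    emb (AddMonoidAlgebra.single m a) = AddMonoidAlgebra.single (io m) a := by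
  have h : emb (AddMonoidAlgebra.single m a) =
      cst (Option σ) a * embMon R σ (Multiplicative.ofAdd m) := by
    unfold emb
    exact AddMonoidAlgebra.liftNCRingHom_single ..
  rw [h]
  show cst (Option σ) a * AddMonoidAlgebra.single (io m) 1 = _
  rw [cst_apply, AddMonoidAlgebra.single_mul_single, zero_add, mul_one]

@[simp] theorem emb_cst (a : R) : emb (cst σ a) = cst (Option σ) a := by
  rw [cst_apply, emb_single]
  have : io (0 : σ →₀ ℕ) = 0 := Finsupp.mapDomain_zero
  rw [this]
  rfl

@[simp] theorem r0_emb (f : PA R σ) : r0 (emb f) = f := by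
  induction f using Px.ind with
  | h0 => simp
  | ha f g hf hg => rw [map_add, map_add, hf, hg]
  | hs m' b => rw [emb_single, r0_single, if_pos (io_none m'), some_io]

theorem emb_mem_Hd {d : ℕ} {f : PA R σ} (hf : f ∈ Hd R σ d) : emb f ∈ Hd R (Option σ) d := by
  rw [← AddMonoidAlgebra.sum_coeff_single f]
  unfold Finsupp.sum
  rw [map_sum]
  refine sum_mem fun m hm => ?_
  rw [emb_single]
  have h1 := (hf m (Finsupp.mem_support_iff.1 hm)).2
  rw [← degree_io] at h1
  rw [← h1]
  exact Px.single_mem_Sup (fun t ht => absurd (Set.mem_univ t) ht) _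

end r0

/-! ### calculus of cocycles -/

section coc

variable {r : ℕ} {F : Type} [CommRing F] {σ : Type} [Fintype σ] {b : Fin r → ℕ}
  {th : Fin r → Fin r → F} {R : Type*} [Ring R] {τ : F →+* R} {w : Fin r → σ → R}
  {ζ ζ' : Fin r → PA R σ}

theorem IsZ.sub (h : IsZ b th τ w ζ) (h' : IsZ b th τ w ζ') :
    IsZ b th τ w (fun l => ζ l - ζ' l) where
  lin l u := (h.lin l u).sub_right (h'.lin l u)
  comm l m := by
    have e1 := h.comm l m
    have e2 := h'.comm l m
    have : lf (w l) * (ζ m - ζ' m) - (ζ m - ζ' m) * lf (w l) =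
      (lf (w l) * ζ m - ζ m * lf (w l)) - (lf (w l) * ζ' m - ζ' m * lf (w l)) := by noncomm_ring
    rw [this, e1, e2]
    noncomm_ring
  rel l := by
    rw [Dn_sub, h.rel, h'.rel, ← Finset.sum_sub_distrib]
    refine Finset.sum_congr rfl fun m _ => ?_
    rw [Dn_sub, mul_sub]

theorem IsZ.mul_left (h : IsZ b th τ w ζ) {c : PA R σ} (hc : ∀ l, Commute c (lf (w l)))
    (hcF : IsF τ c) : IsZ b th τ w (fun l => c * ζ l) where
  lin l u := (hcF u).mul_right (h.lin l u)
  comm l m := by
    have e1 := h.comm l m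
    have e2 : ∀ l m, lf (w l) * (c * ζ m) - (c * ζ m) * lf (w l) =
      c * (lf (w l) * ζ m - ζ m * lf (w l)) := by
      intro l m
      rw [← mul_assoc, ← (hc l).eq]
      noncomm_ring
    rw [e2, e2, e1]
  rel l := by
    rw [Dn_mul_left _ _ _ (hc l), h.rel, Finset.mul_sum]
    refine Finset.sum_congr rfl fun m _ => ?_
    rw [Dn_mul_left _ _ _ (hc m), ← mul_assoc, ← mul_assoc, (hcF (th l m)).eq]

theorem IsZ.mul_right (h : IsZ b th τ w ζ) {c : PA R σ} (hc : ∀ l, Commute c (lf (w l)))
    (hcF : IsF τ c) : IsZ b th τ w (fun l => ζ l * c) where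
  lin l u := (h.lin l u).mul_right (hcF u)
  comm l m := by
    have e1 := h.comm l m
    have e2 : ∀ l m, lf (w l) * (ζ m * c) - (ζ m * c) * lf (w l) =
      (lf (w l) * ζ m - ζ m * lf (w l)) * c := by
      intro l m
      rw [mul_assoc (ζ m), (hc l).eq]
      noncomm_ring
    rw [e2, e2, e1]
  rel l := by
    rw [Dn_mul_right _ _ _ (hc l), h.rel, Finset.sum_mul]
    refine Finset.sum_congr rfl fun m _ => ?_
    rw [Dn_mul_right _ _ _ (hc m), ← mul_assoc]

theorem IsZ.of_var_mul {v : σ} (h : IsZ b th τ w (fun l => var R v * ζ l)) :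
    IsZ b th τ w ζ where
  lin l u := by
    have := (h.lin l u).eq
    show _ * _ = _ * _
    apply Px.X_mul_inj v
    rw [← mul_assoc, (var_comm v _).eq, mul_assoc, this, mul_assoc]
  comm l m := by
    have := h.comm l m
    apply Px.X_mul_inj v
    have e : ∀ l m, var R v * (lf (w l) * ζ m - ζ m * lf (w l)) =
        lf (w l) * (var R v * ζ m) - var R v * ζ m * lf (w l) := by
      intro l m
      rw [mul_sub, ← mul_assoc, (var_comm v _).eq, mul_assoc, mul_assoc]
    rw [e, e, this]
  rel l := by
    have := h.rel l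
    apply Px.X_mul_inj v
    rw [← Dn_mul_left _ _ _ (var_comm v _), this, Finset.mul_sum]
    refine Finset.sum_congr rfl fun m _ => ?_
    rw [Dn_mul_left _ _ _ (var_comm v _), ← mul_assoc, ← mul_assoc, (var_comm v _).eq]

theorem IsZ.map (h : IsZ b th τ w ζ) {σ' : Type} [Fintype σ'] {R' : Type*} [Ring R']
    {τ' : F →+* R'} {w' : Fin r → σ' → R'} (Φ : PA R σ →+* PA R' σ')
    (h1 : ∀ u, Φ (cst σ (τ u)) = cst σ' (τ' u)) (h2 : ∀ l, Φ (lf (w l)) = lf (w' l)) :
    IsZ b th τ' w' (fun l => Φ (ζ l)) where
  lin l u := by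
    rw [← h1]
    exact (h.lin l u).map Φ
  comm l m := by
    have := congrArg Φ (h.comm l m)
    simpa only [map_sub, map_mul, h2] using this
  rel l := by
    have := congrArg Φ (h.rel l)
    rw [map_Dn, map_sum, h2] at this
    rw [this]
    refine Finset.sum_congr rfl fun m _ => ?_
    rw [map_mul, h1, map_Dn, h2]

theorem commute_mp (τ : F →+* R) {η : PA R σ} (hη : IsF τ η) (p : MvPolynomial σ F) :
    Commute (mp σ τ p) η := by
  induction p using MvPolynomial.induction_on with
  | C u => rw [mp_MvC]; exact hη u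
  | add p q hp hq => rw [map_add]; exact hp.add_left hq
  | mul_X p t hp =>
    rw [map_mul, mp_MvX]
    exact hp.mul_left (var_comm t _)

theorem IsZ.coboundary {Q : Fin r → MvPolynomial σ F} (hT : IsTuple b th Q τ w)
    (hF : ∀ l u, Commute (cst σ (τ u)) (lf (w l))) {η : PA R σ} (hη : IsF τ η) :
    IsZ b th τ w (fun l => lf (w l) * η - η * lf (w l)) where
  lin l u := ((hF l u).mul_right (hη u)).sub_right ((hη u).mul_right (hF l u))
  comm l m := by
    have e1 := hT.comm l m
    have : ∀ A B η : PA R σ, A * (B * η - η * B) - (B * η - η * B) * A -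
        (B * (A * η - η * A) - (A * η - η * A) * B) = (A * B - B * A) * η - η * (A * B - B * A) := by
      intro A B η; noncomm_ring
    have h2 := this (lf (w l)) (lf (w m)) η
    rw [e1, sub_self, zero_mul, mul_zero, sub_self, sub_eq_zero] at h2
    exact h2
  rel l := by
    have e : ∀ m, algebraMap F F (th l m) = th l m := fun _ => rfl
    rw [Dn_comm, hT.rel l, add_mul, mul_add, (commute_mp τ hη (Q l)).eq, add_sub_add_left_eq_sub,
      Finset.sum_mul, Finset.mul_sum, ← Finset.sum_sub_distrib]
    refine Finset.sum_congr rfl fun m _ => ?_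
    rw [Dn_comm, mul_sub, e, mul_assoc, ← mul_assoc η, ← (hη (th l m)).eq, mul_assoc]

/-! ### square zero deformations -/

theorem pow_add_sq {B : Type*} [Ring B] (W Z : B) (h : ∀ u : ℕ, Z * W ^ u * Z = 0) (a : ℕ) :
    (W + Z) ^ a = W ^ a + Dn W Z a := by
  have h1 : ∀ a, Z * Dn W Z a = 0 := by
    have h2 : ∀ a u, Z * W ^ u * Dn W Z a = 0 := by
      intro a
      induction a with
      | zero => intro u; simp
      | succ a ih =>
        intro u
        rw [Dn_succ, mul_add, ← mul_assoc, mul_assoc Z, ← pow_succ, ih, ← mul_assoc, h, zero_mul,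
          add_zero]
    intro a
    simpa using h2 a 0
  induction a with
  | zero => simp
  | succ a ih =>
    rw [pow_succ', ih, Dn_succ, add_mul, mul_add, mul_add, h1, pow_succ']
    abel

end coc

section sq

variable {r : ℕ} {F : Type} [CommRing F] {σ : Type} [Fintype σ] {b : Fin r → ℕ}
  {th : Fin r → Fin r → F} {R : Type*} [Ring R] {τ : F →+* R} {w : Fin r → σ → R}
  {η ζ : Fin r → R} {Q : Fin r → MvPolynomial (Option σ) F}
  (hT : IsTuple b th Q τ (ext' w η))
  {e : R} (he : ∀ l, Commute (cst (Option σ) e) (lf (ext' w η l)))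
  (h1 : ∀ l, e * ζ l = 0) (h2 : ∀ l, ζ l * e = ζ l)

include he h1 h2 in
theorem sq_mul (i j l : Fin r) (u : ℕ) :
    (var R none * cst (Option σ) (ζ i)) * lf (ext' w η j) ^ u *
      (var R none * cst (Option σ) (ζ l)) = 0 := by
  have e1 : cst (Option σ) (ζ i) = cst (Option σ) (ζ i) * cst (Option σ) e := by
    rw [← map_mul, h2]
  have e2 : cst (Option σ) e * cst (Option σ) (ζ l) = 0 := by rw [← map_mul, h1, map_zero]
  have e3 : cst (Option σ) e * lf (ext' w η j) ^ u = lf (ext' w η j) ^ u * cst (Option σ) e :=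
    ((he j).pow_right u).eq
  calc (var R none * cst (Option σ) (ζ i)) * lf (ext' w η j) ^ u *
      (var R none * cst (Option σ) (ζ l)) =
      var R none * (cst (Option σ) (ζ i) * cst (Option σ) e) * lf (ext' w η j) ^ u *
      (cst (Option σ) (ζ l) * var R none) := by rw [← e1, (var_comm none (cst (Option σ) (ζ l))).eq]
    _ = var R none * cst (Option σ) (ζ i) * (cst (Option σ) e * lf (ext' w η j) ^ u) *
      cst (Option σ) (ζ l) * var R none := by simp only [mul_assoc]
    _ = var R none * cst (Option σ) (ζ i) * lf (ext' w η j) ^ u *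
      (cst (Option σ) e * cst (Option σ) (ζ l)) * var R none := by
        rw [e3]; simp only [mul_assoc]
    _ = 0 := by rw [e2]; simp

include hT he h1 h2 in
theorem isZ_iff_isTuple (hF : ∀ l u, Commute (cst (Option σ) (τ u)) (cst (Option σ) (ζ l))) :
    IsZ b th τ (ext' w η) (fun l => cst (Option σ) (ζ l)) ↔
      IsTuple b th Q τ (ext' w (fun i => η i + ζ i)) := by
  have hlin : ∀ l, lf (ext' w (fun i => η i + ζ i) l) =
      lf (ext' w η l) + var R none * cst (Option σ) (ζ l) := fun l => lf_ext' w η ζ l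
  set X := var R (none : Option σ) with hX
  have hc : ∀ y, X * y = y * X := fun y => (var_comm none y).eq
  have hsq := sq_mul he h1 h2
  have hpow : ∀ l a, lf (ext' w (fun i => η i + ζ i) l) ^ a =
      lf (ext' w η l) ^ a + X * Dn (lf (ext' w η l)) (cst (Option σ) (ζ l)) a := by
    intro l a
    rw [hlin, pow_add_sq _ _ (fun u => hsq l l l u), Dn_mul_left _ _ _ (hc _)]
  have hz2 : ∀ i j, X * cst (Option σ) (ζ i) * (X * cst (Option σ) (ζ j)) = 0 := by
    intro i j
    have := hsq i j j 0
    simpa using this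
  have hcomm : ∀ l m, lf (ext' w (fun i => η i + ζ i) l) * lf (ext' w (fun i => η i + ζ i) m) -
      lf (ext' w (fun i => η i + ζ i) m) * lf (ext' w (fun i => η i + ζ i) l) =
      X * ((lf (ext' w η l) * cst (Option σ) (ζ m) - cst (Option σ) (ζ m) * lf (ext' w η l)) -
      (lf (ext' w η m) * cst (Option σ) (ζ l) - cst (Option σ) (ζ l) * lf (ext' w η m))) := by
    intro l m
    have e0 := hT.comm l m
    have e1 : lf (ext' w η l) * (X * cst (Option σ) (ζ m)) =
        X * (lf (ext' w η l) * cst (Option σ) (ζ m)) := by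
      rw [← mul_assoc, ← hc, mul_assoc]
    have e2 : lf (ext' w η m) * (X * cst (Option σ) (ζ l)) =
        X * (lf (ext' w η m) * cst (Option σ) (ζ l)) := by
      rw [← mul_assoc, ← hc, mul_assoc]
    rw [hlin, hlin, add_mul, mul_add, mul_add, add_mul, mul_add, mul_add, hz2, hz2, e0, e1, e2,
      mul_sub, mul_sub, mul_sub, mul_assoc, mul_assoc]
    abel
  have hrel : ∀ l, lf (ext' w (fun i => η i + ζ i) l) ^ b l - (mp (Option σ) τ (Q l) +
      ∑ m, cst (Option σ) (τ (algebraMap F F (th l m))) *
        lf (ext' w (fun i => η i + ζ i) m) ^ b l) =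
      X * (Dn (lf (ext' w η l)) (cst (Option σ) (ζ l)) (b l) -
        ∑ m, cst (Option σ) (τ (th l m)) * Dn (lf (ext' w η m)) (cst (Option σ) (ζ m)) (b l)) := by
    intro l
    have e1 : ∑ m, cst (Option σ) (τ (algebraMap F F (th l m))) *
        lf (ext' w (fun i => η i + ζ i) m) ^ b l =
        ∑ m, cst (Option σ) (τ (algebraMap F F (th l m))) * lf (ext' w η m) ^ b l +
        X * ∑ m, cst (Option σ) (τ (th l m)) *
          Dn (lf (ext' w η m)) (cst (Option σ) (ζ m)) (b l) := by
      rw [Finset.mul_sum, ← Finset.sum_add_distrib]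
      refine Finset.sum_congr rfl fun m _ => ?_
      rw [hpow, mul_add]
      congr 1
      rw [← mul_assoc, ← mul_assoc, hc]
      rfl
    rw [hpow, hT.rel l, e1, mul_sub]
    abel
  constructor
  · intro h
    refine ⟨fun l m => ?_, fun l => ?_⟩
    · rw [← sub_eq_zero, hcomm, h.comm l m, sub_self, mul_zero]
    · rw [← sub_eq_zero, hrel, h.rel l, sub_self, mul_zero]
  · intro h
    refine ⟨hF, fun l m => ?_, fun l => ?_⟩
    · have e := hcomm l m
      rw [h.comm l m, sub_self] at e
      rw [← sub_eq_zero]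
      exact Px.X_mul_inj none (by rw [mul_zero]; exact e.symm)
    · have e := hrel l
      rw [h.rel l, sub_self] at e
      rw [← sub_eq_zero]
      exact Px.X_mul_inj none (by rw [mul_zero]; exact e.symm)

end sq

end

end Crest.Agent.R181.H
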