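import Mathlib

/-! R181, block H (helper788 #11865, H5 (iii) and (iv)): if extension cocycles with values in a
quotient lift, then all submodules of projective modules are projective. -/

set_option autoImplicit false

namespace Crest.Agent.R181.HP

open Function

variable {D T : Type} [DivisionRing D] [Ring T] {I : Type}

/-- `(n, y) ↦ (ξ_i n, ξ_i y + ζ_i n)` and the diagonal action of `D` define a `T`-module. -/
def Ext (ι : D →+* T) (ξ : I → T) {N Y : Type} [AddCommGroup N] [Module T N] [AddCommGroup Y]
    [Module T Y] (ζ : I → (N →+ Y)) : Prop :=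
  ∃ f : T →+* AddMonoid.End (N × Y), (∀ d p, f (ι d) p = (ι d • p.1, ι d • p.2)) ∧
    ∀ i p, f (ξ i) p = (ξ i • p.1, ξ i • p.2 + ζ i p.1)

/-- `D`-linear sections of `T`-linear surjections -/
theorem exists_sec (ι : D →+* T) {G N : Type} [AddCommGroup G] [Module T G] [AddCommGroup N]
    [Module T N] (q : G →ₗ[T] N) (hq : Surjective q) :
    ∃ s : N →+ G, (∀ n, q (s n) = n) ∧ ∀ d n, s (ι d • n) = ι d • s n := by
  let _ : Module D G := Module.compHom G ι
  let _ : Module D N := Module.compHom N ι
  let q' : G →ₗ[D] N :=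
    { toFun := q
      map_add' := q.map_add
      map_smul' := fun d g => q.map_smul (ι d) g }
  obtain ⟨s, hs⟩ := q'.exists_rightInverse_of_surjective (LinearMap.range_eq_top.2 hq)
  exact ⟨s.toAddMonoidHom, fun n => LinearMap.congr_fun hs n, fun d n => s.map_smul d n⟩

/-- a copy of the product, to carry a twisted module structure -/
def Tw (N X : Type) : Type := N × X

instance (N X : Type) [AddCommGroup N] [AddCommGroup X] : AddCommGroup (Tw N X) :=
  inferInstanceAs (AddCommGroup (N × X))

/-- the kernel of a surjection from a projective module is projective -/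
theorem projective_ker (ι : D →+* T) (ξ : I → T)
    (gen : ∀ P : T → Prop, (∀ d, P (ι d)) → (∀ i, P (ξ i)) → (∀ s t, P s → P t → P (s + t)) →
      (∀ s t, P s → P t → P (s * t)) → ∀ t, P t)
    (lift : ∀ (N X Y : Type) [AddCommGroup N] [Module T N] [AddCommGroup X] [Module T X]
      [AddCommGroup Y] [Module T Y] (π : X →ₗ[T] Y), Surjective π → ∀ ζ : I → (N →+ Y),
      Ext ι ξ ζ → ∃ ζ' : I → (N →+ X), (∀ i n, π (ζ' i n) = ζ i n) ∧ Ext ι ξ ζ')
    {G N : Type} [AddCommGroup G] [Module T G] [AddCommGroup N] [Module T N]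
    (hG : Module.Projective T G) (q : G →ₗ[T] N) (hq : Surjective q) :
    Module.Projective T (LinearMap.ker q) := by
  obtain ⟨s, hs, hsD⟩ := exists_sec ι q hq
  -- the splitting of `G` over `D`
  have hK : ∀ g, g - s (q g) ∈ LinearMap.ker q := fun g => by
    rw [LinearMap.mem_ker, map_sub, hs, sub_self]
  let e : (N × LinearMap.ker q) ≃+ G :=
    { toFun := fun p => s p.1 + p.2
      invFun := fun g => (q g, ⟨g - s (q g), hK g⟩)
      left_inv := by
        rintro ⟨n, y, hy⟩
        have h1 : q (s n + y) = n := by rw [map_add, hs, LinearMap.mem_ker.1 hy, add_zero]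
        refine Prod.ext h1 (Subtype.ext ?_)
        change s n + y - s (q (s n + y)) = y
        rw [h1, add_sub_cancel_left]
      right_inv := by
        intro g
        change s (q g) + (g - s (q g)) = g
        abel
      map_add' := by
        rintro ⟨n, y⟩ ⟨n', y'⟩
        change s (n + n') + ((y : G) + (y' : G)) = s n + y + (s n' + y')
        rw [map_add]
        abel }
  have he : ∀ p, e p = s p.1 + p.2 := fun _ => rfl
  have hes1 : ∀ g, (e.symm g).1 = q g := fun _ => rfl
  have hes2 : ∀ g, ((e.symm g).2 : G) = g - s (q g) := fun _ => rfl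
  let f : T →+* AddMonoid.End (N × LinearMap.ker q) :=
    { toFun := fun t => e.symm.toAddMonoidHom.comp
        ((Module.toAddMonoidEnd T G t).comp e.toAddMonoidHom)
      map_one' := by
        ext1 p
        change e.symm ((1 : T) • e p) = p
        rw [one_smul, AddEquiv.symm_apply_apply]
      map_mul' := fun a b => by
        ext1 p
        change e.symm ((a * b) • e p) = e.symm (a • e (e.symm (b • e p)))
        rw [AddEquiv.apply_symm_apply, mul_smul]
      map_zero' := by
        ext1 p
        change e.symm ((0 : T) • e p) = 0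
        rw [zero_smul, map_zero]
      map_add' := fun a b => by
        ext1 p
        change e.symm ((a + b) • e p) = e.symm (a • e p) + e.symm (b • e p)
        rw [add_smul, map_add] }
  have hf : ∀ t p, f t p = e.symm (t • e p) := fun _ _ => rfl
  let ζ : I → (N →+ LinearMap.ker q) := fun i =>
    { toFun := fun n => ⟨ξ i • s n - s (ξ i • n), by
        rw [LinearMap.mem_ker, map_sub, hs, map_smul, hs, sub_self]⟩
      map_zero' := Subtype.ext (by simp)
      map_add' := fun n n' => Subtype.ext (by
        change ξ i • s (n + n') - s (ξ i • (n + n')) =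
          (ξ i • s n - s (ξ i • n)) + (ξ i • s n' - s (ξ i • n'))
        rw [map_add, smul_add, smul_add, map_add]
        abel) }
  have hζ : Ext ι ξ ζ := by
    refine ⟨f, fun d p => ?_, fun i p => ?_⟩
    · rw [hf]
      refine Prod.ext ?_ (Subtype.ext ?_)
      · rw [hes1, he, map_smul, map_add, hs, LinearMap.mem_ker.1 p.2.2, add_zero]
      · rw [hes2, he, map_smul, map_add, hs, LinearMap.mem_ker.1 p.2.2, add_zero, hsD,
          smul_add, add_sub_cancel_left]
        rfl
    · rw [hf]
      refine Prod.ext ?_ (Subtype.ext ?_)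
      · rw [hes1, he, map_smul, map_add, hs, LinearMap.mem_ker.1 p.2.2, add_zero]
      · rw [hes2, he, map_smul, map_add, hs, LinearMap.mem_ker.1 p.2.2, add_zero, smul_add]
        change ξ i • s p.1 + ξ i • (p.2 : G) - s (ξ i • p.1) =
          ξ i • (p.2 : G) + (ξ i • s p.1 - s (ξ i • p.1))
        abel
  -- a free module over the kernel
  let X := LinearMap.ker q →₀ T
  let π : X →ₗ[T] LinearMap.ker q := Finsupp.linearCombination T id
  have hπ : Surjective π := Finsupp.linearCombination_id_surjective T (LinearMap.ker q)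
  obtain ⟨ζ', hζ', f', hf'D, hf'ξ⟩ := lift N X (LinearMap.ker q) π hπ ζ hζ
  -- the new extension
  let _ : Module T (Tw N X) := Module.compHom (N × X) f'
  have hact : ∀ (t : T) (p : Tw N X), t • p = f' t p := fun _ _ => rfl
  have hact0 : ∀ (t : T) (x : X), f' t (0, x) = (0, t • x) := by
    intro t
    refine gen (fun t => ∀ x : X, f' t (0, x) = (0, t • x)) ?_ ?_ ?_ ?_ t
    · intro d x
      rw [hf'D]
      exact Prod.ext (smul_zero _) rfl
    · intro i x
      rw [hf'ξ]
      refine Prod.ext (smul_zero _) ?_
      change ξ i • x + ζ' i 0 = ξ i • x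
      rw [map_zero, add_zero]
    · intro a b ha hb x
      rw [map_add, add_smul]
      change f' a (0, x) + f' b (0, x) = _
      rw [ha, hb]
      exact Prod.ext (add_zero _) rfl
    · intro a b ha hb x
      rw [map_mul, mul_smul]
      change f' a (f' b (0, x)) = _
      rw [hb, ha]
  let ψ : (N × X) → G := fun p => s p.1 + π p.2
  have hψ : ∀ (t : T) (p : N × X), ψ (f' t p) = t • ψ p := by
    intro t
    refine gen (fun t => ∀ p : N × X, ψ (f' t p) = t • ψ p) ?_ ?_ ?_ ?_ t
    · intro d p
      rw [hf'D]
      change s (ι d • p.1) + ((π (ι d • p.2) : LinearMap.ker q) : G) = ι d • (s p.1 + π p.2)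
      rw [hsD, LinearMap.map_smul, smul_add]
      rfl
    · intro i p
      rw [hf'ξ]
      change s (ξ i • p.1) + ((π (ξ i • p.2 + ζ' i p.1) : LinearMap.ker q) : G) =
        ξ i • (s p.1 + π p.2)
      have h1 : π (ξ i • p.2 + ζ' i p.1) = ξ i • π p.2 + ζ i p.1 := by
        rw [map_add, hζ', LinearMap.map_smul]
      rw [h1, smul_add]
      change s (ξ i • p.1) + (ξ i • (π p.2 : G) + (ξ i • s p.1 - s (ξ i • p.1))) = _
      abel
    · intro a b ha hb p
      rw [map_add, add_smul, ← ha, ← hb]
      change s ((f' a p).1 + (f' b p).1) + ((π ((f' a p).2 + (f' b p).2) : LinearMap.ker q) : G) =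
        (s (f' a p).1 + π (f' a p).2) + (s (f' b p).1 + π (f' b p).2)
      rw [map_add, map_add]
      change _ + ((π (f' a p).2 : G) + (π (f' b p).2 : G)) = _
      abel
    · intro a b ha hb p
      rw [map_mul, mul_smul, ← hb, ← ha]
      rfl
  let Ψ : Tw N X →ₗ[T] G :=
    { toFun := ψ
      map_add' := fun a b => by
        change s (a.1 + b.1) + ((π (a.2 + b.2) : LinearMap.ker q) : G) =
          (s a.1 + π a.2) + (s b.1 + π b.2)
        rw [map_add, map_add]
        change _ + ((π a.2 : G) + (π b.2 : G)) = _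
        abel
      map_smul' := fun t p => hψ t p }
  have hΨ : ∀ p : Tw N X, Ψ p = s p.1 + π p.2 := fun _ => rfl
  have hΨs : Surjective Ψ := by
    intro g
    obtain ⟨x, hx⟩ := hπ ⟨g - s (q g), hK g⟩
    refine ⟨((q g, x) : N × X), ?_⟩
    rw [hΨ]
    change s (q g) + (π x : G) = g
    rw [hx]
    change s (q g) + (g - s (q g)) = g
    abel
  obtain ⟨σ, hσ⟩ := Module.projective_lifting_property Ψ LinearMap.id hΨs
  have hσ' : ∀ g, Ψ (σ g) = g := fun g => LinearMap.congr_fun hσ g
  have h0 : ∀ y : LinearMap.ker q, (σ y).1 = 0 := by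
    intro y
    have h1 : q (Ψ (σ y)) = (σ y).1 := by
      rw [hΨ, map_add, hs, LinearMap.mem_ker.1 (π (σ y).2).2, add_zero]
    rw [← h1, hσ']
    exact y.2
  have h1 : ∀ y : LinearMap.ker q, σ y = ((0, (σ y).2) : N × X) := fun y => Prod.ext (h0 y) rfl
  let j : LinearMap.ker q →ₗ[T] X :=
    { toFun := fun y => (σ y).2
      map_add' := fun y y' => by
        change (σ ((y : G) + y')).2 = _
        rw [map_add]
        rfl
      map_smul' := fun t y => by
        change (σ (t • (y : G))).2 = t • (σ y).2
        rw [map_smul, hact, h1, hact0] }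
  refine Module.Projective.of_split j π ?_
  ext y
  have h2 := hσ' y
  rw [hΨ, h0, map_zero, zero_add] at h2
  exact h2

/-- all submodules of projective modules are projective -/
theorem projective_of_lift (ι : D →+* T) (ξ : I → T)
    (gen : ∀ P : T → Prop, (∀ d, P (ι d)) → (∀ i, P (ξ i)) → (∀ s t, P s → P t → P (s + t)) →
      (∀ s t, P s → P t → P (s * t)) → ∀ t, P t)
    (lift : ∀ (N X Y : Type) [AddCommGroup N] [Module T N] [AddCommGroup X] [Module T X]
      [AddCommGroup Y] [Module T Y] (π : X →ₗ[T] Y), Surjective π → ∀ ζ : I → (N →+ Y),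
      Ext ι ξ ζ → ∃ ζ' : I → (N →+ X), (∀ i n, π (ζ' i n) = ζ i n) ∧ Ext ι ξ ζ')
    {G : Type} [AddCommGroup G] [Module T G] (hG : Module.Projective T G) (P : Submodule T G) :
    Module.Projective T P := by
  have h := projective_ker ι ξ gen lift hG P.mkQ P.mkQ_surjective
  rw [Submodule.ker_mkQ] at h
  exact h

end Crest.Agent.R181.HP
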