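import Crest.Agent.R181.HL776a
import Crest.Agent.R181.HP776

/-! R181, block H (H5): the ring `U a th Q w` is hereditary. -/

set_option autoImplicit false
set_option linter.unusedSectionVars false

namespace Crest.Agent.R181.HL

open AddMonoidAlgebra
open Crest.Agent.R181.UR
open Crest.Agent.R181.HT
open Crest.Agent.R181.H (Dn Dn_zero Dn_succ)

/-- powers of a square-zero perturbation -/
theorem def_pow {P : Type*} [Ring P] {W Z s e : P} (hs : ∀ x, Commute s x) (he : Commute e W)
    (hZe : Z * e = Z) (heZ : e * Z = 0) (n : ℕ) :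
    (W + s * Z) ^ n = W ^ n + s * Dn W Z n := by
  induction n with
  | zero => simp
  | succ n ih =>
    have h0 : Z * Dn W Z n = 0 := by
      have h1 : e * Dn W Z n = 0 := by
        rw [← H.Dn_mul_left _ _ _ he, heZ, H.Dn_zero_right]
      calc Z * Dn W Z n = Z * e * Dn W Z n := by rw [hZe]
        _ = 0 := by rw [mul_assoc, h1, mul_zero]
    rw [pow_succ', ih, Dn_succ, pow_succ']
    have h2 : s * Z * (s * Dn W Z n) = 0 := by
      rw [mul_assoc, ← mul_assoc Z, ← (hs Z).eq, mul_assoc s Z, h0, mul_zero, mul_zero]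
    have h3 : W * (s * Dn W Z n) = s * (W * Dn W Z n) := by
      rw [← mul_assoc, ← (hs W).eq, mul_assoc]
    rw [add_mul, mul_add, mul_add, h2, h3, mul_add, add_zero, mul_assoc s Z, add_assoc]

section Def

variable {A F I σ : Type} [Ring A] [CommRing F] [Fintype I] [Fintype σ] {a : I → ℕ}
  {th : I → I → F} {Q : I → MvPolynomial (Option σ) F} {τ : F →+* A} {u u' : I → Option σ → A}
  {z : I → A} {e : A}

theorem lf_def (hu' : ∀ i, u' i = fun v => u i v + if v = none then z i else 0) (i : I) :
    lf (u' i) = lf (u i) + sv A σ * cst (Option σ) (z i) := by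
  rw [sv_cst, ← lf_add, hu']
  rfl

/-- deformations in the new variable are cocycles -/
theorem isCoc_of_def (hu' : ∀ i, u' i = fun v => u i v + if v = none then z i else 0)
    (he : ∀ i v, Commute e (u i v)) (hze : ∀ i, z i * e = z i) (hez : ∀ i, e * z i = 0)
    (h : IsTuple a th Q τ u) (h' : IsTuple a th Q τ u') :
    IsCoc a th τ (fun i => lf (u i)) (fun i => cst (Option σ) (z i)) := by
  have hs : ∀ x : PA A (Option σ), Commute (sv A σ) x := fun x => var_comm none x
  have heW : ∀ i, Commute (cst (Option σ) e) (lf (u i)) := fun i => cst_comm_lf (he i)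
  have hZe : ∀ i, cst (Option σ) (z i) * cst (Option σ) e = cst (Option σ) (z i) := fun i => by
    rw [← map_mul, hze]
  have heZ : ∀ i, cst (Option σ) e * cst (Option σ) (z i) = 0 := fun i => by
    rw [← map_mul, hez, map_zero]
  have hZZ : ∀ i j, cst (Option σ) (z i) * cst (Option σ) (z j) = 0 := fun i j => by
    rw [← hZe i, mul_assoc, heZ, mul_zero]
  constructor
  · intro i j
    apply sv_mul_inj
    have h1 := h'.comm i j
    rw [lf_def hu' i, lf_def hu' j] at h1
    have key : ∀ i j, (lf (u i) + sv A σ * cst (Option σ) (z i)) *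
        (lf (u j) + sv A σ * cst (Option σ) (z j)) =
        lf (u i) * lf (u j) + sv A σ * (lf (u i) * cst (Option σ) (z j)) +
          sv A σ * (cst (Option σ) (z i) * lf (u j)) := by
      intro i j
      rw [add_mul, mul_add, mul_add]
      have h2 : sv A σ * cst (Option σ) (z i) * (sv A σ * cst (Option σ) (z j)) = 0 := by
        rw [mul_assoc, ← mul_assoc (cst (Option σ) (z i)), ← (hs (cst (Option σ) (z i))).eq,
          mul_assoc (sv A σ) (cst (Option σ) (z i)), hZZ, mul_zero, mul_zero]
      have h3 : lf (u i) * (sv A σ * cst (Option σ) (z j)) =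
          sv A σ * (lf (u i) * cst (Option σ) (z j)) := by
        rw [← mul_assoc, ← (hs (lf (u i))).eq, mul_assoc]
      rw [h2, h3, add_zero, mul_assoc (sv A σ)]
    rw [key, key, h.comm i j, add_assoc, add_assoc] at h1
    have h4 := add_left_cancel h1
    rw [mul_sub, mul_sub, sub_eq_sub_iff_add_eq_add]
    exact h4
  · intro i
    apply sv_mul_inj
    have h1 := h'.rel i
    have h2 := h.rel i
    rw [lf_def hu' i, def_pow hs (heW i) (hZe i) (heZ i)] at h1
    have h3 : ∀ l, lf (u' l) ^ a i = lf (u l) ^ a i +
        sv A σ * Dn (lf (u l)) (cst (Option σ) (z l)) (a i) := fun l => by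
      rw [lf_def hu' l, def_pow hs (heW l) (hZe l) (heZ l)]
    simp only [h3, mul_add, Finset.sum_add_distrib] at h1
    rw [h2, ← add_assoc] at h1
    have h4 := add_left_cancel h1
    rw [h4, Finset.mul_sum]
    refine Finset.sum_congr rfl fun l _ => ?_
    rw [← mul_assoc, ← (hs _).eq, mul_assoc]
    rfl

/-- cocycles give deformations in the new variable -/
theorem isTuple_of_isCoc (hu' : ∀ i, u' i = fun v => u i v + if v = none then z i else 0)
    (he : ∀ i v, Commute e (u i v)) (hze : ∀ i, z i * e = z i) (hez : ∀ i, e * z i = 0)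
    (h : IsTuple a th Q τ u)
    (hc : IsCoc a th τ (fun i => lf (u i)) (fun i => cst (Option σ) (z i))) :
    IsTuple a th Q τ u' := by
  have hs : ∀ x : PA A (Option σ), Commute (sv A σ) x := fun x => var_comm none x
  have heW : ∀ i, Commute (cst (Option σ) e) (lf (u i)) := fun i => cst_comm_lf (he i)
  have hZe : ∀ i, cst (Option σ) (z i) * cst (Option σ) e = cst (Option σ) (z i) := fun i => by
    rw [← map_mul, hze]
  have heZ : ∀ i, cst (Option σ) e * cst (Option σ) (z i) = 0 := fun i => by
    rw [← map_mul, hez, map_zero]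
  have hZZ : ∀ i j, cst (Option σ) (z i) * cst (Option σ) (z j) = 0 := fun i j => by
    rw [← hZe i, mul_assoc, heZ, mul_zero]
  constructor
  · intro i j
    rw [lf_def hu' i, lf_def hu' j]
    have key : ∀ i j, (lf (u i) + sv A σ * cst (Option σ) (z i)) *
        (lf (u j) + sv A σ * cst (Option σ) (z j)) =
        lf (u i) * lf (u j) + sv A σ * (lf (u i) * cst (Option σ) (z j)) +
          sv A σ * (cst (Option σ) (z i) * lf (u j)) := by
      intro i j
      rw [add_mul, mul_add, mul_add]
      have h2 : sv A σ * cst (Option σ) (z i) * (sv A σ * cst (Option σ) (z j)) = 0 := by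
        rw [mul_assoc, ← mul_assoc (cst (Option σ) (z i)), ← (hs (cst (Option σ) (z i))).eq,
          mul_assoc (sv A σ) (cst (Option σ) (z i)), hZZ, mul_zero, mul_zero]
      have h3 : lf (u i) * (sv A σ * cst (Option σ) (z j)) =
          sv A σ * (lf (u i) * cst (Option σ) (z j)) := by
        rw [← mul_assoc, ← (hs (lf (u i))).eq, mul_assoc]
      rw [h2, h3, add_zero, mul_assoc (sv A σ)]
    rw [key, key, h.comm i j, add_assoc, add_assoc]
    congr 1
    have h1 := congrArg (fun x => sv A σ * x) (hc.comm i j)
    simp only [mul_sub] at h1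
    rw [← sub_eq_zero] at h1 ⊢
    rw [← h1]
    abel
  · intro i
    have h3 : ∀ l, lf (u' l) ^ a i = lf (u l) ^ a i +
        sv A σ * Dn (lf (u l)) (cst (Option σ) (z l)) (a i) := fun l => by
      rw [lf_def hu' l, def_pow hs (heW l) (hZe l) (heZ l)]
    simp only [h3, mul_add, Finset.sum_add_distrib]
    rw [h.rel i, ← add_assoc]
    congr 1
    rw [hc.rel i, Finset.mul_sum]
    refine Finset.sum_congr rfl fun l _ => ?_
    rw [← mul_assoc, (hs _).eq, mul_assoc]
    rfl


/-- cocycles are closed under multiplication with elements commuting with everything -/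
theorem _root_.Crest.Agent.R181.HT.IsCoc.mul_mul {W ζ : I → PA A σ} (h : IsCoc a th τ W ζ)
    {x y : PA A σ} (hx : ∀ i, Commute x (W i)) (hy : ∀ i, Commute y (W i))
    (hxt : ∀ c, Commute x (cst σ (τ c))) : IsCoc a th τ W (fun i => x * ζ i * y) := by
  constructor
  · intro i j
    have key : ∀ i j, W i * (x * ζ j * y) - x * ζ j * y * W i = x * (W i * ζ j - ζ j * W i) * y := by
      intro i j
      rw [mul_sub, sub_mul, ← mul_assoc x (W i), (hx i).eq]
      congr 1
      · simp only [mul_assoc]
      · rw [mul_assoc (x * ζ j), (hy i).eq]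
        simp only [mul_assoc]
    rw [key, key, h.comm]
  · intro i
    have key : ∀ i m, Dn (W i) (x * ζ i * y) m = x * Dn (W i) (ζ i) m * y := fun i m => by
      rw [H.Dn_mul_right _ _ _ (hy i), H.Dn_mul_left _ _ _ (hx i)]
    rw [key, h.rel, Finset.mul_sum, Finset.sum_mul]
    refine Finset.sum_congr rfl fun l _ => ?_
    rw [key, ← mul_assoc x, (hxt _).eq]
    simp only [mul_assoc]

end Def

section Lift

variable {F D I σ : Type} [CommRing F] [DivisionRing D] [Algebra F D] [Fintype I] [Fintype σ]
  {a : I → ℕ} {th : I → I → F} {Q : I → MvPolynomial (Option σ) F} {w : I → σ → D}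

/-- **Lifting of extensions.** -/
theorem lift_ext (hK : Kill a th Q) (hE : EProp a th w) (N X Y : Type) [AddCommGroup N]
    [Module (U a th Q w) N] [AddCommGroup X] [Module (U a th Q w) X] [AddCommGroup Y]
    [Module (U a th Q w) Y] (π : X →ₗ[U a th Q w] Y) (hπ : Function.Surjective π)
    (ζ : I → (N →+ Y)) (h : HP.Ext (iD a th Q w) (eta a th Q w) ζ) :
    ∃ ζ' : I → (N →+ X), (∀ i n, π (ζ' i n) = ζ i n) ∧
      HP.Ext (iD a th Q w) (eta a th Q w) ζ' := by
  obtain ⟨f, hfD, hfe⟩ := h
  obtain ⟨s, hs, hsD⟩ := HP.exists_sec (iD a th Q w) π hπ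
  let E : Type := N × (X × Y)
  let g : U a th Q w →+* AddMonoid.End E := Module.toAddMonoidEnd (U a th Q w) E
  have hg : ∀ t (p : E), g t p = (t • p.1, (t • p.2.1, t • p.2.2)) := fun _ _ => rfl
  let P : AddMonoid.End E :=
    { toFun := fun p => (0, (0, π p.2.1))
      map_zero' := by simp [E]
      map_add' := fun p q => by simp [E] }
  let S : AddMonoid.End E :=
    { toFun := fun p => (0, (s p.2.2, 0))
      map_zero' := by simp [E]
      map_add' := fun p q => by simp [E] }
  let z : I → AddMonoid.End E := fun i =>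
    { toFun := fun p => (0, (0, ζ i p.1))
      map_zero' := by simp [E]
      map_add' := fun p q => by simp [E] }
  let eN : AddMonoid.End E :=
    { toFun := fun p => (p.1, (0, 0))
      map_zero' := by simp [E]
      map_add' := fun p q => by simp [E] }
  let eX : AddMonoid.End E :=
    { toFun := fun p => (0, (p.2.1, 0))
      map_zero' := by simp [E]
      map_add' := fun p q => by simp [E] }
  have hPd : ∀ p : E, P p = (0, (0, π p.2.1)) := fun _ => rfl
  have hSd : ∀ p : E, S p = (0, (s p.2.2, 0)) := fun _ => rfl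
  have hzd : ∀ i (p : E), z i p = (0, (0, ζ i p.1)) := fun _ _ => rfl
  have heNd : ∀ p : E, eN p = (p.1, (0, 0)) := fun _ => rfl
  have heXd : ∀ p : E, eX p = (0, (p.2.1, 0)) := fun _ => rfl
  have hmul : ∀ (x y : AddMonoid.End E) (p : E), (x * y) p = x (y p) := fun _ _ _ => rfl
  have hP : ∀ t, Commute P (g t) := fun t => by
    ext1 p
    rw [hmul, hmul, hPd, hg, hg, hPd]
    simp
  have hS : ∀ d, Commute S (g (iD a th Q w d)) := fun d => by
    ext1 p
    rw [hmul, hmul, hSd, hg, hg, hSd]
    simp [hsD]
  have heN : ∀ t, Commute eN (g t) := fun t => by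
    ext1 p
    rw [hmul, hmul, heNd, hg, hg, heNd]
    simp
  have heX : ∀ t, Commute eX (g t) := fun t => by
    ext1 p
    rw [hmul, hmul, heXd, hg, hg, heXd]
    simp
  have hPS : ∀ t, Commute (P * S) (g t) := fun t => by
    ext1 p
    rw [hmul, hmul, hmul, hmul, hSd, hPd, hg, hg, hSd, hPd]
    simp [hs]
  have hPSP : P * S * P = P := by
    ext1 p
    rw [hmul, hmul, hPd, hSd, hPd]
    simp [hs]
  have hzP : ∀ i, P * S * z i = z i := fun i => by
    ext1 p
    rw [hmul, hmul, hzd, hSd, hPd]
    simp [hs]
  have hze : ∀ i, z i * eN = z i := fun i => by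
    ext1 p
    rw [hmul, heNd, hzd, hzd]
  have hez : ∀ i, eN * z i = 0 := fun i => by
    ext1 p
    rw [hmul, hzd, heNd]
    rfl
  -- the extended action
  let fE : U a th Q w →+* AddMonoid.End E :=
    { toFun := fun t =>
        { toFun := fun p => ((f t (p.1, p.2.2)).1, (t • p.2.1, (f t (p.1, p.2.2)).2))
          map_zero' := by
            change ((f t (0 : N × Y)).1, (t • (0 : X), (f t (0 : N × Y)).2)) = (0 : N × (X × Y))
            rw [map_zero, smul_zero]
            rfl
          map_add' := fun p q => by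
            change ((f t ((p.1, p.2.2) + (q.1, q.2.2) : N × Y)).1, (t • (p.2.1 + q.2.1),
              (f t ((p.1, p.2.2) + (q.1, q.2.2) : N × Y)).2)) = _
            rw [map_add, smul_add]
            rfl }
      map_one' := by
        ext1 p
        change ((f 1 (p.1, p.2.2)).1, ((1 : U a th Q w) • p.2.1, (f 1 (p.1, p.2.2)).2)) = p
        rw [map_one, one_smul]
        rfl
      map_mul' := fun t t' => by
        ext1 p
        change ((f (t * t') (p.1, p.2.2)).1, ((t * t') • p.2.1, (f (t * t') (p.1, p.2.2)).2)) = _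
        rw [map_mul, mul_smul]
        rfl
      map_zero' := by
        ext1 p
        change ((f 0 (p.1, p.2.2)).1, ((0 : U a th Q w) • p.2.1, (f 0 (p.1, p.2.2)).2)) = 0
        rw [map_zero, zero_smul]
        rfl
      map_add' := fun t t' => by
        ext1 p
        change ((f (t + t') (p.1, p.2.2)).1, ((t + t') • p.2.1, (f (t + t') (p.1, p.2.2)).2)) = _
        rw [map_add, add_smul]
        rfl }
  have hfE : ∀ t (p : E), fE t p = ((f t (p.1, p.2.2)).1, (t • p.2.1, (f t (p.1, p.2.2)).2)) :=
    fun _ _ => rfl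
  have hfED : ∀ d, fE (iD a th Q w d) = g (iD a th Q w d) := fun d => by
    ext1 p
    rw [hfE, hfD, hg]
  have hfEe : ∀ i, fE (eta a th Q w i) = g (eta a th Q w i) + z i := fun i => by
    ext1 p
    rw [hfE, hfe]
    change _ = g (eta a th Q w i) p + z i p
    rw [hg, hzd]
    exact Prod.ext (add_zero _).symm (Prod.ext (add_zero _).symm rfl)
  have hLD : ∀ c, iL a th Q w c = iD a th Q w (algebraMap F D c) := fun c => by
    rw [iD_base]
    rfl
  have hfEL : ∀ c, fE (iL a th Q w c) = g (iL a th Q w c) := fun c => by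
    rw [hLD, hfED]
  set τ : F →+* AddMonoid.End E := g.comp (iL a th Q w) with hτ
  have hτE : fE.comp (iL a th Q w) = τ := RingHom.ext hfEL
  let u : I → Option σ → AddMonoid.End E := fun i v => g (wU a th Q w i v)
  have hu : IsTuple a th Q τ u := (isTuple_wU a th Q w).map g
  have hu' : IsTuple a th Q τ (fun i v => fE (wU a th Q w i v)) := by
    have := (isTuple_wU a th Q w).map fE
    rwa [hτE] at this
  have hzF : ∀ i c, Commute (g (iL a th Q w c)) (z i) := fun i c => by
    have h1 : Commute (g (iL a th Q w c)) (g (eta a th Q w i)) := (iL_comm a th Q w c _).map g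
    have h2 : Commute (g (iL a th Q w c)) (g (eta a th Q w i) + z i) := by
      rw [← hfEe, ← hfEL]
      exact (iL_comm a th Q w c _).map fE
    have h3 := h2.sub_right h1
    rwa [add_sub_cancel_left] at h3
  have hz : IsCoc a th τ (fun i => lf (u i)) (fun i => cst (Option σ) (z i)) := by
    refine isCoc_of_def (u' := fun i v => fE (wU a th Q w i v)) (e := eN) (fun i => ?_)
      (fun i v => heN _) hze hez hu hu'
    funext v
    cases v with
    | none =>
      change fE (eta a th Q w i) = g (eta a th Q w i) + _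
      rw [hfEe, if_pos rfl]
    | some v =>
      change fE (iD a th Q w (w i v)) = g (iD a th Q w (w i v)) + _
      rw [hfED, if_neg (by simp), add_zero]
  obtain ⟨z', hz'F, hz', hz'P⟩ := lift_ring hK hE g P S hP hS hPS hPSP z hzF hz hzP
  let z'' : I → AddMonoid.End E := fun i => eX * z' i * eN
  have hz''e : ∀ i, z'' i * eN = z'' i := fun i => by
    change eX * z' i * eN * eN = eX * z' i * eN
    rw [mul_assoc _ eN]
    congr 1
  have hez'' : ∀ i, eN * z'' i = 0 := fun i => by
    change eN * (eX * z' i * eN) = 0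
    have : eN * eX = 0 := by
      ext1 p
      rw [hmul, heXd, heNd]
      rfl
    rw [← mul_assoc, ← mul_assoc, this, zero_mul, zero_mul]
  have hz''F : ∀ c i, Commute (τ c) (z'' i) := fun c i => by
    change Commute (g (iL a th Q w c)) (eX * z' i * eN)
    exact ((heX _).symm.mul_right (hz'F i c)).mul_right (heN _).symm
  have hz''C : IsCoc a th τ (fun i => lf (u i)) (fun i => cst (Option σ) (z'' i)) := by
    have h1 := hz'.mul_mul (x := cst (Option σ) eX) (y := cst (Option σ) eN)
      (fun i => cst_comm_lf fun v => heX _) (fun i => cst_comm_lf fun v => heN _)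
      (fun c => by
        have := (heX (iL a th Q w c)).map (cst (Option σ))
        exact this)
    have h2 : (fun i => cst (Option σ) (z'' i)) =
        fun i => cst (Option σ) eX * cst (Option σ) (z' i) * cst (Option σ) eN := by
      funext i
      rw [← map_mul, ← map_mul]
    rw [h2]
    exact h1
  have ht : IsTuple a th Q τ
      (ext' (fun i v => (g.comp (iD a th Q w)) (w i v)) (fun i => g (eta a th Q w i) + z'' i)) := by
    refine isTuple_of_isCoc (u := u) (z := z'') (e := eN) (fun i => ?_) (fun i v => heN _)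
      hz''e hez'' hu hz''C
    funext v
    cases v with
    | none =>
      change g (eta a th Q w i) + z'' i = g (eta a th Q w i) + _
      rw [if_pos rfl]
    | some v =>
      change g (iD a th Q w (w i v)) = g (iD a th Q w (w i v)) + _
      rw [if_neg (by simp), add_zero]
  obtain ⟨f2, hf2D, hf2L, hf2e⟩ := exists_lift (a := a) (th := th) (Q := Q) (w := w)
    (g.comp (iD a th Q w)) τ (fun i => g (eta a th Q w i) + z'' i)
    (fun c => by
      change g (iD a th Q w (algebraMap F D c)) = g (iL a th Q w (algebraMap F F c))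
      rw [iD_base])
    (fun c d => (iL_comm a th Q w c _).map g)
    (fun c i => ((iL_comm a th Q w c _).map g).add_right (hz''F c i)) ht
  -- restriction to `N × X`
  let r : E →+ N × X :=
    { toFun := fun p => (p.1, p.2.1)
      map_zero' := rfl
      map_add' := fun _ _ => rfl }
  let j : N × X →+ E :=
    { toFun := fun p => (p.1, (p.2, 0))
      map_zero' := rfl
      map_add' := fun p q => by simp [E] }
  have hr : ∀ p : E, r p = (p.1, p.2.1) := fun _ => rfl
  have hj : ∀ p : N × X, j p = (p.1, (p.2, 0)) := fun _ => rfl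
  have hrj : ∀ p, r (j p) = p := fun _ => rfl
  let ζ' : I → (N →+ X) := fun i =>
    { toFun := fun n => (z' i (n, (0, 0))).2.1
      map_zero' := by
        change (z' i (0 : E)).2.1 = 0
        rw [map_zero]
        rfl
      map_add' := fun n n' => by
        have : ((n + n', (0, 0)) : E) = (n, (0, 0)) + (n', (0, 0)) := by simp
        change (z' i ((n + n', (0, 0)) : E)).2.1 = _
        rw [this, map_add]
        rfl }
  have hζ' : ∀ i n, ζ' i n = (z' i (n, (0, 0))).2.1 := fun _ _ => rfl
  have hz''d : ∀ i (p : E), z'' i p = (0, (ζ' i p.1, 0)) := fun i p => by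
    change eX (z' i (eN p)) = _
    rw [heXd, heNd]
    rfl
  have hf2Dd : ∀ d (p : N × X), f2 (iD a th Q w d) (j p) =
      j (iD a th Q w d • p.1, iD a th Q w d • p.2) := fun d p => by
    rw [hf2D]
    change g (iD a th Q w d) (j p) = _
    rw [hg, hj, hj]
    simp
  have hf2ed : ∀ i (p : N × X), f2 (eta a th Q w i) (j p) =
      j (eta a th Q w i • p.1, eta a th Q w i • p.2 + ζ' i p.1) := fun i p => by
    rw [hf2e]
    change g (eta a th Q w i) (j p) + z'' i (j p) = _
    rw [hg, hz''d, hj, hj]
    refine Prod.ext (add_zero _) (Prod.ext rfl ?_)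
    change eta a th Q w i • (0 : Y) + 0 = 0
    rw [smul_zero, add_zero]
  have hkey : ∀ t (p : N × X), j (r (f2 t (j p))) = f2 t (j p) := by
    intro t
    refine generation a th Q w (fun t => ∀ p : N × X, j (r (f2 t (j p))) = f2 t (j p))
      ?_ ?_ ?_ ?_ ?_ t
    · intro d p
      rw [hf2Dd, hrj]
    · intro c p
      rw [hLD, hf2Dd, hrj]
    · intro i p
      rw [hf2ed, hrj]
    · intro t t' h h' p
      rw [map_add]
      change j (r (f2 t (j p) + f2 t' (j p))) = f2 t (j p) + f2 t' (j p)
      rw [map_add, map_add, h, h']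
    · intro t t' h h' p
      rw [map_mul]
      change j (r (f2 t (f2 t' (j p)))) = f2 t (f2 t' (j p))
      rw [← h' p, h]
  let f' : U a th Q w →+* AddMonoid.End (N × X) :=
    { toFun := fun t => (r.comp (f2 t)).comp j
      map_one' := by
        ext1 p
        change r (f2 1 (j p)) = p
        rw [map_one]
        rfl
      map_mul' := fun t t' => by
        ext1 p
        change r (f2 (t * t') (j p)) = r (f2 t (j (r (f2 t' (j p)))))
        rw [hkey, map_mul]
        rfl
      map_zero' := by
        ext1 p
        change r (f2 0 (j p)) = 0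
        rw [map_zero]
        rfl
      map_add' := fun t t' => by
        ext1 p
        change r (f2 (t + t') (j p)) = r (f2 t (j p)) + r (f2 t' (j p))
        rw [map_add]
        rfl }
  refine ⟨ζ', fun i n => ?_, f', fun d p => ?_, fun i p => ?_⟩
  · have h1 := congrArg (fun x : AddMonoid.End E => x (n, (0, 0))) (hz'P i)
    change P (z' i (n, (0, 0))) = z i (n, (0, 0)) at h1
    rw [hPd, hzd] at h1
    have h2 := congrArg (fun p : E => p.2.2) h1
    exact h2
  · change r (f2 _ (j p)) = _
    rw [hf2Dd, hrj]
  · change r (f2 _ (j p)) = _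
    rw [hf2ed, hrj]

/-- **The ring `U` is left hereditary.** -/
theorem projective (hK : Kill a th Q) (hE : EProp a th w) {G : Type} [AddCommGroup G]
    [Module (U a th Q w) G] (hG : Module.Projective (U a th Q w) G)
    (P : Submodule (U a th Q w) G) : Module.Projective (U a th Q w) P := by
  refine HP.projective_of_lift (iD a th Q w) (eta a th Q w) ?_ ?_ hG P
  · intro R hRD hRe hadd hmul t
    refine generation a th Q w R hRD (fun c => ?_) hRe hadd hmul t
    have : iL a th Q w c = iD a th Q w (algebraMap F D c) := by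
      rw [iD_base]
      rfl
    rw [this]
    exact hRD _
  · intro N X Y _ _ _ _ _ _ π hπ ζ h
    exact lift_ext hK hE N X Y π hπ ζ h

end Lift

end Crest.Agent.R181.HL
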