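import Crest.Agent.R181.MK9

/-! Central scalars, functoriality. -/

set_option autoImplicit false
set_option linter.unusedSectionVars false
open Matrix

namespace Crest.Agent.R181.MK

universe u v w

namespace SylRank

variable {T : Type} [Ring T] (ρ : SylRank T)

/-- elements of `D` commuting with the image of `T` are central -/
theorem central_of_commute (z : ρ.DS) (h : ∀ t, z * ρ.phi t = ρ.phi t * z) (d : ρ.DS) :
    z * d = d * z := by
  have h1 := ρ.smul_of_rep (N := ρ.DS) (N' := ρ.DS) (AddMonoidHom.mulLeft z) (fun t x => by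
    change z * (ρ.phi t * x) = ρ.phi t * (z * x)
    rw [← mul_assoc, h, mul_assoc]) d 1
  change z * (d * 1) = d * (z * 1) at h1
  rwa [mul_one, mul_one] at h1

theorem phi_central {z : T} (h : ∀ t, z * t = t * z) (d : ρ.DS) : ρ.phi z * d = d * ρ.phi z :=
  ρ.central_of_commute _ (fun t => by rw [← map_mul, h, map_mul]) d

/-- the structure of an algebra over central scalars -/
@[reducible] noncomputable def algDS (F : Type u) [CommRing F] [Algebra F T] : Algebra F ρ.DS :=
  RingHom.toAlgebra' (ρ.phi.comp (algebraMap F T)) (fun c x =>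
    ρ.phi_central (fun t => Algebra.commutes c t) x)

theorem algDS_map (F : Type u) [CommRing F] [Algebra F T] (c : F) :
    letI := ρ.algDS F
    algebraMap F ρ.DS c = ρ.phi (algebraMap F T c) := rfl

end SylRank

namespace ProjRank

variable {T : Type} [Ring T] (σ : ProjRank T) (hT : SH T)

/-- functoriality: a ring homomorphism preserving the ranks of full matrices extends to the skew
fields -/
theorem exists_mapD {T' : Type} [Ring T'] (ρ' : SylRank T') (α : T →+* T')
    (hα : ∀ (n : ℕ) (A : Matrix (Fin n) (Fin n) T), (σ.toSyl hT).rk A = n → ρ'.rk (A.map α) = n) :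
    ∃! f : (σ.toSyl hT).DS →+* ρ'.DS, ∀ t, f ((σ.toSyl hT).phi t) = ρ'.phi (α t) := by
  have h : SylRank.Inv (σ.toSyl hT) (ρ'.phi.comp α) := by
    intro n A hA
    exact ρ'.phi_inv n (A.map α) (hα n A hA)
  obtain ⟨f, hf, huniq⟩ := σ.existsUnique_lift hT _ h
  exact ⟨f, fun t => RingHom.congr_fun hf t, fun g hg => huniq g (RingHom.ext hg)⟩

/-- a ring homomorphism of semihereditary rings which maps idempotents of rank `r` to matrices of rank `r`
maps full matrices to full matrices, provided it does so for `1`. -/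
theorem ir_map_le {T' : Type} [Ring T'] (σ' : ProjRank T') (α : T →+* T')
    (hα : ∀ (n : ℕ) (e : Matrix (Fin n) (Fin n) T), e * e = e → σ'.rk (e.map α) = σ.rk e)
    {m n : Type} [Fintype m] [Fintype n] (A : Matrix m n T) : σ'.ir (A.map α) ≤ σ.ir A := by
  obtain ⟨k, X, e, Y, he, h1, h2, hA, hr⟩ := σ.exists_fac' A
  rw [← hr, ← hα k e he]
  apply σ'.ir_le_of_fac (A.map α) (X.map α) (e.map α) (Y.map α)
  · rw [← Matrix.map_mul, he]
  · rw [← Matrix.map_mul, h1, ← Matrix.map_mul, hA]

end ProjRank

/-- a projective rank from a Sylvester type rank with values in `ℚ` that is integral on idempotents -/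
noncomputable def ProjRank.ofFun {T : Type} [Ring T] (r : ∀ {n : Type}, Matrix n n T → ℚ)
    (hint : ∀ {n : Type} [Fintype n] (e : Matrix n n T), e * e = e → ∃ k : ℕ, r e = k)
    (hone : r (1 : Matrix (Fin 1) (Fin 1) T) = 1)
    (hcomm : ∀ {m n : Type} [Fintype m] [Fintype n] (X : Matrix m n T) (Y : Matrix n m T),
      (X * Y) * (X * Y) = X * Y → (Y * X) * (Y * X) = Y * X → r (X * Y) = r (Y * X))
    (hdiag : ∀ {m n : Type} [Fintype m] [Fintype n] (e : Matrix m m T) (f : Matrix n n T),
      e * e = e → f * f = f → r (fromBlocks e 0 0 f) = r e + r f) : ProjRank T where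
  rk e := ⌊r e⌋₊
  rk_one := by rw [hone]; simp
  rk_comm X Y h1 h2 := by rw [hcomm X Y h1 h2]
  rk_diag e f he hf := by
    obtain ⟨a, ha⟩ := hint e he
    obtain ⟨b, hb⟩ := hint f hf
    rw [hdiag e f he hf, ha, hb]
    norm_cast

end Crest.Agent.R181.MK
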