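import Crest.Agent.R181.HT279c
import Crest.Agent.R181.MK10

/-!
R181 (helper279), H10 for the skew fields of 598's MK files.
-/

set_option autoImplicit false
set_option linter.unusedSectionVars false

namespace Crest.Agent.R181.HT

open AddMonoidAlgebra
open Crest.Agent.R181.UR
open Crest.Agent.R181.MK

/-- derivations into bimodules `End E` over the skew field of fractions of `T` are inner -/
theorem inner_of_MK {T : Type} [Ring T] (σ : ProjRank T) (hT : SH T) (E : Type) [AddCommGroup E]
    (ρ : (σ.toSyl hT).DS →+* AddMonoid.End E) (δ : T →+ AddMonoid.End E)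
    (hδ : ∀ s t, δ (s * t) = ρ ((σ.toSyl hT).phi s) * δ t + δ s * ρ ((σ.toSyl hT).phi t)) :
    ∃ η : AddMonoid.End E, ∀ t, δ t = η * ρ ((σ.toSyl hT).phi t) - ρ ((σ.toSyl hT).phi t) * η := by
  let _ : Module (σ.toSyl hT).DS E := Module.compHom E ρ
  obtain ⟨η, hη⟩ := σ.derivation_inner hT (N := E) (N' := E) δ (fun s t x => by
    have := congrArg (fun f : AddMonoid.End E => f x) (hδ s t)
    exact this)
  exact ⟨η, fun t => AddMonoidHom.ext fun x => hη t x⟩

theorem EProp.step_MK {F D' I σ : Type} [CommRing F] [Ring D'] [Algebra F D'] [Fintype I]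
    [Fintype σ] {a : I → ℕ} {th : I → I → F} {w' : I → σ → D'}
    (hE : EProp a th w') (Q : I → MvPolynomial (Option σ) F) (r : ProjRank (U a th Q w'))
    (hT : SH (U a th Q w')) [Algebra F (r.toSyl hT).DS]
    (halg : ∀ c : F, (r.toSyl hT).phi (iL a th Q w' c) = algebraMap F (r.toSyl hT).DS c) :
    EProp a th (fun i v => (r.toSyl hT).phi (wU a th Q w' i v)) :=
  EProp.step hE Q (r.toSyl hT).phi halg (fun E _ ρ δ hδ => inner_of_MK r hT E ρ δ hδ)

end Crest.Agent.R181.HT
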