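import Crest.Agent.R181.TW825c
import Crest.Agent.R181.HT279d

/-!
R181 (helper825): the tower from the four blocks H9, V2, V3, PO.
-/

set_option autoImplicit false
set_option linter.unusedSectionVars false

namespace Crest.Agent.R181.TW

open UR HT

section skew

open Matrix MKS

variable {T : Type} [Ring T] [Nontrivial T] [IsStablyFiniteRing T]

theorem rk_of_stFull (hH : Hered T) (hs : MKS.AllStFree T) {n : ℕ}
    (A : Matrix (Fin n) (Fin n) T) (h : StFull A) : (syl hH hs).rk A = n := by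
  apply le_antisymm
  · simpa using (syl hH hs).rk_le_card_left A
  · obtain ⟨k, X, e, Y, he, h1, h2, hA, hr⟩ := (MKS.projRank hs).exists_fac' A
    obtain ⟨a, b, X', Y', hXY, hYX⟩ := exists_matrices (T := T) hs e he
    have h3 := (MKS.projRank hs).rk_comm X' Y' (by rw [hXY, fromBlocks_multiply]; simp [he])
      (by rw [hYX, Matrix.one_mul])
    have hone : ∀ k : ℕ, (MKS.projRank hs).rk (1 : Matrix (Fin k) (Fin k) T) = k := by
      intro k
      change MKS.rk _ = k
      apply MKS.rk_eq
      refine HasRk.of_equiv ?_ (HasRk.free k)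
      refine LinearEquiv.symm (LinearEquiv.trans (LinearEquiv.ofEq _ _ ?_) Submodule.topEquiv)
      rw [eq_top_iff]
      intro v _
      rw [mem_rowS _ (Matrix.one_mul _), Matrix.vecMul_one]
    rw [hXY, hYX, (MKS.projRank hs).rk_diag e 1 he (Matrix.one_mul 1), hone, hone] at h3
    let X1 : Matrix (Fin n ⊕ Fin a) (Fin k ⊕ Fin a) T := fromBlocks X 0 0 1
    let Y1 : Matrix (Fin k ⊕ Fin a) (Fin n ⊕ Fin a) T := fromBlocks Y 0 0 1
    have h5 : X1 * X' * (Y' * Y1) = fromBlocks A 0 0 1 := by
      have h6 : X1 * X' * (Y' * Y1) = X1 * (X' * Y') * Y1 := by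
        simp only [Matrix.mul_assoc]
      rw [h6, hXY, fromBlocks_multiply, fromBlocks_multiply]
      simp [h1, hA]
    have h4 := h b a (X1 * X') (Y' * Y1) h5
    change n ≤ (MKS.projRank hs).ir A
    rw [← hr]
    omega

/-- **the skew field**, with all properties used by the tower -/
theorem skewExt (hH : Hered T) (hs : AllSF T) : SkewExt T := by
  have hs' : MKS.AllStFree T := hs
  obtain ⟨D, i, φ, hinj, huniv⟩ := MKS.exists_skew hH hs'
  exact ⟨D, i, φ, hinj, huniv, fun m A hA =>
    (isUnit_map_iff hH hs' φ huniv A).2 (rk_of_stFull hH hs' A hA)⟩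

end skew

section

variable {F I : Type} [Field F] [Fintype I] {n : ℕ} {d : Dat F I n}

/-- property `E` of a level -/
def EP {i : ℕ} (X : Lvl d i) : Prop := EProp d.a d.th X.w

variable (d) in
/-- The statement H9. -/
def H9Stmt : Prop :=
  ∀ (i : ℕ) (_ : i < n) (X : Lvl d i) (_ : Chain d i X), EP X → Hered X.T

variable (d) in
/-- The statement PO. -/
def POStmt : Prop :=
  ∀ (i : ℕ) (_ : i < n) (X : Lvl d i) (_ : Chain d i X), Nontrivial X.T ∧ IsStablyFiniteRing X.T

theorem EP.step {i : ℕ} {X : Lvl d i} {Y : Lvl d (i + 1)} (s : Step X Y) [Nontrivial X.T]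
    [IsStablyFiniteRing X.T] (hH : Hered X.T) (hs : AllSF X.T) (hE : EP X) : EP Y := by
  have hs' : MKS.AllStFree X.T := hs
  have h := EProp.step hE (d.Ql i (dl F i)) s.φ s.alg (fun E _ ρ δ hδ => by
    let _ : Module Y.D E := Module.compHom E ρ
    have hρ : ∀ (y : Y.D) (e : E), ρ y e = y • e := fun _ _ => rfl
    obtain ⟨η, hη⟩ := UnivLoc.derivation_inner hH hs' s.univ (N := E) (N' := E) δ
      (fun u t x => by
        have := congrArg (fun g : AddMonoid.End E => g x) (hδ u t)
        exact this)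
    refine ⟨η, fun t => ?_⟩
    ext x
    exact hη t x)
  have hw : (fun l v => s.φ (wU d.a d.th (d.Ql i (dl F i)) X.w l v)) = Y.w := by
    funext l v
    exact s.hw l v
  rw [hw] at h
  exact h

/-- **The tower.** -/
theorem exists_tower (h9 : H9Stmt d) (h2 : V2Stmt d) (h3 : V3Stmt d) (hP : POStmt d) :
    ∃ X : Lvl d n, Nonempty (Chain d n X) := by
  obtain ⟨X, hX, -⟩ := exists_chain (d := d) EP (EProp.empty _ _ _)
    (fun i hi X c Y s hE => by
      obtain ⟨i1, i2⟩ := hP i hi X c
      exact hE.step s (h9 i hi X c hE) (allSF_T h2 h3 hi c))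
    (fun i hi X c hE => h9 i hi X c hE) h2 h3
    (fun i hi X c hH hS => by
      obtain ⟨i1, i2⟩ := hP i hi X c
      exact skewExt hH hS) n le_rfl
  exact ⟨X, hX⟩

/-- The tuple at the top. -/
theorem exists_tuple (h9 : H9Stmt d) (h2 : V2Stmt d) (h3 : V3Stmt d) (hP : POStmt d) :
    ∃ (D : Type) (_ : DivisionRing D) (_ : Algebra F D) (w : I → Fin n → D),
      IsTuple d.a d.th d.Q (algebraMap F D) w := by
  obtain ⟨X, -⟩ := exists_tower h9 h2 h3 hP
  obtain ⟨w, hw⟩ := X.tuple_top
  exact ⟨X.D, X.dr, X.alg, w, hw⟩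

end

end Crest.Agent.R181.TW
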