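import Crest.Agent.R181.HL776b
import Crest.Agent.R181.TW825d

/-! R181, block H: H9 from the killing property. -/

set_option autoImplicit false

namespace Crest.Agent.R181.HL

open UR TW

/-- `U` is left hereditary. -/
theorem hered {F D I σ : Type} [CommRing F] [DivisionRing D] [Algebra F D] [Fintype I] [Fintype σ]
    {a : I → ℕ} {th : I → I → F} {Q : I → MvPolynomial (Option σ) F} {w : I → σ → D}
    (hK : Kill a th Q) (hE : HT.EProp a th w) : Hered (U a th Q w) :=
  fun _ N => projective hK hE inferInstance N

/-- **H9** from the killing property. -/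
theorem h9Stmt_of_kill {F I : Type} [Field F] [Fintype I] {n : ℕ} {d : Dat F I n}
    (hK : ∀ i < n, Kill d.a d.th (d.Ql i (dl F i))) : H9Stmt d :=
  fun i hi _ _ hE => hered (hK i hi) hE

end Crest.Agent.R181.HL
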