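import Crest.Agent.R181.HL776c
import Crest.Agent.R181.KL279c

/-! R181, block H: H9 for the data of the construction. -/

set_option autoImplicit false

namespace Crest.Agent.R181.HL

open TW

/-- **H9**, no hypothesis. -/
theorem h9 {r : ℕ} {F : Type} [Field F] [Algebra ℂ F] (P : H.Prm r F) : H9Stmt (KL.dat P) :=
  h9Stmt_of_kill fun _ hi => KL.kill_HL P hi

end Crest.Agent.R181.HL
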