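import Crest.Agent.R181.H1
import Crest.Agent.R181.UR396b

/-!
R181 (helper279), H10: polynomials in the central variables `Option σ`: restriction to `s = 0`,
extension by constants in `s = none`, division by `s`.
-/

set_option autoImplicit false
set_option linter.unusedSectionVars false

namespace Crest.Agent.R181.HT

open AddMonoidAlgebra
open Crest.Agent.R181.UR
open Crest.Agent.R181.H (Dn Dn_zero Dn_succ)

section Toolkit

variable {A B : Type*} [Ring A] [Ring B] {σ : Type*}

/-- homogeneous of degree `d` -/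
def Hg (d : ℕ) (f : PA A σ) : Prop := ∀ m, f.coeff m ≠ 0 → m.degree = d

theorem hg_zero (d : ℕ) : Hg d (0 : PA A σ) := fun m h => absurd rfl h

theorem Hg.add {d : ℕ} {f g : PA A σ} (hf : Hg d f) (hg : Hg d g) : Hg d (f + g) := by
  intro m h
  rw [coeff_add, Finsupp.add_apply] at h
  by_cases h1 : f.coeff m = 0
  · exact hg m (by rwa [h1, zero_add] at h)
  · exact hf m h1

theorem Hg.neg {d : ℕ} {f : PA A σ} (hf : Hg d f) : Hg d (-f) := by
  intro m h
  apply hf m
  intro h1
  apply h
  rw [coeff_neg, Finsupp.neg_apply, h1, neg_zero]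

theorem Hg.sub {d : ℕ} {f g : PA A σ} (hf : Hg d f) (hg : Hg d g) : Hg d (f - g) := by
  rw [sub_eq_add_neg]; exact hf.add hg.neg

theorem Hg.mul {d e : ℕ} {f g : PA A σ} (hf : Hg d f) (hg : Hg e g) : Hg (d + e) (f * g) := by
  classical
  intro m hm
  rw [coeff_mul] at hm
  obtain ⟨m1, h1, h2⟩ := Finset.exists_ne_zero_of_sum_ne_zero hm
  obtain ⟨m2, h3, h4⟩ := Finset.exists_ne_zero_of_sum_ne_zero h2
  have h4' : (if m1 + m2 = m then f.coeff m1 * g.coeff m2 else 0) ≠ 0 := h4
  split_ifs at h4' with h5
  · rw [← h5, map_add, hf m1 (left_ne_zero_of_mul h4'), hg m2 (right_ne_zero_of_mul h4')]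
  · exact absurd rfl h4'

theorem hg_single {m : σ →₀ ℕ} {d : ℕ} (h : m.degree = d) (a : A) :
    Hg d (single m a : PA A σ) := by
  classical
  intro m' hm'
  rw [coeff_single, Finsupp.single_apply] at hm'
  split_ifs at hm' with h1
  · rw [← h1, h]
  · exact absurd rfl hm'

theorem hg_cst (a : A) : Hg 0 (cst σ a) := hg_single (map_zero _) a

theorem hg_var (v : σ) : Hg 1 (var A v) := hg_single (Finsupp.degree_single _ _) _

theorem hg_sum {ι : Type*} (s : Finset ι) (d : ℕ) (f : ι → PA A σ) (h : ∀ i ∈ s, Hg d (f i)) :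
    Hg d (∑ i ∈ s, f i) := by
  classical
  induction s using Finset.induction_on with
  | empty => rw [Finset.sum_empty]; exact hg_zero d
  | insert i s hi ih =>
    rw [Finset.sum_insert hi]
    exact (h i (Finset.mem_insert_self _ _)).add
      (ih fun j hj => h j (Finset.mem_insert_of_mem hj))

theorem hg_lf [Fintype σ] (w : σ → A) : Hg 1 (lf w) :=
  hg_sum _ _ _ fun _ _ => hg_single (Finsupp.degree_single _ _) _

/-- a homogeneous element of degree `0` is a constant -/
theorem eq_cst_of_hg_zero {f : PA A σ} (h : Hg 0 f) : f = cst σ (f.coeff 0) := by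
  classical
  ext m
  rw [cst_apply, coeff_single, Finsupp.single_apply]
  split_ifs with h1
  · rw [h1]
  · by_contra h2
    exact h1 ((Finsupp.degree_eq_zero_iff m).1 (h m h2)).symm

/-- coefficients in a set -/
def Cf (S : Subring A) (f : PA A σ) : Prop := ∀ m, f.coeff m ∈ S

theorem Cf.add {S : Subring A} {f g : PA A σ} (hf : Cf S f) (hg : Cf S g) : Cf S (f + g) :=
  fun m => by rw [coeff_add, Finsupp.add_apply]; exact S.add_mem (hf m) (hg m)

theorem Cf.neg {S : Subring A} {f : PA A σ} (hf : Cf S f) : Cf S (-f) :=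
  fun m => by rw [coeff_neg, Finsupp.neg_apply]; exact S.neg_mem (hf m)

theorem Cf.sub {S : Subring A} {f g : PA A σ} (hf : Cf S f) (hg : Cf S g) : Cf S (f - g) := by
  rw [sub_eq_add_neg]; exact hf.add hg.neg

theorem Cf.mul {S : Subring A} {f g : PA A σ} (hf : Cf S f) (hg : Cf S g) : Cf S (f * g) := by
  classical
  intro m
  rw [coeff_mul]
  refine Subring.sum_mem _ fun m1 _ => Subring.sum_mem _ fun m2 _ => ?_
  show (if m1 + m2 = m then f.coeff m1 * g.coeff m2 else 0) ∈ S
  split_ifs
  · exact S.mul_mem (hf _) (hg _)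
  · exact S.zero_mem

theorem cf_single {S : Subring A} (m : σ →₀ ℕ) {a : A} (ha : a ∈ S) :
    Cf S (single m a : PA A σ) := by
  classical
  intro m'
  rw [coeff_single, Finsupp.single_apply]
  split_ifs
  · exact ha
  · exact S.zero_mem

theorem cf_cst {S : Subring A} {a : A} (ha : a ∈ S) : Cf S (cst σ a) := cf_single 0 ha

theorem cf_var (S : Subring A) (v : σ) : Cf S (var A v) := cf_single _ S.one_mem

theorem cf_sum {S : Subring A} {ι : Type*} (s : Finset ι) (f : ι → PA A σ)
    (h : ∀ i ∈ s, Cf S (f i)) : Cf S (∑ i ∈ s, f i) := by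
  intro m
  rw [coeff_sum, Finsupp.finsetSum_apply]
  exact Subring.sum_mem _ fun i hi => h i hi m

theorem cf_lf [Fintype σ] {S : Subring A} (w : σ → A) (h : ∀ v, w v ∈ S) : Cf S (lf w) :=
  cf_sum _ _ fun v _ => cf_single _ (h v)

/-- an element with coefficients commuting with `c` commutes with the constant `c` -/
theorem cst_comm {c : A} {f : PA A σ} (h : ∀ m, Commute c (f.coeff m)) :
    Commute (cst σ c) f := by
  show _ * _ = _ * _
  ext m
  rw [cst_apply, coeff_single_zero_mul, coeff_mul_single_zero, (h m).eq]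

end Toolkit

section Opt

variable {A B : Type*} [Ring A] [Ring B] {σ : Type*}

/-- setting `s = none` to zero, on monomials -/
noncomputable def r0Mon (A : Type*) [Ring A] (σ : Type*) : Multiplicative (Option σ →₀ ℕ) →* PA A σ where
  toFun m := if m.toAdd none = 0 then single m.toAdd.some 1 else 0
  map_one' := by
    rw [if_pos (by simp), toAdd_one, Finsupp.some_zero]
    rfl
  map_mul' m m' := by
    rw [toAdd_mul, Finsupp.add_apply, Finsupp.some_add]
    by_cases h1 : m.toAdd none = 0
    · by_cases h2 : m'.toAdd none = 0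
      · rw [if_pos h1, if_pos h2, if_pos (by omega), single_mul_single, one_mul]
      · rw [if_neg h2, if_neg (by omega), mul_zero]
    · rw [if_neg h1, if_neg (by omega), zero_mul]

theorem r0Mon_comm (a : A) (m : Multiplicative (Option σ →₀ ℕ)) :
    Commute (cst σ a : PA A σ) (r0Mon A σ m) := by
  show Commute (cst σ a) (if m.toAdd none = 0 then single m.toAdd.some 1 else 0)
  split_ifs
  · show cst σ a * single m.toAdd.some 1 = single m.toAdd.some 1 * cst σ a
    rw [cst_apply, single_mul_single, single_mul_single, zero_add, add_zero, mul_one, one_mul]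
  · exact Commute.zero_right _

/-- setting `s = none` to zero -/
noncomputable def r0 : PA A (Option σ) →+* PA A σ :=
  liftNCRingHom (cst σ : A →+* PA A σ) (r0Mon A σ) r0Mon_comm

theorem r0_single (m : Option σ →₀ ℕ) (a : A) :
    r0 (single m a : PA A (Option σ)) = if m none = 0 then single m.some a else 0 := by
  have h : r0 (single m a : PA A (Option σ)) = cst σ a * r0Mon A σ (Multiplicative.ofAdd m) := by
    unfold r0
    exact liftNCRingHom_single ..
  rw [h]
  show cst σ a * (if m none = 0 then single m.some 1 else 0) = _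
  split_ifs
  · rw [cst_apply, single_mul_single, zero_add, mul_one]
  · rw [mul_zero]

/-- inclusion of exponents -/
noncomputable def inc (m : σ →₀ ℕ) : Option σ →₀ ℕ := m.mapDomain some

@[simp] theorem inc_none (m : σ →₀ ℕ) : inc m none = 0 := by
  unfold inc
  apply Finsupp.mapDomain_of_notMem_range
  simp

@[simp] theorem inc_some_apply (m : σ →₀ ℕ) (v : σ) : inc m (some v) = m v :=
  Finsupp.mapDomain_apply (Option.some_injective σ) m v

theorem eq_inc_iff {m : Option σ →₀ ℕ} {α : σ →₀ ℕ} : m = inc α ↔ m none = 0 ∧ m.some = α := by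
  constructor
  · rintro rfl
    refine ⟨inc_none α, ?_⟩
    ext v
    rw [Finsupp.some_apply, inc_some_apply]
  · rintro ⟨h1, rfl⟩
    ext v
    cases v with
    | none => rw [h1, inc_none]
    | some v => rw [inc_some_apply, Finsupp.some_apply]

@[simp] theorem inc_some (α : σ →₀ ℕ) : (inc α).some = α := (eq_inc_iff.1 rfl).2

theorem degree_inc (α : σ →₀ ℕ) : (inc α).degree = α.degree := by
  unfold inc
  exact Finsupp.degree_mapDomain ..

theorem coeff_r0 (f : PA A (Option σ)) (α : σ →₀ ℕ) : (r0 f).coeff α = f.coeff (inc α) := by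
  classical
  induction f using AddMonoidAlgebra.induction_linear with
  | zero => simp
  | add f g hf hg => rw [map_add, coeff_add, coeff_add, Finsupp.add_apply, Finsupp.add_apply, hf, hg]
  | single m a =>
    rw [r0_single, coeff_single, Finsupp.single_apply]
    by_cases h : m = inc α
    · rw [if_pos h, if_pos (eq_inc_iff.1 h).1, (eq_inc_iff.1 h).2, coeff_single,
        Finsupp.single_eq_same]
    · rw [if_neg h]
      split_ifs with h1
      · rw [coeff_single, Finsupp.single_apply, if_neg fun h2 => h (eq_inc_iff.2 ⟨h1, h2⟩)]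
      · rfl

/-- extension by constants in `s` -/
noncomputable def em : PA A σ →+* PA A (Option σ) :=
  mapDomainRingHom A (Finsupp.mapDomain.addMonoidHom (some : σ → Option σ))

theorem em_single (m : σ →₀ ℕ) (a : A) : em (single m a : PA A σ) = single (inc m) a := by
  unfold em
  exact mapDomain_single ..

theorem r0_em (f : PA A σ) : r0 (em f) = f := by
  induction f using AddMonoidAlgebra.induction_linear with
  | zero => simp
  | add f g hf hg => rw [map_add, map_add, hf, hg]
  | single m a => rw [em_single, r0_single, if_pos (inc_none m), inc_some]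

@[simp] theorem r0_cst (a : A) : r0 (cst (Option σ) a) = cst σ a := by
  rw [cst_apply, r0_single, if_pos (by simp), Finsupp.some_zero, cst_apply]

@[simp] theorem r0_var_none : r0 (var A (none : Option σ)) = 0 := by
  unfold var
  rw [r0_single, if_neg (by simp)]

theorem some_single_some (v : σ) (c : ℕ) :
    (Finsupp.single (some v) c : Option σ →₀ ℕ).some = Finsupp.single v c := by
  classical
  ext u
  rw [Finsupp.some_apply, Finsupp.single_apply, Finsupp.single_apply]
  simp

theorem r0_single_some (v : σ) (a : A) :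
    r0 (single (Finsupp.single (some v) 1) a : PA A (Option σ)) =
      single (Finsupp.single v 1) a := by
  rw [r0_single, if_pos (Finsupp.single_eq_of_ne (by simp)), some_single_some]

@[simp] theorem em_cst (a : A) : em (cst σ a) = cst (Option σ) a := by
  rw [cst_apply, em_single, cst_apply]
  congr 1

@[simp] theorem r0_lf [Fintype σ] (w : Option σ → A) : r0 (lf w) = lf (fun v => w (some v)) := by
  unfold lf
  rw [Fintype.sum_option, map_add, map_sum]
  simp only [r0_single_some]
  rw [r0_single, if_neg (by simp), zero_add]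

theorem coeff_em (f : PA A σ) (m : Option σ →₀ ℕ) :
    (em f).coeff m = if m none = 0 then f.coeff m.some else 0 := by
  classical
  induction f using AddMonoidAlgebra.induction_linear with
  | zero => simp
  | add f g hf hg =>
    rw [map_add, coeff_add, Finsupp.add_apply, hf, hg, coeff_add, Finsupp.add_apply]
    split_ifs <;> simp
  | single α a =>
    rw [em_single, coeff_single, Finsupp.single_apply]
    by_cases h : m = inc α
    · rw [if_pos h.symm, if_pos (eq_inc_iff.1 h).1, (eq_inc_iff.1 h).2, coeff_single,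
        Finsupp.single_eq_same]
    · rw [if_neg (Ne.symm h)]
      split_ifs with h1
      · rw [coeff_single, Finsupp.single_apply,
          if_neg fun h2 => h (eq_inc_iff.2 ⟨h1, h2.symm⟩)]
      · rfl

theorem Hg.em {d : ℕ} {f : PA A σ} (hf : Hg d f) : Hg d (em f) := by
  intro m hm
  rw [coeff_em] at hm
  split_ifs at hm with h2
  · rw [← hf _ hm, eq_inc_iff.2 ⟨h2, rfl⟩, degree_inc, inc_some]
  · exact absurd rfl hm

theorem Hg.r0 {d : ℕ} {f : PA A (Option σ)} (hf : Hg d f) : Hg d (r0 f) := by
  intro m hm
  rw [coeff_r0] at hm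
  rw [← degree_inc, hf _ hm]

theorem Cf.em {S : Subring A} {f : PA A σ} (hf : Cf S f) : Cf S (em f) := by
  intro m
  rw [coeff_em]
  split_ifs
  · exact hf _
  · exact S.zero_mem

theorem Cf.r0 {S : Subring A} {f : PA A (Option σ)} (hf : Cf S f) : Cf S (r0 f) := by
  intro m
  rw [coeff_r0]
  exact hf _

/-- the variable `s` -/
noncomputable abbrev sv (A σ : Type*) [Ring A] : PA A (Option σ) := var A none

/-- division by `s` -/
noncomputable def dv (f : PA A (Option σ)) : PA A (Option σ) := f.divOf (Finsupp.single none 1)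

theorem coeff_dv (f : PA A (Option σ)) (m : Option σ →₀ ℕ) :
    (dv f).coeff m = f.coeff (m + Finsupp.single none 1) := by
  unfold dv
  rw [coeff_divOf, add_comm]

theorem coeff_sv_mul (f : PA A (Option σ)) (m : Option σ →₀ ℕ) :
    (sv A σ * f).coeff (m + Finsupp.single none 1) = f.coeff m := by
  rw [(var_comm none f).eq, var, coeff_mul_single_add, mul_one]

theorem coeff_sv_mul_of (f : PA A (Option σ)) (m : Option σ →₀ ℕ) (h : m none = 0) :
    (sv A σ * f).coeff m = 0 := by
  rw [(var_comm none f).eq, var]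
  apply coeff_mul_single_of_forall_add_ne
  rintro d rfl
  simp at h

theorem sv_mul_dv {f : PA A (Option σ)} (h : r0 f = 0) : sv A σ * dv f = f := by
  ext m
  by_cases hm : m none = 0
  · rw [coeff_sv_mul_of _ _ hm, eq_inc_iff.2 ⟨hm, rfl⟩, ← coeff_r0, h]
    rfl
  · have : m = (m - Finsupp.single none 1) + Finsupp.single none 1 := by
      rw [tsub_add_cancel_of_le]
      rw [Finsupp.single_le_iff]
      omega
    rw [this, coeff_sv_mul, coeff_dv]

theorem sv_mul_inj {f g : PA A (Option σ)} (h : sv A σ * f = sv A σ * g) : f = g := by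
  ext m
  rw [← coeff_sv_mul f, h, coeff_sv_mul]

theorem Hg.dv {d : ℕ} {f : PA A (Option σ)} (hf : Hg (d + 1) f) : Hg d (dv f) := by
  intro m hm
  rw [coeff_dv] at hm
  have := hf _ hm
  rw [map_add, Finsupp.degree_single] at this
  omega

theorem Cf.dv {S : Subring A} {f : PA A (Option σ)} (hf : Cf S f) : Cf S (dv f) := by
  intro m
  rw [coeff_dv]
  exact hf _

end Opt

/-! ### First-order deformations -/

section Coc

variable {A : Type*} [Ring A] {F I σ : Type*} [CommRing F] [Fintype I]

/-- first-order deformations of the tuple relations -/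
structure IsCoc (a : I → ℕ) (th : I → I → F) (τ : F →+* A) (W ζ : I → PA A σ) : Prop where
  comm : ∀ i j, W i * ζ j - ζ j * W i = W j * ζ i - ζ i * W j
  rel : ∀ i, Dn (W i) (ζ i) (a i) = ∑ l, cst σ (τ (th i l)) * Dn (W l) (ζ l) (a i)

variable {a : I → ℕ} {th : I → I → F} {τ : F →+* A} {W ζ ζ' : I → PA A σ}

theorem IsCoc.sub (h : IsCoc a th τ W ζ) (h' : IsCoc a th τ W ζ') :
    IsCoc a th τ W (fun i => ζ i - ζ' i) where
  comm i j := by
    have h1 := h.comm i j
    have h2 := h'.comm i j
    have e : ∀ i j, W i * (ζ j - ζ' j) - (ζ j - ζ' j) * W i =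
        (W i * ζ j - ζ j * W i) - (W i * ζ' j - ζ' j * W i) := by
      intro i j; noncomm_ring
    rw [e, e, h1, h2]
  rel i := by
    simp only [H.Dn_sub, mul_sub, Finset.sum_sub_distrib, h.rel i, h'.rel i]

/-- the coboundary of `η` -/
theorem isCoc_bd {L : Type*} [CommRing L] [Algebra F L] {Q : I → MvPolynomial σ L} {τL : L →+* A}
    [Fintype σ] {w : I → σ → A} (hw : IsTuple a th Q τL w) (η : PA A σ)
    (hη : ∀ x, Commute (cst σ (τL x)) η) (hηQ : ∀ i, Commute (mp σ τL (Q i)) η)
    (hτ : ∀ x, τ x = τL (algebraMap F L x)) :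
    IsCoc a th τ (fun i => lf (w i)) (fun i => lf (w i) * η - η * lf (w i)) where
  comm i j := by
    have h := hw.comm i j
    have e : ∀ i j, lf (w i) * (lf (w j) * η - η * lf (w j)) - (lf (w j) * η - η * lf (w j)) * lf (w i)
        = (lf (w i) * lf (w j)) * η - lf (w i) * η * lf (w j) - lf (w j) * η * lf (w i) +
          η * (lf (w j) * lf (w i)) := by
      intro i j; noncomm_ring
    rw [e, e, h]
    abel
  rel i := by
    simp only [H.Dn_comm]
    have h1 : ∀ l, cst σ (τ (th i l)) * (lf (w l) ^ a i * η - η * lf (w l) ^ a i) =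
        (cst σ (τL (algebraMap F L (th i l))) * lf (w l) ^ a i) * η -
          η * (cst σ (τL (algebraMap F L (th i l))) * lf (w l) ^ a i) := by
      intro l
      rw [hτ, mul_sub, ← mul_assoc, ← mul_assoc, ← mul_assoc, (hη _).eq]
    simp only [h1, Finset.sum_sub_distrib, ← Finset.sum_mul, ← Finset.mul_sum]
    rw [hw.rel i, add_mul, mul_add, (hηQ i).eq]
    abel

end Coc

end Crest.Agent.R181.HT
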