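import Crest.Agent.R181.HT279a

/-!
R181 (helper279), H10: the property `E` passes from `(D', w')` to `(D, w)`, if derivations of
`U(D', w')` with values in `D`-bimodules `End E` are inner.
-/

set_option autoImplicit false
set_option linter.unusedSectionVars false

namespace Crest.Agent.R181.HT

open AddMonoidAlgebra
open Crest.Agent.R181.UR
open Crest.Agent.R181.H (Dn Dn_zero Dn_succ)

theorem map_Dn {A B : Type*} [Ring A] [Ring B] (f : A →+* B) (w y : A) (a : ℕ) :
    f (Dn w y a) = Dn (f w) (f y) a := by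
  induction a with
  | zero => simp
  | succ a ih => rw [Dn_succ, Dn_succ, map_add, map_mul, map_mul, map_pow, ih]

section Dual

variable {E : Type*} [AddCommGroup E]

/-- diagonal operators on `E × E` -/
def dg : AddMonoid.End E →+* AddMonoid.End (E × E) where
  toFun x := AddMonoidHom.prodMap x x
  map_one' := rfl
  map_mul' x y := rfl
  map_zero' := rfl
  map_add' x y := rfl

theorem dg_apply (x : AddMonoid.End E) (p : E × E) : dg x p = (x p.1, x p.2) := rfl

variable (E) in
/-- the nilpotent operator -/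
def e2 : AddMonoid.End (E × E) := AddMonoidHom.prod (AddMonoidHom.snd E E) 0

theorem e2_apply (p : E × E) : e2 E p = (p.2, 0) := rfl

theorem e2_mul_e2 : e2 E * e2 E = 0 := rfl

theorem e2_comm (x : AddMonoid.End E) : Commute (e2 E) (dg x) := by
  refine AddMonoidHom.ext fun p => ?_
  show (x p.2, (0 : E)) = (x p.2, x 0)
  rw [map_zero]

theorem dual_mul (f g f' g' : AddMonoid.End E) :
    (dg f + e2 E * dg g) * (dg f' + e2 E * dg g') = dg (f * f') + e2 E * dg (f * g' + g * f') := by
  have h1 : dg f * (e2 E * dg g') = e2 E * (dg f * dg g') := by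
    rw [← mul_assoc, ← (e2_comm f).eq, mul_assoc]
  have h2 : e2 E * dg g * (e2 E * dg g') = 0 := by
    rw [mul_assoc, ← mul_assoc (dg g), ← (e2_comm g).eq, mul_assoc, ← mul_assoc, e2_mul_e2,
      zero_mul]
  rw [add_mul, mul_add, mul_add, h1, h2, add_zero, map_add, map_mul, map_mul, map_mul, mul_add,
    mul_assoc]
  abel

variable {σ : Type*}

theorem eps_comm (f : PA (AddMonoid.End E) σ) : Commute (cst σ (e2 E)) (mp σ dg f) := by
  apply cst_comm
  intro m
  rw [mp_coeff]
  exact e2_comm _

theorem eps_eps : cst σ (e2 E) * cst σ (e2 E) = 0 := by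
  rw [← map_mul, e2_mul_e2, map_zero]

theorem eps_mul (f g f' g' : PA (AddMonoid.End E) σ) :
    (mp σ dg f + cst σ (e2 E) * mp σ dg g) * (mp σ dg f' + cst σ (e2 E) * mp σ dg g') =
      mp σ dg (f * f') + cst σ (e2 E) * mp σ dg (f * g' + g * f') := by
  have h1 : mp σ dg f * (cst σ (e2 E) * mp σ dg g') =
      cst σ (e2 E) * (mp σ dg f * mp σ dg g') := by
    rw [← mul_assoc, ← (eps_comm f).eq, mul_assoc]
  have h2 : cst σ (e2 E) * mp σ dg g * (cst σ (e2 E) * mp σ dg g') = 0 := by
    rw [mul_assoc, ← mul_assoc (mp σ dg g), ← (eps_comm g).eq, mul_assoc, ← mul_assoc, eps_eps,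
      zero_mul]
  rw [add_mul, mul_add, mul_add, h1, h2, add_zero, map_add, map_mul, map_mul, map_mul, mul_add,
    mul_assoc]
  abel

theorem eps_pow (f g : PA (AddMonoid.End E) σ) (a : ℕ) :
    (mp σ dg f + cst σ (e2 E) * mp σ dg g) ^ a =
      mp σ dg (f ^ a) + cst σ (e2 E) * mp σ dg (Dn f g a) := by
  induction a with
  | zero => simp
  | succ a ih =>
    rw [pow_succ', ih, eps_mul, ← pow_succ', Dn_succ]

/-- a first-order deformation of a tuple over `End E` is a tuple over `End (E × E)` -/
theorem isTuple_dual {F L I : Type*} [CommRing F] [CommRing L] [Algebra F L] [Fintype I]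
    [Fintype σ] {a : I → ℕ} {th : I → I → F} {Q : I → MvPolynomial σ L}
    {τ : L →+* AddMonoid.End E} {w : I → σ → AddMonoid.End E} (hW : IsTuple a th Q τ w)
    {ζ : I → PA (AddMonoid.End E) σ}
    (hcoc : IsCoc a th (τ.comp (algebraMap F L)) (fun i => lf (w i)) ζ)
    (w2 : I → σ → AddMonoid.End (E × E))
    (hlf : ∀ i, lf (w2 i) = mp σ dg (lf (w i)) + cst σ (e2 E) * mp σ dg (ζ i)) :
    IsTuple a th Q (dg.comp τ) w2 := by
  constructor
  · intro i j
    rw [hlf, hlf, eps_mul, eps_mul]
    have h1 := hW.comm i j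
    have h2 := hcoc.comm i j
    rw [sub_eq_sub_iff_add_eq_add] at h2
    rw [h1, h2]
  · intro i
    rw [hlf i, eps_pow]
    have h1 : mp σ dg (lf (w i) ^ a i) = mp σ (dg.comp τ) (Q i) +
        ∑ l, cst σ (dg (τ (algebraMap F L (th i l)))) * mp σ dg (lf (w l) ^ a i) := by
      rw [hW.rel i, map_add, mp_comp, map_sum]
      congr 1
      refine Finset.sum_congr rfl fun l _ => ?_
      rw [map_mul, mp_cst]
    have h2 : mp σ dg (Dn (lf (w i)) (ζ i) (a i)) =
        ∑ l, cst σ (dg (τ (algebraMap F L (th i l)))) * mp σ dg (Dn (lf (w l)) (ζ l) (a i)) := by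
      rw [hcoc.rel i, map_sum]
      refine Finset.sum_congr rfl fun l _ => ?_
      rw [map_mul, mp_cst]
      rfl
    rw [h1, h2, add_assoc, Finset.mul_sum, ← Finset.sum_add_distrib]
    congr 1
    refine Finset.sum_congr rfl fun l _ => ?_
    rw [hlf l, eps_pow, mul_add, ← mul_assoc, ← mul_assoc]
    congr 2
    rw [← map_mul, ← map_mul]
    congr 1
    exact (e2_comm _).eq

end Dual

section Der

variable {F D' I σ : Type} [CommRing F] [Ring D'] [Algebra F D'] [Fintype I] [Fintype σ]
  {a : I → ℕ} {th : I → I → F} {Q : I → MvPolynomial (Option σ) F} {w' : I → σ → D'}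
  {E : Type} [AddCommGroup E]

/-- the derivation of `U` defined by a deformation `s * z` of the universal tuple -/
theorem exists_der (χ : U a th Q w' →+* AddMonoid.End E) (z : I → AddMonoid.End E)
    (hz : ∀ i c, Commute (χ (iL a th Q w' c)) (z i))
    (hcoc : IsCoc a th (χ.comp (iL a th Q w')) (fun i => lf (fun v => χ (wU a th Q w' i v)))
      (fun i => sv (AddMonoid.End E) σ * cst (Option σ) (z i))) :
    ∃ δ : U a th Q w' →+ AddMonoid.End E, (∀ s t, δ (s * t) = χ s * δ t + δ s * χ t) ∧
      (∀ d, δ (iD a th Q w' d) = 0) ∧ ∀ i, δ (eta a th Q w' i) = z i := by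
  classical
  have hW := (isTuple_wU (a := a) (th := th) (Q := Q) (w := w')).map χ
  have hlf : ∀ i, lf (ext' (fun i v => (dg.comp χ) (iD a th Q w' (w' i v)))
      (fun i => dg (χ (eta a th Q w' i)) + e2 E * dg (z i)) i) =
      mp (Option σ) dg (lf (fun v => χ (wU a th Q w' i v))) +
        cst (Option σ) (e2 E) * mp (Option σ) dg (sv (AddMonoid.End E) σ * cst (Option σ) (z i)) := by
    intro i
    have h1 : ext' (fun i v => (dg.comp χ) (iD a th Q w' (w' i v)))
        (fun i => dg (χ (eta a th Q w' i)) + e2 E * dg (z i)) i =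
        (fun v => dg (χ (wU a th Q w' i v))) +
          (fun v => if v = none then e2 E * dg (z i) else 0) := by
      funext v
      cases v with
      | none => simp [wU]
      | some v => simp [wU]
    rw [h1, lf_add, mp_lf]
    congr 1
    unfold lf
    rw [Fintype.sum_option]
    simp only [if_true, reduceCtorEq, if_false, single_zero, Finset.sum_const_zero, add_zero]
    rw [map_mul, mp_var, mp_cst, (var_comm _ _).eq, ← mul_assoc, ← map_mul, cst_apply, var,
      single_mul_single, zero_add, mul_one]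
  have ht : IsTuple a th Q (dg.comp (χ.comp (iL a th Q w')))
      (ext' (fun i v => (dg.comp (χ.comp (iD a th Q w'))) (w' i v))
      (fun i => dg (χ (eta a th Q w' i)) + e2 E * dg (z i))) :=
    isTuple_dual hW hcoc _ hlf
  obtain ⟨f, hf1, hf2, hf3⟩ := exists_lift (dg.comp (χ.comp (iD a th Q w')))
    (dg.comp (χ.comp (iL a th Q w'))) (fun i => dg (χ (eta a th Q w' i)) + e2 E * dg (z i))
    (fun c => by
      show dg (χ _) = dg (χ _)
      rw [iD_base])
    (fun x d => ((iL_comm a th Q w' x (iD a th Q w' d)).map χ).map dg)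
    (fun x i => by
      refine Commute.add_right (((iL_comm a th Q w' x (eta a th Q w' i)).map χ).map dg) ?_
      exact Commute.mul_right (e2_comm _).symm ((hz i x).map dg))
    ht
  have hfd : ∀ t : U a th Q w', ∃ y : AddMonoid.End E, f t = dg (χ t) + e2 E * dg y := by
    intro t
    refine generation a th Q w' (fun t => ∃ y : AddMonoid.End E, f t = dg (χ t) + e2 E * dg y)
      ?_ ?_ ?_ ?_ ?_ t
    · intro d
      exact ⟨0, by rw [hf1, map_zero, mul_zero, add_zero]; rfl⟩
    · intro d
      exact ⟨0, by rw [hf2, map_zero, mul_zero, add_zero]; rfl⟩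
    · intro i
      exact ⟨z i, hf3 i⟩
    · rintro x y ⟨p, hp⟩ ⟨q, hq⟩
      refine ⟨p + q, ?_⟩
      rw [map_add, hp, hq, map_add, map_add, map_add, mul_add]
      abel
    · rintro x y ⟨p, hp⟩ ⟨q, hq⟩
      exact ⟨χ x * q + p * χ y, by rw [map_mul f, hp, hq, dual_mul, map_mul χ]⟩
  let δ : U a th Q w' →+ AddMonoid.End E :=
    { toFun := fun t => (AddMonoidHom.fst E E).comp ((f t).comp (AddMonoidHom.inr E E))
      map_zero' := by rw [map_zero]; rfl
      map_add' := fun s t => by rw [map_add]; rfl }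
  have hδ : ∀ t y, f t = dg (χ t) + e2 E * dg y → δ t = y := by
    intro t y h
    refine AddMonoidHom.ext fun x => ?_
    show ((f t) (0, x)).1 = y x
    rw [h]
    show (χ t 0 + y x) = y x
    rw [map_zero, zero_add]
  refine ⟨δ, ?_, ?_, ?_⟩
  · intro s t
    obtain ⟨p, hp⟩ := hfd s
    obtain ⟨q, hq⟩ := hfd t
    rw [hδ s p hp, hδ t q hq]
    apply hδ
    rw [map_mul f, hp, hq, dual_mul, map_mul χ]
  · intro d
    apply hδ
    rw [hf1, map_zero, mul_zero, add_zero]; rfl
  · intro i
    exact hδ _ _ (hf3 i)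

end Der

end Crest.Agent.R181.HT
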