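import Crest.Agent.R181.RE459a

/-!
R181, block B9 (helper459): (WFG).  For a stably finite ring `E` with a tuple `w` for `q`, the ring
`K = U(E, w; F, q)` (`q` does not contain the new variable) is stably finite.
-/

set_option autoImplicit false
set_option linter.unusedSectionVars false

namespace Crest.Agent.R181.WF

open AddMonoidAlgebra Crest.Agent.R181.UR
open scoped Polynomial

/-- an idempotent matrix of polynomials without constant coefficients vanishes -/
theorem idem_zero {R : Type*} [Ring R] {n : Type*} [Fintype n] (P : Matrix n n R[X])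
    (hP : P * P = P) (h0 : ∀ i j, (P i j).coeff 0 = 0) : P = 0 := by
  have key : ∀ N : ℕ, ∀ i j, ∀ k < N, (P i j).coeff k = 0 := by
    intro N
    induction N with
    | zero => intro i j k hk; omega
    | succ N ih =>
      intro i j k hk
      rw [← hP, Matrix.mul_apply, Polynomial.finsetSum_coeff]
      refine Finset.sum_eq_zero fun l _ => ?_
      rw [Polynomial.coeff_mul]
      refine Finset.sum_eq_zero fun x hx => ?_
      rw [Finset.HasAntidiagonal.mem_antidiagonal] at hx
      rcases Nat.eq_zero_or_pos x.2 with h | h
      · rw [h, h0, mul_zero]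
      · rw [ih i l x.1 (by omega), zero_mul]
  ext i j k
  rw [key (k + 1) i j k (Nat.lt_succ_self k)]
  simp

section

variable {F E I σ : Type} [CommRing F] [Ring E] [Algebra F E] [Fintype I] [Fintype σ]
  (a : I → ℕ) (th : I → I → F) (q : I → MvPolynomial σ F) (w : I → σ → E)

/-- the data without the new variable -/
noncomputable def qn (i : I) : MvPolynomial (Option σ) F := MvPolynomial.rename some (q i)

/-- the ring `K` -/
abbrev KE : Type := U a th (qn q) w

variable [DecidableEq σ]

theorem isTuple_ext0 {A : Type*} [Ring A] (τ : F →+* A) (hτ : ∀ x y, Commute (τ x) y)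
    (u : I → σ → A) (h : IsTuple a th q τ u) :
    IsTuple a th (qn q) τ (ext' u (fun _ => 0)) := by
  have h1 := h.subst (RingHom.id A) (RingHom.id F) τ τ hτ
    (fun v v' => if some v = v' then 1 else 0) (by ext x; rfl) (fun c => rfl)
  have hQ : (fun i => subL (RingHom.id F) (fun (v : σ) (v' : Option σ) =>
      if some v = v' then (1 : F) else 0) (q i)) = qn q := by
    funext i
    have h3 : subL (RingHom.id F) (fun (v : σ) (v' : Option σ) =>
        if some v = v' then (1 : F) else 0) = (MvPolynomial.rename (some : σ → Option σ) :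
          MvPolynomial σ F →ₐ[F] MvPolynomial (Option σ) F).toRingHom := by
      apply MvPolynomial.ringHom_ext
      · intro c
        rw [subL_C]
        show _ = MvPolynomial.rename some (MvPolynomial.C c)
        rw [MvPolynomial.rename_C]
        rfl
      · intro v
        rw [subL_X]
        show _ = MvPolynomial.rename some (MvPolynomial.X v)
        rw [MvPolynomial.rename_X]
        simp [apply_ite]
    rw [h3]
    rfl
  rw [hQ] at h1
  have e : (fun i (v' : Option σ) => ∑ v, (RingHom.id A) (u i v) *
      τ (if some v = v' then 1 else 0)) = ext' u (fun _ => 0) := by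
    funext i v'
    rcases v' with _ | v'
    · simp
    · simp [apply_ite]
  rw [e] at h1
  exact h1

theorem exists_aug (h : IsTuple a th q (algebraMap F E) w) :
    ∃ ε : KE a th q w →+* E, (∀ d, ε (iD a th (qn q) w d) = d) ∧
      (∀ x, ε (iL a th (qn q) w x) = algebraMap F E x) ∧
      ∀ i, ε (eta a th (qn q) w i) = 0 :=
  exists_lift (a := a) (th := th) (Q := qn q) (w := w) (RingHom.id E) (algebraMap F E)
    (fun _ => 0) (fun c => rfl) (fun x d => Algebra.commutes x d) (fun _ _ => Commute.zero_right _)
    (isTuple_ext0 a th q (algebraMap F E) (fun x d => Algebra.commutes x d) w h)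

/-- the data is homogeneous for the trivial grading of `F` -/
theorem hmg_qn : Hmg (F := F) (qn q) (Polynomial.C : F →+* F[X]) where
  toGr := gr_C
  base _ := rfl
  Q_eq i := by
    have h3 : (MvPolynomial.map (Polynomial.C : F →+* F[X])).comp
        (MvPolynomial.rename (some : σ → Option σ) :
          MvPolynomial σ F →ₐ[F] MvPolynomial (Option σ) F).toRingHom =
        (subL (Polynomial.C : F →+* F[X]) (Xz Polynomial.X)).comp
        (MvPolynomial.rename (some : σ → Option σ) :
          MvPolynomial σ F →ₐ[F] MvPolynomial (Option σ) F).toRingHom := by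
      apply MvPolynomial.ringHom_ext
      · intro c
        rw [RingHom.comp_apply, RingHom.comp_apply]
        show MvPolynomial.map _ (MvPolynomial.rename some (MvPolynomial.C c)) =
          subL _ _ (MvPolynomial.rename some (MvPolynomial.C c))
        rw [MvPolynomial.rename_C, MvPolynomial.map_C, subL_C]
      · intro v
        rw [RingHom.comp_apply, RingHom.comp_apply]
        show MvPolynomial.map _ (MvPolynomial.rename some (MvPolynomial.X v)) =
          subL _ _ (MvPolynomial.rename some (MvPolynomial.X v))
        rw [MvPolynomial.rename_X, MvPolynomial.map_X, subL_X, Fintype.sum_option]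
        simp [Xz, apply_ite]
    exact RingHom.congr_fun h3 (q i)

/-- the constant coefficient of the coaction -/
theorem coact_coeff_zero (ε : KE a th q w →+* E) (hD : ∀ d, ε (iD a th (qn q) w d) = d)
    (hL : ∀ x, ε (iL a th (qn q) w x) = algebraMap F E x) (hI : ∀ i, ε (eta a th (qn q) w i) = 0)
    (z : KE a th q w) : (coact a th w (hmg_qn q) z).coeff 0 = iD a th (qn q) w (ε z) := by
  have h : Polynomial.constantCoeff.comp (coact a th w (hmg_qn q)) =
      (iD a th (qn q) w).comp ε := by
    apply hom_ext' a th (qn q) w
    · intro d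
      rw [RingHom.comp_apply, RingHom.comp_apply, coact_iD, hD]
      simp
    · intro x
      rw [RingHom.comp_apply, RingHom.comp_apply, coact_iL, hL, iD_base]
      simp
    · intro i
      rw [RingHom.comp_apply, RingHom.comp_apply, coact_eta, hI, map_zero]
      simp
  exact RingHom.congr_fun h z

theorem stablyFinite_KE_of [hE : IsStablyFiniteRing E] (h : IsTuple a th q (algebraMap F E) w) :
    IsStablyFiniteRing (KE a th q w) := by
  obtain ⟨ε, hD, hL, hI⟩ := exists_aug a th q w h
  rw [RE.isStablyFiniteRing_iff']
  intro m X Y hXY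
  let Δ := coact a th w (hmg_qn q)
  have hX : (X.map ε) * (Y.map ε) = 1 := by
    rw [← Matrix.map_mul, hXY, Matrix.map_one _ (map_zero ε) (map_one ε)]
  have hY : (Y.map ε) * (X.map ε) = 1 := RE.isStablyFiniteRing_iff'.1 hE m _ _ hX
  let f : Matrix (Fin m) (Fin m) (KE a th q w) := 1 - Y * X
  have hf : f * f = f := by
    show (1 - Y * X) * (1 - Y * X) = 1 - Y * X
    have : Y * X * (Y * X) = Y * X := by
      rw [mul_assoc, ← mul_assoc X Y X, hXY, one_mul]
    rw [mul_sub, sub_mul, sub_mul, this]
    simp
  have hfε : f.map ε = 0 := by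
    show (1 - Y * X).map ε = 0
    rw [Matrix.map_sub _ (map_sub ε), Matrix.map_one _ (map_zero ε) (map_one ε), Matrix.map_mul,
      hY, sub_self]
  have hP : f.map Δ = 0 := by
    apply idem_zero
    · rw [← Matrix.map_mul, hf]
    · intro i j
      show (Δ (f i j)).coeff 0 = 0
      rw [coact_coeff_zero a th q w ε hD hL hI]
      have : ε (f i j) = 0 := congrFun (congrFun hfε i) j
      rw [this, map_zero]
  have hf0 : f = 0 := by
    ext i j
    have h1 : Δ (f i j) = 0 := congrFun (congrFun hP i) j
    have h2 := (gr_coact a th w (hmg_qn q)).counit (f i j)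
    have h3 : coact a th w (hmg_qn q) (f i j) = 0 := h1
    rw [h3] at h2
    rw [← h2]
    simp
  exact (sub_eq_zero.1 hf0).symm

end

section Skew

variable {F E I σ : Type} [CommRing F] [DivisionRing E] [Algebra F E] [Fintype I] [Fintype σ]
  [DecidableEq σ]
  (a : I → ℕ) (th : I → I → F) (q : I → MvPolynomial σ F) (w : I → σ → E)

/-- (WFG) -/
theorem stablyFinite_KE (h : IsTuple a th q (algebraMap F E) w) :
    Nontrivial (U a th (fun i => MvPolynomial.rename some (q i)) w) ∧
      IsStablyFiniteRing (U a th (fun i => MvPolynomial.rename some (q i)) w) := by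
  obtain ⟨ε, -⟩ := exists_aug a th q w h
  exact ⟨ε.domain_nontrivial, stablyFinite_KE_of a th q w h⟩

end Skew

end Crest.Agent.R181.WF
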