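import Crest.Agent.R181.LC598d
import Crest.Agent.R181.WF459a
import Crest.Agent.R181.HT279a

/-!
R181 (helper776), block B9: the states of the matrix models, the values of the forms.
-/

set_option autoImplicit false
set_option linter.unusedSectionVars false

namespace Crest.Agent.R181.IN

open UR PO
open scoped Polynomial

noncomputable section

section Steps

variable {F I σ : Type}

/-- the vectors of a term -/
def kk (n : ℕ) (t : F × (ℕ → Option σ)) (p : ℕ) : Option σ ⊕ F :=
  if p < n - 1 then Sum.inl (t.2 p) else Sum.inr t.1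

/-- the list of the steps -/
def steps (a : I → ℕ) (ml : I → List (F × (ℕ → Option σ))) (pl : I → List I) (ops : List I) :
    List (Stp I (Option σ ⊕ F)) :=
  allSteps (fun i => (ml i).map (kk (a i))) pl ops

/-- lists of operators: all, decreasing -/
theorem exists_ops [LinearOrder I] [Fintype I] : ∃ (ops : List I) (pl : I → List I),
    ops.Pairwise (fun x y => y < x) ∧ (∀ i, i ∈ ops) ∧ (∀ i, (pl i).Nodup) ∧
      ∀ i l, l ∈ pl i ↔ i < l := by
  refine ⟨(Finset.univ.sort (fun x y : I => x ≤ y)).reverse,
    fun i => (Finset.univ.filter (fun l => i < l)).toList, ?_, ?_, ?_, ?_⟩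
  · rw [List.pairwise_reverse]
    exact (Finset.univ : Finset I).sortedLT_sort.pairwise
  · intro i
    rw [List.mem_reverse, Finset.mem_sort]
    exact Finset.mem_univ i
  · intro i
    exact Finset.nodup_toList _
  · intro i l
    rw [Finset.mem_toList, Finset.mem_filter]
    exact ⟨fun h => h.2, fun h => ⟨Finset.mem_univ l, h⟩⟩

end Steps

section Vec

variable {F σ R : Type} [Ring R] [Field F] [DecidableEq σ]

/-- the auxiliary vectors: the variables, scaled by `y` in the new variable -/
def vecY (lam1 : F →+* R) (y : R) : Option σ ⊕ F → Option σ → R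
  | .inl (some v), u => if u = some v then 1 else 0
  | .inl none, u => if u = none then y else 0
  | .inr c, u => if u = none then lam1 c * y else 0

/-- the vectors at `y = 0` -/
def v1 : Option σ ⊕ F → Option σ → F
  | .inl (some v), u => if u = some v then 1 else 0
  | .inl none, _ => 0
  | .inr _, _ => 0

theorem vecY_zero (lam1 : F →+* R) (lam : F →+* R) (k : Option σ ⊕ F) (u : Option σ) :
    vecY lam1 0 k u = lam (v1 k u) := by
  rcases k with (_ | v) | c
  · simp [vecY, v1]
  · simp only [vecY, v1]
    split_ifs <;> simp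
  · simp [vecY, v1]

theorem lf_single [Fintype σ] (r : R) (u0 : σ) : lf (fun u => if u = u0 then r else 0) =
    cst σ r * var R u0 := by
  rw [lf_eq]
  rw [Finset.sum_eq_single u0]
  · rw [if_pos rfl]
  · intro u _ hu
    rw [if_neg hu, map_zero, zero_mul]
  · intro h
    exact absurd (Finset.mem_univ u0) h

end Vec

section Forms

variable {F σ R : Type} [Ring R] [Field F] [DecidableEq σ] [Fintype σ]

/-- `F[X] → R` -/
def LX (lam1 : F →+* R) (y : R) (hy : ∀ x, Commute y x) : F[X] →+* R :=
  Polynomial.eval₂RingHom' lam1 y (fun c => (hy (lam1 c)).symm)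

@[simp] theorem LX_C (lam1 : F →+* R) (y : R) (hy : ∀ x, Commute y x) (c : F) :
    LX lam1 y hy (Polynomial.C c) = lam1 c := by
  simp [LX]

@[simp] theorem LX_X (lam1 : F →+* R) (y : R) (hy : ∀ x, Commute y x) :
    LX lam1 y hy Polynomial.X = y := by
  simp [LX]

/-- evaluation of a form -/
def ev (lam1 : F →+* R) (y : R) (hy : ∀ x, Commute y x) :
    MvPolynomial (Option σ) F →+* PA R (Option σ) :=
  (mp (Option σ) (LX lam1 y hy)).comp (subL (Polynomial.C : F →+* F[X]) (Xz Polynomial.X))

theorem ev_C (lam1 : F →+* R) (y : R) (hy : ∀ x, Commute y x) (c : F) :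
    ev (σ := σ) lam1 y hy (MvPolynomial.C c) = cst (Option σ) (lam1 c) := by
  rw [ev, RingHom.comp_apply, subL_C, mp_C, LX_C]

theorem ev_X_some (lam1 : F →+* R) (y : R) (hy : ∀ x, Commute y x) (v : σ) :
    ev lam1 y hy (MvPolynomial.X (some v)) = var R (some v) := by
  rw [ev, RingHom.comp_apply, subL_X, Fintype.sum_option, map_add, map_sum]
  simp only [map_mul, mp_C, mp_X, Xz]
  simp [apply_ite, ite_mul]

theorem ev_X_none (lam1 : F →+* R) (y : R) (hy : ∀ x, Commute y x) :
    ev (σ := σ) lam1 y hy (MvPolynomial.X none) = cst (Option σ) y * var R none := by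
  rw [ev, RingHom.comp_apply, subL_X, Fintype.sum_option, map_add, map_sum]
  simp only [map_mul, mp_C, mp_X, Xz]
  simp

theorem ev_QX (lam1 : F →+* R) (y : R) (hy : ∀ x, Commute y x) {I : Type}
    (Q : I → MvPolynomial (Option σ) F) (i : I) :
    mp (Option σ) (LX lam1 y hy) (RE.QX Q i) = ev lam1 y hy (Q i) := rfl

/-- `rename some` on polynomials over a ring -/
theorem mp_rename (lam : F →+* R) (q : MvPolynomial σ F) :
    mp (Option σ) lam (MvPolynomial.rename some q) = HT.em (mp σ lam q) := by
  have h : (mp (Option σ) lam).comp (MvPolynomial.rename (some : σ → Option σ) :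
      MvPolynomial σ F →ₐ[F] MvPolynomial (Option σ) F).toRingHom = (HT.em).comp (mp σ lam) := by
    apply MvPolynomial.ringHom_ext
    · intro c
      change mp (Option σ) lam (MvPolynomial.rename some (MvPolynomial.C c)) =
        HT.em (mp σ lam (MvPolynomial.C c))
      rw [MvPolynomial.rename_C, mp_C, mp_C, HT.em_cst]
    · intro v
      change mp (Option σ) lam (MvPolynomial.rename some (MvPolynomial.X v)) =
        HT.em (mp σ lam (MvPolynomial.X v))
      rw [MvPolynomial.rename_X, mp_X, mp_X, var, var, HT.em_single]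
      congr 1
      unfold HT.inc
      rw [Finsupp.mapDomain_single]
  exact RingHom.congr_fun h q

theorem ev_rename (lam1 : F →+* R) (y : R) (hy : ∀ x, Commute y x) (q : MvPolynomial σ F) :
    ev lam1 y hy (MvPolynomial.rename some q) = mp (Option σ) lam1 (MvPolynomial.rename some q) := by
  have h : (ev lam1 y hy).comp (MvPolynomial.rename (some : σ → Option σ) :
      MvPolynomial σ F →ₐ[F] MvPolynomial (Option σ) F).toRingHom = (mp (Option σ) lam1).comp
      (MvPolynomial.rename (some : σ → Option σ) :
      MvPolynomial σ F →ₐ[F] MvPolynomial (Option σ) F).toRingHom := by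
    apply MvPolynomial.ringHom_ext
    · intro c
      change ev lam1 y hy (MvPolynomial.rename some (MvPolynomial.C c)) =
        mp (Option σ) lam1 (MvPolynomial.rename some (MvPolynomial.C c))
      rw [MvPolynomial.rename_C, mp_C, ev_C]
    · intro v
      change ev lam1 y hy (MvPolynomial.rename some (MvPolynomial.X v)) =
        mp (Option σ) lam1 (MvPolynomial.rename some (MvPolynomial.X v))
      rw [MvPolynomial.rename_X, mp_X, ev_X_some]
  exact RingHom.congr_fun h q

theorem prod_range_list {M : Type*} [CommMonoid M] (f : ℕ → M) (n : ℕ) :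
    ∏ p ∈ Finset.range n, f p = ((List.range n).map f).prod := by
  induction n with
  | zero => simp
  | succ n ih => rw [Finset.prod_range_succ, List.prod_range_succ, ih]

/-- the value of a term -/
theorem ev_term (lam1 : F →+* R) (y : R) (hy : ∀ x, Commute y x) {n : ℕ} (hn : 1 ≤ n)
    (t : F × (ℕ → Option σ)) :
    ev lam1 y hy (MvPolynomial.C t.1 * MvPolynomial.X none *
      ∏ p ∈ Finset.range (n - 1), MvPolynomial.X (t.2 p)) =
    ((List.range n).map (fun p => lf (vecY lam1 y (kk n t p)))).prod := by
  obtain ⟨m, rfl⟩ : ∃ m, n = m + 1 := ⟨n - 1, by omega⟩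
  rw [add_tsub_cancel_right, mul_comm, prod_range_list, map_mul, map_list_prod, List.map_map,
    List.prod_range_succ]
  congr 1
  · congr 1
    refine List.map_congr_left fun p hp => ?_
    rw [List.mem_range] at hp
    have h1 : kk (m + 1) t p = Sum.inl (t.2 p) := by
      rw [kk, if_pos (by omega)]
    rw [h1, Function.comp_apply]
    rcases t.2 p with _ | v
    · rw [ev_X_none]
      exact (lf_single y none).symm
    · rw [ev_X_some]
      have := lf_single (1 : R) (some v)
      rw [map_one, one_mul] at this
      exact this.symm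
  · have h1 : kk (m + 1) t m = Sum.inr t.1 := by
      rw [kk, if_neg (by omega)]
    rw [h1, map_mul, ev_C, ev_X_none, ← mul_assoc, ← map_mul]
    exact (lf_single (lam1 t.1 * y) none).symm

/-- the value of a form -/
theorem ev_form (lam1 : F →+* R) (y : R) (hy : ∀ x, Commute y x) {n : ℕ} (hn : 1 ≤ n)
    (Q : MvPolynomial (Option σ) F) (l : List (F × (ℕ → Option σ)))
    (h : Q = MvPolynomial.rename some (BM.res0 Q) + BM.lsum n l) :
    ev lam1 y hy Q = mp (Option σ) lam1 (MvPolynomial.rename some (BM.res0 Q)) +
      ((l.map (kk n)).map (fun k => ((List.range n).map (fun p => lf (vecY lam1 y (k p)))).prod)).sum := by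
  conv_lhs => rw [h]
  rw [map_add, ev_rename, BM.lsum, map_list_sum, List.map_map, List.map_map]
  congr 2
  refine List.map_congr_left fun t _ => ?_
  exact ev_term lam1 y hy hn t

end Forms

section Tup

variable {F I σ R : Type} [Ring R] [Field F] [DecidableEq σ] [Fintype σ]

/-- the state over a ring with a scale `y` -/
def stY (ω : I → F) (th : I → I → F) (lam lam1 : F →+* R) (tl : I → R) (y : R)
    (W0 : I → Option σ → R) : St I (Option σ ⊕ F) (Option σ) R where
  om i := lam (ω i)
  th i l := lam (th i l)
  tl := tl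
  vec := vecY lam1 y
  W0 := W0
  W := W0

end Tup

section Tw

variable {F I : Type} [Field F] [Fintype I] {a : I → ℕ} {th : I → I → F} {ω : I → F}
  {T : TwD a th ω} {R : Type} [Ring R] {lam lam1 : F →+* R} {tl : I → R}

theorem _root_.Crest.Agent.R181.PO.HasTw.th_eq (h : HasTw T lam tl lam1) (i l : I) :
    lam1 (th i l) = lam (th i l) * tl l ^ a i := by
  obtain ⟨c, h1, h2, h3⟩ := h
  obtain ⟨x, hx, hΔ⟩ := T.hth i l
  rw [← hx, h3, hΔ, map_mul, map_pow, MvPolynomial.map_C, MvPolynomial.map_X, map_mul, map_pow,
    h1, h2]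

theorem _root_.Crest.Agent.R181.PO.HasTw.fixed_eq (h : HasTw T lam tl lam1) {x : F}
    (hx : x ∈ T.fixed) : lam1 x = lam x := by
  obtain ⟨c, h1, h2, h3⟩ := h
  obtain ⟨y, hy, rfl⟩ := hx
  have hy' : T.Δ y = MvPolynomial.C y := hy
  rw [h3, hy', MvPolynomial.map_C, h1]

theorem _root_.Crest.Agent.R181.PO.HasTw.mp_eq {σ : Type} (h : HasTw T lam tl lam1)
    (q : MvPolynomial σ F) (hq : ∀ m, q.coeff m ∈ T.fixed) : mp σ lam1 q = mp σ lam q := by
  ext m
  rw [mp_coeff, mp_coeff]
  exact h.fixed_eq (hq m)

end Tw

end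

end Crest.Agent.R181.IN
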