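import Crest.Agent.R181.VAL279c
import Crest.Agent.R181.IN776a

/-!
R181 (helper776), block B9: the tuples of the matrix models, from the value theorem.
-/

set_option autoImplicit false
set_option linter.unusedSectionVars false

namespace Crest.Agent.R181.IN

open UR PO
open scoped Polynomial

noncomputable section

section Tup

variable {F I σ R : Type} [Ring R] [Field F] [DecidableEq σ] [Fintype σ]

variable [Fintype I] {a : I → ℕ} {th : I → I → F} {ω : I → F}

theorem com_stY {lam lam1 : F →+* R} {tl : I → R} {y : R} {W0 : I → Option σ → R}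
    (hlam : ∀ c x, Commute (lam c) x) (hlam1 : ∀ c x, Commute (lam1 c) x)
    (htl : ∀ l x, Commute (tl l) x) (hy : ∀ x, Commute y x)
    (hW : ∀ i j, lf (W0 i) * lf (W0 j) = lf (W0 j) * lf (W0 i)) :
    Com (stY ω th lam lam1 tl y W0) where
  om i x := hlam _ x
  th i l x := hlam _ x
  tl := htl
  vec k u x := by
    rcases k with (_ | v) | c
    · change Commute (if u = none then y else 0) x
      split_ifs
      · exact hy x
      · exact Commute.zero_left x
    · change Commute (if u = some v then 1 else 0) x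
      split_ifs
      · exact Commute.one_left x
      · exact Commute.zero_left x
    · change Commute (if u = none then lam1 c * y else 0) x
      split_ifs
      · exact (hlam1 c x).mul_left (hy x)
      · exact Commute.zero_left x
  WW := hW
  WW0 := hW
  W0W0 := hW

variable [LinearOrder I]

/-- **(TUP)**, with the explicit hom `LX`. -/
theorem tup_LX {lam lam1 : F →+* R} {tl : I → R} {y : R} {W0 : I → Option σ → R}
    {Q : I → MvPolynomial (Option σ) F}
    (hlam : ∀ c x, Commute (lam c) x) (hlam1 : ∀ c x, Commute (lam1 c) x)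
    (htl : ∀ l x, Commute (tl l) x) (hy : ∀ x, Commute y x)
    (ha : ∀ i, 1 ≤ a i) (hω : ∀ i, IsPrimitiveRoot (ω i) (a i))
    (hth : ∀ i l, ¬ i < l → th i l = 0)
    (htw : ∀ i l, lam1 (th i l) = lam (th i l) * tl l ^ a i)
    (hQ : ∀ i, mp σ lam1 (BM.res0 (Q i)) = mp σ lam (BM.res0 (Q i)))
    (ml : I → List (F × (ℕ → Option σ)))
    (hml : ∀ i, Q i = MvPolynomial.rename some (BM.res0 (Q i)) + BM.lsum (a i) (ml i))
    (pl : I → List I) (hpl : ∀ i, (pl i).Nodup) (hpl' : ∀ i l, l ∈ pl i ↔ i < l)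
    (ops : List I) (hops : ops.Pairwise (fun x y => y < x)) (hops' : ∀ i, i ∈ ops)
    (hW : IsTuple a th (QK fun i => BM.res0 (Q i)) lam W0) :
    IsTuple a th (RE.QX Q) ((sc a (steps a ml pl ops)).comp (LX lam1 y hy))
      (fin a (steps a ml pl ops) (stY ω th lam lam1 tl y W0)).W := by
  have hC : Com (stY ω th lam lam1 tl y W0) := com_stY hlam hlam1 htl hy hW.comm
  have hR : Root a (stY (σ := σ) ω th lam lam1 tl y W0) :=
    ⟨F, inferInstance, inferInstance, lam, ω, fun i => rfl, hω⟩
  have hsum : ∀ (i : I) (f : I → PA R (Option σ)), ((pl i).map f).sum = ∑ l with i < l, f l := by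
    intro i f
    have h1 : (Finset.univ.filter (fun l => i < l)) = (pl i).toFinset := by
      ext l
      simp [hpl']
    rw [h1, List.sum_toFinset _ (hpl i)]
  have hsum' : ∀ (i : I) (f : I → PA (Rg a (steps a ml pl ops) R) (Option σ)),
      ((pl i).map f).sum = ∑ l with i < l, f l := by
    intro i f
    have h1 : (Finset.univ.filter (fun l => i < l)) = (pl i).toFinset := by
      ext l
      simp [hpl']
    rw [h1, List.sum_toFinset _ (hpl i)]
  have hv := value (a := a) hC hR ha
    (fun i => (ml i).map (kk (a i))) pl ops hops (fun i l hl => (hpl' i l).1 hl)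
    (fun i => mp (Option σ) lam (QK (fun i => BM.res0 (Q i)) i)) rfl (by
      intro i _
      have h1 := hW.rel i
      change lf (W0 i) ^ a i = mp (Option σ) lam (QK (fun i => BM.res0 (Q i)) i) +
        ((pl i).map (fun l => cst (Option σ) (lam (th i l)) * lf (W0 l) ^ a i)).sum
      rw [h1, hsum, Finset.sum_filter]
      congr 1
      refine Finset.sum_congr rfl fun l _ => ?_
      split_ifs with h
      · rfl
      · rw [hth i l h, map_zero, map_zero, map_zero, zero_mul])
  refine ⟨(hC.fin (a := a) _).WW, fun i => ?_⟩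
  have h1 := hv i (hops' i)
  change lf ((fin a (steps a ml pl ops) (stY ω th lam lam1 tl y W0)).W i) ^ a i = _ at h1
  rw [h1, ← mp_comp, ev_QX, ev_form lam1 y hy (ha i) (Q i) (ml i) (hml i)]
  congr 2
  · congr 1
    change mp (Option σ) lam (MvPolynomial.rename some (BM.res0 (Q i))) =
      mp (Option σ) lam1 (MvPolynomial.rename some (BM.res0 (Q i)))
    rw [mp_rename, mp_rename, hQ]
  · change ((pl i).map (fun l => cst (Option σ) (sc a (steps a ml pl ops)
      (lam (th i l) * tl l ^ a i)) * lf ((fin a (steps a ml pl ops)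
        (stY ω th lam lam1 tl y W0)).W l) ^ a i)).sum = _
    rw [hsum', Finset.sum_filter]
    refine Finset.sum_congr rfl fun l _ => ?_
    have hF : algebraMap F F (th i l) = th i l := rfl
    rw [Polynomial.algebraMap_apply, RingHom.comp_apply, LX_C, hF, htw]
    split_ifs with h
    · rfl
    · rw [hth i l h, map_zero, zero_mul, map_zero, map_zero, zero_mul]

/-- **(TUP)** -/
theorem tup {lam lam1 : F →+* R} {tl : I → R} {y : R} {W0 : I → Option σ → R}
    {Q : I → MvPolynomial (Option σ) F}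
    (hlam : ∀ c x, Commute (lam c) x) (hlam1 : ∀ c x, Commute (lam1 c) x)
    (htl : ∀ l x, Commute (tl l) x) (hy : ∀ x, Commute y x)
    (ha : ∀ i, 1 ≤ a i) (hω : ∀ i, IsPrimitiveRoot (ω i) (a i))
    (hth : ∀ i l, ¬ i < l → th i l = 0)
    (htw : ∀ i l, lam1 (th i l) = lam (th i l) * tl l ^ a i)
    (hQ : ∀ i, mp σ lam1 (BM.res0 (Q i)) = mp σ lam (BM.res0 (Q i)))
    (ml : I → List (F × (ℕ → Option σ)))
    (hml : ∀ i, Q i = MvPolynomial.rename some (BM.res0 (Q i)) + BM.lsum (a i) (ml i))
    (pl : I → List I) (hpl : ∀ i, (pl i).Nodup) (hpl' : ∀ i l, l ∈ pl i ↔ i < l)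
    (ops : List I) (hops : ops.Pairwise (fun x y => y < x)) (hops' : ∀ i, i ∈ ops)
    (τX : F[X] →+* R) (hτC : ∀ c, τX (Polynomial.C c) = lam1 c) (hτX : τX Polynomial.X = y)
    (hW : IsTuple a th (QK fun i => BM.res0 (Q i)) lam W0) :
    IsTuple a th (RE.QX Q) ((sc a (steps a ml pl ops)).comp τX)
      (fin a (steps a ml pl ops) (stY ω th lam lam1 tl y W0)).W := by
  have e : τX = LX lam1 y hy := by
    apply Polynomial.ringHom_ext
    · intro c
      rw [hτC, LX_C]
    · rw [hτX, LX_X]
  rw [e]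
  exact tup_LX hlam hlam1 htl hy ha hω hth htw hQ ml hml pl hpl hpl' ops hops hops' hW

/-- restriction of the variables -/
theorem _root_.Crest.Agent.R181.UR.IsTuple.res0 {F I σ A L : Type*} [CommRing F] [CommRing L]
    [Algebra F L] [Fintype I] [Fintype σ] [Ring A] {a : I → ℕ} {th : I → I → F}
    {Q : I → MvPolynomial (Option σ) L} {τ : L →+* A} {W : I → Option σ → A}
    (h : IsTuple a th Q τ W) :
    IsTuple a th (fun i => BM.res0 (Q i)) τ (fun i v => W i (some v)) where
  comm i j := by
    have := congrArg HT.r0 (h.comm i j)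
    simpa only [map_mul, HT.r0_lf] using this
  rel i := by
    have h1 : ∀ q : MvPolynomial (Option σ) L, HT.r0 (mp (Option σ) τ q) = mp σ τ (BM.res0 q) := by
      intro q
      have h2 : (HT.r0 : PA A (Option σ) →+* PA A σ).comp (mp (Option σ) τ) =
          (mp σ τ).comp (BM.res0 (R := L) (σ := σ)).toRingHom := by
        apply MvPolynomial.ringHom_ext
        · intro c
          change HT.r0 (mp (Option σ) τ (MvPolynomial.C c)) = mp σ τ (BM.res0 (MvPolynomial.C c))
          rw [mp_C, HT.r0_cst, show (MvPolynomial.C c : MvPolynomial (Option σ) L) =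
            algebraMap L _ c from rfl, AlgHom.commutes]
          exact (mp_C τ c).symm
        · intro v
          change HT.r0 (mp (Option σ) τ (MvPolynomial.X v)) = mp σ τ (BM.res0 (MvPolynomial.X v))
          rw [mp_X]
          rcases v with _ | v
          · rw [HT.r0_var_none, BM.res0_X_none, map_zero]
          · rw [BM.res0_X_some, mp_X]
            exact HT.r0_single_some v 1
      exact RingHom.congr_fun h2 q
    have h3 := congrArg HT.r0 (h.rel i)
    simp only [map_pow, map_add, map_sum, map_mul, HT.r0_lf, HT.r0_cst, h1] at h3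
    exact h3

theorem res0_rename (q : MvPolynomial σ F) :
    BM.res0 (MvPolynomial.rename some q : MvPolynomial (Option σ) F) = q := by
  rw [BM.res0, MvPolynomial.aeval_rename]
  exact MvPolynomial.aeval_X_left_apply q

section

variable {lam lam1 : F →+* R} {tl : I → R} {W0 : I → Option σ → R}
    {Q : I → MvPolynomial (Option σ) F}
    (hlam : ∀ c x, Commute (lam c) x) (hlam1 : ∀ c x, Commute (lam1 c) x)
    (htl : ∀ l x, Commute (tl l) x)
    (ha : ∀ i, 1 ≤ a i) (hω : ∀ i, IsPrimitiveRoot (ω i) (a i))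
    (hth : ∀ i l, ¬ i < l → th i l = 0)
    (htw : ∀ i l, lam1 (th i l) = lam (th i l) * tl l ^ a i)
    (hQ : ∀ i, mp σ lam1 (BM.res0 (Q i)) = mp σ lam (BM.res0 (Q i)))
    (ml : I → List (F × (ℕ → Option σ)))
    (hml : ∀ i, Q i = MvPolynomial.rename some (BM.res0 (Q i)) + BM.lsum (a i) (ml i))
    (pl : I → List I) (hpl : ∀ i, (pl i).Nodup) (hpl' : ∀ i l, l ∈ pl i ↔ i < l)
    (ops : List I) (hops : ops.Pairwise (fun x y => y < x)) (hops' : ∀ i, i ∈ ops)

include hlam hlam1 htl ha hω hth htw hQ hml hpl hpl' hops hops'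

/-- **(TUP)** at `y = 0` -/
theorem tup0 (hW : IsTuple a th (QK fun i => BM.res0 (Q i)) lam W0) :
    IsTuple a th (QK fun i => BM.res0 (Q i)) ((sc a (steps a ml pl ops)).comp lam1)
      (fin a (steps a ml pl ops) (stY ω th lam lam1 tl 0 W0)).W := by
  have h1 := tup_LX (y := 0) hlam hlam1 htl Commute.zero_left ha hω hth htw hQ ml hml pl hpl hpl'
    ops hops hops' hW
  refine (isTuple_map_iff a th (Polynomial.evalRingHom (0 : F)) (fun c => ?_) (RE.mp_QX Q) _ _).2 ?_
  · rw [Polynomial.algebraMap_apply, Polynomial.coe_evalRingHom, Polynomial.eval_C]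
  · have h2 : ((sc a (steps a ml pl ops)).comp lam1).comp (Polynomial.evalRingHom (0 : F)) =
        (sc a (steps a ml pl ops)).comp (LX lam1 0 Commute.zero_left) := by
      apply Polynomial.ringHom_ext
      · intro c
        rw [RingHom.comp_apply, RingHom.comp_apply, RingHom.comp_apply, LX_C,
          Polynomial.coe_evalRingHom, Polynomial.eval_C]
      · rw [RingHom.comp_apply, RingHom.comp_apply, RingHom.comp_apply, LX_X,
          Polynomial.coe_evalRingHom, Polynomial.eval_X, map_zero, map_zero]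
    rw [h2]
    exact h1

/-- **(TUP)** restricted to the old variables -/
theorem tupσ (hW : IsTuple a th (QK fun i => BM.res0 (Q i)) lam W0) :
    IsTuple a th (fun i => BM.res0 (Q i)) ((sc a (steps a ml pl ops)).comp lam1)
      (fin a (steps a ml pl ops) ((stY ω th lam lam1 tl 0 W0).pull some)).W := by
  have h1 := (tup0 hlam hlam1 htl ha hω hth htw hQ ml hml pl hpl hpl' ops hops hops' hW).res0
  rw [fin_pull]
  simp only [res0_rename] at h1
  exact h1

end

end Tup

section Bst

variable {F I σ : Type} [Field F] [DecidableEq σ] [Fintype σ] {th : I → I → F} {ω : I → F}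

/-- the basic state at `y = 0`, all variables -/
theorem bst_eq_stY {S R : Type} [Ring S] [Ring R] (cF : F →+* S) (wS : I → Option σ → S)
    (j : S →+* R) (lam1 : F →+* R) (tl : I → R) :
    bst ω th cF v1 wS j tl (fun i u => j (wS i u)) =
      stY ω th (j.comp cF) lam1 tl 0 (fun i u => j (wS i u)) := by
  refine St.ext rfl rfl rfl ?_ rfl rfl
  funext k u
  exact (vecY_zero lam1 (j.comp cF) k u).symm

/-- the basic state, old variables -/
theorem bst_eq_pull {S R : Type} [Ring S] [Ring R] (cF : F →+* S) (wS : I → σ → S)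
    (j : S →+* R) (lam1 : F →+* R) (tl : I → R) :
    bst ω th cF (fun k u => v1 k (some u)) wS j tl (fun i u => j (wS i u)) =
      (stY ω th (j.comp cF) lam1 tl 0 (ext' (fun i u => j (wS i u)) (fun _ => 0))).pull some := by
  refine St.ext rfl rfl rfl ?_ rfl rfl
  funext k u
  exact (vecY_zero lam1 (j.comp cF) k (some u)).symm

end Bst

section Cor

variable {F D I σ : Type} [Field F] [DivisionRing D] [Algebra F D] [DecidableEq σ] [Fintype σ]
  [Fintype I] [LinearOrder I] {a : I → ℕ} {th : I → I → F} {ω : I → F}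
  {Q : I → MvPolynomial (Option σ) F} {w : I → σ → D}
  (ha : ∀ i, 1 ≤ a i) (hω : ∀ i, IsPrimitiveRoot (ω i) (a i))
  (hth : ∀ i l, ¬ i < l → th i l = 0)
  (ml : I → List (F × (ℕ → Option σ)))
  (hml : ∀ i, Q i = MvPolynomial.rename some (BM.res0 (Q i)) + BM.lsum (a i) (ml i))
  (pl : I → List I) (hpl : ∀ i, (pl i).Nodup) (hpl' : ∀ i l, l ∈ pl i ↔ i < l)
  (ops : List I) (hops : ops.Pairwise (fun x y => y < x)) (hops' : ∀ i, i ∈ ops)

include ha hω hth hml hpl hpl' hops hops'

/-- the hypothesis of `Pkg.loc` -/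
theorem tuple_loc (hw : IsTuple a th (fun i => BM.res0 (Q i)) (algebraMap F D) w)
    {E : Type} [Ring E] (j : D →+* E) (lam1 : F →+* E) (tl : I → E)
    (hF : ∀ c x, Commute (j (algebraMap F D c)) x) (hlam1 : ∀ c x, Commute (lam1 c) x)
    (htl : ∀ l x, Commute (tl l) x)
    (htw : ∀ i l, lam1 (th i l) = j (algebraMap F D (th i l)) * tl l ^ a i)
    (hQ : ∀ i, mp σ lam1 (BM.res0 (Q i)) = mp σ (j.comp (algebraMap F D)) (BM.res0 (Q i))) :
    IsTuple a th (fun i => BM.res0 (Q i)) ((sc a (steps a ml pl ops)).comp lam1)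
      (fin a (steps a ml pl ops) (bst ω th (algebraMap F D) (fun k u => v1 k (some u)) w j tl
        (fun i u => j (w i u)))).W := by
  rw [bst_eq_pull (algebraMap F D) w j lam1 tl]
  exact tupσ hF hlam1 htl ha hω hth htw hQ ml hml pl hpl hpl' ops hops hops'
    (WF.isTuple_ext0 a th _ _ hF _ (hw.map j))

/-- the hypothesis of `Pkg.inj` -/
theorem tuple_inj {𝓛 : Type} [Ring 𝓛] (jK : KK a th (fun i => BM.res0 (Q i)) w →+* 𝓛)
    (lam1 : F →+* 𝓛) (tl : I → 𝓛)
    (hF : ∀ c x, Commute (jK (iL a th (QK fun i => BM.res0 (Q i)) w c)) x)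
    (hlam1 : ∀ c x, Commute (lam1 c) x) (htl : ∀ l x, Commute (tl l) x)
    (htw : ∀ i l, lam1 (th i l) = jK (iL a th (QK fun i => BM.res0 (Q i)) w (th i l)) * tl l ^ a i)
    (hQ : ∀ i, mp σ lam1 (BM.res0 (Q i)) =
      mp σ (jK.comp (iL a th (QK fun i => BM.res0 (Q i)) w)) (BM.res0 (Q i))) :
    IsTuple a th (QK fun i => BM.res0 (Q i)) ((sc a (steps a ml pl ops)).comp lam1)
      (fin a (steps a ml pl ops) (bst ω th (iL a th (QK fun i => BM.res0 (Q i)) w) v1
        (wU a th (QK fun i => BM.res0 (Q i)) w) jK tl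
        (fun i u => jK (wU a th (QK fun i => BM.res0 (Q i)) w i u)))).W := by
  rw [bst_eq_stY (iL a th (QK fun i => BM.res0 (Q i)) w) _ jK lam1 tl]
  exact tup0 hF hlam1 htl ha hω hth htw hQ ml hml pl hpl hpl' ops hops hops'
    ((isTuple_wU a th (QK fun i => BM.res0 (Q i)) w).map jK)

end Cor

section Pk

variable {F D I σ : Type} [Field F] [DivisionRing D] [Algebra F D] [DecidableEq σ] [Fintype σ]
  [Fintype I] [LinearOrder I] {a : I → ℕ} {th : I → I → F} {ω : I → F} {T : TwD a th ω}
  {Q : I → MvPolynomial (Option σ) F} {w : I → σ → D}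
  (ha : ∀ i, 1 ≤ a i) (hω : ∀ i, IsPrimitiveRoot (ω i) (a i))
  (hth : ∀ i l, ¬ i < l → th i l = 0)
  (ml : I → List (F × (ℕ → Option σ)))
  (hml : ∀ i, Q i = MvPolynomial.rename some (BM.res0 (Q i)) + BM.lsum (a i) (ml i))
  (pl : I → List I) (hpl : ∀ i, (pl i).Nodup) (hpl' : ∀ i l, l ∈ pl i ↔ i < l)
  (ops : List I) (hops : ops.Pairwise (fun x y => y < x)) (hops' : ∀ i, i ∈ ops)
  (hfix : ∀ i m, (BM.res0 (Q i)).coeff m ∈ T.fixed)
  (P : Pkg T (fun i => BM.res0 (Q i)) w v1 (steps a ml pl ops))

include ha hω hth hml hpl hpl' hops hops' hfix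

/-- the local tuple of the package -/
theorem pkg_isLoc (hw : IsTuple a th (fun i => BM.res0 (Q i)) (algebraMap F D) w) :
    IsTuple a th (fun i => BM.res0 (Q i)) ((sc a (steps a ml pl ops)).comp P.lam')
      (fin a (steps a ml pl ops) (bst ω th (algebraMap F D) (fun k u => v1 k (some u)) w P.j P.τ
        (fun i u => P.j (w i u)))).W ∧
    IsLoc w ((sc a (steps a ml pl ops)).comp P.lam')
      (fin a (steps a ml pl ops) (bst ω th (algebraMap F D) (fun k u => v1 k (some u)) w P.j P.τ
        (fun i u => P.j (w i u)))).W := by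
  have h := tuple_loc ha hω hth ml hml pl hpl hpl' ops hops hops' hw P.j P.lam' P.τ P.hF P.hlam
    P.hτ P.htw.th_eq (fun i => P.htw.mp_eq _ (hfix i))
  exact ⟨h, P.loc h⟩

/-- the injective tuple of the package -/
theorem pkg_isInj :
    IsInj (iL a th (QK fun i => BM.res0 (Q i)) w) (wU a th (QK fun i => BM.res0 (Q i)) w)
      ((sc a (steps a ml pl ops)).comp (P.h.comp P.lam'))
      (fin a (steps a ml pl ops) (bst ω th (iL a th (QK fun i => BM.res0 (Q i)) w) v1
        (wU a th (QK fun i => BM.res0 (Q i)) w) P.jK (fun i => P.h (P.τ i))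
        (fun i u => P.jK (wU a th (QK fun i => BM.res0 (Q i)) w i u)))).W := by
  have e : P.h.comp (P.j.comp (algebraMap F D)) =
      P.jK.comp (iL a th (QK fun i => BM.res0 (Q i)) w) := by
    ext c
    change P.h (P.j (algebraMap F D c)) = P.jK _
    rw [P.hh, iD_base]
    rfl
  have htw : HasTw T (P.jK.comp (iL a th (QK fun i => BM.res0 (Q i)) w)) (fun i => P.h (P.τ i))
      (P.h.comp P.lam') := by
    rw [← e]
    exact P.htw.map P.h
  exact P.inj (tuple_inj ha hω hth ml hml pl hpl hpl' ops hops hops' P.jK (P.h.comp P.lam') _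
    P.hF' P.hlam' P.hτ' htw.th_eq (fun i => htw.mp_eq _ (hfix i)))

end Pk

end

end Crest.Agent.R181.IN
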