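import Crest.Agent.R181.WF553a
import Crest.Agent.R181.HT279a

/-!
R181 (helper776), block B9 (TOP-A): the ring `C0` over the rational functions, with its hom to
Laurent series.
-/

set_option autoImplicit false
set_option linter.unusedSectionVars false

namespace Crest.Agent.R181.IN

open UR

noncomputable section

section

variable {F Z I σ A : Type} [CommRing F] [CommRing Z] [Fintype I] [Fintype σ] [Ring A]

/-- change of the base of a tuple -/
theorem isTuple_base {a : I → ℕ} {th : I → I → F} {q : I → MvPolynomial σ F} (cF : F →+* Z)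
    (ι : Z →+* A) (W : I → σ → A) :
    IsTuple a (fun i l => cF (th i l)) (fun i => mp σ cF (q i) : I → MvPolynomial σ Z) ι W ↔
      IsTuple a th q (ι.comp cF) W := by
  constructor
  · intro h
    refine ⟨h.comm, fun i => ?_⟩
    have h1 := h.rel i
    rw [mp_comp] at h1
    exact h1
  · intro h
    refine ⟨h.comm, fun i => ?_⟩
    have h1 := h.rel i
    rw [mp_comp]
    exact h1

/-- `rename some` over a ring -/
theorem rename_eq_em (q : MvPolynomial σ F) :
    (MvPolynomial.rename some q : MvPolynomial (Option σ) F) = HT.em (A := F) (σ := σ) q := by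
  have h : (MvPolynomial.rename (some : σ → Option σ) :
      MvPolynomial σ F →ₐ[F] MvPolynomial (Option σ) F).toRingHom =
      (HT.em : PA F σ →+* PA F (Option σ)) := by
    apply MvPolynomial.ringHom_ext
    · intro c
      change MvPolynomial.rename some (MvPolynomial.C c) = HT.em (cst σ c)
      rw [MvPolynomial.rename_C, HT.em_cst]
      rfl
    · intro v
      change MvPolynomial.rename some (MvPolynomial.X v) = HT.em (var F v)
      rw [MvPolynomial.rename_X, var, HT.em_single]
      unfold HT.inc
      rw [Finsupp.mapDomain_single]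
      rfl
  exact RingHom.congr_fun h q

theorem mp_em {B C : Type*} [Ring B] [Ring C] (f : B →+* C) (x : PA B σ) :
    mp (Option σ) f (HT.em x) = HT.em (mp σ f x) := by
  induction x using AddMonoidAlgebra.induction_linear with
  | zero => simp
  | add x y hx hy => rw [map_add, map_add, map_add, map_add, hx, hy]
  | single m b => rw [HT.em_single, mp_single, mp_single, HT.em_single]

theorem rename_mp (cF : F →+* Z) (q : MvPolynomial σ F) :
    (MvPolynomial.rename some (mp σ cF q : MvPolynomial σ Z) : MvPolynomial (Option σ) Z) =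
      mp (Option σ) cF (MvPolynomial.rename some q : MvPolynomial (Option σ) F) := by
  rw [rename_eq_em, rename_eq_em, mp_em]

end

theorem C_comm {E : Type*} [Ring E] {z : E} (hz : ∀ x, Commute z x) (x : LaurentSeries E) :
    Commute (HahnSeries.C z : LaurentSeries E) x := by
  have key : ∀ (z : E) (x : LaurentSeries E) (n : ℤ),
      ((HahnSeries.C z : LaurentSeries E) * x).coeff n = z * x.coeff n := by
    intro z x n
    rw [HahnSeries.C_apply]
    have := HahnSeries.coeff_single_mul_add (r := z) (x := x) (a := n) (b := 0)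
    rwa [add_zero] at this
  have key' : ∀ (z : E) (x : LaurentSeries E) (n : ℤ),
      (x * (HahnSeries.C z : LaurentSeries E)).coeff n = x.coeff n * z := by
    intro z x n
    rw [HahnSeries.C_apply]
    have := HahnSeries.coeff_mul_single_add (r := z) (x := x) (a := n) (b := 0)
    rwa [add_zero] at this
  apply HahnSeries.ext
  funext n
  rw [key, key', (hz _).eq]

theorem single_comm {E : Type*} [Ring E] (x : LaurentSeries E) :
    Commute (HahnSeries.single (1 : ℤ) (1 : E) : LaurentSeries E) x := by
  apply HahnSeries.ext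
  funext n
  have h1 := HahnSeries.coeff_single_mul_add (r := (1 : E)) (x := x) (a := n - 1) (b := 1)
  have h2 := HahnSeries.coeff_mul_single_add (r := (1 : E)) (x := x) (a := n - 1) (b := 1)
  rw [sub_add_cancel] at h1 h2
  rw [h1, h2, one_mul, mul_one]

/-- **(TOP-A)** -/
theorem exists_C0 {F I σ E 𝓛 : Type} [Field F] [Fintype I] [Fintype σ] [DivisionRing E] [Ring 𝓛]
    (a : I → ℕ) (th : I → I → F) (q : I → MvPolynomial σ F) (lam : F →+* E) (w : I → σ → E)
    (hw : IsTuple a th q lam w) (h : E →+* 𝓛) (η : I → 𝓛)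
    (hη : IsTuple a th (fun i => MvPolynomial.rename some (q i)) (h.comp lam)
      (ext' (fun i v => h (w i v)) η)) (Z0 : Set E)
    (hZ : ∀ z ∈ Z0, (∀ x, Commute z x) ∧ ∀ i, Commute (h z) (η i)) (hlam : ∀ c, lam c ∈ Z0) :
    ∃ (C0 : Type) (_ : Ring C0) (g : E →+* C0) (η0 : I → C0) (y : C0)
      (Ψ : C0 →+* LaurentSeries 𝓛), WF.Aug C0 ∧ IsUnit y ∧ (∀ x, Commute y x) ∧
      (∀ z ∈ Z0, ∀ x, Commute (g z) x) ∧
      IsTuple a th (fun i => MvPolynomial.rename some (q i)) (g.comp lam)
        (ext' (fun i v => g (w i v)) η0) ∧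
      (∀ e, Ψ (g e) = HahnSeries.C (h e)) ∧ Ψ y = HahnSeries.single 1 1 ∧
      ∀ i, Ψ (η0 i) = HahnSeries.C (η i) := by
  obtain ⟨E2, _, j1, t, ht, hL⟩ := RF.exists_ratfun E
  obtain ⟨L, hLj, hLt⟩ := hL 0 Commute.zero_left
  rw [map_zero, zero_add] at hLt
  have hLinj : Function.Injective L := L.injective
  let ρ : E2 →+* LaurentSeries 𝓛 := (WF.lmap h).comp L
  have hρj : ∀ e, ρ (j1 e) = HahnSeries.C (h e) := fun e => by
    change WF.lmap h (L (j1 e)) = _
    rw [hLj, WF.lmap_C]
  have hρt : ρ t = HahnSeries.single 1 1 := by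
    change WF.lmap h (L t) = _
    rw [hLt, WF.lmap_single, map_one]
  -- the central ring
  obtain ⟨Z, _, ι, hιinj, hιc, hιη, hιs⟩ : ∃ (Z : Type) (_ : CommRing Z) (ι : Z →+* E2),
      Function.Injective ι ∧ (∀ z x, Commute (ι z) x) ∧
      (∀ z i, Commute (ρ (ι z)) (HahnSeries.C (η i))) ∧
      ∀ x : E2, (∀ y, Commute x y) → (∀ i, Commute (ρ x) (HahnSeries.C (η i))) → ∃ z, ι z = x := by
    let Z' : Subring (Subring.center E2) :=
      (Subring.centralizer (Set.range fun i => (HahnSeries.C (η i) : LaurentSeries 𝓛))).comap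
        (ρ.comp (Subring.center E2).subtype)
    refine ⟨Z', inferInstance, (Subring.center E2).subtype.comp Z'.subtype, ?_, ?_, ?_, ?_⟩
    · exact fun x y h => Subtype.ext (Subtype.ext h)
    · intro z x
      exact ((Subring.mem_center_iff.1 z.1.2 x).symm : _)
    · intro z i
      have h1 := z.2
      rw [Subring.mem_comap, Subring.mem_centralizer_iff] at h1
      exact (h1 _ ⟨i, rfl⟩).symm
    · intro x hx hi
      refine ⟨⟨⟨x, Subring.mem_center_iff.2 fun y => (hx y).symm.eq⟩, ?_⟩, rfl⟩
      rw [Subring.mem_comap, Subring.mem_centralizer_iff]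
      rintro _ ⟨i, rfl⟩
      exact (hi i).symm.eq
  let _ : Algebra Z E2 := ι.toAlgebra' fun c x => (hιc c x).eq
  have hal : algebraMap Z E2 = ι := rfl
  have hj1c : ∀ z ∈ Z0, ∀ x, Commute (j1 z) x := by
    intro z hz x
    apply hLinj
    rw [map_mul, map_mul, hLj]
    exact (C_comm (hZ z hz).1 (L x)).eq
  have hj1z : ∀ z ∈ Z0, ∃ z', ι z' = j1 z := by
    intro z hz
    refine hιs _ (hj1c z hz) fun i => ?_
    rw [hρj]
    exact ((hZ z hz).2 i).map (HahnSeries.C : 𝓛 →+* LaurentSeries 𝓛)
  obtain ⟨tz, htz⟩ := hιs t ht fun i => by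
    rw [hρt]
    exact single_comm _
  -- the hom `F → Z`
  choose cf hcf using fun c => hj1z (lam c) (hlam c)
  let cF : F →+* Z :=
    { toFun := cf
      map_one' := hιinj (by rw [hcf, map_one, map_one, map_one])
      map_mul' := fun x y => hιinj (by rw [map_mul, hcf, hcf, hcf, map_mul, map_mul])
      map_zero' := hιinj (by rw [hcf, map_zero, map_zero, map_zero])
      map_add' := fun x y => hιinj (by rw [map_add, hcf, hcf, hcf, map_add, map_add]) }
  have hcF : ι.comp cF = j1.comp lam := RingHom.ext hcf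
  let thZ : I → I → Z := fun i l => cF (th i l)
  let qZ : I → MvPolynomial σ Z := fun i => mp σ cF (q i)
  let w2 : I → σ → E2 := fun i v => j1 (w i v)
  have hw2 : IsTuple a thZ qZ (algebraMap Z E2) w2 := by
    rw [hal]
    refine (isTuple_base cF ι w2).2 ?_
    rw [hcF]
    exact hw.map j1
  have hren : (fun i => MvPolynomial.rename some (qZ i) : I → MvPolynomial (Option σ) Z) =
      fun i => mp (Option σ) cF (MvPolynomial.rename some (q i) : MvPolynomial (Option σ) F) :=
    funext fun i => rename_mp cF (q i)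
  let QZ : I → MvPolynomial (Option σ) Z := fun i => MvPolynomial.rename some (qZ i)
  have hD : ∀ c, iD a thZ QZ w2 (ι c) = iL a thZ QZ w2 c := fun c => by
    rw [← hal, iD_base]
    rfl
  have hcen : ∀ c x, Commute (iD a thZ QZ w2 (ι c)) x := fun c x => by
    rw [hD]
    exact iL_comm a thZ QZ w2 c x
  have ht0 : t ≠ 0 := by
    intro h0
    rw [h0, map_zero] at hLt
    have := congrArg (fun x : LaurentSeries E => x.coeff 1) hLt
    simp at this
  obtain ⟨Ψ, hΨD, hΨL, hΨη⟩ := exists_lift (a := a) (th := thZ) (Q := QZ) (w := w2) ρ (ρ.comp ι)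
    (fun i => (HahnSeries.C (η i) : LaurentSeries 𝓛)) (fun c => rfl)
    (fun x d => (hιc x d).map ρ) (fun x i => hιη x i) (by
      have h1 : IsTuple a th (fun i => MvPolynomial.rename some (q i)) ((ρ.comp ι).comp cF)
          (ext' (fun i v => ρ (w2 i v)) (fun i => (HahnSeries.C (η i) : LaurentSeries 𝓛))) := by
        have h2 := hη.map (HahnSeries.C : 𝓛 →+* LaurentSeries 𝓛)
        have e1 : (HahnSeries.C : 𝓛 →+* LaurentSeries 𝓛).comp (h.comp lam) =
            (ρ.comp ι).comp cF := by
          rw [RingHom.comp_assoc, hcF]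
          ext c : 1
          exact (hρj (lam c)).symm
        have e2 : (fun i v => (HahnSeries.C : 𝓛 →+* LaurentSeries 𝓛)
            (ext' (fun i v => h (w i v)) η i v)) =
            ext' (fun i v => ρ (w2 i v)) (fun i => (HahnSeries.C (η i) : LaurentSeries 𝓛)) := by
          funext i v
          rcases v with _ | v
          · rfl
          · exact (hρj (w i v)).symm
        rw [e1, e2] at h2
        exact h2
      have h3 := (isTuple_base (q := fun i => (MvPolynomial.rename some (q i) :
        MvPolynomial (Option σ) F)) cF (ρ.comp ι) _).2 h1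
      rw [← hren] at h3
      exact h3)
  refine ⟨UR.U a thZ QZ w2, inferInstance, (iD a thZ QZ w2).comp j1, eta a thZ QZ w2,
    iD a thZ QZ w2 t, Ψ, WF.Aug.U a thZ hw2, ?_, ?_, ?_, ?_, ?_, ?_, ?_⟩
  · exact (IsUnit.mk0 t ht0).map _
  · intro x
    rw [← htz]
    exact hcen _ _
  · intro z hz x
    obtain ⟨z', hz'⟩ := hj1z z hz
    change Commute (iD a thZ QZ w2 (j1 z)) x
    rw [← hz']
    exact hcen _ _
  · have h1 := isTuple_wU a thZ QZ w2
    have h2 : IsTuple a th (fun i => MvPolynomial.rename some (q i))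
        ((iL a thZ QZ w2).comp cF) (wU a thZ QZ w2) := by
      refine (isTuple_base (q := fun i => (MvPolynomial.rename some (q i) :
        MvPolynomial (Option σ) F)) cF (iL a thZ QZ w2) _).1 ?_
      rw [← hren]
      exact h1
    have e1 : (iL a thZ QZ w2).comp cF = ((iD a thZ QZ w2).comp j1).comp lam := by
      ext c : 1
      change iL a thZ QZ w2 (cF c) = iD a thZ QZ w2 (j1 (lam c))
      rw [← hD]
      exact congrArg _ (hcf c)
    rw [e1] at h2
    exact h2
  · intro e
    exact (hΨD _).trans (hρj e)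
  · exact (hΨD _).trans hρt
  · exact hΨη

end

end Crest.Agent.R181.IN
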