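import Crest.Agent.R181.MK8

/-!
# Locality: ring homomorphisms which reflect invertibility of square matrices

`LU f` : a square matrix over the source is invertible as soon as its image under `f` is.
Main cases: a surjection whose kernel lies in the Jacobson radical, in particular a nil kernel
(block triangular rings) and the constant coefficient `S⟦X⟧ → S` over a noncommutative ring `S`.
-/

set_option autoImplicit false

open Matrix

namespace Crest.Agent.R181.LOC

universe u v w

/-- `f` reflects invertibility of square matrices -/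
def LU {S : Type u} {S' : Type v} [Ring S] [Ring S'] (f : S →+* S') : Prop :=
  ∀ (n : ℕ) (A : Matrix (Fin n) (Fin n) S), IsUnit (A.map f) → IsUnit A

section basic
variable {S : Type u} {S' : Type v} {S'' : Type w} [Ring S] [Ring S'] [Ring S'']

theorem LU.comp {g : S' →+* S''} {f : S →+* S'} (hg : LU g) (hf : LU f) : LU (g.comp f) := by
  intro n A hA
  refine hf n A (hg n _ ?_)
  simpa [Matrix.map_map] using hA

theorem LU.of_comp {g : S' →+* S''} {f : S →+* S'} (h : LU (g.comp f)) : LU f := by
  intro n A hA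
  refine h n A ?_
  have := hA.map (RingHom.mapMatrix g)
  simpa [Matrix.map_map, RingHom.mapMatrix_apply] using this

theorem LU.equiv (e : S ≃+* S') : LU (e : S →+* S') := by
  intro n A hA
  have := hA.map (RingHom.mapMatrix (e.symm : S' →+* S))
  simpa [Matrix.map_map, RingHom.mapMatrix_apply, Function.comp_def] using this

/-- the version for arbitrary finite index types -/
theorem LU.isUnit {f : S →+* S'} (hf : LU f) {κ : Type*} [Fintype κ] [DecidableEq κ]
    (A : Matrix κ κ S) (hA : IsUnit (A.map f)) : IsUnit A := by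
  let e := Fintype.equivFin κ
  have h1 : IsUnit ((Matrix.reindexRingEquiv S e A).map f) := by
    have := hA.map (Matrix.reindexRingEquiv S' e)
    have e1 : (Matrix.reindexRingEquiv S e A).map f = Matrix.reindexRingEquiv S' e (A.map f) := by
      ext i j; rfl
    rw [e1]; exact this
  have h2 := hf _ _ h1
  exact (MulEquiv.isUnit_map (Matrix.reindexRingEquiv S e)).1 h2

/-- `1 + k` is invertible for `k` in the Jacobson radical. -/
theorem isUnit_one_add {R : Type u} [Ring R] {k : R} (hk : k ∈ (⊥ : Ideal R).jacobson) :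
    IsUnit (1 + k) := by
  have key : ∀ x ∈ (⊥ : Ideal R).jacobson, ∃ z, z * (1 + x) = 1 := by
    intro x hx
    obtain ⟨z, hz⟩ := Ideal.mem_jacobson_iff.1 hx 1
    refine ⟨z, ?_⟩
    rw [Ideal.mem_bot, mul_one, sub_eq_zero] at hz
    rw [mul_add, mul_one, add_comm]
    exact hz
  obtain ⟨z, hz⟩ := key k hk
  have hz' : z = 1 + (-(z * k)) := by
    rw [mul_add, mul_one] at hz
    rw [← hz]; abel
  obtain ⟨y, hy⟩ := key (-(z * k)) (neg_mem (Ideal.mul_mem_left _ _ hk))
  rw [← hz'] at hy
  have hyz : y = 1 + k := by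
    calc y = y * (z * (1 + k)) := by rw [hz, mul_one]
      _ = 1 + k := by rw [← mul_assoc, hy, one_mul]
  exact ⟨⟨1 + k, z, by rw [← hyz]; exact hy, hz⟩, rfl⟩

/-- A surjection whose kernel lies in the Jacobson radical reflects invertibility of matrices. -/
theorem LU.of_surjective {f : S →+* S'} (hf : Function.Surjective f)
    (hk : ∀ x, f x = 0 → x ∈ (⊥ : Ideal S).jacobson) : LU f := by
  intro n A hA
  obtain ⟨u, hu⟩ := hA
  choose g hg using hf
  let B : Matrix (Fin n) (Fin n) S := (u⁻¹).val.map g
  have hB : B.map f = (u⁻¹).val := by ext i j; simp [B, hg]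
  have key : ∀ K : Matrix (Fin n) (Fin n) S, K.map f = 0 → IsUnit (1 + K) := by
    intro K hK
    apply isUnit_one_add
    have h1 : K ∈ ((⊥ : Ideal S).jacobson).matrix (Fin n) := by
      rw [Ideal.mem_matrix]
      intro i j
      exact hk _ (congrFun (congrFun hK i) j)
    have h2 := Ideal.matrix_jacobson_le (n := Fin n) (⊥ : Ideal S) h1
    have h3 : ((⊥ : Ideal S).matrix (Fin n)) = ⊥ := by
      ext M
      rw [Ideal.mem_matrix, Ideal.mem_bot]
      constructor
      · intro h; ext i j; exact (Ideal.mem_bot).1 (h i j)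
      · rintro rfl i j; simp
    rwa [h3] at h2
  have m1 : (A * B).map f = 1 := by rw [Matrix.map_mul, hB, ← hu, Units.mul_inv]
  have m2 : (B * A).map f = 1 := by rw [Matrix.map_mul, hB, ← hu, Units.inv_mul]
  have e1 : IsUnit (A * B) := by
    have := key (A * B - 1) (by
      ext i j
      have := congrFun (congrFun m1 i) j
      simp only [Matrix.map_apply, Matrix.sub_apply, map_sub] at this ⊢
      rw [this]
      by_cases hij : i = j <;> simp [hij, Matrix.one_apply])
    simpa using this
  have e2 : IsUnit (B * A) := by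
    have := key (B * A - 1) (by
      ext i j
      have := congrFun (congrFun m2 i) j
      simp only [Matrix.map_apply, Matrix.sub_apply, map_sub] at this ⊢
      rw [this]
      by_cases hij : i = j <;> simp [hij, Matrix.one_apply])
    simpa using this
  obtain ⟨p, hp⟩ := e1
  obtain ⟨q, hq⟩ := e2
  -- `A` has a right inverse and a left inverse
  have r1 : A * (B * (p⁻¹).val) = 1 := by rw [← mul_assoc, ← hp, Units.mul_inv]
  have l1 : ((q⁻¹).val * B) * A = 1 := by rw [mul_assoc, ← hq, Units.inv_mul]
  have hrl : (q⁻¹).val * B = B * (p⁻¹).val := by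
    calc (q⁻¹).val * B = ((q⁻¹).val * B) * (A * (B * (p⁻¹).val)) := by rw [r1, mul_one]
      _ = B * (p⁻¹).val := by rw [← mul_assoc, l1, one_mul]
  exact ⟨⟨A, B * (p⁻¹).val, r1, by rw [← hrl]; exact l1⟩, rfl⟩

/-- kernel in the Jacobson radical, elementary form -/
theorem LU.of_rad {f : S →+* S'} (hf : Function.Surjective f)
    (hk : ∀ x, f x = 1 → IsUnit x) : LU f := by
  apply LU.of_surjective hf
  intro x hx
  rw [Ideal.mem_jacobson_iff]
  intro y
  obtain ⟨v, hv⟩ := hk (1 + y * x) (by rw [map_add, map_one, map_mul, hx, mul_zero, add_zero])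
  refine ⟨(v⁻¹).val, ?_⟩
  rw [Ideal.mem_bot, sub_eq_zero, mul_assoc]
  calc (v⁻¹).val * (y * x) + (v⁻¹).val = (v⁻¹).val * (1 + y * x) := by rw [mul_add, mul_one, add_comm]
    _ = 1 := by rw [← hv, Units.inv_mul]

/-- nil kernel -/
theorem LU.of_nil {f : S →+* S'} (hf : Function.Surjective f)
    (hk : ∀ x, f x = 0 → IsNilpotent x) : LU f := by
  apply LU.of_surjective hf
  intro x hx
  rw [Ideal.mem_jacobson_iff]
  intro y
  have hn : IsNilpotent (y * x) := hk _ (by rw [map_mul, hx, mul_zero])
  obtain ⟨v, hv⟩ := hn.isUnit_one_add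
  refine ⟨(v⁻¹).val, ?_⟩
  rw [Ideal.mem_bot, sub_eq_zero, mul_assoc]
  calc (v⁻¹).val * (y * x) + (v⁻¹).val = (v⁻¹).val * (1 + y * x) := by rw [mul_add, mul_one, add_comm]
    _ = 1 := by rw [← hv, Units.inv_mul]

/-- the constant coefficient over a noncommutative ring -/
theorem LU.constantCoeff : LU (PowerSeries.constantCoeff (R := S)) := by
  apply LU.of_surjective (fun a => ⟨PowerSeries.C a, by simp⟩)
  intro x hx
  rw [Ideal.mem_jacobson_iff]
  intro y
  have h1 : PowerSeries.constantCoeff (R := S) (1 + y * x) = ((1 : Sˣ) : S) := by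
    rw [map_add, map_one, map_mul, hx, mul_zero, add_zero]; rfl
  have h2 := PowerSeries.mul_invOfUnit (1 + y * x) (1 : Sˣ) h1
  have h3 := PowerSeries.invOfUnit_mul (1 + y * x) (1 : Sˣ) h1
  refine ⟨PowerSeries.invOfUnit (1 + y * x) 1, ?_⟩
  rw [Ideal.mem_bot, sub_eq_zero, mul_assoc]
  calc _ = PowerSeries.invOfUnit (1 + y * x) 1 * (1 + y * x) := by rw [mul_add, mul_one, add_comm]
    _ = 1 := h3

end basic

section inv

open Crest.Agent.R181.MK

variable {T : Type} [Ring T] {ρ : SylRank T} {S : Type u} {S' : Type v} [Ring S] [Ring S']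

/-- inverting the full matrices can be checked after a homomorphism which reflects invertibility -/
theorem inv_of_LU {f : S →+* S'} (hf : LU f) {ψ : T →+* S} (h : SylRank.Inv ρ (f.comp ψ)) :
    SylRank.Inv ρ ψ := by
  intro n A hA
  apply hf
  have := h n A hA
  simpa [Matrix.map_map] using this

theorem inv_comp (f : S →+* S') {ψ : T →+* S} (h : SylRank.Inv ρ ψ) : SylRank.Inv ρ (f.comp ψ) := by
  intro n A hA
  have := (h n A hA).map (RingHom.mapMatrix f)
  simpa [Matrix.map_map, RingHom.mapMatrix_apply] using this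

end inv

end Crest.Agent.R181.LOC
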