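import Crest.Agent.R181.RN598a
import Crest.Agent.R181.LOC773

/-!
R181 (helper598), block B9: the interface for locality.

* `IsLoc w lam W`: the tuple `W` over a ring `R` comes from a ring hom `D → R`.
* `LocHyp`: uniqueness, the radical lemma, the twists (supplied by the tower).
* `TwD`: the field `F` is the fraction field of a ring `Lam` of parameters with the coaction
  `th i l ↦ th i l * X l ^ a i`.
* `HasTw`: `lam' : F → R` is the hom twisted by the central elements `tl l`.
* `Ext1`: the package of a rational extension `D ⊂ D(t)` with its local rings.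
* `LU` for matrix rings, families, and `Rg`.
-/

set_option autoImplicit false
set_option linter.unusedSectionVars false

namespace Crest.Agent.R181.PO

open UR

noncomputable section

section Loc

variable {F D I σ : Type} [Field F] [DivisionRing D] [Algebra F D] [Fintype I] [Fintype σ]

/-- the tuple `W` over `R` is local: it comes from a ring hom `D → R`. -/
def IsLoc (w : I → σ → D) {R : Type} [Ring R] (lam : F →+* R) (W : I → σ → R) : Prop :=
  ∃ f : D →+* R, (∀ c, f (algebraMap F D c) = lam c) ∧ ∀ i v, f (w i v) = W i v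

theorem IsLoc.map {w : I → σ → D} {R R' : Type} [Ring R] [Ring R'] {lam : F →+* R}
    {W : I → σ → R} (h : IsLoc w lam W) (g : R →+* R') :
    IsLoc w (g.comp lam) (fun i v => g (W i v)) := by
  obtain ⟨f, h1, h2⟩ := h
  exact ⟨g.comp f, fun c => congrArg g (h1 c), fun i v => congrArg g (h2 i v)⟩

theorem IsLoc.pi {w : I → σ → D} {P : Type} {R : P → Type} [∀ p, Ring (R p)]
    {lam : F →+* ∀ p, R p} {W : I → σ → ∀ p, R p}
    (h : ∀ p, IsLoc w ((Pi.evalRingHom R p).comp lam) (fun i v => W i v p)) :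
    IsLoc w lam W := by
  choose f h1 h2 using h
  refine ⟨RingHom.pi f, fun c => ?_, fun i v => ?_⟩
  · funext p; exact h1 p c
  · funext p; exact h2 p i v

/-- the parameters: `F = Frac Lam`, coaction, automorphisms -/
structure TwD {F I : Type} [Field F] (a : I → ℕ) (th : I → I → F) (ω : I → F) where
  /-- the ring of parameters -/
  Lam : Type
  [cr : CommRing Lam]
  [dom : IsDomain Lam]
  [alg : Algebra Lam F]
  [frac : IsFractionRing Lam F]
  /-- the coaction -/
  Δ : Lam →+* MvPolynomial I Lam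
  hth : ∀ i l, ∃ x : Lam, algebraMap Lam F x = th i l ∧
    Δ x = MvPolynomial.C x * MvPolynomial.X l ^ a i
  counit : ∀ x : Lam, MvPolynomial.eval (fun _ => 1) (Δ x) = x
  auto : ∀ e : I → ℕ, ∃ α : F ≃+* F, ∀ x : Lam, α (algebraMap Lam F x) =
    MvPolynomial.eval (fun l => (ω l ^ e l)⁻¹) (MvPolynomial.map (algebraMap Lam F) (Δ x))

attribute [instance] TwD.cr TwD.dom TwD.alg TwD.frac

/-- the elements of `F` coming from the coinvariants of `Lam` -/
def TwD.fixed {a : I → ℕ} {th : I → I → F} {ω : I → F} (T : TwD a th ω) : Subring F :=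
  ((RingHom.eqLocus T.Δ (MvPolynomial.C : T.Lam →+* MvPolynomial I T.Lam)).map
    (algebraMap T.Lam F))

/-- the hypotheses on `(D, w)` -/
structure LocHyp {a : I → ℕ} {th : I → I → F} {ω : I → F} (T : TwD a th ω)
    (Q0 : I → MvPolynomial σ F) (w : I → σ → D) : Prop where
  uniq : ∀ {R : Type} [Ring R] (f g : D →+* R),
    (∀ c, f (algebraMap F D c) = g (algebraMap F D c)) → (∀ i v, f (w i v) = g (w i v)) → f = g
  rad : ∀ {R R' : Type} [Ring R] [Ring R'] (g : R →+* R'), Function.Surjective g → LOC.LU g →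
    ∀ (lam : F →+* R), (∀ c x, Commute (lam c) x) → ∀ W : I → σ → R, IsTuple a th Q0 lam W →
    IsLoc w (g.comp lam) (fun i v => g (W i v)) → IsLoc w lam W
  tw : ∀ (e : I → ℕ) (α : F ≃+* F), (∀ x : T.Lam, α (algebraMap T.Lam F x) =
    MvPolynomial.eval (fun l => (ω l ^ e l)⁻¹) (MvPolynomial.map (algebraMap T.Lam F) (T.Δ x))) →
    IsLoc w ((algebraMap F D).comp (α : F →+* F)) (fun i v => algebraMap F D (ω i ^ e i) * w i v)

/-- `lam'` is the hom `lam` twisted by the elements `tl`. -/
def HasTw {a : I → ℕ} {th : I → I → F} {ω : I → F} (T : TwD a th ω) {R : Type} [Ring R]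
    (lam : F →+* R) (tl : I → R) (lam' : F →+* R) : Prop :=
  ∃ c : MvPolynomial I F →+* R, (∀ x, c (MvPolynomial.C x) = lam x) ∧
    (∀ l, c (MvPolynomial.X l) = tl l) ∧
    ∀ x : T.Lam, lam' (algebraMap T.Lam F x) = c (MvPolynomial.map (algebraMap T.Lam F) (T.Δ x))

/-- the basic state over a ring `S` with the tuple `wS`, mapped to `R`, with new `tl` and `W`. -/
def bst {ι ν S R : Type} [Ring S] [Ring R] (ω : I → F) (th : I → I → F) (cF : F →+* S)
    (v : ι → ν → F) (wS : I → ν → S) (j : S →+* R) (tl : I → R) (W : I → ν → R) :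
    St I ι ν R where
  om i := j (cF (ω i))
  th i l := j (cF (th i l))
  tl := tl
  vec k u := j (cF (v k u))
  W0 i u := j (wS i u)
  W := W

/-- injective local tuples for the cone ring -/
def IsInj {ν K : Type} [Ring K] (cK : F →+* K) (wK : I → ν → K) {R : Type} [Ring R]
    (lam : F →+* R) (W : I → ν → R) : Prop :=
  ∃ f : K →+* R, Function.Injective f ∧ (∀ c, f (cK c) = lam c) ∧ ∀ i v, f (wK i v) = W i v

/-- the cone ring -/
abbrev KK (a : I → ℕ) (th : I → I → F) (Q0 : I → MvPolynomial σ F) (w : I → σ → D) : Type :=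
  U a th (fun i => MvPolynomial.rename some (Q0 i)) w

/-- the forms of the cone ring -/
abbrev QK (Q0 : I → MvPolynomial σ F) : I → MvPolynomial (Option σ) F :=
  fun i => MvPolynomial.rename some (Q0 i)

/-- THE OUTPUT of the locality / injectivity induction, all operators treated (`y = 0`).
`E` skew field with central `τ`, `𝓛` the ring `KK((t_1))..((t_n))`. -/
structure Pkg [DecidableEq I] {ι : Type} {a : I → ℕ} {th : I → I → F} {ω : I → F} (T : TwD a th ω)
    (Q0 : I → MvPolynomial σ F) (w : I → σ → D) (v1 : ι → Option σ → F)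
    (Ls : List (Stp I ι)) where
  E : Type
  [dE : DivisionRing E]
  𝓛 : Type
  [r𝓛 : Ring 𝓛]
  j : D →+* E
  jK : KK a th Q0 w →+* 𝓛
  h : E →+* 𝓛
  τ : I → E
  lam' : F →+* E
  hτ : ∀ l x, Commute (τ l) x
  hF : ∀ c x, Commute (j (algebraMap F D c)) x
  hlam : ∀ c x, Commute (lam' c) x
  hτ' : ∀ l x, Commute (h (τ l)) x
  hF' : ∀ c x, Commute (jK (iL a th (QK Q0) w c)) x
  hlam' : ∀ c x, Commute (h (lam' c)) x
  hh : ∀ d, h (j d) = jK (iD a th (QK Q0) w d)
  htw : HasTw T (j.comp (algebraMap F D)) τ lam'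
  /-- locality at `s = 0` -/
  loc : IsTuple a th Q0 ((sc a Ls).comp lam')
      (fin a Ls (bst ω th (algebraMap F D) (fun k u => v1 k (some u)) w j τ
        (fun i u => j (w i u)))).W →
    IsLoc w ((sc a Ls).comp lam')
      (fin a Ls (bst ω th (algebraMap F D) (fun k u => v1 k (some u)) w j τ
        (fun i u => j (w i u)))).W
  /-- injectivity at `y = 0` -/
  inj : IsTuple a th (QK Q0) ((sc a Ls).comp (h.comp lam'))
      (fin a Ls (bst ω th (iL a th (QK Q0) w) v1 (wU a th (QK Q0) w) jK (fun i => h (τ i))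
        (fun i u => jK (wU a th (QK Q0) w i u)))).W →
    IsInj (iL a th (QK Q0) w) (wU a th (QK Q0) w) ((sc a Ls).comp (h.comp lam'))
      (fin a Ls (bst ω th (iL a th (QK Q0) w) v1 (wU a th (QK Q0) w) jK (fun i => h (τ i))
        (fun i u => jK (wU a th (QK Q0) w i u)))).W

attribute [instance] Pkg.dE Pkg.r𝓛

end Loc

end

end Crest.Agent.R181.PO
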