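import Mathlib

/-!
R181 (helper681), (RF1): rational functions in a central variable over a division ring `D`, with
the expansions `t ↦ z + T` in Laurent series at every central element `z` of `D`.
-/

set_option autoImplicit false

namespace Crest.Agent.R181.RF

open Polynomial nonZeroDivisors

section Ore

variable {D : Type} [DivisionRing D]

theorem finrank_degreeLT (n : ℕ) : Module.finrank D (degreeLT D n) = n := by
  rw [Module.finrank_eq_card_basis (degreeLT.basis D n), Fintype.card_fin]

/-- The left Ore condition in `D[X]`. -/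
theorem exists_ore (r s : D[X]) (hs : s ≠ 0) : ∃ a b : D[X], a ≠ 0 ∧ a * r = b * s := by
  have hdeg : ∀ (m n : ℕ) (u v : D[X]), u ∈ degreeLT D (m + 1) → v.natDegree ≤ n →
      u * v ∈ degreeLT D (m + n + 1) := by
    intro m n u v hu hv
    rw [mem_degreeLT, degree_lt_iff_coeff_zero] at hu
    rw [mem_degreeLT, degree_lt_iff_coeff_zero]
    intro k hk
    rw [coeff_mul]
    refine Finset.sum_eq_zero fun x hx => ?_
    rw [Finset.HasAntidiagonal.mem_antidiagonal] at hx
    by_cases h1 : m + 1 ≤ x.1
    · rw [hu _ h1, zero_mul]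
    · rw [coeff_eq_zero_of_natDegree_lt (p := v), mul_zero]
      omega
  let p := r.natDegree
  let q := s.natDegree
  let f : (degreeLT D (q + 1) × degreeLT D (p + 1)) →ₗ[D] degreeLT D (q + p + 1) :=
    { toFun := fun x => ⟨(x.1 : D[X]) * r - (x.2 : D[X]) * s, by
        refine Submodule.sub_mem _ (hdeg q p _ _ x.1.2 le_rfl) ?_
        have := hdeg p q _ _ x.2.2 (le_refl q)
        rwa [add_comm p q] at this⟩
      map_add' := fun x y => by
        apply Subtype.ext
        show ((x.1 : D[X]) + (y.1 : D[X])) * r - ((x.2 : D[X]) + (y.2 : D[X])) * s =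
          ((x.1 : D[X]) * r - (x.2 : D[X]) * s) + ((y.1 : D[X]) * r - (y.2 : D[X]) * s)
        noncomm_ring
      map_smul' := fun c x => by
        apply Subtype.ext
        show (c • (x.1 : D[X])) * r - (c • (x.2 : D[X])) * s =
          c • ((x.1 : D[X]) * r - (x.2 : D[X]) * s)
        rw [smul_mul_assoc, smul_mul_assoc, smul_sub] }
  have hker : LinearMap.ker f ≠ ⊥ := by
    apply LinearMap.ker_ne_bot_of_finrank_lt
    rw [Module.finrank_prod, finrank_degreeLT, finrank_degreeLT, finrank_degreeLT]
    omega
  obtain ⟨x, hx, hx0⟩ := Submodule.exists_mem_ne_zero_of_ne_bot hker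
  have h1 : (x.1 : D[X]) * r - (x.2 : D[X]) * s = 0 := congrArg Subtype.val (LinearMap.mem_ker.1 hx)
  refine ⟨x.1, x.2, ?_, sub_eq_zero.1 h1⟩
  intro h0
  rw [h0, zero_mul, zero_sub, neg_eq_zero] at h1
  rcases mul_eq_zero.1 h1 with h2 | h2
  · exact hx0 (Prod.ext (Subtype.ext h0) (Subtype.ext h2))
  · exact hs h2

/-- the Ore set of nonzero polynomials -/
theorem nonempty_oreSet : Nonempty (OreLocalization.OreSet (D[X]⁰)) := by
  rw [OreLocalization.nonempty_oreSet_iff_of_noZeroDivisors]
  intro r s
  obtain ⟨a, b, ha, hab⟩ := exists_ore r (s : D[X]) (nonZeroDivisors.ne_zero s.2)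
  exact ⟨b, ⟨a, mem_nonZeroDivisors_of_ne_zero ha⟩, hab⟩

end Ore

section Laurent

variable {D : Type} [DivisionRing D]

/-- nonzero Laurent series over a division ring are units -/
theorem isUnit_laurent (f : LaurentSeries D) (hf : f ≠ 0) : IsUnit f := by
  have h1 := LaurentSeries.single_order_mul_powerSeriesPart f
  have hc : PowerSeries.constantCoeff (LaurentSeries.powerSeriesPart f) ≠ 0 := by
    rw [← PowerSeries.coeff_zero_eq_constantCoeff_apply, LaurentSeries.powerSeriesPart_coeff]
    simpa using fun h => hf (HahnSeries.coeff_order_eq_zero.1 h)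
  let u : Dˣ := Units.mk0 _ hc
  have h2 := PowerSeries.mul_invOfUnit (LaurentSeries.powerSeriesPart f) u rfl
  have h3 := PowerSeries.invOfUnit_mul (LaurentSeries.powerSeriesPart f) u rfl
  have e1 : IsUnit (HahnSeries.ofPowerSeries ℤ D (LaurentSeries.powerSeriesPart f)) :=
    IsUnit.map (HahnSeries.ofPowerSeries ℤ D) ⟨⟨_, _, h2, h3⟩, rfl⟩
  have e2 : IsUnit (HahnSeries.single f.order (1 : D)) := by
    refine ⟨⟨HahnSeries.single f.order 1, HahnSeries.single (-f.order) 1, ?_, ?_⟩, rfl⟩
    · rw [HahnSeries.single_mul_single, add_neg_cancel, mul_one]; rfl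
    · rw [HahnSeries.single_mul_single, neg_add_cancel, mul_one]; rfl
  rw [← h1]
  exact e2.mul e1

/-- the embedding of polynomials in power series -/
noncomputable def toPS (D : Type) [DivisionRing D] : D[X] →+* PowerSeries D where
  toFun p := (p : PowerSeries D)
  map_zero' := Polynomial.coe_zero
  map_one' := Polynomial.coe_one
  map_add' := Polynomial.coe_add
  map_mul' := Polynomial.coe_mul

theorem toPS_injective : Function.Injective (toPS D) := by
  intro p q h
  ext n
  have := congrArg (PowerSeries.coeff n) h
  simpa [toPS] using this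

theorem toPS_C (d : D) : toPS D (C d) = PowerSeries.C d := Polynomial.coe_C d

theorem toPS_X : toPS D X = PowerSeries.X := Polynomial.coe_X

/-- the translation `X ↦ X + z`, `z` central -/
noncomputable def tr (z : D) (hz : ∀ x, Commute z x) : D[X] →+* D[X] :=
  eval₂RingHom' C (X + C z) (fun d => by
    refine ((Polynomial.commute_X (C d)).symm).add_right ?_
    show C d * C z = C z * C d
    rw [← C_mul, ← C_mul, (hz d).eq])

theorem tr_C (z : D) (hz : ∀ x, Commute z x) (d : D) : tr z hz (C d) = C d := by
  simp [tr]

theorem tr_X (z : D) (hz : ∀ x, Commute z x) : tr z hz X = X + C z := by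
  simp [tr]

theorem tr_injective (z : D) (hz : ∀ x, Commute z x) : Function.Injective (tr z hz) := by
  have hz' : ∀ x, Commute (-z) x := fun x => (hz x).neg_left
  have h : (tr (-z) hz').comp (tr z hz) = RingHom.id _ := by
    apply Polynomial.ringHom_ext
    · intro a; rw [RingHom.comp_apply, tr_C, tr_C]; rfl
    · rw [RingHom.comp_apply, tr_X, map_add, tr_X, tr_C, C_neg, neg_add_cancel_right]; rfl
  intro p q hpq
  have h1 := RingHom.congr_fun h p
  have h2 := RingHom.congr_fun h q
  rw [RingHom.comp_apply] at h1 h2
  rw [hpq, h2] at h1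
  exact h1.symm

/-- the expansion of polynomials at `z` -/
noncomputable def expand (z : D) (hz : ∀ x, Commute z x) : D[X] →+* LaurentSeries D :=
  (HahnSeries.ofPowerSeries ℤ D).comp ((toPS D).comp (tr z hz))

theorem expand_injective (z : D) (hz : ∀ x, Commute z x) : Function.Injective (expand z hz) :=
  HahnSeries.ofPowerSeries_injective.comp (toPS_injective.comp (tr_injective z hz))

theorem expand_C (z : D) (hz : ∀ x, Commute z x) (d : D) : expand z hz (C d) = HahnSeries.C d := by
  rw [expand, RingHom.comp_apply, RingHom.comp_apply, tr_C, toPS_C, HahnSeries.ofPowerSeries_C]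

theorem expand_X (z : D) (hz : ∀ x, Commute z x) :
    expand z hz X = HahnSeries.C z + HahnSeries.single 1 1 := by
  rw [expand, RingHom.comp_apply, RingHom.comp_apply, tr_X, map_add, toPS_C, toPS_X, map_add,
    HahnSeries.ofPowerSeries_C, HahnSeries.ofPowerSeries_X, add_comm]

end Laurent

/-- **(RF1)** rational functions in a central variable over a division ring -/
theorem exists_ratfun (D : Type) [DivisionRing D] :
    ∃ (E : Type) (_ : DivisionRing E) (j : D →+* E) (t : E), (∀ x, Commute t x) ∧
      ∀ z : D, (∀ x, Commute z x) → ∃ L : E →+* LaurentSeries D,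
        (∀ d, L (j d) = HahnSeries.C d) ∧ L t = HahnSeries.C z + HahnSeries.single 1 1 := by
  obtain ⟨hO⟩ := nonempty_oreSet (D := D)
  let N : D[X] →+* OreLocalization (D[X]⁰) (D[X]) := OreLocalization.numeratorRingHom
  have hN : ∀ r, N r = r /ₒ (1 : D[X]⁰) := fun r => OreLocalization.numeratorHom_apply
  refine ⟨OreLocalization (D[X]⁰) (D[X]), inferInstance, N.comp C, N X, ?_, ?_⟩
  · intro x
    induction x using OreLocalization.ind with
    | _ r s =>
      have h1 : ∀ r, Commute (N X) (N r) := fun r => (Polynomial.commute_X r).map N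
      have h2 : N (s : D[X]) * (r /ₒ s) = N r := by
        rw [hN, hN]
        exact OreLocalization.mul_cancel
      have h3 : N (s : D[X]) ≠ 0 := by
        intro h0
        have : Function.Injective N := OreLocalization.numeratorHom_inj inf_le_left
        exact nonZeroDivisors.ne_zero s.2 (this (by rw [h0, map_zero]))
      have h4 : r /ₒ s = (N (s : D[X]))⁻¹ * N r := by
        rw [← h2, inv_mul_cancel_left₀ h3]
      rw [h4]
      exact ((h1 _).inv_right₀).mul_right (h1 _)
  · intro z hz
    have hu : ∀ s : D[X]⁰, IsUnit (expand z hz s) := by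
      intro s
      apply isUnit_laurent
      intro h0
      exact nonZeroDivisors.ne_zero s.2 (expand_injective z hz (by rw [h0, map_zero]))
    let fS : D[X]⁰ →* (LaurentSeries D)ˣ :=
      IsUnit.liftRight ((expand z hz : D[X] →* LaurentSeries D).comp (D[X]⁰).subtype)
        (fun s => hu s)
    have hfS : ∀ s : D[X]⁰, expand z hz s = fS s := fun s => rfl
    refine ⟨OreLocalization.universalHom (expand z hz) fS hfS, ?_, ?_⟩
    · intro d
      exact (OreLocalization.universalHom_commutes (expand z hz) fS hfS).trans (expand_C z hz d)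
    · exact (OreLocalization.universalHom_commutes (expand z hz) fS hfS).trans (expand_X z hz)

end Crest.Agent.R181.RF
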