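import Crest.Agent.R181.UR396g
import Crest.Agent.R181.MKS659b
import Crest.Agent.R181.RF681a
import Crest.Agent.R181.RN598a

/-!
R181 (helper553), block B9: (WFG).  `Aug K`: a descending filtration of `K` with zero intersection
and a homomorphism to a skew field whose kernel is in the first step.  It is inherited by Laurent
series, holds for the graded ring `U(D, w; F, Q0)` and implies stable finiteness.
-/

set_option autoImplicit false
set_option linter.unusedSectionVars false

namespace Crest.Agent.R181.WF

open AddMonoidAlgebra Crest.Agent.R181.UR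
open scoped Polynomial

/-- augmented and separated -/
def Aug (K : Type) [Ring K] : Prop :=
  ∃ (E : Type) (_ : DivisionRing E) (f : K →+* E) (J : ℕ → AddSubgroup K),
    (∀ x, f x = 0 → x ∈ J 1) ∧ (∀ m n x y, x ∈ J m → y ∈ J n → x * y ∈ J (m + n)) ∧
    ∀ x, (∀ m, x ∈ J (m + 1)) → x = 0

section

variable {K : Type} [Ring K]

theorem Aug.nontrivial (h : Aug K) : Nontrivial K := by
  obtain ⟨E, _, f, -⟩ := h
  exact f.domain_nontrivial

theorem Aug.stablyFinite (h : Aug K) : IsStablyFiniteRing K := by
  obtain ⟨E, _, f, J, h1, h2, h3⟩ := h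
  exact MKS.stablyFinite_of_filtration f J h1 h2 h3

/-- A skew field. -/
theorem Aug.of_divisionRing (E : Type) [DivisionRing E] : Aug E := by
  refine ⟨E, inferInstance, RingHom.id E, fun m => if m = 0 then ⊤ else ⊥, ?_, ?_, ?_⟩
  · intro x hx
    simpa using hx
  · intro m n x y hx hy
    by_cases hm : m = 0
    · by_cases hn : n = 0
      · simp [hm, hn]
      · have : y = 0 := by simpa [hn] using hy
        rw [this, mul_zero]
        exact zero_mem _
    · have : x = 0 := by simpa [hm] using hx
      rw [this, zero_mul]
      exact zero_mem _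
  · intro x hx
    simpa using hx 0

/-- Laurent series over a skew field form a skew field. -/
@[instance_reducible] noncomputable def laurentDR (E : Type) [DivisionRing E] : DivisionRing (LaurentSeries E) :=
  DivisionRing.ofIsUnitOrEqZero fun f => by
    by_cases hf : f = 0
    · exact Or.inr hf
    · exact Or.inl (RF.isUnit_laurent f hf)

end

section laurent

variable {K E : Type} [Ring K] [Ring E]

/-- change of coefficients of Laurent series -/
noncomputable def lmap (f : K →+* E) : LaurentSeries K →+* LaurentSeries E where
  toFun x := HahnSeries.map x f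
  map_zero' := by
    apply HahnSeries.ext; funext n
    rw [HahnSeries.map_coeff, HahnSeries.coeff_zero, HahnSeries.coeff_zero, map_zero]
  map_one' := by
    apply HahnSeries.ext; funext n
    rw [HahnSeries.map_coeff, HahnSeries.coeff_one, HahnSeries.coeff_one]
    split_ifs
    · exact map_one f
    · exact map_zero f
  map_add' x y := by
    apply HahnSeries.ext; funext n
    rw [HahnSeries.map_coeff, HahnSeries.coeff_add, HahnSeries.coeff_add, HahnSeries.map_coeff,
      HahnSeries.map_coeff, map_add]
  map_mul' x y := HahnSeries.map_mul (f : K →ₙ+* E)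

@[simp] theorem lmap_coeff (f : K →+* E) (x : LaurentSeries K) (n : ℤ) :
    (lmap f x).coeff n = f (x.coeff n) := rfl

@[simp] theorem lmap_C (f : K →+* E) (x : K) :
    lmap f (HahnSeries.C x) = HahnSeries.C (f x) := by
  apply HahnSeries.ext; funext n
  rw [lmap_coeff, HahnSeries.C_apply, HahnSeries.C_apply, HahnSeries.coeff_single,
    HahnSeries.coeff_single]
  split_ifs
  · rfl
  · exact map_zero f

@[simp] theorem lmap_single (f : K →+* E) (m : ℤ) (x : K) :
    lmap f (HahnSeries.single m x) = HahnSeries.single m (f x) := by
  apply HahnSeries.ext; funext n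
  rw [lmap_coeff, HahnSeries.coeff_single, HahnSeries.coeff_single]
  split_ifs
  · rfl
  · exact map_zero f

theorem lmap_injective (f : K →+* E) (hf : Function.Injective f) :
    Function.Injective (lmap f) := by
  intro x y h
  apply HahnSeries.ext; funext n
  apply hf
  rw [← lmap_coeff, h, lmap_coeff]

/-- Laurent series -/
theorem Aug.laurent (h : Aug K) : Aug (LaurentSeries K) := by
  obtain ⟨E, _, f, J, h1, h2, h3⟩ := h
  refine ⟨LaurentSeries E, laurentDR E, lmap f, fun m =>
    { carrier := {x | ∀ n, x.coeff n ∈ J m}
      zero_mem' := fun n => by rw [HahnSeries.coeff_zero]; exact zero_mem _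
      add_mem' := fun {x y} hx hy n => by
        rw [HahnSeries.coeff_add]; exact add_mem (hx n) (hy n)
      neg_mem' := fun {x} hx n => by rw [HahnSeries.coeff_neg]; exact neg_mem (hx n) }, ?_, ?_, ?_⟩
  · intro x hx n
    apply h1
    have := congrArg (fun z : LaurentSeries E => z.coeff n) hx
    simpa using this
  · intro m n x y hx hy k
    rw [HahnSeries.coeff_mul]
    exact sum_mem fun ij _ => h2 m n _ _ (hx _) (hy _)
  · intro x hx
    apply HahnSeries.ext; funext n
    rw [HahnSeries.coeff_zero]
    exact h3 _ fun m => hx m n

end laurent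

section Ur

variable {F D I σ : Type} [CommRing F] [DivisionRing D] [Algebra F D] [Fintype I] [Fintype σ]
  (a : I → ℕ) (th : I → I → F) (q : I → MvPolynomial σ F) (w : I → σ → D)

/-- the forms without the new variable -/
noncomputable abbrev rq (i : I) : MvPolynomial (Option σ) F := MvPolynomial.rename some (q i)

theorem hmg_rq [DecidableEq σ] : Hmg (F := F) (rq q) (Polynomial.C : F →+* F[X]) where
  toGr := gr_C
  base _ := rfl
  Q_eq i := by
    have h : (mp (Option σ) (Polynomial.C : F →+* F[X]) :
        MvPolynomial (Option σ) F →+* MvPolynomial (Option σ) F[X]).comp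
        (MvPolynomial.rename (some : σ → Option σ) : MvPolynomial σ F →ₐ[F] _).toRingHom =
        (subL Polynomial.C (Xz Polynomial.X)).comp
          (MvPolynomial.rename (some : σ → Option σ) : MvPolynomial σ F →ₐ[F] _).toRingHom := by
      apply MvPolynomial.ringHom_ext
      · intro c
        rw [RingHom.comp_apply, RingHom.comp_apply]
        show mp (Option σ) _ (MvPolynomial.rename some (MvPolynomial.C c)) =
          subL _ _ (MvPolynomial.rename some (MvPolynomial.C c))
        rw [MvPolynomial.rename_C, subL_C]
        exact mp_C (Polynomial.C : F →+* F[X]) c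
      · intro v
        rw [RingHom.comp_apply, RingHom.comp_apply]
        show mp (Option σ) (Polynomial.C : F →+* F[X])
            (MvPolynomial.rename (some : σ → Option σ) (MvPolynomial.X v : MvPolynomial σ F)) =
          subL _ _ (MvPolynomial.rename some (MvPolynomial.X v))
        rw [MvPolynomial.rename_X, subL_X, Fintype.sum_option]
        refine (mp_X (Polynomial.C : F →+* F[X]) (some v)).trans ?_
        simp [Xz, var, apply_ite]
        rfl
    exact RingHom.congr_fun h (q i)

variable {q w} in
/-- `(w, 0)` is a tuple. -/
theorem isTuple_zero (hw : IsTuple a th q (algebraMap F D) w) :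
    IsTuple a th (rq q) (algebraMap F D) (ext' w (fun _ => 0)) := by
  classical
  have h1 := hw.subst (RingHom.id D) (RingHom.id F) (algebraMap F D) (algebraMap F D)
    (fun x y => Algebra.commutes x y) (fun (v : σ) (v' : Option σ) => if v' = some v then 1 else 0)
    (by ext x; rfl) (fun c => rfl)
  have hQ : (fun i => subL (RingHom.id F)
      (fun (v : σ) (v' : Option σ) => if v' = some v then (1 : F) else 0) (q i)) = rq q := by
    funext i
    have h : subL (RingHom.id F)
        (fun (v : σ) (v' : Option σ) => if v' = some v then (1 : F) else 0) =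
        (MvPolynomial.rename (some : σ → Option σ) : MvPolynomial σ F →ₐ[F] _).toRingHom := by
      apply MvPolynomial.ringHom_ext
      · intro c
        rw [subL_C]
        exact (MvPolynomial.rename_C some c).symm
      · intro v
        rw [subL_X, Fintype.sum_option]
        show _ = MvPolynomial.rename some (MvPolynomial.X v)
        rw [MvPolynomial.rename_X]
        simp
    exact RingHom.congr_fun h (q i)
  rw [hQ] at h1
  have e : (fun i v' => ∑ v, (RingHom.id D) (w i v) *
      algebraMap F D (if v' = some v then (1 : F) else 0)) = ext' w (fun _ => 0) := by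
    funext i v'
    rcases v' with _ | v'
    · simp
    · simp [apply_ite]
  rw [e] at h1
  exact h1

variable {q w} in
/-- The augmentation `K → D`. -/
theorem exists_augU (hw : IsTuple a th q (algebraMap F D) w) :
    ∃ f : U a th (rq q) w →+* D, (∀ d, f (iD a th (rq q) w d) = d) ∧
      (∀ x, f (iL a th (rq q) w x) = algebraMap F D x) ∧ ∀ i, f (eta a th (rq q) w i) = 0 :=
  exists_lift (a := a) (th := th) (Q := rq q) (w := w) (RingHom.id D) (algebraMap F D)
    (fun _ => 0) (fun _ => rfl) (fun x d => Algebra.commutes x d)
    (fun _ _ => Commute.zero_right _) (isTuple_zero a th hw)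

variable {q w} in
/-- (WFG) -/
theorem Aug.U (hw : IsTuple a th q (algebraMap F D) w) :
    Aug (UR.U a th (fun i => MvPolynomial.rename some (q i)) w) := by
  classical
  obtain ⟨f, hD, hL, hη⟩ := exists_augU a th hw
  let Δ := coact a th w (hmg_rq (F := F) q)
  have hΔ : Gr Δ := gr_coact a th w (hmg_rq (F := F) q)
  have h0 : (Polynomial.constantCoeff (R := UR.U a th (rq q) w)).comp Δ =
      (iD a th (rq q) w).comp f := by
    apply hom_ext'
    · intro d
      rw [RingHom.comp_apply, RingHom.comp_apply, hD, coact_iD]
      exact Polynomial.coeff_C_zero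
    · intro x
      rw [RingHom.comp_apply, RingHom.comp_apply, hL, coact_iL, iD_base, Polynomial.map_C]
      exact Polynomial.coeff_C_zero
    · intro i
      rw [RingHom.comp_apply, RingHom.comp_apply, hη, coact_eta, map_zero,
        Polynomial.constantCoeff_apply, Polynomial.coeff_monomial, if_neg one_ne_zero]
  refine ⟨D, inferInstance, f, fun m =>
    { carrier := {x | ∀ n, n < m → (Δ x).coeff n = 0}
      zero_mem' := fun n _ => by rw [map_zero, Polynomial.coeff_zero]
      add_mem' := fun {x y} hx hy n hn => by
        rw [map_add, Polynomial.coeff_add, hx n hn, hy n hn, add_zero]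
      neg_mem' := fun {x} hx n hn => by
        rw [map_neg, Polynomial.coeff_neg, hx n hn, neg_zero] }, ?_, ?_, ?_⟩
  · intro x hx n hn
    have hn0 : n = 0 := by omega
    have h2 := RingHom.congr_fun h0 x
    rw [RingHom.comp_apply, RingHom.comp_apply, hx, map_zero, Polynomial.constantCoeff_apply] at h2
    rw [hn0]
    exact h2
  · intro m n x y hx hy k hk
    rw [map_mul, Polynomial.coeff_mul]
    refine Finset.sum_eq_zero fun ij hij => ?_
    rw [Finset.HasAntidiagonal.mem_antidiagonal] at hij
    by_cases h : ij.1 < m
    · rw [hx _ h, zero_mul]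
    · rw [hy _ (by omega), mul_zero]
  · intro x hx
    have : Δ x = 0 := by
      ext n
      rw [Polynomial.coeff_zero]
      exact hx n n (Nat.lt_succ_self n)
    rw [← hΔ.counit x, this, Polynomial.sum_zero_index]

end Ur

section Rg

/-- the ring of the run -/
theorem Rg.stablyFinite {I ι : Type} (a : I → ℕ) : ∀ (Ls : List (PO.Stp I ι)) (B : Type) [Ring B]
    [IsStablyFiniteRing B], IsStablyFiniteRing (PO.Rg a Ls B)
  | [], _, _, h => h
  | s :: Ls, B, _, _ => Rg.stablyFinite a Ls (Matrix (PO.Sz a s) (PO.Sz a s) B)

theorem Rg.nontrivial {I ι : Type} (a : I → ℕ) : ∀ (Ls : List (PO.Stp I ι)) (B : Type) [Ring B]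
    [Nontrivial B], Nontrivial (PO.Rg a Ls B)
  | [], _, _, h => h
  | s :: Ls, B, _, _ => Rg.nontrivial a Ls (Matrix (PO.Sz a s) (PO.Sz a s) B)

end Rg

end Crest.Agent.R181.WF
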