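import Crest.Agent.R181.RE459a
import Crest.Agent.R181.LC598a
import Crest.Agent.R181.WF553a
import Crest.Agent.R181.IN776b
import Crest.Agent.R181.IN776c

/-!
R181 (helper553), block B9: the top of the block PO.  From the package `P : Pkg T Q0 w v1 Ls` to
`U a th Q w` nontrivial and stably finite.
-/

set_option autoImplicit false
set_option linter.unusedSectionVars false

namespace Crest.Agent.R181.IN

open UR PO
open scoped Polynomial

noncomputable section

section state

variable {F I σ R R' : Type} [Field F] [DecidableEq σ] [Ring R] [Ring R'] (ω : I → F)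
  (th : I → I → F) (lam lam1 : F →+* R) (tl : I → R) (y : R) (W0 : I → Option σ → R)

theorem vecY_map (f : R →+* R') (k : Option σ ⊕ F) (u : Option σ) :
    f (vecY lam1 y k u) = vecY (f.comp lam1) (f y) k u := by
  rcases k with (_ | v) | c
  · simp only [vecY]; split_ifs <;> simp
  · simp only [vecY]; split_ifs <;> simp
  · simp only [vecY]; split_ifs <;> simp

theorem stY_map (f : R →+* R') : (stY ω th lam lam1 tl y W0).map f =
    stY ω th (f.comp lam) (f.comp lam1) (fun l => f (tl l)) (f y) (fun i v => f (W0 i v)) := by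
  refine St.ext rfl rfl rfl ?_ rfl rfl
  funext k u
  exact vecY_map lam1 y f k u

end state

section theta

variable {F D I σ : Type} [Field F] [DivisionRing D] [Algebra F D] [Fintype I] [DecidableEq I]
  [Fintype σ] [DecidableEq σ] {a : I → ℕ} {th : I → I → F} {ω : I → F}
  {Q : I → MvPolynomial (Option σ) F} {w : I → σ → D} {Ls : List (Stp I (Option σ ⊕ F))}

theorem LX_comm {R : Type} [Ring R] (lam1 : F →+* R) (y : R) (hy : ∀ x, Commute y x)
    (hl : ∀ c x, Commute (lam1 c) x) (p : F[X]) (x : R) : Commute (LX lam1 y hy p) x := by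
  induction p using Polynomial.induction_on with
  | C c => rw [LX_C]; exact hl c x
  | add p q hp hq => rw [map_add]; exact hp.add_left hq
  | monomial n c _ =>
    rw [map_mul, map_pow, LX_C, LX_X]
    exact (hl c x).mul_left ((hy x).pow_left _)

/-- the value theorem for the state `stY`: the final `W` is a tuple (776's `tup`) -/
def TupStmt (a : I → ℕ) (th : I → I → F) (ω : I → F) (Q : I → MvPolynomial (Option σ) F)
    (Ls : List (Stp I (Option σ ⊕ F))) {R : Type} [Ring R] (lam lam1 : F →+* R) (tl : I → R)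
    (y : R) (hy : ∀ x, Commute y x) (W0 : I → Option σ → R) : Prop :=
  IsTuple a th (QK (fun i => BM.res0 (Q i))) lam W0 →
    IsTuple a th (RE.QX Q) ((sc a Ls).comp (LX lam1 y hy)) (fin a Ls (stY ω th lam lam1 tl y W0)).W

variable {T : TwD a th ω}

/-- the state over `E` -/
abbrev SE (w : I → σ → D) (ω : I → F) (th : I → I → F) {E : Type} [Ring E] (j : D →+* E) (τ : I → E) : St I (Option σ ⊕ F) σ E :=
  bst ω th (algebraMap F D) (fun k u => v1 k (some u)) w j τ (fun i u => j (w i u))

theorem v1_some {R : Type} [Ring R] (lam lam1 : F →+* R) (y : R) (k : Option σ ⊕ F) (u : σ) :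
    lam (v1 k (some u)) = vecY lam1 y k (some u) := by
  rcases k with (_ | v) | c
  · simp [vecY, v1]
  · simp only [vecY, v1]
    split_ifs <;> simp
  · simp [vecY, v1]

theorem SE_map {E R : Type} [Ring E] [Ring R] (j : D →+* E) (τ : I → E) (e : E →+* R)
    (lam1 : F →+* R) (y : R) (W0 : I → Option σ → R) (hW0 : ∀ i v, W0 i (some v) = e (j (w i v))) :
    (SE w ω th j τ).map e =
      (stY ω th (e.comp (j.comp (algebraMap F D))) lam1 (fun l => e (τ l)) y W0).pull some := by
  refine St.ext rfl rfl rfl ?_ ?_ ?_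
  · funext k u
    exact v1_some (e.comp (j.comp (algebraMap F D))) lam1 y k u
  · funext i v
    exact (hW0 i v).symm
  · funext i v
    exact (hW0 i v).symm

/-- The hom `TX → Rg a Ls R`. -/
theorem exists_theta {E R : Type} [Ring E] [Ring R] (j : D →+* E) (τ : I → E) (lam' : F →+* E)
    (fE : D →+* Rg a Ls E) (hfF : ∀ c, fE (algebraMap F D c) = sc a Ls (lam' c))
    (hfw : ∀ i v, fE (w i v) = (fin a Ls (SE w ω th j τ)).W i v)
    (e : E →+* R) (y : R) (hy : ∀ x, Commute y x) (hlam' : ∀ c x, Commute (e (lam' c)) x)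
    (W0 : I → Option σ → R) (hW0 : ∀ i v, W0 i (some v) = e (j (w i v)))
    (htup : IsTuple a th (RE.QX Q) ((sc a Ls).comp (LX (e.comp lam') y hy))
      (fin a Ls (stY ω th (e.comp (j.comp (algebraMap F D))) (e.comp lam') (fun l => e (τ l)) y
        W0)).W) :
    ∃ θ : RE.TX a th Q w →+* Rg a Ls R,
      (∀ d, θ (iD a th (RE.QX Q) w d) = Rg.map a Ls e (fE d)) ∧
      (∀ x, θ (iL a th (RE.QX Q) w x) = sc a Ls (LX (e.comp lam') y hy x)) ∧
      ∀ i, θ (eta a th (RE.QX Q) w i) =
        (fin a Ls (stY ω th (e.comp (j.comp (algebraMap F D))) (e.comp lam') (fun l => e (τ l)) y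
          W0)).W i none := by
  have hc : ∀ (x : F[X]) (z : Rg a Ls R), Commute (sc a Ls (LX (e.comp lam') y hy x)) z :=
    fun x z => sc_comm a Ls _ (LX_comm (e.comp lam') y hy hlam' x) z
  have hW : ∀ i v, Rg.map a Ls e (fE (w i v)) =
      (fin a Ls (stY ω th (e.comp (j.comp (algebraMap F D))) (e.comp lam') (fun l => e (τ l)) y
        W0)).W i (some v) := by
    intro i v
    rw [hfw]
    have h1 := fin_map a Ls e (SE w ω th j τ)
    rw [SE_map j τ e (e.comp lam') y W0 hW0, fin_pull] at h1
    exact (congrArg (fun S : St I (Option σ ⊕ F) σ (Rg a Ls R) => S.W i v) h1).symm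
  refine exists_lift (a := a) (th := th) (Q := RE.QX Q) (w := w)
    ((Rg.map a Ls e).comp fE) ((sc a Ls).comp (LX (e.comp lam') y hy))
    (fun i => (fin a Ls (stY ω th (e.comp (j.comp (algebraMap F D))) (e.comp lam')
      (fun l => e (τ l)) y W0)).W i none) ?_ (fun x d => hc x _) (fun x i => hc x _) ?_
  · intro c
    rw [RingHom.comp_apply, hfF, Rg.map_sc, RingHom.comp_apply]
    show _ = sc a Ls (LX (e.comp lam') y hy (Polynomial.C c))
    rw [LX_C]
    rfl
  · have e1 : (ext' (fun i v => ((Rg.map a Ls e).comp fE) (w i v))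
        (fun i => (fin a Ls (stY ω th (e.comp (j.comp (algebraMap F D))) (e.comp lam')
          (fun l => e (τ l)) y W0)).W i none)) = (fin a Ls (stY ω th
            (e.comp (j.comp (algebraMap F D))) (e.comp lam') (fun l => e (τ l)) y W0)).W := by
      funext i v
      rcases v with _ | v
      · rfl
      · exact hW i v
    rw [e1]
    exact htup

end theta

section top

variable {F D I σ : Type} [Field F] [DivisionRing D] [Algebra F D] [Fintype I] [DecidableEq I]
  [Fintype σ] [DecidableEq σ] {a : I → ℕ} {th : I → I → F} {ω : I → F}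
  {Q : I → MvPolynomial (Option σ) F} {w : I → σ → D} {Ls : List (Stp I (Option σ ⊕ F))}
  {T : TwD a th ω} 

/-- the forms at `s = 0` -/
abbrev q0 (Q : I → MvPolynomial (Option σ) F) : I → MvPolynomial σ F := fun i => BM.res0 (Q i)

theorem PowerSeries_X_regular {R : Type} [Ring R] (z : PowerSeries R)
    (h : PowerSeries.X * z = 0) : z = 0 := by
  ext n
  have := congrArg (PowerSeries.coeff (n + 1)) h
  simpa using this

theorem PowerSeries_X_comm {R : Type} [Ring R] (z : PowerSeries R) :
    Commute (PowerSeries.X : PowerSeries R) z := PowerSeries.X_mul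

theorem PowerSeries_C_comm {R : Type} [Ring R] (c : R) (hc : ∀ x, Commute c x)
    (z : PowerSeries R) : Commute (PowerSeries.C c) z := by
  ext n
  rw [PowerSeries.coeff_C_mul, PowerSeries.coeff_mul_C]
  exact (hc _).eq

theorem ofPS_injective {R : Type} [Ring R] :
    Function.Injective (HahnSeries.ofPowerSeries ℤ R) := HahnSeries.ofPowerSeries_injective

/-- **the top** -/
theorem top (P : Pkg T (q0 Q) w v1 Ls) (hLoc : LocHyp T (q0 Q) w)
    (hE : IsTuple a th (q0 Q) ((sc a Ls).comp P.lam')
      (fin a Ls (bst ω th (algebraMap F D) (fun k u => v1 k (some u)) w P.j P.τ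
        (fun i u => P.j (w i u)))).W)
    (hK : IsTuple a th (QK (q0 Q)) ((sc a Ls).comp (P.h.comp P.lam'))
      (fin a Ls (bst ω th (iL a th (QK (q0 Q)) w) v1 (wU a th (QK (q0 Q)) w) P.jK
        (fun i => P.h (P.τ i)) (fun i u => P.jK (wU a th (QK (q0 Q)) w i u)))).W)
    (hT : ∀ {R : Type} [Ring R] (lam lam1 : F →+* R) (tl : I → R) (y : R)
      (hy : ∀ x, Commute y x) (W0 : I → Option σ → R), (∀ c x, Commute (lam c) x) →
      (∀ c x, Commute (lam1 c) x) → (∀ l x, Commute (tl l) x) → HasTw T lam tl lam1 →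
      TupStmt a th ω Q Ls lam lam1 tl y hy W0)
    {C0 : Type} [Ring C0] (hAug : WF.Aug C0) (g : P.E →+* C0) (η0 : I → C0) (y : C0)
    (Ψ : C0 →+* LaurentSeries P.𝓛) (hyu : IsUnit y) (hy : ∀ x, Commute y x)
    (hg : ∀ z : P.E, (∀ x, Commute z x) →
      (∀ i, Commute (P.h z) (P.jK (eta a th (QK (q0 Q)) w i))) → ∀ x, Commute (g z) x)
    (htup : IsTuple a th (QK (q0 Q)) (g.comp (P.j.comp (algebraMap F D)))
      (ext' (fun i v => g (P.j (w i v))) η0))
    (hΨg : ∀ e, Ψ (g e) = HahnSeries.C (P.h e)) (hΨy : Ψ y = HahnSeries.single 1 1)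
    (hΨη : ∀ i, Ψ (η0 i) = HahnSeries.C (P.jK (eta a th (QK (q0 Q)) w i))) :
    Nontrivial (U a th Q w) ∧ IsStablyFiniteRing (U a th Q w) := by
  obtain ⟨fE, hfF, hfw⟩ := P.loc hE
  obtain ⟨fK, hfK, hKF, hKw⟩ := P.inj hK
  have hlamc : ∀ c, P.h (P.j (algebraMap F D c)) = P.jK (iL a th (QK (q0 Q)) w c) := by
    intro c
    rw [P.hh, iD_base]
    rfl
  -- centrality in `C0`
  have hgF : ∀ c x, Commute (g (P.j (algebraMap F D c))) x := fun c =>
    hg _ (P.hF c) (fun i => by rw [hlamc]; exact P.hF' c _)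
  have hglam : ∀ c x, Commute (g (P.lam' c)) x := fun c =>
    hg _ (P.hlam c) (fun i => P.hlam' c _)
  have hgτ : ∀ l x, Commute (g (P.τ l)) x := fun l => hg _ (P.hτ l) (fun i => P.hτ' l _)
  -- `θ`
  have htw0 : HasTw T (g.comp (P.j.comp (algebraMap F D))) (fun l => g (P.τ l))
      (g.comp P.lam') := by
    obtain ⟨c, h1, h2, h3⟩ := P.htw
    exact ⟨g.comp c, fun x => congrArg g (h1 x), fun l => congrArg g (h2 l),
      fun x => congrArg g (h3 x)⟩
  obtain ⟨θ, hθD, hθL, hθη⟩ := exists_theta (a := a) (Q := Q) (w := w) P.j P.τ P.lam'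
    fE hfF hfw g y hy hglam (ext' (fun i v => g (P.j (w i v))) η0) (fun i v => rfl)
    (hT _ _ _ y hy _ hgF hglam hgτ htw0 htup)
  -- `θ1`
  let e1 : P.E →+* PowerSeries P.𝓛 := PowerSeries.C.comp P.h
  have he1F : ∀ c x, Commute (e1 (P.j (algebraMap F D c))) x := fun c x => by
    refine PowerSeries_C_comm _ (fun z => ?_) x
    rw [hlamc]
    exact P.hF' c z
  have he1lam : ∀ c x, Commute (e1 (P.lam' c)) x := fun c x =>
    PowerSeries_C_comm _ (fun z => P.hlam' c z) x
  have he1τ : ∀ l x, Commute (e1 (P.τ l)) x := fun l x =>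
    PowerSeries_C_comm _ (fun z => P.hτ' l z) x
  have htw1 : HasTw T (e1.comp (P.j.comp (algebraMap F D))) (fun l => e1 (P.τ l))
      (e1.comp P.lam') := by
    obtain ⟨c, h1, h2, h3⟩ := P.htw
    exact ⟨e1.comp c, fun x => congrArg e1 (h1 x), fun l => congrArg e1 (h2 l),
      fun x => congrArg e1 (h3 x)⟩
  let W1 : I → Option σ → PowerSeries P.𝓛 := fun i u =>
    PowerSeries.C (P.jK (wU a th (QK (q0 Q)) w i u))
  have hW1 : ∀ i v, W1 i (some v) = e1 (P.j (w i v)) := by
    intro i v
    show PowerSeries.C (P.jK (iD a th (QK (q0 Q)) w (w i v))) =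
      PowerSeries.C (P.h (P.j (w i v)))
    rw [P.hh]
  have htup1 : IsTuple a th (QK (q0 Q)) (e1.comp (P.j.comp (algebraMap F D))) W1 := by
    have h1 := (isTuple_wU a th (QK (q0 Q)) w).map
      ((PowerSeries.C : P.𝓛 →+* PowerSeries P.𝓛).comp P.jK)
    have h2 : ((PowerSeries.C : P.𝓛 →+* PowerSeries P.𝓛).comp P.jK).comp
        (iL a th (QK (q0 Q)) w) = e1.comp (P.j.comp (algebraMap F D)) := by
      refine RingHom.ext fun c => ?_
      show PowerSeries.C (P.jK (iL a th (QK (q0 Q)) w c)) =
        PowerSeries.C (P.h (P.j (algebraMap F D c)))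
      rw [hlamc]
    rw [h2] at h1
    exact h1
  obtain ⟨θ1, hθ1D, hθ1L, hθ1η⟩ := exists_theta (a := a) (Q := Q) (w := w) P.j P.τ
    P.lam' fE hfF hfw e1 PowerSeries.X PowerSeries_X_comm he1lam W1 hW1
    (hT _ _ _ PowerSeries.X PowerSeries_X_comm _ he1F he1lam he1τ htw1 htup1)
  -- `θ r = 0 → θ1 r = 0`
  let oP : PowerSeries P.𝓛 →+* LaurentSeries P.𝓛 := HahnSeries.ofPowerSeries ℤ P.𝓛
  have hΨe : Ψ.comp g = oP.comp e1 := RingHom.ext fun e => by
    show Ψ (g e) = HahnSeries.ofPowerSeries ℤ P.𝓛 (PowerSeries.C (P.h e))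
    rw [hΨg, HahnSeries.ofPowerSeries_C]
  have hsq : (Rg.map a Ls Ψ).comp θ = (Rg.map a Ls oP).comp θ1 := by
    apply hom_ext' a th (RE.QX Q) w
    · intro d
      rw [RingHom.comp_apply, RingHom.comp_apply, hθD, hθ1D, ← RingHom.comp_apply,
        ← RingHom.comp_apply (Rg.map a Ls oP), Rg.map_comp, Rg.map_comp, hΨe]
    · intro x
      rw [RingHom.comp_apply, RingHom.comp_apply, hθL, hθ1L, Rg.map_sc, Rg.map_sc]
      congr 1
      have h3 : Ψ.comp (LX (g.comp P.lam') y hy) =
          oP.comp (LX (e1.comp P.lam') PowerSeries.X PowerSeries_X_comm) := by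
        apply Polynomial.ringHom_ext
        · intro c
          rw [RingHom.comp_apply, RingHom.comp_apply, LX_C, LX_C]
          exact RingHom.congr_fun hΨe (P.lam' c)
        · rw [RingHom.comp_apply, RingHom.comp_apply, LX_X, LX_X, hΨy]
          exact (HahnSeries.ofPowerSeries_X).symm
      exact RingHom.congr_fun h3 x
    · intro i
      rw [RingHom.comp_apply, RingHom.comp_apply, hθη, hθ1η]
      have h4 := fin_map a Ls Ψ (stY ω th (g.comp (P.j.comp (algebraMap F D))) (g.comp P.lam')
        (fun l => g (P.τ l)) y (ext' (fun i v => g (P.j (w i v))) η0))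
      have h5 := fin_map a Ls oP (stY ω th (e1.comp (P.j.comp (algebraMap F D)))
        (e1.comp P.lam') (fun l => e1 (P.τ l)) PowerSeries.X W1)
      have h6 : (stY ω th (g.comp (P.j.comp (algebraMap F D))) (g.comp P.lam')
          (fun l => g (P.τ l)) y (ext' (fun i v => g (P.j (w i v))) η0)).map Ψ =
          (stY ω th (e1.comp (P.j.comp (algebraMap F D)))
          (e1.comp P.lam') (fun l => e1 (P.τ l)) PowerSeries.X W1).map oP := by
        rw [stY_map, stY_map, ← RingHom.comp_assoc, ← RingHom.comp_assoc, ← RingHom.comp_assoc,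
          ← RingHom.comp_assoc, hΨe, RingHom.comp_assoc, RingHom.comp_assoc]
        congr 1
        · funext l
          exact RingHom.congr_fun hΨe (P.τ l)
        · rw [hΨy]
          exact (HahnSeries.ofPowerSeries_X).symm
        · funext i v
          rcases v with _ | v
          · show Ψ (η0 i) = HahnSeries.ofPowerSeries ℤ P.𝓛 (PowerSeries.C
              (P.jK (eta a th (QK (q0 Q)) w i)))
            rw [hΨη, HahnSeries.ofPowerSeries_C]
          · rw [hW1]
            exact RingHom.congr_fun hΨe (P.j (w i v))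
      rw [h6, h5] at h4
      exact (congrArg (fun S : St I (Option σ ⊕ F) (Option σ) (Rg a Ls (LaurentSeries P.𝓛)) =>
        S.W i none) h4).symm
  have h01 : ∀ r, θ r = 0 → θ1 r = 0 := by
    intro r hr
    apply Rg.map_injective a Ls oP ofPS_injective
    rw [map_zero, ← RingHom.comp_apply, ← hsq, RingHom.comp_apply, hr, map_zero]
  -- reduction
  let cc : PowerSeries P.𝓛 →+* P.𝓛 := PowerSeries.constantCoeff
  let SI : St I (Option σ ⊕ F) (Option σ) P.𝓛 := bst ω th (iL a th (QK (q0 Q)) w) v1
    (wU a th (QK (q0 Q)) w) P.jK (fun i => P.h (P.τ i))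
    (fun i u => P.jK (wU a th (QK (q0 Q)) w i u))
  have hSE : (SE w ω th P.j P.τ).map P.h = SI.pull some := by
    refine St.ext ?_ ?_ rfl ?_ ?_ ?_
    · funext i; exact hlamc _
    · funext i l; exact hlamc _
    · funext k u; exact hlamc _
    · funext i u; exact P.hh _
    · funext i u; exact P.hh _
  have hSI : (stY ω th (e1.comp (P.j.comp (algebraMap F D))) (e1.comp P.lam')
      (fun l => e1 (P.τ l)) PowerSeries.X W1).map cc = SI := by
    have hcce : ∀ e, cc (e1 e) = P.h e := fun e => PowerSeries.constantCoeff_C (P.h e)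
    rw [stY_map]
    refine St.ext ?_ ?_ ?_ ?_ ?_ ?_
    · funext i; exact (hcce _).trans (hlamc _)
    · funext i l; exact (hcce _).trans (hlamc _)
    · funext l; exact hcce _
    · funext k u
      have h7 := vecY_zero (cc.comp (e1.comp P.lam')) (P.jK.comp (iL a th (QK (q0 Q)) w)) k u
      refine Eq.trans ?_ h7
      show vecY (cc.comp (e1.comp P.lam')) (cc PowerSeries.X) k u = _
      rw [show cc PowerSeries.X = 0 from PowerSeries.constantCoeff_X]
    · funext i u
      exact PowerSeries.constantCoeff_C _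
    · funext i u
      exact PowerSeries.constantCoeff_C _
  have hfin : (fin a Ls (stY ω th (e1.comp (P.j.comp (algebraMap F D))) (e1.comp P.lam')
      (fun l => e1 (P.τ l)) PowerSeries.X W1)).map (Rg.map a Ls cc) = fin a Ls SI := by
    rw [← fin_map, hSI]
  have hred : (Rg.map a Ls cc).comp θ1 = fK.comp (RE.pi a th Q w) := by
    have hD1 : (Rg.map a Ls P.h).comp fE = fK.comp (iD a th (QK (q0 Q)) w) := by
      apply hLoc.uniq
      · intro c
        rw [RingHom.comp_apply, RingHom.comp_apply, hfF, RingHom.comp_apply, Rg.map_sc, iD_base]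
        exact (hKF c).symm
      · intro i v
        rw [RingHom.comp_apply, RingHom.comp_apply, hfw]
        have h8 := fin_map a Ls P.h (SE w ω th P.j P.τ)
        rw [hSE, fin_pull] at h8
        have h9 := congrArg (fun S : St I (Option σ ⊕ F) σ (Rg a Ls P.𝓛) => S.W i v) h8
        exact h9.symm.trans (hKw i (some v)).symm
    apply hom_ext' a th (RE.QX Q) w
    · intro d
      show Rg.map a Ls cc (θ1 (iD a th (RE.QX Q) w d)) =
        fK (RE.pi a th Q w (iD a th (RE.QX Q) w d))
      refine Eq.trans ?_ (congrArg fK (RE.pi_iD a th Q w d)).symm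
      rw [hθ1D, ← RingHom.comp_apply, Rg.map_comp]
      have h10 : cc.comp e1 = P.h := RingHom.ext fun e => PowerSeries.constantCoeff_C (P.h e)
      rw [h10]
      exact RingHom.congr_fun hD1 d
    · intro x
      show Rg.map a Ls cc (θ1 (iL a th (RE.QX Q) w x)) =
        fK (RE.pi a th Q w (iL a th (RE.QX Q) w x))
      refine Eq.trans ?_ (congrArg fK (RE.pi_iL a th Q w x)).symm
      rw [hθ1L, Rg.map_sc]
      refine Eq.trans ?_ (hKF _).symm
      show sc a Ls _ = sc a Ls _
      congr 1
      have h11 : cc.comp (LX (e1.comp P.lam') PowerSeries.X PowerSeries_X_comm) =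
          (P.h.comp P.lam').comp (Polynomial.evalRingHom 0) := by
        apply Polynomial.ringHom_ext
        · intro c
          rw [RingHom.comp_apply, RingHom.comp_apply, LX_C, Polynomial.coe_evalRingHom,
            Polynomial.eval_C]
          exact PowerSeries.constantCoeff_C _
        · rw [RingHom.comp_apply, RingHom.comp_apply, LX_X, Polynomial.coe_evalRingHom,
            Polynomial.eval_X, map_zero]
          exact PowerSeries.constantCoeff_X
      exact RingHom.congr_fun h11 x
    · intro i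
      show Rg.map a Ls cc (θ1 (eta a th (RE.QX Q) w i)) =
        fK (RE.pi a th Q w (eta a th (RE.QX Q) w i))
      refine Eq.trans ?_ (congrArg fK (RE.pi_eta a th Q w i)).symm
      rw [hθ1η]
      refine Eq.trans ?_ (hKw i none).symm
      exact congrArg (fun S : St I (Option σ ⊕ F) (Option σ) (Rg a Ls P.𝓛) => S.W i none) hfin
  have : Nontrivial C0 := hAug.nontrivial
  have : IsStablyFiniteRing C0 := hAug.stablyFinite
  have : Nontrivial (Rg a Ls C0) := WF.Rg.nontrivial a Ls C0
  refine RE.rees_stablyFinite a th Q w (C := Rg a Ls C0) (WF.Rg.stablyFinite a Ls C0) θ ?_ θ1 h01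
    ?_ (Rg.map a Ls (PowerSeries.constantCoeff (R := P.𝓛))) fK hfK hred
  · rw [RE.xX, hθL, LX_X]
    exact hyu.map (sc a Ls)
  · intro c hc
    rw [RE.xX, hθ1L, LX_X] at hc
    exact sc_regular a Ls _ (fun z hz => PowerSeries_X_regular z hz) c hc

end top

end

end Crest.Agent.R181.IN
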