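import Crest.Agent.R181.IN553a

/-!
R181 (helper553), block B9: from the package of the locality / injectivity induction to
"`U a th Q w` is nontrivial and stably finite".
-/

set_option autoImplicit false
set_option linter.unusedSectionVars false

namespace Crest.Agent.R181.IN

open UR PO
open scoped Polynomial

noncomputable section

variable {F D I σ : Type} [Field F] [DivisionRing D] [Algebra F D] [DecidableEq σ] [Fintype σ]
  [Fintype I] [LinearOrder I] {a : I → ℕ} {th : I → I → F} {ω : I → F} {T : TwD a th ω}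
  {Q : I → MvPolynomial (Option σ) F} {w : I → σ → D}
  (ha : ∀ i, 1 ≤ a i) (hω : ∀ i, IsPrimitiveRoot (ω i) (a i))
  (hth : ∀ i l, ¬ i < l → th i l = 0)
  (ml : I → List (F × (ℕ → Option σ)))
  (hml : ∀ i, Q i = MvPolynomial.rename some (BM.res0 (Q i)) + BM.lsum (a i) (ml i))
  (pl : I → List I) (hpl : ∀ i, (pl i).Nodup) (hpl' : ∀ i l, l ∈ pl i ↔ i < l)
  (ops : List I) (hops : ops.Pairwise (fun x y => y < x)) (hops' : ∀ i, i ∈ ops)
  (hfix : ∀ i m, (BM.res0 (Q i)).coeff m ∈ T.fixed)
  (P : Pkg T (fun i => BM.res0 (Q i)) w v1 (steps a ml pl ops))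

include ha hω hth hml hpl hpl' hops hops' hfix P in
/-- **the lift theorem from the package** -/
theorem lift_of_pkg (hLoc : LocHyp T (fun i => BM.res0 (Q i)) w)
    (hw : IsTuple a th (fun i => BM.res0 (Q i)) (algebraMap F D) w) :
    Nontrivial (U a th Q w) ∧ IsStablyFiniteRing (U a th Q w) := by
  have hlamc : ∀ c, P.h (P.j (algebraMap F D c)) =
      P.jK (iL a th (QK fun i => BM.res0 (Q i)) w c) := by
    intro c
    rw [P.hh, iD_base]
    rfl
  have e : P.h.comp (P.j.comp (algebraMap F D)) =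
      P.jK.comp (iL a th (QK fun i => BM.res0 (Q i)) w) := RingHom.ext hlamc
  have htw : HasTw T (P.jK.comp (iL a th (QK fun i => BM.res0 (Q i)) w)) (fun i => P.h (P.τ i))
      (P.h.comp P.lam') := by
    rw [← e]
    exact P.htw.map P.h
  have hη : IsTuple a th (fun i => MvPolynomial.rename some (BM.res0 (Q i)))
      (P.h.comp (P.j.comp (algebraMap F D)))
      (ext' (fun i v => P.h (P.j (w i v)))
        (fun i => P.jK (eta a th (QK fun i => BM.res0 (Q i)) w i))) := by
    have h1 := (isTuple_wU a th (QK fun i => BM.res0 (Q i)) w).map P.jK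
    rw [← e] at h1
    have h2 : (fun i v => P.jK (wU a th (QK fun i => BM.res0 (Q i)) w i v)) =
        (ext' (fun i v => P.h (P.j (w i v)))
        (fun i => P.jK (eta a th (QK fun i => BM.res0 (Q i)) w i))) := by
      funext i v
      rcases v with _ | v
      · rfl
      · show P.jK (iD a th (QK fun i => BM.res0 (Q i)) w (w i v)) = P.h (P.j (w i v))
        rw [P.hh]
    rw [h2] at h1
    exact h1
  obtain ⟨C0, _, g, η0, y, Ψ, hAug, hyu, hy, hg, htup, hΨg, hΨy, hΨη⟩ :=
    exists_C0 a th (fun i => BM.res0 (Q i)) (P.j.comp (algebraMap F D))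
      (fun i v => P.j (w i v)) (hw.map P.j) P.h
      (fun i => P.jK (eta a th (QK fun i => BM.res0 (Q i)) w i)) hη
      {z | (∀ x, Commute z x) ∧
        ∀ i, Commute (P.h z) (P.jK (eta a th (QK fun i => BM.res0 (Q i)) w i))}
      (fun z hz => hz)
      (fun c => ⟨P.hF c, fun i => by
        show Commute (P.h (P.j (algebraMap F D c))) _
        rw [hlamc]; exact P.hF' c _⟩)
  refine top (Q := Q) P hLoc
    (pkg_isLoc ha hω hth ml hml pl hpl hpl' ops hops hops' hfix P hw).1
    (tuple_inj ha hω hth ml hml pl hpl hpl' ops hops hops' P.jK (P.h.comp P.lam') _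
      P.hF' P.hlam' P.hτ' htw.th_eq (fun i => htw.mp_eq _ (hfix i))) ?_ hAug g η0 y Ψ hyu hy
    (fun z h1 h2 => hg z ⟨h1, h2⟩) htup hΨg hΨy hΨη
  intro R _ lam lam1 tl y hy W0 hlam hlam1 htl htw' hW
  exact tup_LX hlam hlam1 htl hy ha hω hth htw'.th_eq (fun i => htw'.mp_eq _ (hfix i)) ml hml pl
    hpl hpl' ops hops hops' hW

end

end Crest.Agent.R181.IN
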