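import Crest.Agent.R181.LC598h

/-!
R181 (helper598), block B9: THE OUTPUT: `Nonempty (Pkg ..)`.
-/

set_option autoImplicit false
set_option linter.unusedSectionVars false
set_option linter.unusedVariables false

namespace Crest.Agent.R181.PO

open UR LOC

noncomputable section

variable {F D I σ ι : Type} [Field F] [DivisionRing D] [Algebra F D] [Fintype I] [Fintype σ]
  [DecidableEq I] {a : I → ℕ} {th : I → I → F} {ω : I → F} {T : TwD a th ω}
  {Q0 : I → MvPolynomial σ F} {w : I → σ → D} {v1 : ι → Option σ → F}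

theorem exists_pk (hL : LocHyp T Q0 w) (hω : ∀ l, ω l ^ a l = 1) (ha : ∀ l, 1 ≤ a l)
    [Nontrivial (KK a th Q0 w)] {r : I → I → Prop} (hirr : ∀ x, ¬ r x x)
    (hasym : ∀ x y, r x y → ¬ r y x)
    (ml : I → List (ℕ → ι)) (pl : I → List I) (hpl : ∀ i, ∀ l ∈ pl i, r i l)
    (hml : ∀ i, ∀ k ∈ ml i, ∀ u, v1 (k (a i - 1)) u = 0) :
    ∀ ops : List I, ops.Pairwise (fun x y => r y x) →
      Nonempty (Pk T Q0 w v1 (allSteps ml pl ops) ops) := by
  intro ops
  induction ops with
  | nil => intro _; exact Pk.base hL v1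
  | cons l ops ih =>
    intro h
    rw [List.pairwise_cons] at h
    obtain ⟨P⟩ := ih h.2
    refine P.step hL hω ha ml pl l (fun h1 => hirr l (h.1 l h1)) ?_ (hml l)
    intro m hm hc
    rcases List.mem_cons.1 hc with h1 | h1
    · subst h1; exact hirr _ (hpl _ _ hm)
    · exact hasym _ _ (hpl l m hm) (h.1 m h1)

theorem exists_pkg (hL : LocHyp T Q0 w) (hω : ∀ l, ω l ^ a l = 1) (ha : ∀ l, 1 ≤ a l)
    [Nontrivial (KK a th Q0 w)] {r : I → I → Prop} (hirr : ∀ x, ¬ r x x)
    (hasym : ∀ x y, r x y → ¬ r y x)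
    (ml : I → List (ℕ → ι)) (pl : I → List I) (hpl : ∀ i, ∀ l ∈ pl i, r i l)
    (hml : ∀ i, ∀ k ∈ ml i, ∀ u, v1 (k (a i - 1)) u = 0)
    (ops : List I) (hops : ops.Pairwise (fun x y => r y x)) (hall : ∀ l, l ∈ ops) :
    Nonempty (Pkg T Q0 w v1 (allSteps ml pl ops)) := by
  obtain ⟨P⟩ := exists_pk hL hω ha hirr hasym ml pl hpl hml ops hops
  have htl : tlv ω P.j P.τ ops (fun _ => 0) = P.τ := by
    funext l
    rw [tlv, if_pos (hall l)]
  obtain ⟨lam1, hlam1⟩ := P.ex (fun _ => 0)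
  have hFc : ∀ (c : F) x, Commute (P.h (P.j (algebraMap F D c))) x := by
    intro c x
    rw [P.hh, iD_base]
    exact P.hF' _ x
  have hSst : (Sst T w v1 P.j P.τ ops (fun _ => 0) : St I ι σ P.E) =
      bst ω th (algebraMap F D) (fun k u => v1 k (some u)) w P.j P.τ (fun i u => P.j (w i u)) := by
    refine bst_congr (fun x => rfl) (fun l => congrFun htl l) ?_
    intro l u
    rw [Wv, if_pos (hall l)]
  have hloc := P.loc (fun _ => 0) lam1 hlam1
  have hinj := P.inj lam1 hlam1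
  have hcen : ∀ c x, Commute (lam1 c) x := by
    refine hlam1.central (fun c x => P.hF c x) ?_
    intro l x
    rw [htl]
    exact P.hτ l x
  have hcen' : ∀ c x, Commute (P.h (lam1 c)) x := by
    refine (hlam1.map P.h).central (fun c x => hFc c x) ?_
    intro l x
    rw [htl]
    exact P.hτ' l x
  rw [htl] at hlam1 hinj
  rw [hSst] at hloc
  exact ⟨{
    E := P.E
    𝓛 := P.𝓛
    j := P.j
    jK := P.jK
    h := P.h
    τ := P.τ
    lam' := lam1
    hτ := P.hτ
    hF := P.hF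
    hlam := hcen
    hτ' := P.hτ'
    hF' := P.hF'
    hlam' := hcen'
    hh := P.hh
    htw := hlam1
    loc := hloc
    inj := hinj }⟩

end

end Crest.Agent.R181.PO
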