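import Crest.Agent.R181.LOC773c
import Crest.Agent.R181.LC598a

/-!
# The locality hypotheses of the matrix models for the levels of the tower (helper773)
-/

set_option autoImplicit false
set_option linter.unusedSectionVars false

namespace Crest.Agent.R181.LOC

open TW UR

section

variable {F I : Type} [Field F] [Fintype I] {n : ℕ} {d : Dat F I n}

theorem auto_fixed {ω : I → F} (T : PO.TwD d.a d.th ω) (e : I → ℕ) (α : F ≃+* F)
    (hα : ∀ x : T.Lam, α (algebraMap T.Lam F x) =
      MvPolynomial.eval (fun l => (ω l ^ e l)⁻¹) (MvPolynomial.map (algebraMap T.Lam F) (T.Δ x)))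
    {x : F} (hx : x ∈ T.fixed) : α x = x := by
  obtain ⟨y, hy, rfl⟩ := hx
  have hy' : T.Δ y = MvPolynomial.C y := hy
  rw [hα, hy', MvPolynomial.map_C, MvPolynomial.eval_C]

theorem tw_of_auto {ω : I → F} (T : PO.TwD d.a d.th ω) (hω : ∀ l, ω l ^ d.a l = 1)
    (hfix : ∀ l m, (d.Q l).coeff m ∈ T.fixed) (e : I → ℕ) (α : F ≃+* F)
    (hα : ∀ x : T.Lam, α (algebraMap T.Lam F x) =
      MvPolynomial.eval (fun l => (ω l ^ e l)⁻¹) (MvPolynomial.map (algebraMap T.Lam F) (T.Δ x))) :
    Tw d α (fun l => ω l ^ e l) where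
  hQ l := by
    ext m
    rw [MvPolynomial.coeff_map]
    exact auto_fixed T e α hα (hfix l m)
  hth i l := by
    obtain ⟨x, hx, hΔ⟩ := T.hth i l
    have h0 : ω l ^ e l ≠ 0 := by
      apply pow_ne_zero
      intro h0
      have h1 := hω l
      have h2 := d.ha l
      rw [h0, zero_pow (by omega)] at h1
      exact zero_ne_one h1
    rw [← hx, hα, hΔ]
    simp only [map_mul, map_pow, MvPolynomial.map_C, MvPolynomial.map_X, MvPolynomial.eval_C,
      MvPolynomial.eval_X]
    rw [inv_pow, mul_assoc, inv_mul_cancel₀ (pow_ne_zero _ h0), mul_one]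
  he l := by rw [← pow_mul, mul_comm, pow_mul, hω, one_pow]

/-- **the locality hypotheses hold along the tower** -/
theorem locHyp {i : ℕ} {X : Lvl d i} (c : Chain d i X) {ω : I → F} (T : PO.TwD d.a d.th ω)
    (hω : ∀ l, ω l ^ d.a l = 1) (hfix : ∀ l m, (d.Q l).coeff m ∈ T.fixed) :
    PO.LocHyp T (d.Qr i) X.w where
  uniq := fun _ _ h1 h2 => hom_ext c h1 h2
  rad := fun g _ hg lam hlam W ht h => isLoc_of_LU c g hg lam hlam W ht h
  tw := fun e α hα => isLoc_twist c (tw_of_auto T hω hfix e α hα)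

end

end Crest.Agent.R181.LOC
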