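import Crest.Agent.R181.TD659a
import Crest.Agent.R181.LOC773e

/-!
# The locality hypotheses for the concrete data of the tower
-/

set_option autoImplicit false
set_option linter.unusedSectionVars false

namespace Crest.Agent.R181.AS

variable {r : ℕ} (a : Fin (r + 1) → ℕ) (f : Fin (r + 1) → MvPolynomial (Fin (r + 1)) ℂ)
  (ha : Monotone a) (ha2 : ∀ i, 2 ≤ a i) (hf : ∀ i, (f i).IsHomogeneous (a i))

/-- **598's locality hypotheses along every chain of the tower** -/
theorem locHyp {i : ℕ} {X : TW.Lvl (dat a f ha ha2 hf) i} (c : TW.Chain (dat a f ha ha2 hf) i X) :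
    PO.LocHyp (twD a f ha ha2 hf) ((dat a f ha ha2 hf).Qr i) X.w :=
  LOC.locHyp c (twD a f ha ha2 hf) (fun l => om_pow a ha2 l)
    (fun l m => coeff_mem_fixed a f ha ha2 hf l m)

end Crest.Agent.R181.AS
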