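import Crest.Agent.R181.UR396b

/-!
R181 (helper858): transport of tuples along a bijection of the variables and congruence of the
ring `U` in all its arguments (`D`, `L`, the variables).
-/

set_option autoImplicit false
set_option linter.unusedSectionVars false

namespace Crest.Agent.R181.UR

open AddMonoidAlgebra

section Rename

variable {A B : Type*} [Ring A] [Ring B] {σ σ' : Type*}

/-- renaming of the central variables -/
noncomputable def ren (A : Type*) [Ring A] {σ σ' : Type*} (e : σ → σ') : PA A σ →+* PA A σ' :=
  AddMonoidAlgebra.mapDomainRingHom A (Finsupp.mapDomain.addMonoidHom e)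

@[simp] theorem ren_single (e : σ → σ') (α : σ →₀ ℕ) (c : A) :
    ren A e (single α c) = single (Finsupp.mapDomain e α) c := by
  simp [ren]

@[simp] theorem ren_cst (e : σ → σ') (c : A) : ren A e (cst σ c) = cst σ' c := by
  simp [cst_apply]

@[simp] theorem ren_var (e : σ → σ') (v : σ) : ren A e (var A v) = var A (e v) := by
  simp [var, Finsupp.mapDomain_single]

theorem ren_mp (e : σ → σ') (f : A →+* B) (x : PA A σ) :
    ren B e (mp σ f x) = mp σ' f (ren A e x) := by
  induction x using AddMonoidAlgebra.induction_linear with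
  | zero => simp
  | add x y hx hy => rw [map_add, map_add, map_add, map_add, hx, hy]
  | single α a => simp

theorem ren_ren {σ'' : Type*} (e : σ → σ') (e' : σ' → σ'') (x : PA A σ) :
    ren A e' (ren A e x) = ren A (e' ∘ e) x := by
  induction x using AddMonoidAlgebra.induction_linear with
  | zero => simp
  | add x y hx hy => rw [map_add, map_add, map_add, hx, hy]
  | single α a => simp [Finsupp.mapDomain_comp]

theorem ren_id (x : PA A σ) : ren A (id : σ → σ) x = x := by
  induction x using AddMonoidAlgebra.induction_linear with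
  | zero => simp
  | add x y hx hy => rw [map_add, hx, hy]
  | single α a => simp

theorem ren_injective (e : σ ≃ σ') : Function.Injective (ren A e) := by
  intro x y h
  have := congrArg (ren A e.symm) h
  rwa [ren_ren, ren_ren, Equiv.symm_comp_self, ren_id, ren_id] at this

theorem ren_lf [Fintype σ] [Fintype σ'] (e : σ ≃ σ') (w : σ → A) :
    ren A e (lf w) = lf (fun v' => w (e.symm v')) := by
  simp only [lf, map_sum, ren_single, Finsupp.mapDomain_single]
  rw [← e.sum_comp]
  simp

theorem ren_mp_mv {L : Type*} [CommRing L] (e : σ → σ') (τ : L →+* A) (p : MvPolynomial σ L) :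
    ren A e (mp σ τ p) = mp σ' τ (MvPolynomial.rename e p) := by
  rw [ren_mp]
  rfl

variable {F L I : Type*} [CommRing F] [CommRing L] [Algebra F L] [Fintype I]
  {a : I → ℕ} {th : I → I → F} {Q : I → MvPolynomial σ L} {τ : L →+* A} {w : I → σ → A}

theorem IsTuple.rename [Fintype σ] [Fintype σ'] (h : IsTuple a th Q τ w) (e : σ ≃ σ') :
    IsTuple a th (fun i => MvPolynomial.rename e (Q i)) τ (fun i v' => w i (e.symm v')) where
  comm i j := by
    have := congrArg (ren A e) (h.comm i j)
    simpa [ren_lf] using this
  rel i := by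
    have := congrArg (ren A e) (h.rel i)
    simpa [ren_lf, ren_mp_mv] using this

/-- change of the coefficient ring `L` -/
theorem IsTuple.mapL [Fintype σ] {L' : Type*} [CommRing L'] [Algebra F L'] (g : L →ₐ[F] L')
    {τ' : L' →+* A} (h : IsTuple a th Q (τ'.comp (g : L →+* L')) w) :
    IsTuple a th (fun i => MvPolynomial.map (g : L →+* L') (Q i)) τ' w where
  comm := h.comm
  rel i := by
    rw [h.rel i]
    congr 1
    · have : ∀ p : MvPolynomial σ L, mp σ (τ'.comp (g : L →+* L')) p
          = mp σ τ' (MvPolynomial.map (g : L →+* L') p) := by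
        intro p
        induction p using MvPolynomial.induction_on with
        | C c =>
          rw [MvPolynomial.map_C]
          show mp σ _ (single 0 c) = mp σ _ (single 0 (g c))
          simp
        | add p q hp hq => rw [map_add, map_add, map_add, hp, hq]
        | mul_X p v hp =>
          rw [map_mul, map_mul, map_mul, hp, MvPolynomial.map_X]
          congr 1
          show mp σ _ (single (Finsupp.single v 1) (1 : L)) = mp σ _ (single (Finsupp.single v 1) (1 : L'))
          simp
      exact this _
    · refine Finset.sum_congr rfl fun l _ => ?_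
      simp

end Rename

section Congr

variable {F D D' L L' I σ σ' : Type} [CommRing F] [Ring D] [Algebra F D] [Ring D'] [Algebra F D']
  [CommRing L] [Algebra F L] [CommRing L'] [Algebra F L'] [Fintype I] [Fintype σ] [Fintype σ']
  {a : I → ℕ} {th : I → I → F} (Q : I → MvPolynomial (Option σ) L) (w : I → σ → D)
  (Q' : I → MvPolynomial (Option σ') L') (w' : I → σ' → D')

/-- functoriality of `U` in all arguments; the variables are transported by a bijection -/
theorem U_map (f : D →ₐ[F] D') (g : L →ₐ[F] L') (e : σ ≃ σ')
    (hQ : ∀ i, Q' i = MvPolynomial.rename (Equiv.optionCongr e) (MvPolynomial.map (g : L →+* L') (Q i)))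
    (hw : ∀ i v', w' i v' = f (w i (e.symm v'))) :
    ∃ φ : U a th Q w →+* U a th Q' w', (∀ d, φ (iD a th Q w d) = iD a th Q' w' (f d)) ∧
      (∀ x, φ (iL a th Q w x) = iL a th Q' w' (g x)) ∧
      ∀ i, φ (eta a th Q w i) = eta a th Q' w' i := by
  have ht : IsTuple a th Q ((iL a th Q' w').comp (g : L →+* L'))
      (ext' (fun i v => ((iD a th Q' w').comp (f : D →+* D')) (w i v)) (eta a th Q' w')) := by
    have h := (isTuple_wU a th Q' w').rename (Equiv.optionCongr e).symm
    have hQ2 : (fun i => MvPolynomial.rename (Equiv.optionCongr e).symm (Q' i)) =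
        fun i => MvPolynomial.map (g : L →+* L') (Q i) := by
      funext i
      rw [hQ i, MvPolynomial.rename_rename]
      simp
    rw [hQ2] at h
    have h4 : (fun i v' => wU a th Q' w' i ((Equiv.optionCongr e).symm.symm v')) =
        ext' (fun i v => ((iD a th Q' w').comp (f : D →+* D')) (w i v)) (eta a th Q' w') := by
      funext i v
      cases v with
      | none => simp [wU]
      | some v => simp [wU, hw]
    rw [h4] at h
    refine ⟨h.comm, fun i => ?_⟩
    rw [h.rel i]
    congr 1
    · have : ∀ p : MvPolynomial (Option σ) L,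
          mp (A := L') (B := U a th Q' w') (Option σ) (iL a th Q' w') (MvPolynomial.map (g : L →+* L') p)
          = mp (A := L) (B := U a th Q' w') (Option σ) ((iL a th Q' w').comp (g : L →+* L')) p := by
        intro p
        induction p using MvPolynomial.induction_on with
        | C c =>
          rw [MvPolynomial.map_C]
          show mp _ _ (single 0 (g c)) = mp _ _ (single 0 c)
          simp
        | add p q hp hq => rw [map_add, map_add, map_add, hp, hq]
        | mul_X p v hp =>
          rw [map_mul, map_mul, map_mul, hp, MvPolynomial.map_X]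
          congr 1
          show mp _ _ (single (Finsupp.single v 1) (1 : L')) = mp _ _ (single (Finsupp.single v 1) (1 : L))
          simp
      exact this _
    · refine Finset.sum_congr rfl fun l _ => ?_
      simp
  obtain ⟨φ, h1, h2, h3⟩ := exists_lift (a := a) (th := th) (Q := Q) (w := w)
    ((iD a th Q' w').comp (f : D →+* D')) ((iL a th Q' w').comp (g : L →+* L'))
    (eta a th Q' w') (by intro c; simp [iD_base]) (fun x d => iL_comm a th Q' w' _ _)
    (fun x i => iL_comm a th Q' w' _ _) ht
  exact ⟨φ, fun d => by rw [h1]; rfl, fun x => by rw [h2]; rfl, h3⟩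

/-- congruence of `U` in all arguments -/
theorem U_congr (f : D ≃ₐ[F] D') (g : L ≃ₐ[F] L') (e : σ ≃ σ')
    (hQ : ∀ i, Q' i = MvPolynomial.rename (Equiv.optionCongr e)
      (MvPolynomial.map ((g : L →ₐ[F] L') : L →+* L') (Q i)))
    (hw : ∀ i v', w' i v' = f (w i (e.symm v'))) :
    ∃ φ : U a th Q w ≃+* U a th Q' w', (∀ d, φ (iD a th Q w d) = iD a th Q' w' (f d)) ∧
      (∀ x, φ (iL a th Q w x) = iL a th Q' w' (g x)) ∧
      ∀ i, φ (eta a th Q w i) = eta a th Q' w' i := by
  obtain ⟨φ, h1, h2, h3⟩ := U_map (a := a) (th := th) Q w Q' w' (f : D →ₐ[F] D') (g : L →ₐ[F] L')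
    e hQ hw
  obtain ⟨ψ, k1, k2, k3⟩ := U_map (a := a) (th := th) Q' w' Q w (f.symm : D' →ₐ[F] D)
    (g.symm : L' →ₐ[F] L) e.symm
    (by
      intro i
      rw [hQ i, MvPolynomial.map_rename, MvPolynomial.map_map, MvPolynomial.rename_rename]
      have : ((g.symm : L' →ₐ[F] L) : L' →+* L).comp ((g : L →ₐ[F] L') : L →+* L') = RingHom.id L := by
        ext x; simp
      rw [this, MvPolynomial.map_id]
      have h2 : (⇑(Equiv.optionCongr e.symm) ∘ ⇑(Equiv.optionCongr e)) = id := by
        funext v
        cases v with
        | none => rfl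
        | some v => show some (e.symm (e v)) = some v; rw [e.symm_apply_apply]
      rw [h2, MvPolynomial.rename_id]
      rfl)
    (by intro i v; simp [hw])
  have e1 : φ.comp ψ = RingHom.id (U a th Q' w') := by
    refine hom_ext' a th Q' w' (A := U a th Q' w') (f := φ.comp ψ) (g := RingHom.id (U a th Q' w')) ?_ ?_ ?_
    · intro d; simp [k1, h1]
    · intro d; simp [k2, h2]
    · intro d; simp [k3, h3]
  have e2 : ψ.comp φ = RingHom.id (U a th Q w) := by
    refine hom_ext' a th Q w (A := U a th Q w) (f := ψ.comp φ) (g := RingHom.id (U a th Q w)) ?_ ?_ ?_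
    · intro d; simp [k1, h1]
    · intro d; simp [k2, h2]
    · intro d; simp [k3, h3]
  exact ⟨RingEquiv.ofRingHom φ ψ e1 e2, h1, h2, h3⟩

end Congr

end Crest.Agent.R181.UR
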