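import Crest.Agent.R181.ST963a

/-!
# R181, V-chain, START of the induction (level 0)

`U = U a th Q w` with `σ` empty and `D = F`: `U` is the commutative ring
`L[η_i] / (η_i ^ a_i - c_i - ∑ l, th i l η_l ^ a_i)`; if `th` is strictly triangular then `L → U` is
injective and the regular elements of `L` are regular on `U`.
-/

set_option autoImplicit false
set_option linter.unusedSectionVars false

namespace Crest.Agent.R181.ST

open AddMonoidAlgebra Crest.Agent.R181.UR

noncomputable section

section Zero

variable {F D L I σ : Type} [CommRing F] [Ring D] [Algebra F D] [CommRing L] [Algebra F L]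
  [Fintype I] [Fintype σ] [IsEmpty σ]
  (a : I → ℕ) (th : I → I → F) (Q : I → MvPolynomial (Option σ) L) (w : I → σ → D)
  (c : I → L)

/-- `Q i` is the monomial `c i * s ^ a i`. -/
def Mono : Prop := ∀ i, Q i = MvPolynomial.monomial (Finsupp.single none (a i)) (c i)

omit [Fintype σ] in
theorem eq_single_none (α : Option σ →₀ ℕ) : α = Finsupp.single none (α none) := by
  refine Finsupp.ext fun v => ?_
  rcases v with _ | v
  · simp
  · exact isEmptyElim v

omit [Fintype σ] [Fintype I] in
theorem mono_of_isHomogeneous (h : ∀ i, (Q i).IsHomogeneous (a i)) :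
    Mono a Q (fun i => (Q i).coeff (Finsupp.single none (a i))) := by
  classical
  intro i
  ext α
  rw [MvPolynomial.coeff_monomial]
  split_ifs with hα
  · rw [← hα]
  · by_contra hne
    have h1 := (h i) hne
    apply hα
    rw [eq_single_none α] at h1 ⊢
    rw [← h1]
    simp [Finsupp.weight_single]

theorem lf_empty {A : Type*} [Ring A] (u : Option σ → A) :
    lf u = single (Finsupp.single none 1) (u none) := by
  rw [lf, Fintype.sum_option]
  simp

theorem lf_empty_pow {A : Type*} [Ring A] (u : Option σ → A) (n : ℕ) :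
    lf u ^ n = single (Finsupp.single none n) (u none ^ n) := by
  rw [lf_empty, AddMonoidAlgebra.single_pow]
  simp

variable {a Q c}

theorem isTuple_empty_iff (hQ : Mono a Q c) {A : Type*} [Ring A] (τ : L →+* A)
    (u : I → Option σ → A) : IsTuple a th Q τ u ↔ (∀ i j, u i none * u j none = u j none * u i none) ∧
      ∀ i, u i none ^ a i = τ (c i) + ∑ l, τ (algebraMap F L (th i l)) * u l none ^ a i := by
  have e1 : ∀ i, mp (Option σ) τ (Q i) = single (Finsupp.single none (a i)) (τ (c i)) := by
    intro i
    rw [hQ i]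
    exact mp_single _ _ _
  have e2 : ∀ i, mp (Option σ) τ (Q i) + ∑ l, cst (Option σ) (τ (algebraMap F L (th i l))) *
      lf (u l) ^ a i = single (Finsupp.single none (a i))
        (τ (c i) + ∑ l, τ (algebraMap F L (th i l)) * u l none ^ a i) := by
    intro i
    rw [e1, single_add]
    congr 1
    rw [← AddMonoidAlgebra.singleAddHom_apply, map_sum]
    refine Finset.sum_congr rfl fun l _ => ?_
    rw [lf_empty_pow, cst_apply, single_mul_single, zero_add]
    rfl
  constructor
  · intro h
    constructor
    · intro i j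
      have := h.comm i j
      rw [lf_empty, lf_empty, single_mul_single, single_mul_single] at this
      exact AddMonoidAlgebra.single_right_injective this
    · intro i
      have := h.rel i
      rw [e2, lf_empty_pow] at this
      exact AddMonoidAlgebra.single_right_injective this
  · rintro ⟨h1, h2⟩
    refine ⟨fun i j => ?_, fun i => ?_⟩
    · rw [lf_empty, lf_empty, single_mul_single, single_mul_single, h1]
    · rw [e2, lf_empty_pow, h2]

variable (hQ : Mono a Q c)

include hQ in
theorem eta_comm (i j : I) : eta a th Q w i * eta a th Q w j = eta a th Q w j * eta a th Q w i :=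
  ((isTuple_empty_iff th hQ _ _).1 (isTuple_wU a th Q w)).1 i j

include hQ in
theorem eta_rel (i : I) : eta a th Q w i ^ a i = iL a th Q w (c i) +
    ∑ l, iL a th Q w (algebraMap F L (th i l)) * eta a th Q w l ^ a i :=
  ((isTuple_empty_iff th hQ _ _).1 (isTuple_wU a th Q w)).2 i

variable (hF : Function.Surjective (algebraMap F D))

include hF in
theorem iD_comm (d : D) (z : U a th Q w) : Commute (iD a th Q w d) z := by
  obtain ⟨d, rfl⟩ := hF d
  rw [iD_base]
  exact iL_comm a th Q w _ _

include hQ hF in
theorem U_comm (x y : U a th Q w) : x * y = y * x := by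
  change Commute x y
  refine generation a th Q w (fun x => Commute x y) ?_ ?_ ?_ ?_ ?_ x
  · intro d; exact iD_comm th w hF d y
  · intro z; exact iL_comm a th Q w z y
  · intro i
    refine generation a th Q w (fun y => Commute (eta a th Q w i) y) ?_ ?_ ?_ ?_ ?_ y
    · intro d; exact (iD_comm th w hF d _).symm
    · intro z; exact (iL_comm a th Q w z _).symm
    · intro j; exact eta_comm th w hQ i j
    · intro y z hy hz; exact hy.add_right hz
    · intro y z hy hz; exact hy.mul_right hz
  · intro y z hy hz; exact hy.add_left hz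
  · intro y z hy hz; exact hy.mul_left hz

/-- `U` is commutative. -/
@[reducible] def commRingU : CommRing (U a th Q w) :=
  { (inferInstance : Ring (U a th Q w)) with mul_comm := U_comm th w hQ hF }

/-- Homs out of `U`. -/
theorem exists_lift_zero (hF' : Function.Bijective (algebraMap F D)) {A : Type*} [CommRing A]
    (hQ : Mono a Q c) (τ : L →+* A) (e : I → A)
    (he : ∀ i, e i ^ a i = τ (c i) + ∑ l, τ (algebraMap F L (th i l)) * e l ^ a i) :
    ∃ f : U a th Q w →+* A, (∀ x, f (iL a th Q w x) = τ x) ∧ ∀ i, f (eta a th Q w i) = e i := by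
  let eF : F ≃+* D := RingEquiv.ofBijective (algebraMap F D) hF'
  let ρ : D →+* A := (τ.comp (algebraMap F L)).comp (eF.symm : D →+* F)
  have hρ : ∀ x : F, ρ (algebraMap F D x) = τ (algebraMap F L x) := by
    intro x
    have : eF.symm (algebraMap F D x) = x := eF.symm_apply_apply x
    show τ (algebraMap F L (eF.symm (algebraMap F D x))) = _
    rw [this]
  obtain ⟨f, -, h2, h3⟩ := exists_lift (a := a) (th := th) (Q := Q) (w := w) ρ τ e hρ
    (fun _ _ => Commute.all _ _) (fun _ _ => Commute.all _ _)
    ((isTuple_empty_iff th hQ τ _).2 ⟨fun i j => mul_comm _ _, he⟩)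
  exact ⟨f, h2, h3⟩

theorem hom_ext_zero (hF : Function.Surjective (algebraMap F D)) {A : Type*} [Ring A]
    {f g : U a th Q w →+* A} (hL : ∀ x, f (iL a th Q w x) = g (iL a th Q w x))
    (hI : ∀ i, f (eta a th Q w i) = g (eta a th Q w i)) : f = g := by
  refine hom_ext' a th Q w (fun d => ?_) hL hI
  obtain ⟨d, rfl⟩ := hF d
  rw [iD_base, hL]

/-- The commutative ring `L[η_i] / (η_i ^ a_i - c_i - ∑ l, th i l η_l ^ a_i)`. -/
abbrev relIdeal (a : I → ℕ) (th : I → I → F) (c : I → L) : Ideal (MvPolynomial I L) :=
  Ideal.span (Set.range fun i => MvPolynomial.X i ^ a i - (MvPolynomial.C (c i) +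
    ∑ l, MvPolynomial.C (algebraMap F L (th i l)) * MvPolynomial.X l ^ a i))

/-- `U` is the commutative ring `L[η_i] / (η_i ^ a_i - c_i - ∑ l, th i l η_l ^ a_i)`. -/
theorem exists_equiv_quot (hF' : Function.Bijective (algebraMap F D)) (hQ : Mono a Q c) :
    ∃ f : U a th Q w ≃+* (MvPolynomial I L ⧸ relIdeal a th c),
      (∀ x, f (iL a th Q w x) = Ideal.Quotient.mk _ (MvPolynomial.C x)) ∧
      (∀ i, f (eta a th Q w i) = Ideal.Quotient.mk _ (MvPolynomial.X i)) ∧
      ∀ d : F, f (iD a th Q w (algebraMap F D d)) =
        Ideal.Quotient.mk _ (MvPolynomial.C (algebraMap F L d)) := by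
  let _ : CommRing (U a th Q w) := commRingU th w hQ hF'.surjective
  obtain ⟨f, hf1, hf2⟩ := exists_lift_zero th w hF' hQ
    ((Ideal.Quotient.mk (relIdeal a th c)).comp MvPolynomial.C)
    (fun i => Ideal.Quotient.mk (relIdeal a th c) (MvPolynomial.X i)) (by
      intro i
      rw [← sub_eq_zero]
      have h1 : (MvPolynomial.X i ^ a i - (MvPolynomial.C (c i) +
          ∑ l, MvPolynomial.C (algebraMap F L (th i l)) * MvPolynomial.X l ^ a i)) ∈
          relIdeal a th c := Ideal.subset_span ⟨i, rfl⟩
      rw [← Ideal.Quotient.eq_zero_iff_mem] at h1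
      simp only [map_sub, map_add, map_sum, map_mul, map_pow] at h1
      exact h1)
  let g0 : MvPolynomial I L →+* U a th Q w :=
    MvPolynomial.eval₂Hom (iL a th Q w) (eta a th Q w)
  have hg0 : ∀ y ∈ relIdeal a th c, g0 y = 0 := by
    intro y hy
    have : relIdeal a th c ≤ RingHom.ker g0 := by
      rw [Ideal.span_le]
      rintro _ ⟨i, rfl⟩
      rw [SetLike.mem_coe, RingHom.mem_ker, map_sub, sub_eq_zero]
      have := eta_rel th w hQ i
      simp only [g0, map_pow, map_add, map_sum, map_mul, MvPolynomial.eval₂Hom_C,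
        MvPolynomial.eval₂Hom_X']
      exact this
    exact this hy
  let g : (MvPolynomial I L ⧸ relIdeal a th c) →+* U a th Q w := Ideal.Quotient.lift _ g0 hg0
  have hg1 : ∀ x, g (Ideal.Quotient.mk _ (MvPolynomial.C x)) = iL a th Q w x := by
    intro x; simp [g, g0]
  have hg2 : ∀ i, g (Ideal.Quotient.mk _ (MvPolynomial.X i)) = eta a th Q w i := by
    intro i; simp [g, g0]
  refine ⟨RingEquiv.ofRingHom f g ?_ ?_, hf1, hf2, fun d => ?_⟩
  · apply Ideal.Quotient.ringHom_ext
    apply MvPolynomial.ringHom_ext
    · intro x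
      show f (g (Ideal.Quotient.mk _ (MvPolynomial.C x))) = _
      rw [hg1, hf1]; rfl
    · intro i
      show f (g (Ideal.Quotient.mk _ (MvPolynomial.X i))) = _
      rw [hg2, hf2]; rfl
  · refine hom_ext_zero th w hF'.surjective (fun x => ?_) (fun i => ?_)
    · show g (f (iL a th Q w x)) = _
      rw [hf1]; exact hg1 x
    · show g (f (eta a th Q w i)) = _
      rw [hf2]; exact hg2 i
  · show f (iD a th Q w (algebraMap F D d)) = _
    rw [iD_base, hf1]; rfl

section Tri

variable [LinearOrder I] (ha : ∀ i, a i ≠ 0) (ht : ∀ i l, ¬ i < l → th i l = 0)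
  (hF' : Function.Bijective (algebraMap F D))

include hQ ha ht hF' in
theorem exists_embed : ∃ (B : Type) (_ : CommRing B) (f : U a th Q w →+* B),
    Function.Injective f ∧ (Function.Injective fun x => f (iL a th Q w x)) ∧
      ∀ x ∈ nonZeroDivisors L, f (iL a th Q w x) ∈ nonZeroDivisors B := by
  obtain ⟨st⟩ := exists_stage a ha c (fun i l => algebraMap F L (th i l))
    (fun i l h => by rw [ht i l h, map_zero]) Finset.univ
  obtain ⟨f, hf1, hf2⟩ := exists_lift_zero th w hF' hQ st.τ st.e
    (fun i => st.rel i (Finset.mem_univ i))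
  let _ : CommRing (U a th Q w) := commRingU th w hQ hF'.surjective
  obtain ⟨g, hg1, hg2⟩ := st.univ (U a th Q w) (iL a th Q w) (eta a th Q w)
    (fun l _ => eta_rel th w hQ l)
  have hgf : g.comp f = RingHom.id _ := by
    refine hom_ext_zero th w hF'.surjective (fun x => ?_) (fun i => ?_)
    · show g (f (iL a th Q w x)) = _
      rw [hf1, hg1]; rfl
    · show g (f (eta a th Q w i)) = _
      rw [hf2, hg2 i (Finset.mem_univ i)]; rfl
  have hinj : Function.Injective f := by
    have : Function.LeftInverse g f := fun x => RingHom.congr_fun hgf x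
    exact this.injective
  refine ⟨st.B, inferInstance, f, hinj, fun x y hxy => ?_, fun x hx => ?_⟩
  · have h1 : f (iL a th Q w x) = f (iL a th Q w y) := hxy
    rw [hf1, hf1] at h1
    exact st.inj h1
  · rw [hf1]; exact st.reg x hx

include hQ ha ht hF' in
/-- `L → U` is injective. -/
theorem iL_injective : Function.Injective (iL a th Q w) := by
  obtain ⟨B, _, f, -, h, -⟩ := exists_embed th w hQ ha ht hF'
  intro x y hxy
  exact h (congrArg f hxy)

include hQ ha ht hF' in
/-- `F → U` (that is `D → U`) is injective if `F → L` is. -/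
theorem iD_injective (hFL : Function.Injective (algebraMap F L)) :
    Function.Injective (iD a th Q w) := by
  intro x y hxy
  obtain ⟨x, rfl⟩ := hF'.surjective x
  obtain ⟨y, rfl⟩ := hF'.surjective y
  rw [iD_base, iD_base] at hxy
  rw [hFL (iL_injective th w hQ ha ht hF' hxy)]

include hQ ha ht hF' in
/-- Regular elements of `L` are regular on `U`. -/
theorem iL_regular (x : L) (hx : x ∈ nonZeroDivisors L) (y : U a th Q w)
    (h : iL a th Q w x * y = 0) : y = 0 := by
  obtain ⟨B, _, f, hf, -, h3⟩ := exists_embed th w hQ ha ht hF'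
  apply hf
  rw [map_zero]
  have h4 := h3 x hx
  rw [mem_nonZeroDivisors_iff_right] at h4
  apply h4
  rw [mul_comm, ← map_mul, h, map_zero]

include hQ ha ht hF' in
/-- `U` is nontrivial. -/
theorem nontrivial_U [Nontrivial L] : Nontrivial (U a th Q w) :=
  (iL_injective th w hQ ha ht hF').nontrivial

end Tri

end Zero

end

end Crest.Agent.R181.ST
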