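import Crest.Agent.R181.V868a

/-!
# R181, V-chain, block V1: Lemma 1 on the definitions of `V868a`

* `VL.isCompl : IsCompl B.Gaff B.BB`
* `VL.dP_bijective`: the `vec w` are a `DD`-basis of `MM`
* `VL.dP_apply_none`, `VL.dP_apply_some`: coefficients
-/

namespace Crest.Agent.R181.VL

open Crest.Agent.R181.V868

universe u

noncomputable section

variable {DD : Type u} [Ring DD] {L : Line DD} {B : LB L}

theorem dP_single (w : B.W) (o : DD) : B.dP (Finsupp.single w o) = o • B.vec w :=
  Finsupp.linearCombination_single _ _ _

theorem vec_none : B.vec none = Finsupp.single none 1 := rfl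

theorem vec_some (κ : B.Wd) :
    B.vec (some κ) = Finsupp.single (some κ) 1 - Finsupp.single (B.par κ) (B.lab κ) := rfl

theorem smul_vec_some (o : DD) (κ : B.Wd) :
    o • B.vec (some κ) = Finsupp.single (some κ) o - Finsupp.single (B.par κ) (o * B.lab κ) := by
  rw [vec_some, smul_sub, Finsupp.smul_single, Finsupp.smul_single, smul_eq_mul, smul_eq_mul,
    mul_one]

theorem smul_vec_none (o : DD) : o • B.vec none = Finsupp.single none o := by
  rw [vec_none, Finsupp.smul_single, smul_eq_mul, mul_one]

theorem mem_BB_iff {y : B.MM} : y ∈ B.BB ↔ ∃ c : B.MM, c ∈ B.H ∧ B.dP c = y := Iff.rfl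

theorem single_mem_Gaff {w : B.W} {v : DD} (hv : v ∈ L.V) : Finsupp.single w v ∈ B.Gaff := by
  classical
  intro w'
  rw [Finsupp.single_apply]
  split_ifs
  · exact hv
  · exact L.V.zero_mem

theorem smul_vec_mem_BB (κ : B.Wd) {o : DD} (ho : o ∈ L.O) : o • B.vec (some κ) ∈ B.BB := by
  classical
  refine ⟨Finsupp.single (some κ) o, ⟨⟨0, L.O.zero_mem, ?_⟩, fun κ' => ?_⟩, dP_single _ _⟩
  · rw [Finsupp.single_apply, if_neg (by simp), mul_zero]
  · rw [Finsupp.single_apply]
    split_ifs
    · exact ho
    · exact L.O.zero_mem

theorem single_none_mem_BB {o : DD} (ho : o ∈ L.O) :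
    (Finsupp.single none (L.p * o) : B.MM) ∈ B.BB := by
  classical
  refine ⟨Finsupp.single none (L.p * o), ⟨⟨o, ho, by simp⟩, fun κ' => ?_⟩, ?_⟩
  · rw [Finsupp.single_apply, if_neg (by simp)]
    exact L.O.zero_mem
  · show B.dP _ = _
    rw [dP_single, smul_vec_none]

/-! ## the sum is everything -/

theorem single_mul_lab_mem (κ : B.Wd) {e : DD} (he : e ∈ L.V ⊓ L.O) :
    (Finsupp.single (B.par κ) (e * B.lab κ) : B.MM) ∈ B.Gaff ⊔ B.BB := by
  have h1 : (Finsupp.single (B.par κ) (e * B.lab κ) : B.MM) =
      Finsupp.single (some κ) e - e • B.vec (some κ) := by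
    rw [smul_vec_some]; abel
  rw [h1]
  exact sub_mem (Submodule.mem_sup_left (single_mem_Gaff he.1))
    (Submodule.mem_sup_right (smul_vec_mem_BB κ he.2))

theorem single_sum_mem {I : Type u} (w : B.W) (c : I →₀ DD) (g : I → DD)
    (h : ∀ i, (Finsupp.single w (c i * g i) : B.MM) ∈ B.Gaff ⊔ B.BB) :
    (Finsupp.single w (c.sum fun i e => e * g i) : B.MM) ∈ B.Gaff ⊔ B.BB := by
  have : (Finsupp.single w (c.sum fun i e => e * g i) : B.MM) =
      ∑ i ∈ c.support, Finsupp.single w (c i * g i) :=
    map_sum (Finsupp.singleAddHom w) _ _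
  rw [this]
  exact sum_mem fun i _ => h i

theorem single_none_mem_sup (d : DD) : (Finsupp.single none d : B.MM) ∈ B.Gaff ⊔ B.BB := by
  obtain ⟨c, hc, v, hv, o, ho, rfl⟩ := B.span1 d
  rw [Finsupp.single_add, Finsupp.single_add]
  refine add_mem (add_mem (Submodule.mem_sup_left (single_mem_Gaff hv))
    (Submodule.mem_sup_right (single_none_mem_BB ho))) (single_sum_mem none c B.g1 fun i => ?_)
  exact single_mul_lab_mem (B := B) ([], i) (hc i)

theorem single_some_mem_sup (κ : B.Wd)
    (h : ∀ d : DD, (Finsupp.single (B.par κ) d : B.MM) ∈ B.Gaff ⊔ B.BB) (d : DD) :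
    (Finsupp.single (some κ) d : B.MM) ∈ B.Gaff ⊔ B.BB := by
  obtain ⟨c, hc, v, hv, o, ho, rfl⟩ := B.span0 d
  rw [Finsupp.single_add, Finsupp.single_add]
  refine add_mem (add_mem (Submodule.mem_sup_left (single_mem_Gaff hv)) ?_)
    (single_sum_mem (some κ) c B.g0 fun i => ?_)
  · have h1 : (Finsupp.single (some κ) o : B.MM) =
        o • B.vec (some κ) + Finsupp.single (B.par κ) (o * B.lab κ) := by
      rw [smul_vec_some]; abel
    rw [h1]
    exact add_mem (Submodule.mem_sup_right (smul_vec_mem_BB κ ho)) (h _)
  · obtain ⟨l, j⟩ := κ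
    exact single_mul_lab_mem (B := B) (i :: l, j) (hc i)

theorem single_mem_sup (w : B.W) (d : DD) : (Finsupp.single w d : B.MM) ∈ B.Gaff ⊔ B.BB := by
  match w with
  | none => exact single_none_mem_sup d
  | some (l, j) =>
    induction l generalizing d with
    | nil => exact single_some_mem_sup ([], j) (fun d => single_none_mem_sup d) d
    | cons i l ih => exact single_some_mem_sup (i :: l, j) (fun d => ih d) d

theorem sup_eq_top : B.Gaff ⊔ B.BB = ⊤ := by
  rw [eq_top_iff]
  intro y _
  induction y using Finsupp.induction_linear with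
  | zero => exact zero_mem _
  | add f g hf hg => exact add_mem (hf trivial) (hg trivial)
  | single w d => exact single_mem_sup w d

/-! ## coefficients of `dP c` -/

/-- the children of the root -/
def w1 (B : LB L) (j : B.I1) : B.W := some ([], j)

/-- the children of a word -/
def w0 (B : LB L) (κ : B.Wd) (i : B.I0) : B.W := some (i :: κ.1, κ.2)

theorem w1_inj : Function.Injective (w1 B) := by
  intro a b h
  simpa [w1] using h

theorem w0_inj (κ : B.Wd) : Function.Injective (w0 B κ) := by
  intro a b h
  simpa [w0] using h

/-- the coefficients at the children of the root -/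
def kid1 (c : B.MM) : B.I1 →₀ DD := c.comapDomain (w1 B) (w1_inj.injOn)

/-- the coefficients at the children of a word -/
def kid0 (κ : B.Wd) (c : B.MM) : B.I0 →₀ DD := c.comapDomain (w0 B κ) ((w0_inj κ).injOn)

@[simp] theorem kid1_apply (c : B.MM) (j : B.I1) : kid1 c j = c (some ([], j)) := rfl

@[simp] theorem kid0_apply (κ : B.Wd) (c : B.MM) (i : B.I0) :
    kid0 κ c i = c (some (i :: κ.1, κ.2)) := rfl

theorem kid1_add (c c' : B.MM) : kid1 (c + c') = kid1 c + kid1 c' := by
  ext; simp

theorem kid0_add (κ : B.Wd) (c c' : B.MM) : kid0 κ (c + c') = kid0 κ c + kid0 κ c' := by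
  ext; simp

theorem dP_apply_none (c : B.MM) :
    B.dP c none = c none - (kid1 c).sum fun j e => e * B.g1 j := by
  classical
  induction c using Finsupp.induction_linear with
  | zero =>
    have : kid1 (0 : B.MM) = 0 := by ext; simp
    rw [map_zero, this, Finsupp.sum_zero_index]; simp
  | add f g hf hg =>
    rw [map_add, Finsupp.add_apply, hf, hg, Finsupp.add_apply, kid1_add]
    rw [Finsupp.sum_add_index' (fun _ => zero_mul _) (fun _ _ _ => add_mul _ _ _)]
    abel
  | single w o =>
    rw [dP_single]
    match w with
    | none =>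
      have h0 : kid1 (Finsupp.single (none : B.W) o) = 0 := by
        ext j; simp
      rw [h0, Finsupp.sum_zero_index, sub_zero, smul_vec_none]
    | some ([], j) =>
      have h0 : kid1 (Finsupp.single (some ([], j) : B.W) o) = Finsupp.single j o := by
        ext j'
        rw [kid1_apply, Finsupp.single_apply, Finsupp.single_apply]
        simp
      rw [h0, Finsupp.sum_single_index (zero_mul _), smul_vec_some]
      simp [LB.par, LB.lab]
    | some (i :: l, j) =>
      have h0 : kid1 (Finsupp.single (some (i :: l, j) : B.W) o) = 0 := by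
        ext j'; simp
      rw [h0, Finsupp.sum_zero_index, sub_zero, smul_vec_some]
      simp [LB.par, LB.lab]

theorem dP_apply_some (c : B.MM) (κ : B.Wd) :
    B.dP c (some κ) = c (some κ) - (kid0 κ c).sum fun i e => e * B.g0 i := by
  classical
  obtain ⟨l, j⟩ := κ
  induction c using Finsupp.induction_linear with
  | zero =>
    have : kid0 (l, j) (0 : B.MM) = 0 := by ext; simp
    rw [map_zero, this, Finsupp.sum_zero_index]; simp
  | add f g hf hg =>
    rw [map_add, Finsupp.add_apply, hf, hg, Finsupp.add_apply, kid0_add]
    rw [Finsupp.sum_add_index' (fun _ => zero_mul _) (fun _ _ _ => add_mul _ _ _)]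
    abel
  | single w o =>
    rw [dP_single]
    match w with
    | none =>
      have h0 : kid0 (l, j) (Finsupp.single (none : B.W) o) = 0 := by
        ext i; simp
      rw [h0, Finsupp.sum_zero_index, sub_zero, smul_vec_none]
    | some ([], j') =>
      have h0 : kid0 (l, j) (Finsupp.single (some ([], j') : B.W) o) = 0 := by
        ext i; simp
      rw [h0, Finsupp.sum_zero_index, sub_zero, smul_vec_some]
      simp [LB.par, LB.lab]
    | some (i' :: l', j') =>
      by_cases hlj : l' = l ∧ j' = j
      · obtain ⟨rfl, rfl⟩ := hlj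
        have h0 : kid0 (l', j') (Finsupp.single (some (i' :: l', j') : B.W) o) =
            Finsupp.single i' o := by
          ext i
          rw [kid0_apply, Finsupp.single_apply, Finsupp.single_apply]
          simp
        rw [h0, Finsupp.sum_single_index (zero_mul _), smul_vec_some]
        have hne : (some (i' :: l', j') : B.W) ≠ some (l', j') := by
          intro h
          have := congrArg B.lev h
          simp [LB.lev] at this
        simp [LB.par, LB.lab]
      · have h0 : kid0 (l, j) (Finsupp.single (some (i' :: l', j') : B.W) o) = 0 := by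
          ext i
          rw [kid0_apply, Finsupp.single_apply, if_neg]
          · rfl
          · intro h
            simp only [Option.some.injEq, Prod.mk.injEq, List.cons.injEq] at h
            exact hlj ⟨h.1.2, h.2⟩
        rw [h0, Finsupp.sum_zero_index, sub_zero, smul_vec_some]
        have hne : (some (l', j') : B.W) ≠ some (l, j) := by
          intro h
          simp only [Option.some.injEq, Prod.mk.injEq] at h
          exact hlj h
        simp [LB.par, LB.lab, Finsupp.single_apply, hne]

/-! ## top level coefficients -/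

theorem dP_top (c : B.MM) (m : ℕ) (h : ∀ w : B.W, m < B.lev w → c w = 0) (w : B.W)
    (hw : B.lev w = m) : B.dP c w = c w := by
  match w, hw with
  | none, hw =>
    rw [dP_apply_none]
    have : kid1 c = 0 := by
      ext j
      rw [kid1_apply]
      exact h _ (by rw [← hw]; simp [LB.lev])
    rw [this, Finsupp.sum_zero_index, sub_zero]
  | some κ, hw =>
    rw [dP_apply_some]
    have : kid0 κ c = 0 := by
      ext i
      rw [kid0_apply]
      exact h _ (by rw [← hw]; simp [LB.lev])
    rw [this, Finsupp.sum_zero_index, sub_zero]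

theorem exists_lev (c : B.MM) : ∃ m, ∀ w : B.W, m < B.lev w → c w = 0 := by
  classical
  refine ⟨c.support.sup B.lev, fun w hw => ?_⟩
  by_contra h
  have := Finset.le_sup (f := B.lev) (Finsupp.mem_support_iff.2 h)
  omega

theorem dP_injective : Function.Injective B.dP := by
  rw [injective_iff_map_eq_zero]
  intro c hc
  have main : ∀ (m : ℕ), (∀ w : B.W, m < B.lev w → c w = 0) → c = 0 := by
    intro m
    induction m with
    | zero =>
      intro h
      ext w
      rcases Nat.eq_zero_or_pos (B.lev w) with h1 | h1
      · rw [← dP_top c 0 h w h1, hc]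
      · exact h w h1
    | succ m ih =>
      intro h
      refine ih fun w hw => ?_
      rcases Nat.lt_or_ge (m + 1) (B.lev w) with h1 | h1
      · exact h w h1
      · rw [← dP_top c (m + 1) h w (by omega), hc]; rfl
  obtain ⟨m, hm⟩ := exists_lev c
  exact main m hm

theorem single_mem_range : ∀ (w : B.W) (d : DD),
    (Finsupp.single w d : B.MM) ∈ LinearMap.range B.dP := by
  have hsome : ∀ (κ : B.Wd), (∀ d : DD, (Finsupp.single (B.par κ) d : B.MM) ∈ LinearMap.range B.dP) →
      ∀ d : DD, (Finsupp.single (some κ) d : B.MM) ∈ LinearMap.range B.dP := by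
    intro κ h d
    have h1 : (Finsupp.single (some κ) d : B.MM) =
        d • B.vec (some κ) + Finsupp.single (B.par κ) (d * B.lab κ) := by
      rw [smul_vec_some]; abel
    rw [h1, ← dP_single]
    exact add_mem (LinearMap.mem_range_self _ _) (h _)
  have hnone : ∀ d : DD, (Finsupp.single none d : B.MM) ∈ LinearMap.range B.dP := by
    intro d
    rw [← smul_vec_none, ← dP_single]
    exact LinearMap.mem_range_self _ _
  intro w
  match w with
  | none => exact hnone
  | some (l, j) =>
    induction l with
    | nil => exact hsome ([], j) hnone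
    | cons i l ih => exact hsome (i :: l, j) ih

theorem dP_surjective : Function.Surjective B.dP := by
  intro y
  induction y using Finsupp.induction_linear with
  | zero => exact ⟨0, map_zero _⟩
  | add f g hf hg =>
    obtain ⟨a, rfl⟩ := hf
    obtain ⟨b, rfl⟩ := hg
    exact ⟨a + b, map_add _ _ _⟩
  | single w d => exact single_mem_range w d

theorem dP_bijective : Function.Bijective B.dP := ⟨dP_injective, dP_surjective⟩

/-! ## the sum is direct -/

theorem eq_zero_of_mem (c : B.MM) (hc : c ∈ B.H) (hG : B.dP c ∈ B.Gaff) : c = 0 := by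
  obtain ⟨⟨o, ho, hco⟩, hO⟩ := hc
  have hO' : ∀ w, c w ∈ L.O := by
    intro w
    match w with
    | none => rw [hco]; exact L.O.mul_mem L.pO ho
    | some κ => exact hO κ
  have main : ∀ (m : ℕ), (∀ w : B.W, m < B.lev w → c w = 0) → c = 0 := by
    intro m
    induction m with
    | zero =>
      intro h
      have h2 : B.dP c none = c none := dP_top c 0 h none rfl
      have h3 := hG none
      rw [h2, hco] at h3
      have h4 := L.disj o ho h3
      ext w
      match w with
      | none => rw [hco, h4, mul_zero]; rfl
      | some κ => exact h _ (by simp [LB.lev])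
    | succ m ih =>
      intro h
      apply ih
      -- coefficients of level `m + 1` lie in `E`
      have htop : ∀ w : B.W, B.lev w = m + 1 → c w ∈ L.V ⊓ L.O := by
        intro w hw
        refine ⟨?_, hO' w⟩
        rw [← dP_top c (m + 1) h w hw]
        exact hG _
      intro w hw
      rcases Nat.lt_or_ge (m + 1) (B.lev w) with h1 | h1
      · exact h w h1
      have hlev : B.lev w = m + 1 := by omega
      match w, hlev with
      | some ([], j), hlev =>
        have hm : m = 0 := by simpa [LB.lev] using hlev.symm
        subst hm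
        have hc2 : kid1 c = 0 := by
          refine B.ind1 _ (fun j => ?_) (-(B.dP c none)) (L.V.neg_mem (hG _)) o ho ?_
          · rw [kid1_apply]; exact htop _ rfl
          · rw [dP_apply_none, hco]; abel
        have := DFunLike.congr_fun hc2 j
        simpa using this
      | some (i :: l, j), hlev =>
        have hc2 : kid0 (l, j) c = 0 := by
          refine B.ind0 _ (fun i' => ?_) (-(B.dP c (some (l, j)))) (L.V.neg_mem (hG _))
            (c (some (l, j))) (hO' _) ?_
          · rw [kid0_apply]
            refine htop _ ?_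
            simpa [LB.lev] using hlev
          · rw [dP_apply_some]; abel
        have := DFunLike.congr_fun hc2 i
        simpa using this
  obtain ⟨m, hm⟩ := exists_lev c
  exact main m hm

theorem inf_eq_bot : B.Gaff ⊓ B.BB = ⊥ := by
  rw [eq_bot_iff]
  rintro y ⟨h1, c, hc, rfl⟩
  have h2 := eq_zero_of_mem c hc h1
  rw [h2, map_zero]
  exact zero_mem _

/-- **Lemma 1** of #12003 -/
theorem isCompl (B : LB L) : IsCompl B.Gaff B.BB :=
  IsCompl.of_eq inf_eq_bot sup_eq_top

end

end Crest.Agent.R181.VL
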