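import Crest.Agent.R181.V868c
import Crest.Agent.R181.VL963a

/-!
# R181, V-chain, block V1: final statements (left-handed)
-/

namespace Crest.Agent.R181.V868

universe u

namespace LB

variable {DD : Type u} [Ring DD] {L : Line DD} (B : LB L) {T : Type u} [Ring T] (U : UnivT L T)

theorem isCompl : IsCompl B.Gaff B.BB := VL.isCompl B

/-- (o1): `T[x]` is left `V`-free on the words -/
theorem existsUnique_Gaff (z : LaurentSeries T) (hz : ∀ n : ℤ, 0 < n → z.coeff n = 0) :
    ∃! m : B.MM, m ∈ B.Gaff ∧ B.φ U m = z := by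
  obtain ⟨m, hm, hm'⟩ := B.exists_Gaff U B.isCompl z hz
  refine ⟨m, ⟨hm, hm'⟩, ?_⟩
  rintro m' ⟨h1, h2⟩
  rw [← sub_eq_zero]
  exact B.φ_injOn_Gaff U B.isCompl (B.Gaff.sub_mem h1 hm) (by rw [map_sub, h2, hm', sub_self])

/-- the second basis: `1` and `x (κ - lab κ • par κ)` -/
noncomputable def bi : B.W → B.MM
  | none => Finsupp.single none 1
  | some κ => L.x • B.vec (some κ)

@[simp] lemma bi_none : B.bi none = Finsupp.single none 1 := rfl
lemma bi_some (κ : B.Wd) : B.bi (some κ) = L.x • B.vec (some κ) := rfl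

lemma bi_mem (w : B.W) : B.bi w ∈ B.Ginf := by
  rcases w with _ | κ
  · exact B.one_mem_N.2
  · rw [mem_Ginf, bi_some, smul_smul, L.px, one_smul]
    simpa using B.smul_vec_mem_BB L.O.one_mem κ

/-- the coordinates `o ↦ p • o` at the root, `o` elsewhere; `dP` of it is `p • Σ o_w bi w` -/
lemma smul_bi_sum (o : B.W →₀ DD) : L.p • o.sum (fun w d => d • B.bi w) =
    B.dP (o + Finsupp.single none (L.p * o none - o none)) := by
  classical
  have hne : B.vec none = Finsupp.single none 1 := rfl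
  have h0 : B.dP (Finsupp.single none (L.p * o none - o none)) =
      Finsupp.single none (L.p * o none - o none) := by
    rw [dP_single, smul_vec_none]
  rw [map_add, h0]
  have h1 : B.dP o = o.sum (fun w d => d • B.vec w) := by
    rw [dP, Finsupp.linearCombination_apply]
  rw [h1, Finsupp.smul_sum]
  have h2 : ∀ (w : B.W) (d : DD), L.p • d • B.bi w =
      d • B.vec w + (if w = none then Finsupp.single none (L.p * d - d) else 0) := by
    intro w d
    rcases w with _ | κ
    · rw [if_pos rfl, bi_none, hne]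
      simp only [Finsupp.smul_single, smul_eq_mul, mul_one]
      rw [← Finsupp.single_add]
      congr 1; abel
    · rw [if_neg (by simp), add_zero, bi_some, smul_smul, smul_smul, L.pc, mul_assoc, L.px, mul_one]
  simp only [h2]
  rw [Finsupp.sum_add]
  congr 1
  rw [Finsupp.sum]
  by_cases hn : o none = 0
  · rw [hn]
    simp only [mul_zero, sub_zero, Finsupp.single_zero]
    refine Finset.sum_eq_zero fun w hw => ?_
    rcases w with _ | κ
    · rw [hn]; simp
    · simp
  · rw [Finset.sum_eq_single none]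
    · simp
    · intro w _ hw; rw [if_neg hw]
    · intro h; exfalso; exact hn (by simpa using h)

/-- (o3): `G_inf` is `O`-free on `bi` -/
theorem existsUnique_Ginf (g : B.MM) (hg : g ∈ B.Ginf) :
    ∃! o : B.W →₀ DD, (∀ w, o w ∈ L.O) ∧ g = o.sum (fun w d => d • B.bi w) := by
  obtain ⟨h, ⟨⟨o', ho', h1⟩, h2⟩, h3⟩ := B.mem_BB.1 hg
  have key : ∀ o : B.W →₀ DD, g = o.sum (fun w d => d • B.bi w) ↔
      o + Finsupp.single none (L.p * o none - o none) = h := by
    intro o
    constructor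
    · intro e
      have := B.smul_bi_sum o
      rw [← e, ← h3] at this
      exact (VL.dP_injective this).symm
    · intro e
      have h4 := B.smul_bi_sum o
      rw [e, h3] at h4
      have h5 := congrArg (fun y => L.x • y) h4
      simp only [smul_smul, L.xp, one_smul] at h5
      exact h5.symm
  refine ⟨h + Finsupp.single none (o' - h none), ⟨?_, ?_⟩, ?_⟩
  · intro w
    rcases w with _ | κ
    · simp [ho']
    · simpa using h2 κ
  · rw [key]
    ext w
    rcases w with _ | κ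
    · simp [h1]
    · simp
  · rintro o ⟨-, e⟩
    rw [key] at e
    ext w
    rcases w with _ | κ
    · have := DFunLike.congr_fun e none
      simp only [Finsupp.add_apply, Finsupp.single_eq_same, h1] at this
      have h6 : L.p * o none = L.p * o' := by rw [← this]; abel
      have h7 : o none = o' := by
        have := congrArg (fun y => L.x * y) h6
        simpa [← mul_assoc, L.xp] using this
      simp [h7]
    · have := DFunLike.congr_fun e (some κ)
      simpa using this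

lemma φ_bi_neg (w : B.W) (n : ℤ) (hn : n < 0) : (B.φ U (B.bi w)).coeff n = 0 :=
  B.φ_Ginf U (B.bi_mem w) n hn

/-- the `Δ`-basis of `T` -/
noncomputable def c (w : B.W) : T := (B.φ U (B.bi w)).coeff 0

@[simp] lemma c_none : B.c U none = 1 := by
  simp [c, φ_single]

lemma coeff_zero_bi_sum (o : B.W →₀ DD) (ho : ∀ w, o w ∈ L.O) :
    (B.φ U (o.sum (fun w d => d • B.bi w))).coeff 0 =
      o.sum (fun w d => (U.Θ d).coeff 0 * B.c U w) := by
  rw [Finsupp.sum, map_sum, HahnSeries.coeff_sum, Finsupp.sum]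
  refine Finset.sum_congr rfl fun w _ => ?_
  rw [φ_smul, mul_coeff_zero (U.ΘO _ (ho w)) (B.φ_bi_neg U w)]
  rfl

/-- (o2), existence -/
theorem exists_c (t : T) : ∃ o : B.W →₀ DD, (∀ w, o w ∈ L.O) ∧
    t = o.sum (fun w d => (U.Θ d).coeff 0 * B.c U w) := by
  obtain ⟨n, rfl⟩ := B.ψ_surjective U B.isCompl t
  obtain ⟨o, ⟨h1, h2⟩, -⟩ := B.existsUnique_Ginf _ n.2.2
  refine ⟨o, h1, ?_⟩
  rw [← B.coeff_zero_bi_sum U o h1, ← h2]
  rfl

/-- `g ∈ G_inf`, `coeff 0 = 0` implies `g ∈ p G_inf` -/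
theorem mem_BB_of_coeff_zero {g : B.MM} (hg : g ∈ B.Ginf) (h : (B.φ U g).coeff 0 = 0) :
    g ∈ B.BB := by
  rw [B.mem_BB_iff_φ U B.isCompl]
  intro n hn
  rcases hn.lt_or_eq with h1 | rfl
  · exact B.φ_Ginf U hg n h1
  · exact h

/-- (o2), uniqueness modulo `pO` -/
theorem c_unique (o : B.W →₀ DD) (ho : ∀ w, o w ∈ L.O)
    (h : o.sum (fun w d => (U.Θ d).coeff 0 * B.c U w) = 0) (w : B.W) :
    ∃ o' ∈ L.O, o w = L.p * o' := by
  have hG : o.sum (fun w d => d • B.bi w) ∈ B.Ginf := by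
    rw [Finsupp.sum]
    exact Submodule.sum_mem _ fun w _ => B.Ginf_smul (ho w) (B.bi_mem w)
  have h1 := B.mem_BB_of_coeff_zero U hG (by rw [B.coeff_zero_bi_sum U o ho, h])
  have h2 : L.x • o.sum (fun w d => d • B.bi w) ∈ B.Ginf := by
    rw [mem_Ginf, smul_smul, L.px, one_smul]; exact h1
  obtain ⟨o'', ⟨h3, h4⟩, -⟩ := B.existsUnique_Ginf _ h2
  have h5 : o.sum (fun w d => d • B.bi w) =
      (L.p • o'').sum (fun w d => d • B.bi w) := by
    have := congrArg (fun y => L.p • y) h4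
    simp only [smul_smul, L.px, one_smul] at this
    rw [this, Finsupp.smul_sum, Finsupp.sum_smul_index]
    · simp only [mul_smul]
    · simp
  obtain ⟨o3, -, h6⟩ := B.existsUnique_Ginf _ hG
  have h7 := h6 o ⟨ho, rfl⟩
  have h8 := h6 (L.p • o'') ⟨fun w => L.O.mul_mem L.pO (h3 w), h5⟩
  refine ⟨o'' w, h3 w, ?_⟩
  rw [h7, ← h8]; rfl

include B in
/-- the kernel of `O → T`, `o ↦ (Θ o)₀`, is `pO` -/
theorem coeff_zero_eq_zero {o : DD} (ho : o ∈ L.O) (h : (U.Θ o).coeff 0 = 0) :
    ∃ o' ∈ L.O, o = L.p * o' := by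
  have := B.c_unique U (Finsupp.single none o) (fun w => by
    rcases w with _ | κ
    · simpa using ho
    · simp) (by
    rw [Finsupp.sum_single_index (by simp)]; simp [h]) none
  simpa using this

section sep
variable (hsep : ∀ d : DD, (∀ n : ℕ, ∃ o ∈ L.O, d = L.p ^ n * o) → d = 0)
include hsep

/-- `φ` is injective if `⋂ pⁿO = 0` -/
theorem φ_injective : Function.Injective (B.φ U) := by
  rw [injective_iff_map_eq_zero]
  intro m hm
  obtain ⟨f, rfl⟩ := VL.dP_surjective (B := B) m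
  have h1 : ∀ n : ℕ, L.x ^ n • f ∈ B.H := by
    intro n
    have h2 : L.x ^ n • B.dP f ∈ B.BB := by
      rw [B.mem_BB_iff_φ U B.isCompl]
      intro k _
      rw [φ_smul, hm]; simp
    obtain ⟨f', hf', h3⟩ := B.mem_BB.1 h2
    rw [← map_smul] at h3
    rwa [← VL.dP_injective h3]
  have h2 : f = 0 := by
    ext w
    refine hsep _ fun n => ?_
    have hx : ∀ d : DD, d = L.p ^ n * (L.x ^ n * d) := by
      intro d
      rw [← mul_assoc, ← L.xz_neg_nat, ← L.xz_nat, ← L.xz_add]; simp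
    rcases w with _ | κ
    · obtain ⟨⟨o, ho, h3⟩, -⟩ := h1 n
      refine ⟨L.p * o, L.O.mul_mem L.pO ho, ?_⟩
      rw [← h3]; exact hx _
    · refine ⟨_, (h1 n).2 κ, ?_⟩
      exact hx _
  rw [h2, map_zero]

end sep

/-- `MM_T = Θ(DD) T[x]` inside `T((p))` -/
noncomputable def MMT : AddSubgroup (LaurentSeries T) := (B.φ U).range

lemma mem_MMT {z : LaurentSeries T} : z ∈ B.MMT U ↔ ∃ m, B.φ U m = z := Iff.rfl

lemma MMT_smul (d : DD) {z : LaurentSeries T} (hz : z ∈ B.MMT U) : U.Θ d * z ∈ B.MMT U := by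
  obtain ⟨m, rfl⟩ := hz
  exact ⟨d • m, B.φ_smul U d m⟩

lemma poly_mem_MMT {z : LaurentSeries T} (hz : ∀ n : ℤ, 0 < n → z.coeff n = 0) :
    z ∈ B.MMT U := by
  obtain ⟨m, -, hm⟩ := B.exists_Gaff U B.isCompl z hz
  exact ⟨m, hm⟩

/-- `MM_T` is stable under right multiplication by `T[x]` -/
lemma MMT_mul {z : LaurentSeries T} (hz : z ∈ B.MMT U) {y : LaurentSeries T}
    (hy : ∀ n : ℤ, 0 < n → y.coeff n = 0) : z * y ∈ B.MMT U := by
  obtain ⟨m, rfl⟩ := hz
  rw [φ_apply, Finsupp.sum, Finset.sum_mul]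
  refine AddSubgroup.sum_mem _ fun w _ => ?_
  rw [mul_assoc]
  exact B.MMT_smul U _ (B.poly_mem_MMT U (fun n hn => mul_coeff_pos (B.b_pos U w) hy n hn))

lemma tr_mem_MMT (z : LaurentSeries T) : tr z ∈ B.MMT U :=
  B.poly_mem_MMT U (fun n hn => by rw [tr_coeff, if_neg (by omega)])

/-- `φ m ∈ T[x]` iff `m ∈ G_aff` when `φ` is injective -/
lemma mem_Gaff_iff_φ (hinj : Function.Injective (B.φ U)) {m : B.MM} :
    m ∈ B.Gaff ↔ ∀ n : ℤ, 0 < n → (B.φ U m).coeff n = 0 := by
  refine ⟨fun h => B.φ_Gaff U h, fun h => ?_⟩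
  obtain ⟨m', hm', e⟩ := B.exists_Gaff U B.isCompl _ h
  rwa [← hinj e]

end LB

end Crest.Agent.R181.V868
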