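import Crest.Agent.R181.VP836a
import Crest.Agent.R181.V868d
import Crest.Agent.R181.ST963b
import Crest.Agent.R181.SM858a

/-!
R181, V-chain (helper836): V1 over 825's `Chain`, part b: regularity of the central elements of `L`
on `Y.U lam`, from left bases; the base case; transport.
-/

set_option autoImplicit false
set_option linter.unusedSectionVars false

namespace Crest.Agent.R181.VP

open AddMonoidAlgebra Crest.Agent.R181.UR Crest.Agent.R181.TW Crest.Agent.R181.RO
open Crest.Agent.R181.OR Crest.Agent.R181.UT Crest.Agent.R181.BM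
open scoped Polynomial

section abstr

universe u

open V868

variable {DD T : Type u} [Ring DD] [Ring T] {L : Line DD}

/-- regularity of a central element of `T` from its regularity on the leading coefficients -/
theorem regular_of_LB (B : LB L) (U : UnivT L T) (x : DD) (x0 : T) (hx : x ∈ L.O)
    (hx0 : ∀ o ∈ L.O, (U.Θ (x * o)).coeff 0 = x0 * (U.Θ o).coeff 0)
    (hreg : ∀ o ∈ L.O, x0 * (U.Θ o).coeff 0 = 0 → (U.Θ o).coeff 0 = 0) (t : T)
    (h : x0 * t = 0) : t = 0 := by
  obtain ⟨o, ho, rfl⟩ := B.exists_c U t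
  have hp0 : ∀ o' ∈ L.O, (U.Θ (L.p * o')).coeff 0 = 0 := by
    intro o' ho'
    have h1 : U.Θ L.x * U.Θ (L.p * o') = U.Θ o' := by rw [← map_mul, ← mul_assoc, L.xp, one_mul]
    rw [U.Θx] at h1
    have h2 := congrArg (fun z => HahnSeries.coeff z (-1)) h1
    simp only [HahnSeries.coeff_single_mul, one_mul] at h2
    rw [U.ΘO o' ho' (-1) (by omega)] at h2
    simpa using h2
  have h3 : ∀ w, (U.Θ (o w)).coeff 0 = 0 := by
    have h4 : (o.mapRange (fun d => x * d) (mul_zero x)).sum
        (fun w d => (U.Θ d).coeff 0 * B.c U w) = 0 := by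
      rw [Finsupp.sum_mapRange_index (by simp), ← h, Finsupp.sum, Finsupp.sum, Finset.mul_sum]
      refine Finset.sum_congr rfl fun w _ => ?_
      rw [hx0 _ (ho w), mul_assoc]
    intro w
    obtain ⟨o', ho', h5⟩ := B.c_unique U _ (fun w => by
      rw [Finsupp.mapRange_apply]; exact L.O.mul_mem hx (ho w)) h4 w
    rw [Finsupp.mapRange_apply] at h5
    apply hreg _ (ho w)
    rw [← hx0 _ (ho w), h5, hp0 o' ho']
  rw [Finsupp.sum]
  exact Finset.sum_eq_zero fun w _ => by rw [h3, zero_mul]

end abstr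

section reg

variable {F I : Type} [Field F] [Fintype I] {n : ℕ} {d : TW.Dat F I n}

/-- nonzero elements of `L = F[σ]` are regular on `X.U lam` -/
def Reg {i : ℕ} (X : Lvl d i) : Prop :=
  ∀ (σ : Type) [Fintype σ] (lam : Fin n → MvPolynomial σ F) (x : MvPolynomial σ F), x ≠ 0 →
    ∀ y : X.U lam, iL d.a d.th (d.Ql i lam) X.w x * y = 0 → y = 0

theorem vars_hom (L : Type) [CommRing L] (i : ℕ) (t : Fin n) :
    (vars L i t).IsHomogeneous 1 := by
  by_cases h : (t : ℕ) < i
  · obtain ⟨v, -, hv⟩ := vars_of_lt L i t h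
    rw [hv]
    exact MvPolynomial.isHomogeneous_X _ _
  · rw [vars_eq_zero L i t (by omega)]
    exact MvPolynomial.isHomogeneous_zero _ _ _

theorem lvars_hom {L : Type} [CommRing L] (i : ℕ) (lam : Fin n → L) (t : Fin n) :
    (lvars i lam t).IsHomogeneous 1 := by
  unfold lvars
  split_ifs
  · exact (vars_hom L i t).rename_isHomogeneous
  · have := (MvPolynomial.isHomogeneous_C (Option (Vr i)) (lam t)).mul
      (MvPolynomial.isHomogeneous_X L (none : Option (Vr i)))
    simpa using this

variable (d) in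
theorem Ql_hom {L : Type} [CommRing L] [Algebra F L] (i : ℕ) (lam : Fin n → L) (l : I) :
    (d.Ql i lam l).IsHomogeneous (d.a l) := by
  have := (d.hQ l).aeval (S := L) (lvars i lam) (n := 1) (fun t => lvars_hom i lam t)
  rwa [one_mul] at this

/-- base case -/
theorem reg_lvl0 [LinearOrder I] (hth : ∀ i l : I, ¬ i < l → d.th i l = 0) : Reg (lvl0 d) := by
  intro σ _ lam x hx y hy
  have hb : Function.Bijective (algebraMap F (lvl0 d).D) := Function.bijective_id
  have : IsEmpty (Vr 0) := inferInstanceAs (IsEmpty Empty)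
  exact ST.iL_regular d.th (lvl0 d).w (ST.mono_of_isHomogeneous d.a _ (Ql_hom d 0 lam))
    (fun i => by have := d.ha i; omega) hth hb x (mem_nonZeroDivisors_of_ne_zero hx) y hy

/-- change of `L` -/
theorem Reg.congr {i : ℕ} {X : Lvl d i} (h : Reg X) (σ : Type) [Fintype σ] {L : Type} [CommRing L]
    [Algebra F L] (e : L ≃ₐ[F] MvPolynomial σ F) (lam : Fin n → L) (x : L) (hx : x ≠ 0)
    (y : X.U lam) (hy : iL d.a d.th (d.Ql i lam) X.w x * y = 0) : y = 0 := by
  obtain ⟨φ, -, h2, -⟩ := UR.U_congr (a := d.a) (th := d.th) (d.Ql i lam) X.w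
    (d.Ql i (fun t => e (lam t))) X.w (AlgEquiv.refl (R := F)) e (Equiv.refl (Vr i))
    (by
      intro l
      have := d.map_Ql ((e : L →ₐ[F] MvPolynomial σ F) : L →+* MvPolynomial σ F)
        (fun c => e.commutes c) i lam l
      refine Eq.trans ?_ (congrArg _ this.symm)
      rw [show (Equiv.optionCongr (Equiv.refl (Vr i))) = Equiv.refl _ from by simp]
      simp)
    (by intro l v; rfl)
  apply φ.injective
  rw [map_zero]
  refine h σ (fun t => e (lam t)) (e x) (fun h0 => hx (e.injective (by rw [h0, map_zero]))) _ ?_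
  rw [← h2, ← map_mul, hy, map_zero]

end reg

end Crest.Agent.R181.VP
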