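import Crest.Agent.R181.TW825g
import Crest.Agent.R181.VP836b
import Crest.Agent.R181.BM553a

/-!
R181 (helper825): interface between block PO (598, 553), block V2 (495, 836) and the main theorem.
`BM1Stmt d`: `X.U lam` is nontrivial.  `LiftStmt d`: for EVERY homogeneous lift `Q` of the forms of
level `i`, the ring `U (D_i, w; F, Q)` is nontrivial and stably finite.
-/

set_option autoImplicit false
set_option linter.unusedSectionVars false

namespace Crest.Agent.R181.TW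

open UR HT

section

variable {F I : Type} [Field F] [Fintype I] {n : ℕ} (d : Dat F I n)

/-- `X.U lam` is nontrivial (for 836 / V2) -/
def BM1Stmt : Prop :=
  ∀ (i : ℕ) (_ : i < n) (X : Lvl d i) (_ : Chain d i X) (lam : Fin n → F), Nontrivial (X.U lam)

/-- the output of block PO -/
def LiftStmt : Prop :=
  ∀ (i : ℕ) (_ : i < n) (X : Lvl d i) (_ : Chain d i X)
    (Q : I → MvPolynomial (Option (Vr i)) F), (∀ l, (Q l).IsHomogeneous (d.a l)) →
    (∀ l, BM.res0 (Q l) = d.Qr i l) →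
    Nontrivial (U d.a d.th Q X.w) ∧ IsStablyFiniteRing (U d.a d.th Q X.w)

theorem res0_Ql (i : ℕ) (lam : Fin n → F) (l : I) : BM.res0 (d.Ql i lam l) = d.Qr i l := by
  have h : (BM.res0 (σ := Vr i) (R := F)).comp
      (MvPolynomial.aeval (lvars i lam) : MvPolynomial (Fin n) F →ₐ[F] _) =
      MvPolynomial.aeval (vars F i) := by
    apply MvPolynomial.algHom_ext
    intro t
    rw [AlgHom.comp_apply, MvPolynomial.aeval_X, MvPolynomial.aeval_X, lvars]
    by_cases ht : (t : ℕ) < i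
    · obtain ⟨v, -, hv⟩ := vars_of_lt F i t ht
      rw [if_pos ht, hv, MvPolynomial.rename_X]
      simp [BM.res0]
    · rw [if_neg ht, vars_eq_zero F i t (by omega), map_mul]
      simp [BM.res0]
  exact DFunLike.congr_fun h (d.Q l)

variable {d}

theorem LiftStmt.bm1 (h : LiftStmt d) : BM1Stmt d := fun i hi X c lam =>
  (h i hi X c (d.Ql i lam) (VP.Ql_hom d i lam) (res0_Ql d i lam)).1

theorem LiftStmt.po (h : LiftStmt d) : POStmt d := fun i hi X c =>
  h i hi X c (d.Ql i (dl F i)) (VP.Ql_hom d i (dl F i)) (res0_Ql d i (dl F i))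

end

/-- **S0271 from V2 and the lift theorem.** -/
theorem main'
    (hV2 : ∀ {r : ℕ} (a : Fin (r + 1) → ℕ) (f : Fin (r + 1) → MvPolynomial (Fin (r + 1)) ℂ)
      (ha : Monotone a) (ha2 : ∀ i, 2 ≤ a i) (hf : ∀ i, (f i).IsHomogeneous (a i)),
      BM1Stmt (AS.dat a f ha ha2 hf) → V2Stmt (AS.dat a f ha ha2 hf))
    (hPO : ∀ {r : ℕ} (a : Fin (r + 1) → ℕ) (f : Fin (r + 1) → MvPolynomial (Fin (r + 1)) ℂ)
      (ha : Monotone a) (ha2 : ∀ i, 2 ≤ a i) (hf : ∀ i, (f i).IsHomogeneous (a i)),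
      LiftStmt (AS.dat a f ha ha2 hf))
    (n : ℕ) (hn : 1 ≤ n) (a : Fin n → ℕ)
    (ha : Monotone a) (ha2 : ∀ i, 2 ≤ a i) (I : Ideal (MvPolynomial (Fin n) ℂ))
    (hI : ∀ g ∈ I, ∀ d : ℕ, MvPolynomial.homogeneousComponent d g ∈ I)
    (f : Fin n → MvPolynomial (Fin n) ℂ) (hf : ∀ i, (f i).IsHomogeneous (a i)) (hfI : ∀ i, f i ∈ I)
    (hreg : RingTheory.Sequence.IsRegular (MvPolynomial (Fin n) ℂ) (List.ofFn f)) :
    KL.Concl n a I :=
  main (fun _ a f ha ha2 hf =>
    ⟨hV2 a f ha ha2 hf (hPO a f ha ha2 hf).bm1, (hPO a f ha ha2 hf).po⟩)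
    n hn a ha ha2 I hI f hf hfI hreg

end Crest.Agent.R181.TW
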