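import Crest.Agent.R181.IN553b
import Crest.Agent.R181.LC598i
import Crest.Agent.R181.TD659b
import Crest.Agent.R181.TW825h
import Crest.Agent.R181.WF459a

/-! R181 (helper776), block B9: the lift statement. -/

set_option autoImplicit false
set_option linter.unusedSectionVars false

namespace Crest.Agent.R181.INL

open UR PO TW IN

/-- coefficients of substituted polynomials -/
theorem coeff_aeval_mem {F : Type} [Field F] {n : ℕ} (S : Subring F) (p : MvPolynomial (Fin n) F)
    (hp : ∀ m, p.coeff m ∈ S) (i : ℕ) (m : Vr i →₀ ℕ) :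
    (MvPolynomial.aeval (vars F i) p).coeff m ∈ S := by
  have h1 : p ∈ Set.range (MvPolynomial.map (σ := Fin n) S.subtype) := by
    rw [MvPolynomial.mem_range_map_iff_coeffs_subset]
    intro x hx
    rw [Finset.mem_coe, MvPolynomial.mem_coeffs_iff] at hx
    obtain ⟨m, -, rfl⟩ := hx
    exact ⟨⟨_, hp m⟩, rfl⟩
  obtain ⟨p', rfl⟩ := h1
  have h2 : MvPolynomial.aeval (vars F i) (MvPolynomial.map S.subtype p') =
      MvPolynomial.map S.subtype (MvPolynomial.aeval (vars S i) p') := by
    have h3 : (MvPolynomial.aeval (vars F i) : MvPolynomial (Fin n) F →ₐ[F] _).toRingHom.comp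
        (MvPolynomial.map S.subtype) = (MvPolynomial.map S.subtype).comp
        (MvPolynomial.aeval (vars S i) : MvPolynomial (Fin n) S →ₐ[S] _).toRingHom := by
      apply MvPolynomial.ringHom_ext
      · intro c
        change MvPolynomial.aeval (vars F i) (MvPolynomial.map S.subtype (MvPolynomial.C c)) =
          MvPolynomial.map S.subtype (MvPolynomial.aeval (vars S i) (MvPolynomial.C c))
        simp
      · intro t
        change MvPolynomial.aeval (vars F i) (MvPolynomial.map S.subtype (MvPolynomial.X t)) =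
          MvPolynomial.map S.subtype (MvPolynomial.aeval (vars S i) (MvPolynomial.X t))
        rw [MvPolynomial.map_X, MvPolynomial.aeval_X, MvPolynomial.aeval_X, map_vars]
    exact RingHom.congr_fun h3 p'
  rw [h2, MvPolynomial.coeff_map]
  exact ((MvPolynomial.aeval (vars S i) p').coeff m).2

theorem liftStmt {r : ℕ} (a : Fin (r + 1) → ℕ) (f : Fin (r + 1) → MvPolynomial (Fin (r + 1)) ℂ)
    (ha : Monotone a) (ha2 : ∀ i, 2 ≤ a i) (hf : ∀ i, (f i).IsHomogeneous (a i)) :
    LiftStmt (AS.dat a f ha ha2 hf) := by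
  intro i hi X c Q hQ hres
  classical
  have e : (fun l => BM.res0 (Q l)) = (AS.dat a f ha ha2 hf).Qr i := funext hres
  have hL : LocHyp (AS.twD a f ha ha2 hf) (fun l => BM.res0 (Q l)) X.w := by
    rw [e]
    exact AS.locHyp a f ha ha2 hf c
  have hw : IsTuple (AS.dat a f ha ha2 hf).a (AS.dat a f ha ha2 hf).th (fun l => BM.res0 (Q l))
      (algebraMap (AS.Fld (r + 1)) X.D) X.w := by
    rw [e]
    exact X.tup
  have ha1 : ∀ l, 1 ≤ (AS.dat a f ha ha2 hf).a l := fun l => by
    have := (AS.dat a f ha ha2 hf).ha l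
    omega
  have hω : ∀ l, IsPrimitiveRoot (AS.om a l) ((AS.dat a f ha ha2 hf).a l) := fun l =>
    AS.isPrimitiveRoot_om a ha2 l
  have hth : ∀ l m, ¬ l < m → (AS.dat a f ha ha2 hf).th l m = 0 := fun l m h => by
    change AS.thF l.succ m.succ = 0
    exact if_neg (by rwa [Fin.succ_lt_succ_iff])
  have hfix : ∀ l m, (BM.res0 (Q l)).coeff m ∈ (AS.twD a f ha ha2 hf).fixed := fun l m => by
    rw [hres]
    exact coeff_aeval_mem _ _ (AS.coeff_mem_fixed a f ha ha2 hf l) i m
  choose ml hml using fun l => BM.exists_list _ (Q l) (hQ l)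
  obtain ⟨ops, pl, hops, hops', hpl, hpl'⟩ := exists_ops (I := Fin r)
  have hnt : Nontrivial (KK (AS.dat a f ha ha2 hf).a (AS.dat a f ha ha2 hf).th
      (fun l => BM.res0 (Q l)) X.w) := (WF.stablyFinite_KE _ _ _ _ hw).1
  obtain ⟨P⟩ := exists_pkg (v1 := v1) hL (fun l => (hω l).pow_eq_one) ha1 (r := (· < ·))
    (fun x => lt_irrefl x) (fun x y => not_lt_of_gt)
    (fun l => (ml l).map (kk ((AS.dat a f ha ha2 hf).a l))) pl (fun l m h => (hpl' l m).1 h)
    (fun l k hk u => by
      rw [List.mem_map] at hk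
      obtain ⟨t, -, rfl⟩ := hk
      have : kk ((AS.dat a f ha ha2 hf).a l) t ((AS.dat a f ha ha2 hf).a l - 1) = Sum.inr t.1 := by
        rw [kk, if_neg (by omega)]
      rw [this]
      rfl) ops hops hops'
  exact lift_of_pkg ha1 hω hth ml hml pl hpl hpl' ops hops hops' hfix P hL hw

end Crest.Agent.R181.INL
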