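import Crest.Agent.R181.H7
import Crest.Agent.R181.HT279c
import Crest.Agent.R181.TW825b
import Crest.Agent.R181.AS5
import Crest.Agent.R181.SM858a

/-!
R181 (helper279): the killing lemma in the form consumed by H9, for every level of the tower, and
the data of the tower attached to the parameters.  (The proof of `kill0` is 788's.)
-/

set_option autoImplicit false
set_option linter.unusedSectionVars false

namespace Crest.Agent.R181.KL

open Finset
open Crest.Agent.R181.UR
open Crest.Agent.R181.H Crest.Agent.R181.H.Prm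
open Crest.Agent.R181.HT (Cf Hg IsCoc)

noncomputable section

section kill0

variable {r : ℕ} {F : Type} [Field F] [Algebra ℂ F] (P : Prm r F)
variable {σ : Type} [Fintype σ] {g : Fin (r + 1) → MvPolynomial σ F} {R : Type*} [Ring R]
  {τ : F →+* R} {w : Fin r → σ → R}

/-- The abstract killing statement for tuples of linear forms (788's proof). -/
theorem kill0 (hg : IsSub g) (hτ : Conn τ) (hw : P.Tup g τ w)
    (hF : ∀ i v u, Commute (τ u) (w i v)) (k : Fin (r + 1)) :
    (P.toKData hg hw hF k).Kill 0 := by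
  have : CharZero F := charZero_of_injective_algebraMap (algebraMap ℂ F).injective
  set K := P.toKData hg hw hF k with hK
  have hj : ∀ u, K.j u = cst σ (τ u) := fun u => phi_C g τ u
  -- derivatives of q_i
  have hder : ∀ (d : Derivation ℂ F F), ∃ nb : PA R σ, (∀ u, nb * K.j u - K.j u * nb = K.j (d u)) ∧
      ∀ i, nb * K.φ (K.Q i) - K.φ (K.Q i) * nb =
      phi g τ (MvPolynomial.C (d (P.c i)) * P.fF i.succ +
        ∑ j ∈ univ.filter (fun j => j ≤ i.castSucc), ∑ l,
        MvPolynomial.C (d (P.cc i j l)) * (MvPolynomial.X l ^ (P.a i.succ - P.a j) * P.fF j)) := by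
    intro d
    obtain ⟨nb, hnb⟩ := hτ d
    refine ⟨cst σ nb, fun u => ?_, fun i => P.br_Q hg hnb i⟩
    rw [hj, hj, ← map_mul, ← map_mul, ← map_sub, hnb]
  show K.Kill 0
  · apply K.kill
    · intro i
      obtain ⟨d, ⟨h1, h1'⟩, h2, h3⟩ := P.dc i
      obtain ⟨nb, hnb, hQ⟩ := hder d
      refine ⟨nb, d, hnb, fun l hl => ?_, fun l m _ => ?_, ?_⟩
      · rw [hQ, h1' l (ne_of_gt hl)]
        simp [h2]
      · rw [hnb]
        show K.j (d (P.θ l m)) = 0
        rw [h3, map_zero]
      · rw [hQ, h1]
        have : ∀ m, nb * K.j (K.θ i m) - K.j (K.θ i m) * nb = 0 := by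
          intro m
          rw [hnb]
          show K.j (d (P.θ i m)) = 0
          rw [h3, map_zero]
        simp only [this, h2]
        simp
        rfl
    · intro i j hij
      obtain ⟨d, h1, ⟨h2, h2'⟩, h3⟩ := P.dcc i j k
      obtain ⟨nb, hnb, hQ⟩ := hder d
      refine ⟨P.a i.succ - P.a j, nb, d, hnb, fun l hl => ?_, fun l m _ => ?_, ?_⟩
      · rw [hQ, h1]
        have : ∀ j' l', d (P.cc l j' l') = 0 := by
          intro j' l'
          apply h2'
          intro h
          rw [Prod.mk.injEq] at h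
          exact (ne_of_gt hl) h.1
        simp [this]
      · rw [hnb]
        show K.j (d (P.θ l m)) = 0
        rw [h3, map_zero]
      · rw [hQ, h1]
        have : ∀ m, nb * K.j (K.θ i m) - K.j (K.θ i m) * nb = 0 := by
          intro m
          rw [hnb]
          show K.j (d (P.θ i m)) = 0
          rw [h3, map_zero]
        simp only [this]
        rw [Finset.sum_eq_single j, Finset.sum_eq_single k, h2]
        · simp
          rfl
        · intro l' _ hl'
          rw [h2' i j l' (by intro h; rw [Prod.mk.injEq, Prod.mk.injEq] at h; exact hl' h.2.2)]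
          simp
        · simp
        · intro j' _ hj'
          apply Finset.sum_eq_zero
          intro l' _
          rw [h2' i j' l' (by intro h; rw [Prod.mk.injEq, Prod.mk.injEq] at h; exact hj' h.2.1)]
          simp
        · intro h
          exact (h (Finset.mem_filter.2 ⟨mem_univ j, hij⟩)).elim
    · intro i m him
      obtain ⟨d, h1, h2, ⟨h3, h3'⟩⟩ := P.dθ i m
      obtain ⟨nb, hnb, hQ⟩ := hder d
      refine ⟨nb, d, hnb, fun l hl => ?_, fun l m' hl => ?_, ?_⟩
      · rw [hQ, h1]
        simp [h2]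
      · rw [hnb]
        show K.j (d (P.θ l m')) = 0
        rw [h3' l m' (by intro h; rw [Prod.mk.injEq] at h; exact (ne_of_gt hl) h.1), map_zero]
      · rw [hQ, h1]
        have e1 : ∀ m', m' ≠ m → nb * K.j (K.θ i m') - K.j (K.θ i m') * nb = 0 := by
          intro m' hm'
          rw [hnb]
          show K.j (d (P.θ i m')) = 0
          rw [h3' i m' (by intro h; rw [Prod.mk.injEq] at h; exact hm' h.2), map_zero]
        have e2 : nb * K.j (K.θ i m) - K.j (K.θ i m) * nb = 1 := by
          rw [hnb]
          show K.j (d (P.θ i m)) = 1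
          rw [h3, map_one]
        rw [Finset.sum_eq_single m (fun m' _ hm' => by rw [e1 m' hm', zero_mul])
          (fun h => absurd (Finset.mem_filter.2 ⟨mem_univ _, him⟩) h), e2]
        simp [h2]

end kill0

/-- coefficients in the centralizer of `τ` -/
theorem cf_iff {F R σ : Type*} [CommRing F] [Ring R] (τ : F →+* R) (f : PA R σ) :
    Cf (Subring.centralizer (Set.range τ)) f ↔ ∀ u, Commute (cst σ (τ u)) f := by
  constructor
  · intro h u
    apply HT.cst_comm
    intro m
    have := h m
    rw [Subring.mem_centralizer_iff] at this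
    exact this _ ⟨u, rfl⟩
  · intro h m
    rw [Subring.mem_centralizer_iff]
    rintro _ ⟨u, rfl⟩
    have h1 := congrArg (fun y : PA R σ => y.coeff m) (h u).eq
    simp only [cst_apply, AddMonoidAlgebra.coeff_single_zero_mul,
      AddMonoidAlgebra.coeff_mul_single_zero] at h1
    exact h1

section

variable {r : ℕ} {F : Type} [Field F] [Algebra ℂ F] (P : Prm r F)

/-- The data of the tower. -/
def dat : TW.Dat F (Fin r) (r + 1) where
  a := P.b
  th := P.th
  Q := P.Q
  ha i := P.ha _
  hQ := P.Q_hom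

/-- the substitution of level `i` -/
theorem isSub_vars (i : ℕ) : IsSub (TW.vars F i : Fin (r + 1) → MvPolynomial (TW.Vr i) F) := by
  intro t
  by_cases h : (t : ℕ) < i
  · obtain ⟨v, _, hv⟩ := TW.vars_of_lt F i t h
    exact Or.inr ⟨v, hv⟩
  · exact Or.inl (TW.vars_eq_zero F i t (not_lt.1 h))

theorem conn {E : Type*} [AddCommGroup E] (τ : F →+* AddMonoid.End E) : Conn τ :=
  fun d => exists_conn d τ

/-- **(KILL)** for the ring `T` of level `i`. -/
theorem kill {i : ℕ} (hi : i < r + 1) {E : Type*} [AddCommGroup E] (τ : F →+* AddMonoid.End E)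
    (w : Fin r → Option (TW.Vr i) → AddMonoid.End E) (hF : ∀ l v u, Commute (τ u) (w l v))
    (hw : IsTuple (dat P).a (dat P).th ((dat P).Ql i (TW.dl F i)) τ w)
    (ζ : Fin r → PA (AddMonoid.End E) (Option (TW.Vr i)))
    (hζ : ∀ l, Cf (Subring.centralizer (Set.range τ)) (ζ l))
    (hc : IsCoc (dat P).a (dat P).th τ (fun l => lf (w l)) ζ) :
    ∃ (M : ℕ) (η : PA (AddMonoid.End E) (Option (TW.Vr i))),
      Cf (Subring.centralizer (Set.range τ)) η ∧
      ∀ l, var (AddMonoid.End E) (none : Option (TW.Vr i)) ^ M * ζ l =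
        lf (w l) * η - η * lf (w l) := by
  have hg : IsSub (TW.vars F (i + 1) : Fin (r + 1) → MvPolynomial (TW.Vr (i + 1)) F) :=
    isSub_vars (i + 1)
  have hw' : P.Tup (TW.vars F (i + 1) : Fin (r + 1) → MvPolynomial (TW.Vr (i + 1)) F) τ w := by
    rw [TW.Dat.Ql_dl] at hw
    exact hw
  have hK := kill0 P hg (conn τ) hw' hF ⟨i, hi⟩
  set K := P.toKData hg hw' hF ⟨i, hi⟩ with hKdef
  have hj : ∀ u, K.j u = cst (TW.Vr (i + 1)) (τ u) := fun u => phi_C _ τ u
  have hx : K.x = var (AddMonoid.End E) (none : Option (TW.Vr i)) := by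
    show phi _ τ (MvPolynomial.X (⟨i, hi⟩ : Fin (r + 1))) = _
    rw [phi_X]
    have : TW.vars F (i + 1) (⟨i, hi⟩ : Fin (r + 1)) = MvPolynomial.X none := if_pos rfl
    rw [this, mp_MvX]
  have hcoc : K.IsCoc 0 ζ := by
    refine ⟨fun l _ => ?_, fun l m _ _ => hc.comm l m, fun l _ => ?_⟩
    · rw [KData.mem_Lin]
      intro u
      rw [hj]
      exact (cf_iff τ (ζ l)).1 (hζ l) u
    · show Dn (lf (w l)) (ζ l) (P.b l) = ∑ m ∈ univ.filter (fun m => l < m),
        phi _ τ (MvPolynomial.C (P.θ l m)) * Dn (lf (w m)) (ζ m) (P.b l)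
      have h1 := hc.rel l
      change Dn (lf (w l)) (ζ l) (P.b l) = ∑ m, cst _ (τ (P.th l m)) *
        Dn (lf (w m)) (ζ m) (P.b l) at h1
      rw [h1, Finset.sum_filter]
      refine Finset.sum_congr rfl fun m _ => ?_
      rw [phi_C]
      unfold th
      split_ifs
      · rfl
      · simp
  obtain ⟨M, η, hη, h1⟩ := hK ζ hcoc
  refine ⟨M, η, ?_, fun l => ?_⟩
  · rw [cf_iff]
    intro u
    rw [KData.mem_Lin] at hη
    have := hη u
    rwa [hj] at this
  · have h2 := h1 l (Nat.zero_le _)
    rw [hx] at h2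
    exact h2

end

end

end Crest.Agent.R181.KL
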