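import Crest.Agent.R181.KL279a

/-!
R181 (helper279): from the top level of the tower to the statement S0271.
-/

set_option autoImplicit false
set_option linter.unusedSectionVars false

namespace Crest.Agent.R181.KL

open Finset
open Crest.Agent.R181.UR
open Crest.Agent.R181.H Crest.Agent.R181.H.Prm
open Crest.AlgebraR.LPP
open Crest Crest.AlgebraR

noncomputable section

/-- The conclusion of S0271. -/
def Concl (n : ℕ) (a : Fin n → ℕ) (I : Ideal (MvPolynomial (Fin n) ℂ)) : Prop :=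
  ∃ U : ℕ → Set (Fin n →₀ ℕ), (∀ d, IsLexSegment n d (U d)) ∧
    (∀ d, Module.finrank ℂ (lppPiece a (U d) d) = Module.finrank ℂ (degreePiece I d)) ∧
    ∃ J : Ideal (MvPolynomial (Fin n) ℂ), (∀ g ∈ J, ∀ d : ℕ,
        MvPolynomial.homogeneousComponent d g ∈ J) ∧
      (∀ d, degreePiece J d = lppPiece a (U d) d) ∧
      ∀ p j : ℕ, gradedBetti I p j ≤ gradedBetti J p j

section

variable {r : ℕ} {F : Type} [Field F] [Algebra ℂ F] (P : Prm r F)

theorem result_of_prm (I : Ideal (MvPolynomial (Fin (r + 1)) ℂ))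
    (hI : ∀ g ∈ I, ∀ d : ℕ, MvPolynomial.homogeneousComponent d g ∈ I)
    (hfI : ∀ i, P.f i ∈ I)
    (hreg : RingTheory.Sequence.IsRegular (MvPolynomial (Fin (r + 1)) ℂ) (List.ofFn P.f))
    {D : Type*} [DivisionRing D] [Algebra F D] (w : Fin r → Fin (r + 1) → D)
    (hw : UR.IsTuple P.b P.th P.Q (algebraMap F D) w) : Concl (r + 1) P.a I := by
  refine AS.result_of_isTuple P.a P.mono (fun i => by have := P.ha i; omega) I hI P.f P.hom hfI
    hreg P.c P.hc P.th (fun i l h => if_neg h) P.Q (fun i => ?_) w hw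
  unfold Q
  rw [show MvPolynomial.C (P.c i) * P.fF i.succ + _ -
    MvPolynomial.C (P.c i) * MvPolynomial.map (algebraMap ℂ F) (P.f i.succ) = _ from
      add_sub_cancel_left _ _]
  refine Ideal.sum_mem _ fun j hj => Ideal.sum_mem _ fun l _ => ?_
  apply Ideal.mul_mem_left
  apply Ideal.mul_mem_left
  apply Ideal.subset_span
  rw [mem_filter] at hj
  exact ⟨j, hj.2, rfl⟩

/-- the variables of level `n` -/
def vrEquiv (n : ℕ) : TW.Vr n ≃ Fin n :=
  Equiv.ofBijective (fun v => ⟨TW.idx n v, TW.idx_lt n v⟩) (by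
    constructor
    · intro u v h
      exact TW.idx_injective n (congrArg Fin.val h)
    · intro t
      obtain ⟨v, hv, _⟩ := TW.vars_of_lt (n := n) ℤ n t t.2
      exact ⟨v, Fin.ext hv⟩)

theorem rename_vars {L : Type} [CommRing L] (n : ℕ) (t : Fin n) :
    MvPolynomial.rename (vrEquiv n) (TW.vars L n t) = MvPolynomial.X t := by
  obtain ⟨v, hv, hv'⟩ := TW.vars_of_lt (n := n) L n t t.2
  rw [hv', MvPolynomial.rename_X]
  congr 1
  exact Fin.ext hv

theorem result_of_lvl (I : Ideal (MvPolynomial (Fin (r + 1)) ℂ))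
    (hI : ∀ g ∈ I, ∀ d : ℕ, MvPolynomial.homogeneousComponent d g ∈ I)
    (hfI : ∀ i, P.f i ∈ I)
    (hreg : RingTheory.Sequence.IsRegular (MvPolynomial (Fin (r + 1)) ℂ) (List.ofFn P.f))
    (X : TW.Lvl (dat P) (r + 1)) : Concl (r + 1) P.a I := by
  refine result_of_prm P I hI hfI hreg (fun i v => X.w i ((vrEquiv (r + 1)).symm v)) ?_
  have h1 := X.tup.rename (vrEquiv (r + 1))
  have h2 : (fun i => MvPolynomial.rename (vrEquiv (r + 1)) ((dat P).Qr (r + 1) i)) = P.Q := by
    funext i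
    show MvPolynomial.rename (vrEquiv (r + 1)) (MvPolynomial.aeval (TW.vars F (r + 1)) (P.Q i)) = _
    have h3 : (MvPolynomial.rename (vrEquiv (r + 1))).comp (MvPolynomial.aeval (TW.vars F (r + 1)) :
        MvPolynomial (Fin (r + 1)) F →ₐ[F] _) = AlgHom.id F _ := by
      apply MvPolynomial.algHom_ext
      intro t
      rw [AlgHom.comp_apply, MvPolynomial.aeval_X, rename_vars]
      rfl
    exact DFunLike.congr_fun h3 (P.Q i)
  rw [h2] at h1
  exact h1

end

/-- **S0271 from the tower**: it is enough to construct the top level for all parameters. -/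
theorem result_of_tower
    (htower : ∀ (r : ℕ) (F : Type) [Field F] [Algebra ℂ F] (P : Prm r F),
      Nonempty (TW.Lvl (dat P) (r + 1)))
    (n : ℕ) (hn : 1 ≤ n) (a : Fin n → ℕ)
    (ha : Monotone a) (ha2 : ∀ i, 2 ≤ a i) (I : Ideal (MvPolynomial (Fin n) ℂ))
    (hI : ∀ g ∈ I, ∀ d : ℕ, MvPolynomial.homogeneousComponent d g ∈ I)
    (f : Fin n → MvPolynomial (Fin n) ℂ) (hf : ∀ i, (f i).IsHomogeneous (a i)) (hfI : ∀ i, f i ∈ I)
    (hreg : RingTheory.Sequence.IsRegular (MvPolynomial (Fin n) ℂ) (List.ofFn f)) :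
    Concl n a I := by
  obtain ⟨r, rfl⟩ : ∃ r, n = r + 1 := ⟨n - 1, by omega⟩
  obtain ⟨N, hN⟩ := AS.exists_X_pow_mem f a hf hreg
  obtain ⟨F, _, _, P, rfl, rfl⟩ := Prm.exists_prm r a f ha2 ha hf (fun t => ⟨N, hN t⟩)
  obtain ⟨X⟩ := htower r F P
  exact result_of_lvl P I hI hfI hreg X

end

end Crest.Agent.R181.KL
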