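import Mathlib

/-! Restriction and induction of scalars over noncommutative rings. -/

set_option autoImplicit false
set_option linter.unusedSectionVars false
open TensorProduct

namespace Crest.Agent.R181.KS

section Res

variable {A R : Type} [Ring A] [Ring R]

/-- restriction of scalars along `φ` -/
def Res (_ : A →+* R) (M : Type) : Type := M

variable (φ : A →+* R) {M N P : Type} [AddCommGroup M] [AddCommGroup N] [AddCommGroup P]

instance : AddCommGroup (Res φ M) := inferInstanceAs (AddCommGroup M)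

variable [Module R M] [Module R N] [Module R P]

instance : Module A (Res φ M) := Module.compHom M φ

/-- the identity -/
def toRes : M ≃+ Res φ M := AddEquiv.refl M

@[simp] theorem toRes_smul (a : A) (x : M) : toRes φ (φ a • x) = a • toRes φ x := rfl

theorem toRes_symm_smul (a : A) (x : Res φ M) : (toRes φ).symm (a • x) = φ a • (toRes φ).symm x := rfl

theorem res_smul_def (a : A) (x : Res φ M) : a • x = toRes φ (φ a • (toRes φ).symm x) := rfl

/-- restriction of a linear map -/
def resMap (f : M →ₗ[R] N) : Res φ M →ₗ[A] Res φ N where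
  toFun x := toRes φ (f ((toRes φ).symm x))
  map_add' x y := by simp
  map_smul' a x := by
    rw [toRes_symm_smul, map_smul, toRes_smul]; rfl

@[simp] theorem resMap_apply (f : M →ₗ[R] N) (x : M) : resMap φ f (toRes φ x) = toRes φ (f x) := rfl

theorem resMap_apply' (f : M →ₗ[R] N) (x : Res φ M) :
    resMap φ f x = toRes φ (f ((toRes φ).symm x)) := rfl

theorem resMap_injective {f : M →ₗ[R] N} (h : Function.Injective f) :
    Function.Injective (resMap φ f) := h

theorem resMap_surjective {f : M →ₗ[R] N} (h : Function.Surjective f) :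
    Function.Surjective (resMap φ f) := h

/-- restriction of a submodule -/
def resSub (S : Submodule R M) : Submodule A (Res φ M) where
  carrier := {x | (toRes φ).symm x ∈ S}
  add_mem' h h' := S.add_mem h h'
  zero_mem' := S.zero_mem
  smul_mem' a _ h := S.smul_mem (φ a) h

theorem mem_resSub {S : Submodule R M} {x : Res φ M} : x ∈ resSub φ S ↔ (toRes φ).symm x ∈ S := Iff.rfl

end Res

section Ind

variable {A R : Type} [Ring A] [Ring R] (φ : A →+* R) (V : Type) [AddCommGroup V] [Module A V]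

/-- relations defining `R ⊗_A V` -/
def indRel : Submodule R (R ⊗[ℤ] V) :=
  Submodule.span R {z | ∃ (a : A) (v : V), z = (φ a) ⊗ₜ[ℤ] v - (1 : R) ⊗ₜ[ℤ] (a • v)}

/-- `R ⊗_A V` -/
def Ind : Type := (R ⊗[ℤ] V) ⧸ indRel φ V

instance : AddCommGroup (Ind φ V) := inferInstanceAs (AddCommGroup ((R ⊗[ℤ] V) ⧸ indRel φ V))
instance : Module R (Ind φ V) := inferInstanceAs (Module R ((R ⊗[ℤ] V) ⧸ indRel φ V))

/-- the quotient map -/
def indQ : R ⊗[ℤ] V →ₗ[R] Ind φ V := (indRel φ V).mkQ

variable {V}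

/-- `v ↦ 1 ⊗ v` -/
def indMk : V →ₗ[A] Res φ (Ind φ V) where
  toFun v := toRes φ (indQ φ V ((1 : R) ⊗ₜ[ℤ] v))
  map_add' x y := by simp [TensorProduct.tmul_add]
  map_smul' a v := by
    have h : indQ φ V ((φ a) ⊗ₜ[ℤ] v - (1 : R) ⊗ₜ[ℤ] (a • v)) = 0 :=
      (Submodule.Quotient.mk_eq_zero _).2 (Submodule.subset_span ⟨a, v, rfl⟩)
    rw [map_sub, sub_eq_zero] at h
    rw [← h, RingHom.id_apply, ← toRes_smul, ← map_smul]
    congr 2
    rw [TensorProduct.smul_tmul', smul_eq_mul, mul_one]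

/-- `v ↦ 1 ⊗ v` as an additive map into `R ⊗_A V` -/
def mk1 (v : V) : Ind φ V := (toRes φ).symm (indMk φ v)

theorem indMk_eq (v : V) : indMk φ v = toRes φ (mk1 φ v) := rfl
@[simp] theorem mk1_add (v w : V) : mk1 φ (v + w) = mk1 φ v + mk1 φ w := by simp [mk1]
@[simp] theorem mk1_zero : mk1 φ (0 : V) = 0 := by simp [mk1]
@[simp] theorem mk1_neg (v : V) : mk1 φ (-v) = -mk1 φ v := by simp [mk1]
@[simp] theorem mk1_sub (v w : V) : mk1 φ (v - w) = mk1 φ v - mk1 φ w := by simp [mk1]
theorem mk1_smul (a : A) (v : V) : mk1 φ (a • v) = φ a • mk1 φ v := by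
  simp [mk1]; rfl

theorem mk1_sum {ι : Type} (s : Finset ι) (f : ι → V) : mk1 φ (∑ i ∈ s, f i) = ∑ i ∈ s, mk1 φ (f i) := by
  classical
  induction s using Finset.induction_on with
  | empty => simp
  | insert a s h ih => rw [Finset.sum_insert h, Finset.sum_insert h, mk1_add, ih]

theorem indQ_tmul (r : R) (v : V) : indQ φ V (r ⊗ₜ[ℤ] v) = r • mk1 φ v := by
  have : r ⊗ₜ[ℤ] v = r • ((1 : R) ⊗ₜ[ℤ] v) := by
    rw [TensorProduct.smul_tmul', smul_eq_mul, mul_one]
  rw [this, map_smul]; rfl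

theorem ind_span : Submodule.span R (Set.range (mk1 φ : V → Ind φ V)) = ⊤ := by
  rw [eq_top_iff]
  rintro z -
  obtain ⟨t, rfl⟩ := (indRel φ V).mkQ_surjective z
  induction t using TensorProduct.induction_on with
  | zero => rw [map_zero]; exact Submodule.zero_mem _
  | tmul r v =>
    have : (indRel φ V).mkQ (r ⊗ₜ[ℤ] v) = r • mk1 φ v := indQ_tmul φ r v
    rw [this]
    exact Submodule.smul_mem _ _ (Submodule.subset_span ⟨v, rfl⟩)
  | add x y hx hy => rw [map_add]; exact Submodule.add_mem _ hx hy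

theorem ind_induction {p : Ind φ V → Prop} (h : ∀ (r : R) (v : V), p (r • mk1 φ v)) (h0 : p 0)
    (hadd : ∀ x y, p x → p y → p (x + y)) (z : Ind φ V) : p z := by
  obtain ⟨t, rfl⟩ := (indRel φ V).mkQ_surjective z
  induction t using TensorProduct.induction_on with
  | zero => rw [map_zero]; exact h0
  | tmul r v =>
    have : (indRel φ V).mkQ (r ⊗ₜ[ℤ] v) = r • mk1 φ v := indQ_tmul φ r v
    rw [this]; exact h r v
  | add x y hx hy => rw [map_add]; exact hadd _ _ hx hy

variable {N : Type} [AddCommGroup N] [Module R N]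

theorem ind_hom_ext {f g : Ind φ V →ₗ[R] N} (h : ∀ v, f (mk1 φ v) = g (mk1 φ v)) : f = g := by
  apply LinearMap.ext_on (ind_span φ)
  rintro _ ⟨v, rfl⟩
  exact h v

/-- auxiliary: the map on the tensor product over `ℤ` -/
def indLiftAux (g : V →+ N) : R ⊗[ℤ] V →ₗ[R] N :=
  TensorProduct.AlgebraTensorModule.lift
    (LinearMap.toSpanSingleton R (V →ₗ[ℤ] N) g.toIntLinearMap)

theorem indLiftAux_tmul (g : V →+ N) (r : R) (v : V) :
    indLiftAux g (r ⊗ₜ[ℤ] v) = r • g v := by
  simp [indLiftAux]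

/-- universal property of `R ⊗_A V` -/
def indLift (g : V →ₗ[A] Res φ N) : Ind φ V →ₗ[R] N :=
  (indRel φ V).liftQ (indLiftAux ((toRes (M := N) φ).symm.toAddMonoidHom.comp g.toAddMonoidHom)) (by
    rw [indRel, Submodule.span_le]
    rintro _ ⟨a, v, rfl⟩
    rw [SetLike.mem_coe, LinearMap.mem_ker, map_sub, indLiftAux_tmul, indLiftAux_tmul, sub_eq_zero,
      one_smul]
    change φ a • (toRes φ).symm (g v) = (toRes φ).symm (g (a • v))
    rw [map_smul]; rfl)

@[simp] theorem indLift_mk1 (g : V →ₗ[A] Res φ N) (v : V) :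
    indLift φ g (mk1 φ v) = (toRes φ).symm (g v) := by
  change indLiftAux ((toRes (M := N) φ).symm.toAddMonoidHom.comp g.toAddMonoidHom)
    ((1 : R) ⊗ₜ[ℤ] v) = _
  rw [indLiftAux_tmul, one_smul]; rfl

theorem indLift_comp_mk (g : V →ₗ[A] Res φ N) : resMap φ (indLift φ g) ∘ₗ indMk φ = g := by
  ext v
  change indLift φ g (mk1 φ v) = _
  rw [indLift_mk1]; rfl

variable {V' V'' : Type} [AddCommGroup V'] [Module A V'] [AddCommGroup V''] [Module A V'']

/-- functoriality -/
def indMap (f : V →ₗ[A] V') : Ind φ V →ₗ[R] Ind φ V' := indLift φ (indMk φ ∘ₗ f)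

@[simp] theorem indMap_mk1 (f : V →ₗ[A] V') (v : V) : indMap φ f (mk1 φ v) = mk1 φ (f v) := by
  rw [indMap, indLift_mk1]; rfl

@[simp] theorem indMap_id : indMap φ (LinearMap.id : V →ₗ[A] V) = LinearMap.id :=
  ind_hom_ext φ fun v => by simp

theorem indMap_comp (f : V →ₗ[A] V') (g : V' →ₗ[A] V'') :
    indMap φ (g ∘ₗ f) = indMap φ g ∘ₗ indMap φ f := ind_hom_ext φ fun v => by simp

theorem indMap_zero : indMap φ (0 : V →ₗ[A] V') = 0 := ind_hom_ext φ fun v => by simp

theorem indMap_surjective {f : V →ₗ[A] V'} (h : Function.Surjective f) :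
    Function.Surjective (indMap φ f) := by
  intro z
  induction z using ind_induction φ with
  | h r v => obtain ⟨w, rfl⟩ := h v; exact ⟨r • mk1 φ w, by simp⟩
  | h0 => exact ⟨0, map_zero _⟩
  | hadd x y hx hy =>
    obtain ⟨a, rfl⟩ := hx
    obtain ⟨b, rfl⟩ := hy
    exact ⟨a + b, map_add _ _ _⟩

/-- right exactness -/
theorem indMap_exact {f : V →ₗ[A] V'} {g : V' →ₗ[A] V''} (hg : Function.Surjective g)
    (hfg : ∀ x, g x = 0 ↔ ∃ y, f y = x) (z : Ind φ V') :
    indMap φ g z = 0 ↔ ∃ y, indMap φ f y = z := by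
  constructor
  · intro hz
    let Q := Ind φ V' ⧸ LinearMap.range (indMap φ f)
    -- a map `V'' → Q`
    let k : V' →ₗ[A] Res φ Q := resMap φ (LinearMap.range (indMap φ f)).mkQ ∘ₗ indMk φ
    have hk : ∀ x, g x = 0 → k x = 0 := by
      intro x hx
      obtain ⟨y, rfl⟩ := (hfg x).1 hx
      change (LinearMap.range (indMap φ f)).mkQ (mk1 φ (f y)) = 0
      rw [Submodule.mkQ_apply, Submodule.Quotient.mk_eq_zero]
      exact ⟨mk1 φ y, by simp⟩
    let e := g.quotKerEquivOfSurjective hg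
    let k' : V'' →ₗ[A] Res φ Q :=
      ((LinearMap.ker g).liftQ k (fun x hx => hk x hx)) ∘ₗ e.symm.toLinearMap
    have hk' : ∀ x, k' (g x) = k x := by
      intro x
      have : e.symm (g x) = (LinearMap.ker g).mkQ x := by
        rw [LinearEquiv.symm_apply_eq]; rfl
      change ((LinearMap.ker g).liftQ k (fun x hx => hk x hx)) (e.symm (g x)) = k x
      rw [this]; rfl
    have h2 : indLift φ k' ∘ₗ indMap φ g = (LinearMap.range (indMap φ f)).mkQ := by
      apply ind_hom_ext
      intro v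
      rw [LinearMap.comp_apply, indMap_mk1, indLift_mk1, hk']; rfl
    have h3 : (LinearMap.range (indMap φ f)).mkQ z = 0 := by
      rw [← h2, LinearMap.comp_apply, hz, map_zero]
    rw [Submodule.mkQ_apply, Submodule.Quotient.mk_eq_zero] at h3
    exact h3
  · rintro ⟨y, rfl⟩
    have : indMap φ g ∘ₗ indMap φ f = 0 := by
      rw [← indMap_comp]
      have : g ∘ₗ f = 0 := by
        ext v
        exact (hfg _).2 ⟨v, rfl⟩
      rw [this, indMap_zero]
    exact LinearMap.congr_fun this y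

theorem ind_subsingleton [Subsingleton V] : Subsingleton (Ind φ V) := by
  refine ⟨fun x y => ?_⟩
  have h : ∀ z : Ind φ V, z = 0 := by
    intro z
    induction z using ind_induction φ with
    | h r v => rw [Subsingleton.elim v 0, mk1_zero, smul_zero]
    | h0 => rfl
    | hadd x y hx hy => rw [hx, hy, add_zero]
  rw [h x, h y]

/-- an equivalence induces an equivalence -/
def indEquiv (e : V ≃ₗ[A] V') : Ind φ V ≃ₗ[R] Ind φ V' :=
  LinearEquiv.ofLinearMap (indMap φ e.toLinearMap) (indMap φ e.symm.toLinearMap)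
    (by rw [← indMap_comp]; simp) (by rw [← indMap_comp]; simp)

end Ind

section factor

variable {B : Type} [Ring B] {M M' N P : Type} [AddCommGroup M] [Module B M] [AddCommGroup M']
  [Module B M'] [AddCommGroup N] [Module B N] [AddCommGroup P] [Module B P]

/-- factorisation through a surjection -/
theorem exists_factor (π : P →ₗ[B] M) (hπ : Function.Surjective π) (g : P →ₗ[B] N)
    (h : ∀ x, π x = 0 → g x = 0) : ∃ g' : M →ₗ[B] N, ∀ x, g' (π x) = g x := by
  refine ⟨((LinearMap.ker π).liftQ g (fun x hx => h x hx)) ∘ₗ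
    (π.quotKerEquivOfSurjective hπ).symm.toLinearMap, fun x => ?_⟩
  have he : (π.quotKerEquivOfSurjective hπ).symm (π x) = (LinearMap.ker π).mkQ x := by
    rw [LinearEquiv.symm_apply_eq]; rfl
  rw [LinearMap.comp_apply, LinearEquiv.coe_coe, he]
  rfl

/-- factorisation through an injection -/
theorem exists_factor_inj (i : M' →ₗ[B] M) (hi : Function.Injective i) (f : P →ₗ[B] M)
    (h : ∀ x, ∃ y, i y = f x) : ∃ f' : P →ₗ[B] M', ∀ x, i (f' x) = f x := by
  refine ⟨(LinearEquiv.ofInjective i hi).symm.toLinearMap ∘ₗ f.codRestrict (LinearMap.range i)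
    (fun x => h x), fun x => ?_⟩
  have : ∀ y : LinearMap.range i, i ((LinearEquiv.ofInjective i hi).symm y) = y := by
    intro y
    obtain ⟨z, rfl⟩ := (LinearEquiv.ofInjective i hi).surjective y
    rw [LinearEquiv.symm_apply_apply]; rfl
  rw [LinearMap.comp_apply, LinearEquiv.coe_coe, this]
  rfl

theorem bij_of_exact {i : M' →ₗ[B] M} {p : M →ₗ[B] N} (hi : Function.Injective i)
    (hip : ∀ x, p x = 0 ↔ ∃ y, i y = x) : ∃ e : M' ≃ₗ[B] LinearMap.ker p, ∀ x, (e x : M) = i x := by
  refine ⟨LinearEquiv.ofBijective (i.codRestrict (LinearMap.ker p) (fun x => (hip _).2 ⟨x, rfl⟩))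
    ⟨fun x y h => hi (congrArg Subtype.val h), fun y => ?_⟩, fun x => rfl⟩
  obtain ⟨x, hx⟩ := (hip y).1 y.2
  exact ⟨x, Subtype.ext hx⟩

end factor

section LLP

variable {B : Type} [Ring B]

/-- left lifting property against surjections -/
def LLPs {U X : Type} [AddCommGroup U] [Module B U] [AddCommGroup X] [Module B X]
    (u : U →ₗ[B] X) : Prop :=
  ∀ (N' N'' : Type) [AddCommGroup N'] [Module B N'] [AddCommGroup N''] [Module B N'']
    (π : N' →ₗ[B] N''), Function.Surjective π → ∀ (h'' : X →ₗ[B] N'') (h' : U →ₗ[B] N'),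
    (∀ x, π (h' x) = h'' (u x)) → ∃ h : X →ₗ[B] N', (∀ x, h (u x) = h' x) ∧ ∀ x, π (h x) = h'' x

variable {U X Z : Type} [AddCommGroup U] [Module B U] [AddCommGroup X] [Module B X]
  [AddCommGroup Z] [Module B Z]

theorem LLPs.injective {u : U →ₗ[B] X} (h : LLPs u) : Function.Injective u := by
  obtain ⟨r, hr, -⟩ := h U PUnit (0 : U →ₗ[B] PUnit) (fun _ => ⟨0, rfl⟩) 0 LinearMap.id
    (fun _ => rfl)
  intro x y hxy
  have := congrArg r hxy
  rwa [hr, hr] at this

theorem LLPs.comp {u : U →ₗ[B] X} {v : X →ₗ[B] Z} (hv : LLPs v) (hu : LLPs u) :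
    LLPs (v ∘ₗ u) := by
  intro N' N'' _ _ _ _ π hπ h'' h' hh
  obtain ⟨k, hk1, hk2⟩ := hu N' N'' π hπ (h'' ∘ₗ v) h' hh
  obtain ⟨l, hl1, hl2⟩ := hv N' N'' π hπ h'' k hk2
  exact ⟨l, fun x => by rw [LinearMap.comp_apply, hl1, hk1], hl2⟩

theorem LLPs.of_equiv (e : U ≃ₗ[B] X) : LLPs e.toLinearMap := by
  intro N' N'' _ _ _ _ π hπ h'' h' hh
  refine ⟨h' ∘ₗ e.symm.toLinearMap, fun x => by simp, fun x => ?_⟩
  rw [LinearMap.comp_apply, hh]; simp

theorem mkQ_range_apply {u : U →ₗ[B] X} (x : U) : (LinearMap.range u).mkQ (u x) = 0 := by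
  rw [Submodule.mkQ_apply, Submodule.Quotient.mk_eq_zero]; exact ⟨x, rfl⟩

theorem LLPs.projective {u : U →ₗ[B] X} (h : LLPs u) :
    Module.Projective B (X ⧸ LinearMap.range u) := by
  apply Module.Projective.of_lifting_property''
  intro f hf
  obtain ⟨k, hk1, hk2⟩ := h _ _ f hf (LinearMap.range u).mkQ 0 (by
    intro x
    rw [LinearMap.zero_apply, map_zero, mkQ_range_apply])
  refine ⟨(LinearMap.range u).liftQ k ?_, ?_⟩
  · rintro _ ⟨x, rfl⟩
    exact hk1 x
  · apply Submodule.linearMap_qext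
    ext x
    exact hk2 x

theorem LLPs.of_projective {u : U →ₗ[B] X} (hi : Function.Injective u)
    [Module.Projective B (X ⧸ LinearMap.range u)] : LLPs u := by
  obtain ⟨s, hs⟩ := Module.projective_lifting_property (LinearMap.range u).mkQ LinearMap.id
    (Submodule.mkQ_surjective _)
  have hs' : ∀ x, (LinearMap.range u).mkQ (s x) = x := fun x => LinearMap.congr_fun hs x
  intro N' N'' _ _ _ _ π hπ h'' h' hh
  -- retraction
  let e := LinearEquiv.ofInjective u hi
  let q : X →ₗ[B] X := LinearMap.id - s ∘ₗ (LinearMap.range u).mkQ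
  have hq : ∀ x, q x ∈ LinearMap.range u := by
    intro x
    rw [← Submodule.Quotient.mk_eq_zero, ← Submodule.mkQ_apply]
    simp only [q, LinearMap.sub_apply, LinearMap.id_apply, LinearMap.comp_apply, map_sub, hs',
      sub_self]
  let r : X →ₗ[B] U := e.symm.toLinearMap ∘ₗ q.codRestrict _ hq
  have hr : ∀ x, u (r x) = q x := by
    intro x
    have : u (r x) = ((e (r x) : LinearMap.range u) : X) := rfl
    rw [this]
    simp [r]
  have hr' : ∀ x, r (u x) = x := by
    intro x
    apply hi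
    rw [hr]
    simp only [q, LinearMap.sub_apply, LinearMap.id_apply, LinearMap.comp_apply,
      mkQ_range_apply, map_zero, sub_zero]
  obtain ⟨l, hl⟩ := Module.projective_lifting_property π (h'' ∘ₗ s) hπ
  have hl' : ∀ x, π (l x) = h'' (s x) := fun x => LinearMap.congr_fun hl x
  refine ⟨h' ∘ₗ r + l ∘ₗ (LinearMap.range u).mkQ, fun x => ?_, fun x => ?_⟩
  · simp only [LinearMap.add_apply, LinearMap.comp_apply, hr', mkQ_range_apply, map_zero,
      add_zero]
  · simp only [LinearMap.add_apply, LinearMap.comp_apply, map_add, hh, hr, hl', q,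
      LinearMap.sub_apply, LinearMap.id_apply]
    rw [map_sub, sub_add_cancel]

theorem LLPs_iff {u : U →ₗ[B] X} :
    LLPs u ↔ Function.Injective u ∧ Module.Projective B (X ⧸ LinearMap.range u) :=
  ⟨fun h => ⟨h.injective, h.projective⟩, fun h => by
    haveI := h.2; exact LLPs.of_projective h.1⟩

/-- a split description -/
theorem LLPs.exists_compl {u : U →ₗ[B] X} (h : LLPs u) :
    ∃ r : X →ₗ[B] U, (∀ x, r (u x) = x) ∧ Module.Projective B (LinearMap.ker r) := by
  obtain ⟨r, hr, -⟩ := h U PUnit (0 : U →ₗ[B] PUnit) (fun _ => ⟨0, rfl⟩) 0 LinearMap.id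
    (fun _ => rfl)
  refine ⟨r, hr, ?_⟩
  haveI := h.projective
  have hmem : ∀ x : X, x - u (r x) ∈ LinearMap.ker r := by
    intro x
    rw [LinearMap.mem_ker, map_sub, hr]
    simp
  let i : LinearMap.ker r →ₗ[B] X ⧸ LinearMap.range u :=
    (LinearMap.range u).mkQ ∘ₗ (LinearMap.ker r).subtype
  let p : X ⧸ LinearMap.range u →ₗ[B] LinearMap.ker r :=
    (LinearMap.range u).liftQ ((LinearMap.id - u ∘ₗ r).codRestrict _ hmem) (by
      rintro _ ⟨x, rfl⟩
      rw [LinearMap.mem_ker]
      ext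
      simp [hr])
  apply Module.Projective.of_split i p
  ext x
  have hx : r x = 0 := x.2
  simp [i, p, hx]

end LLP

end Crest.Agent.R181.KS
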