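import Crest.Agent.R181.KS0

/-! Local modules for a set of matrices, reflections. -/

set_option autoImplicit false
set_option linter.unusedSectionVars false
set_option linter.style.haveILetI false
open TensorProduct

namespace Crest.Agent.R181.KS

/-- a family of square matrices over `A` (to be inverted) -/
def MSet (A : Type) : Type := ∀ n : ℕ, Set (Matrix (Fin n) (Fin n) A)

section act

variable {A : Type} [Ring A] {N N' N'' : Type} [AddCommGroup N] [Module A N] [AddCommGroup N']
  [Module A N'] [AddCommGroup N''] [Module A N'']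

/-- action of a matrix on columns -/
def act {m n : ℕ} (B : Matrix (Fin m) (Fin n) A) : (Fin n → N) →+ (Fin m → N) where
  toFun x i := ∑ j, B i j • x j
  map_zero' := by ext l; simp
  map_add' u v := by ext l; simp [Finset.sum_add_distrib]

theorem act_apply {m n : ℕ} (B : Matrix (Fin m) (Fin n) A) (x : Fin n → N) (i : Fin m) :
    act B x i = ∑ j, B i j • x j := rfl

theorem act_map {m n : ℕ} (B : Matrix (Fin m) (Fin n) A) (f : N →ₗ[A] N') (x : Fin n → N) :
    (fun i => f (act B x i)) = act B (fun j => f (x j)) := by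
  ext i; simp [act_apply]

/-- local modules: the matrices of `S` act bijectively -/
def Loc (S : MSet A) (N : Type) [AddCommGroup N] [Module A N] : Prop :=
  ∀ n, ∀ B ∈ S n, Function.Bijective (act (N := N) B)

variable {S : MSet A}

theorem Loc.of_exact (i : N' →ₗ[A] N) (p : N →ₗ[A] N'') (hi : Function.Injective i)
    (hp : Function.Surjective p) (hip : ∀ x, p x = 0 ↔ ∃ y, i y = x)
    (h' : Loc S N') (h'' : Loc S N'') : Loc S N := by
  intro n B hB
  obtain ⟨inj', surj'⟩ := h' n B hB
  obtain ⟨inj'', surj''⟩ := h'' n B hB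
  constructor
  · rw [injective_iff_map_eq_zero]
    intro x hx
    have h1 : (fun k => p (x k)) = 0 := by
      apply inj''
      rw [← act_map, hx, map_zero]
      funext k; simp
    choose y hy using fun k => (hip _).1 (congrFun h1 k)
    have h3 : x = fun k => i (y k) := funext fun k => (hy k).symm
    have h4 : y = 0 := by
      apply inj'
      rw [map_zero]
      funext k
      apply hi
      rw [show i (act B y k) = act B (fun j => i (y j)) k from congrFun (act_map B i y) k, ← h3, hx]
      simp
    rw [h3, h4]; funext k; simp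
  · intro z
    obtain ⟨x, hx⟩ := surj'' (fun k => p (z k))
    choose x' hx' using fun k => hp (x k)
    have h1 : ∀ k, p (z k - act B x' k) = 0 := by
      intro k
      rw [map_sub, show p (act B x' k) = act B (fun j => p (x' j)) k from
        congrFun (act_map B p x') k, funext hx', hx, sub_self]
    choose y hy using fun k => (hip _).1 (h1 k)
    obtain ⟨y', hy'⟩ := surj' y
    refine ⟨x' + fun k => i (y' k), ?_⟩
    rw [map_add, ← act_map, hy']
    funext k
    rw [Pi.add_apply, hy]
    abel

theorem Loc.of_equiv (e : N ≃ₗ[A] N') (h : Loc S N) : Loc S N' := by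
  refine Loc.of_exact e.toLinearMap (0 : N' →ₗ[A] PUnit) e.injective (fun _ => ⟨0, rfl⟩) ?_ h ?_
  · intro x
    exact ⟨fun _ => ⟨e.symm x, by simp⟩, fun _ => rfl⟩
  · intro n B _
    exact ⟨fun _ _ _ => Subsingleton.elim _ _, fun y => ⟨0, Subsingleton.elim _ _⟩⟩

theorem Loc.punit : Loc S PUnit := by
  intro n B _
  exact ⟨fun _ _ _ => Subsingleton.elim _ _, fun y => ⟨0, Subsingleton.elim _ _⟩⟩

theorem Loc.prod (h : Loc S N) (h' : Loc S N') : Loc S (N × N') := by
  refine Loc.of_exact (LinearMap.inl A N N') (LinearMap.snd A N N') (fun x y h => by simpa using h)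
    (fun x => ⟨(0, x), rfl⟩) ?_ h h'
  intro x
  constructor
  · intro hx; exact ⟨x.1, Prod.ext rfl (by simpa using hx.symm)⟩
  · rintro ⟨y, rfl⟩; rfl

/-- kernels of maps between local modules -/
theorem Loc.ker (f : N →ₗ[A] N') (h : Loc S N) (h' : Loc S N') : Loc S (LinearMap.ker f) := by
  intro n B hB
  obtain ⟨inj, surj⟩ := h n B hB
  obtain ⟨inj', surj'⟩ := h' n B hB
  have hm := fun x => act_map B (LinearMap.ker f).subtype x
  constructor
  · rw [injective_iff_map_eq_zero]
    intro x hx
    have : (fun j => ((x j : LinearMap.ker f) : N)) = 0 := by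
      apply inj
      rw [map_zero, ← (show _ = act B (fun j => ((x j : LinearMap.ker f) : N)) from hm x), hx]
      rfl
    funext j
    exact Subtype.ext (congrFun this j)
  · intro z
    obtain ⟨x, hx⟩ := surj (fun j => (z j : N))
    have hfx : (fun j => f (x j)) = 0 := by
      apply inj'
      rw [← act_map, hx, map_zero]
      funext j; exact (z j).2
    refine ⟨fun j => ⟨x j, congrFun hfx j⟩, ?_⟩
    have := hm (fun j => ⟨x j, congrFun hfx j⟩)
    funext j
    apply Subtype.ext
    have h2 := congrFun this j
    simp only [Submodule.coe_subtype] at h2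
    rw [h2, hx]

/-- images of maps between local modules -/
theorem Loc.range (f : N →ₗ[A] N') (h : Loc S N) (h' : Loc S N') : Loc S (LinearMap.range f) := by
  intro n B hB
  obtain ⟨inj, surj⟩ := h n B hB
  obtain ⟨inj', surj'⟩ := h' n B hB
  have hm := fun x => act_map B (LinearMap.range f).subtype x
  constructor
  · rw [injective_iff_map_eq_zero]
    intro x hx
    have : (fun j => ((x j : LinearMap.range f) : N')) = 0 := by
      apply inj'
      rw [map_zero, ← (show _ = act B (fun j => ((x j : LinearMap.range f) : N')) from hm x), hx]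
      rfl
    funext j
    exact Subtype.ext (congrFun this j)
  · intro z
    choose w hw using fun j => (z j).2
    obtain ⟨x, hx⟩ := surj w
    refine ⟨fun j => ⟨f (x j), x j, rfl⟩, ?_⟩
    have := hm (fun j => ⟨f (x j), x j, rfl⟩)
    funext j
    apply Subtype.ext
    have h2 := congrFun this j
    simp only [Submodule.coe_subtype] at h2
    rw [h2, ← act_map, hx]
    exact hw j

/-- quotients of local modules by local submodules -/
theorem Loc.quot_of (i : N' →ₗ[A] N) (p : N →ₗ[A] N'')
    (hp : Function.Surjective p) (hip : ∀ x, p x = 0 ↔ ∃ y, i y = x)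
    (h' : Loc S N') (h : Loc S N) : Loc S N'' := by
  intro n B hB
  obtain ⟨inj, surj⟩ := h n B hB
  obtain ⟨inj', surj'⟩ := h' n B hB
  constructor
  · rw [injective_iff_map_eq_zero]
    intro x hx
    choose z hz using fun j => hp (x j)
    have h1 : ∀ k, p (act B z k) = 0 := by
      intro k
      rw [show p (act B z k) = act B (fun j => p (z j)) k from congrFun (act_map B p z) k,
        funext hz, hx]; rfl
    choose y hy using fun k => (hip _).1 (h1 k)
    obtain ⟨y', hy'⟩ := surj' y
    have h2 : z = fun j => i (y' j) := by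
      apply inj
      rw [← act_map, hy']
      funext k; rw [hy]
    funext j
    rw [← hz, h2]
    exact (hip _).2 ⟨_, rfl⟩
  · intro z
    choose w hw using fun j => hp (z j)
    obtain ⟨x, hx⟩ := surj w
    refine ⟨fun j => p (x j), ?_⟩
    rw [← act_map, hx]
    exact funext hw

/-- directed unions over `ℕ` -/
theorem Loc.of_iUnion (V : ℕ → Submodule A N) (hV : Monotone V) (hU : ∀ x, ∃ n, x ∈ V n)
    (h : ∀ n, Loc S (V n)) : Loc S N := by
  intro n B hB
  have key : ∀ x : Fin n → N, ∃ m, ∀ j, x j ∈ V m := by
    intro x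
    choose m hm using fun j => hU (x j)
    exact ⟨Finset.univ.sup m, fun j => hV (Finset.le_sup (Finset.mem_univ j)) (hm j)⟩
  constructor
  · rw [injective_iff_map_eq_zero]
    intro x hx
    obtain ⟨m, hm⟩ := key x
    have h1 : (fun j => (⟨x j, hm j⟩ : V m)) = 0 := by
      apply (h m n B hB).1
      rw [map_zero]
      funext k
      apply Subtype.ext
      have := congrFun (act_map B (V m).subtype (fun j => (⟨x j, hm j⟩ : V m))) k
      simp only [Submodule.coe_subtype] at this
      rw [this, hx]; rfl
    funext j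
    exact congrArg Subtype.val (congrFun h1 j)
  · intro z
    obtain ⟨m, hm⟩ := key z
    obtain ⟨x, hx⟩ := (h m n B hB).2 (fun j => ⟨z j, hm j⟩)
    refine ⟨fun j => (x j : N), ?_⟩
    have := act_map B (V m).subtype x
    simp only [Submodule.coe_subtype] at this
    rw [← this, hx]

end act

/-- data of a localisation `δ : A → D` -/
structure LData {A D : Type} [Ring A] [DivisionRing D] (δ : A →+* D) (S : MSet A) : Prop where
  inj : Function.Injective δ
  loc : ∀ (N : Type) [AddCommGroup N] [Module D N], Loc S (Res δ N)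
  lift : ∀ (N : Type) [AddCommGroup N] [Module A N], Loc S N →
    ∃ _ : Module D N, ∀ (a : A) (n : N), δ a • n = a • n
  lin : ∀ (N N' : Type) [AddCommGroup N] [Module D N] [AddCommGroup N'] [Module D N']
    (f : Res δ N →ₗ[A] Res δ N') (d : D) (x : N),
      f (toRes δ (d • x)) = toRes δ (d • (toRes δ).symm (f (toRes δ x)))
  tri : ∀ (m n : ℕ) (B : Matrix (Fin m) (Fin m) A) (C : Matrix (Fin n) (Fin n) A)
    (F : Matrix (Fin m) (Fin n) A), B ∈ S m → C ∈ S n → ∃ E ∈ S (m + n),
      ∀ (N : Type) [AddCommGroup N] [Module A N] (x : Fin m → N) (y : Fin n → N),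
        act E (Fin.append x y) = Fin.append (act B x + act F y) (act C y)

namespace LData

variable {A D : Type} [Ring A] [DivisionRing D] {δ : A →+* D} {S : MSet A}
variable (h : LData δ S)
variable {N N' E V : Type} [AddCommGroup N] [Module A N] [AddCommGroup N'] [Module A N']
  [AddCommGroup E] [Module A E] [AddCommGroup V] [Module A V]

/-- surjections between local modules split -/
theorem split (h : LData δ S) (p : E →ₗ[A] N) (hp : Function.Surjective p) (hE : Loc S E)
    (hN : Loc S N) : ∃ s : N →ₗ[A] E, ∀ x, p (s x) = x := by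
  obtain ⟨iE, hiE⟩ := h.lift E hE
  obtain ⟨iN, hiN⟩ := h.lift N hN
  let f : Res δ E →ₗ[A] Res δ N :=
    { toFun := fun x => toRes δ (p ((toRes δ).symm x))
      map_add' := fun x y => by simp
      map_smul' := fun a x => by
        change toRes δ (p (δ a • (toRes δ).symm x)) = toRes δ (δ a • p ((toRes δ).symm x))
        rw [hiE, hiN, map_smul] }
  let pD : E →ₗ[D] N :=
    { toFun := p
      map_add' := map_add p
      map_smul' := fun d x => by
        have := h.lin E N f d x
        exact this }
  obtain ⟨s, hs⟩ := pD.exists_rightInverse_of_surjective (LinearMap.range_eq_top.2 hp)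
  refine ⟨{ toFun := s, map_add' := map_add s, map_smul' := fun a x => ?_ },
    fun x => LinearMap.congr_fun hs x⟩
  rw [← hiN, map_smul, hiE]; rfl

/-- the reflection of `V` -/
abbrev Rf (δ : A →+* D) (V : Type) [AddCommGroup V] [Module A V] : Type := Res δ (Ind δ V)

theorem loc_Rf (h : LData δ S) (V : Type) [AddCommGroup V] [Module A V] : Loc S (Rf δ V) :=
  h.loc (Ind δ V)

theorem exists_ext (h : LData δ S) (hN : Loc S N) (g : V →ₗ[A] N) :
    ∃ k : Rf δ V →ₗ[A] N, ∀ v, k (indMk δ v) = g v := by
  obtain ⟨iN, hiN⟩ := h.lift N hN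
  let e : N →ₗ[A] Res δ N :=
    { toFun := fun x => toRes δ x
      map_add' := fun x y => by simp
      map_smul' := fun a x => by
        rw [RingHom.id_apply, ← hiN, toRes_smul] }
  let e' : Res δ N →ₗ[A] N :=
    { toFun := fun x => (toRes δ).symm x
      map_add' := fun x y => by simp
      map_smul' := fun a x => by
        rw [RingHom.id_apply, toRes_symm_smul, hiN] }
  refine ⟨e' ∘ₗ resMap δ (indLift δ (e ∘ₗ g)), fun v => ?_⟩
  change (toRes δ).symm (resMap δ (indLift δ (e ∘ₗ g)) (toRes δ (mk1 δ v))) = g v
  rw [resMap_apply, indLift_mk1]; rfl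

theorem hom_ext (h : LData δ S) (hN : Loc S N) {f g : Rf δ V →ₗ[A] N}
    (hfg : ∀ v, f (indMk δ v) = g (indMk δ v)) : f = g := by
  obtain ⟨iN, hiN⟩ := h.lift N hN
  let e : N →ₗ[A] Res δ N :=
    { toFun := fun x => toRes δ x
      map_add' := fun x y => by simp
      map_smul' := fun a x => by
        rw [RingHom.id_apply, ← hiN, toRes_smul] }
  let F : (Rf δ V →ₗ[A] N) → (Ind δ V →ₗ[D] N) := fun f =>
    { toFun := fun x => f (toRes δ x)
      map_add' := fun x y => by simp
      map_smul' := fun d x => by
        have := h.lin (Ind δ V) N (e ∘ₗ f) d x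
        exact this }
  have : F f = F g := ind_hom_ext δ fun v => hfg v
  ext x
  exact LinearMap.congr_fun this x

/-- a module embeds in its reflection iff it embeds in a local module -/
theorem inj_of_embed (h : LData δ S) (hN : Loc S N) (g : V →ₗ[A] N) (hg : Function.Injective g) :
    Function.Injective (indMk δ : V → Rf δ V) := by
  obtain ⟨k, hk⟩ := h.exists_ext hN g
  intro x y hxy
  apply hg
  rw [← hk, ← hk, hxy]

/-- embedding of a projective module in a local module -/
theorem embed_projective (h : LData δ S) (Q : Type) [AddCommGroup Q] [Module A Q]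
    [Module.Projective A Q] :
    ∃ (k : Q →ₗ[A] Res δ (Q →₀ D)), Function.Injective k ∧
      ∃ s : Q →ₗ[A] (Q →₀ A), (∀ x, Finsupp.linearCombination A id (s x) = x) ∧
        ∀ x, (toRes δ).symm (k x) = Finsupp.mapRange δ (map_zero δ) (s x) := by
  obtain ⟨s, hs⟩ := (Module.projective_def' (R := A) (P := Q)).1 inferInstance
  let k : Q →ₗ[A] Res δ (Q →₀ D) :=
    { toFun := fun x => toRes δ (Finsupp.mapRange δ (map_zero δ) (s x))
      map_add' := fun x y => by
        rw [map_add, Finsupp.mapRange_add (map_add δ), map_add]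
      map_smul' := fun a x => by
        rw [RingHom.id_apply, ← toRes_smul, map_smul]
        congr 1
        ext j
        simp }
  have hs' : ∀ x, Finsupp.linearCombination A id (s x) = x := fun x => LinearMap.congr_fun hs x
  refine ⟨k, ?_, s, hs', fun x => rfl⟩
  intro x y hxy
  have h1 : Finsupp.mapRange δ (map_zero δ) (s x) = Finsupp.mapRange δ (map_zero δ) (s y) := hxy
  have h2 := Finsupp.mapRange_injective δ (map_zero δ) h.inj h1
  rw [← hs' x, ← hs' y, h2]

end LData

section good

variable {A : Type} [Ring A] (S : MSet A)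

/-- local plus projective -/
def Good (X : Type) [AddCommGroup X] [Module A X] : Prop :=
  ∃ (V : Type) (_ : AddCommGroup V) (_ : Module A V) (u : V →ₗ[A] X), Loc S V ∧ LLPs u

variable {S} {D : Type} [DivisionRing D] {δ : A →+* D} (h : LData δ S)
variable {X X' : Type} [AddCommGroup X] [Module A X] [AddCommGroup X'] [Module A X']

/-- good modules embed in a local module -/
theorem Good.embed (h : LData δ S) (hX : Good S X) :
    ∃ (N : Type) (_ : AddCommGroup N) (_ : Module A N) (k : X →ₗ[A] N), Loc S N ∧
      Function.Injective k := by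
  obtain ⟨V, _, _, u, hV, hu⟩ := hX
  obtain ⟨r, hr, hK⟩ := hu.exists_compl
  obtain ⟨k, hk, -⟩ := h.embed_projective (LinearMap.ker r)
  have hmem : ∀ x, (LinearMap.id - u ∘ₗ r : X →ₗ[A] X) x ∈ LinearMap.ker r := by
    intro x; simp [hr]
  refine ⟨V × Res δ (LinearMap.ker r →₀ D), inferInstance, inferInstance,
    r.prod (k ∘ₗ (LinearMap.id - u ∘ₗ r : X →ₗ[A] X).codRestrict _ hmem), hV.prod (h.loc _), ?_⟩
  rw [injective_iff_map_eq_zero]
  intro x hx
  have h1 : r x = 0 := congrArg Prod.fst hx
  have h2 : k ((LinearMap.id - u ∘ₗ r : X →ₗ[A] X).codRestrict _ hmem x) = 0 := congrArg Prod.snd hx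
  have h3 := (map_eq_zero_iff k hk).1 h2
  have h4 : (LinearMap.id - u ∘ₗ r : X →ₗ[A] X) x = 0 := congrArg Subtype.val h3
  simpa [h1] using h4

theorem Good.inj (h : LData δ S) (hX : Good S X) :
    Function.Injective (indMk δ : X → LData.Rf δ X) := by
  obtain ⟨N, _, _, k, hN, hk⟩ := hX.embed h
  exact h.inj_of_embed hN k hk

theorem Good.of_loc (hX : Loc S X) : Good S X :=
  ⟨X, _, _, LinearMap.id, hX, LLPs.of_equiv (LinearEquiv.refl A X)⟩

theorem Good.of_projective [Module.Projective A X] : Good S X := by
  refine ⟨PUnit, _, _, 0, Loc.punit, ?_⟩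
  intro N' N'' _ _ _ _ π hπ h'' h' hh
  obtain ⟨l, hl⟩ := Module.projective_lifting_property π h'' hπ
  refine ⟨l, fun x => ?_, fun x => LinearMap.congr_fun hl x⟩
  have hx : x = 0 := rfl
  rw [LinearMap.zero_apply, map_zero, hx, map_zero]

theorem Good.of_LLPs {u : X →ₗ[A] X'} (hu : LLPs u) (hX : Good S X) : Good S X' := by
  obtain ⟨V, _, _, v, hV, hv⟩ := hX
  exact ⟨V, _, _, u ∘ₗ v, hV, LLPs.comp hu hv⟩

end good

end Crest.Agent.R181.KS
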