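import Crest.Agent.R181.KS1

/-! Torsion modules over a hereditary ring. -/

set_option autoImplicit false
set_option linter.unusedSectionVars false
set_option linter.style.haveILetI false

namespace Crest.Agent.R181.KS

section ext

variable {A : Type} [Ring A] (S : MSet A)

/-- extensions of `M` by local modules split -/
def ExtV (M : Type) [AddCommGroup M] [Module A M] : Prop :=
  ∀ (E : Type) [AddCommGroup E] [Module A E] (p : E →ₗ[A] M), Function.Surjective p →
    Loc S (LinearMap.ker p) → ∃ s : M →ₗ[A] E, ∀ x, p (s x) = x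

/-- every submodule of a free module is projective -/
def Hered (A : Type) [Ring A] : Prop :=
  ∀ (J : Type) (K : Submodule A (J →₀ A)), Module.Projective A K

variable {S} {M M' M'' P N : Type} [AddCommGroup M] [Module A M] [AddCommGroup M'] [Module A M']
  [AddCommGroup M''] [Module A M''] [AddCommGroup P] [Module A P] [AddCommGroup N] [Module A N]

/-- the extension property for maps on kernels -/
theorem ExtV.extend (hM : ExtV S M) (π : P →ₗ[A] M) (hπ : Function.Surjective π) (hN : Loc S N)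
    (k : LinearMap.ker π →ₗ[A] N) : ∃ h : P →ₗ[A] N, ∀ x : LinearMap.ker π, h x = k x := by
  let κ : LinearMap.ker π →ₗ[A] P × N := (LinearMap.ker π).subtype.prod (-k)
  let E := (P × N) ⧸ LinearMap.range κ
  let q : P × N →ₗ[A] E := (LinearMap.range κ).mkQ
  have hq0 : ∀ z, q z = 0 ↔ ∃ x : LinearMap.ker π, (x : P) = z.1 ∧ -k x = z.2 := by
    intro z
    rw [Submodule.mkQ_apply, Submodule.Quotient.mk_eq_zero]
    constructor
    · rintro ⟨x, rfl⟩; exact ⟨x, rfl, rfl⟩
    · rintro ⟨x, h1, h2⟩; exact ⟨x, Prod.ext h1 h2⟩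
  let p : E →ₗ[A] M := (LinearMap.range κ).liftQ (π ∘ₗ LinearMap.fst A P N) (by
    rintro _ ⟨x, rfl⟩
    exact x.2)
  have hp : ∀ z, p (q z) = π z.1 := fun z => rfl
  have hps : Function.Surjective p := by
    intro m
    obtain ⟨y, rfl⟩ := hπ m
    exact ⟨q (y, 0), rfl⟩
  let j : N →ₗ[A] LinearMap.ker p := (q ∘ₗ LinearMap.inr A P N).codRestrict _ (fun n => by
    rw [LinearMap.mem_ker, LinearMap.comp_apply, hp]; simp)
  have hj : ∀ n, ((j n : LinearMap.ker p) : E) = q (0, n) := fun n => rfl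
  have hji : Function.Injective j := by
    rw [injective_iff_map_eq_zero]
    intro n hn
    have h1 : q (0, n) = 0 := by rw [← hj, hn]; rfl
    obtain ⟨x, hx1, hx2⟩ := (hq0 _).1 h1
    have : x = 0 := Subtype.ext hx1
    rw [this, map_zero, neg_zero] at hx2
    exact hx2.symm
  have hjs : Function.Surjective j := by
    rintro ⟨z, hz⟩
    obtain ⟨⟨y, n⟩, rfl⟩ := (LinearMap.range κ).mkQ_surjective z
    have hy : π y = 0 := hz
    refine ⟨n + k ⟨y, hy⟩, Subtype.ext ?_⟩
    rw [hj]
    change q _ = q (y, n)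
    rw [← sub_eq_zero, ← map_sub, hq0]
    refine ⟨-⟨y, hy⟩, ?_, ?_⟩
    · simp
    · simp
  let e := LinearEquiv.ofBijective j ⟨hji, hjs⟩
  obtain ⟨s, hs⟩ := hM E p hps (Loc.of_equiv e hN)
  let g : P →ₗ[A] LinearMap.ker p := (q ∘ₗ LinearMap.inl A P N - s ∘ₗ π).codRestrict _ (by
    intro y
    rw [LinearMap.mem_ker, LinearMap.sub_apply, map_sub, LinearMap.comp_apply, LinearMap.comp_apply,
      hp, hs]
    simp)
  refine ⟨e.symm.toLinearMap ∘ₗ g, fun x => ?_⟩
  rw [LinearMap.comp_apply]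
  change e.symm (g x) = k x
  rw [LinearEquiv.symm_apply_eq]
  apply Subtype.ext
  change q (x, 0) - s (π x) = q (0, k x)
  rw [show π x = 0 from x.2, map_zero, sub_zero, ← sub_eq_zero, ← map_sub, hq0]
  exact ⟨x, by simp, by simp⟩

theorem ExtV.of_extend [Module.Projective A P] (π : P →ₗ[A] M) (hπ : Function.Surjective π)
    (H : ∀ (N : Type) [AddCommGroup N] [Module A N], Loc S N → ∀ k : LinearMap.ker π →ₗ[A] N,
      ∃ h : P →ₗ[A] N, ∀ x : LinearMap.ker π, h x = k x) : ExtV S M := by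
  intro E _ _ p hp hL
  obtain ⟨l, hl⟩ := Module.projective_lifting_property p π hp
  have hl' : ∀ x, p (l x) = π x := fun x => LinearMap.congr_fun hl x
  let k : LinearMap.ker π →ₗ[A] LinearMap.ker p :=
    (l ∘ₗ (LinearMap.ker π).subtype).codRestrict _ (fun x => by
      rw [LinearMap.mem_ker, LinearMap.comp_apply, hl']; exact x.2)
  obtain ⟨h, hh⟩ := H (LinearMap.ker p) hL k
  let g : P →ₗ[A] E := l - (LinearMap.ker p).subtype ∘ₗ h
  have hg : LinearMap.ker π ≤ LinearMap.ker g := by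
    intro x hx
    rw [LinearMap.mem_ker, LinearMap.sub_apply, LinearMap.comp_apply, hh ⟨x, hx⟩]
    simp [k]
  obtain ⟨s', hs'⟩ := exists_factor π hπ g (fun x hx => hg hx)
  refine ⟨s', fun x => ?_⟩
  obtain ⟨y, rfl⟩ := hπ x
  rw [hs', LinearMap.sub_apply, map_sub, hl', LinearMap.comp_apply]
  simp

theorem ExtV.of_equiv (e : M ≃ₗ[A] M') (hM : ExtV S M) : ExtV S M' := by
  intro E _ _ p hp hL
  have hk : LinearMap.ker (e.symm.toLinearMap ∘ₗ p) = LinearMap.ker p := by
    ext x; simp
  obtain ⟨s, hs⟩ := hM E (e.symm.toLinearMap ∘ₗ p) (e.symm.surjective.comp hp) (by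
    rw [hk]; exact hL)
  refine ⟨s ∘ₗ e.symm.toLinearMap, fun x => ?_⟩
  have := hs (e.symm x)
  simp only [LinearMap.comp_apply] at this ⊢
  exact e.symm.injective this

theorem ExtV.sub (hH : Hered A) (hM : ExtV S M) (i : M' →ₗ[A] M) (hi : Function.Injective i) :
    ExtV S M' := by
  obtain ⟨π, hπ⟩ : ∃ π : (M →₀ A) →ₗ[A] M, Function.Surjective π :=
    ⟨Finsupp.linearCombination A id, Finsupp.linearCombination_surjective A Function.surjective_id⟩
  haveI : Module.Projective A ((LinearMap.range i).comap π) := hH M _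
  obtain ⟨π', hπ'⟩ : ∃ π' : ((LinearMap.range i).comap π) →ₗ[A] M', ∀ x, i (π' x) = π x :=
    exists_factor_inj (P := ((LinearMap.range i).comap π)) i hi
      (π ∘ₗ ((LinearMap.range i).comap π).subtype) (fun x => by
        obtain ⟨y, hy⟩ := x.2; exact ⟨y, hy⟩)
  have hs : Function.Surjective π' := by
    intro m
    obtain ⟨y, hy⟩ := hπ (i m)
    exact ⟨⟨y, m, hy.symm⟩, hi (by rw [hπ']; exact hy)⟩
  refine ExtV.of_extend (P := ((LinearMap.range i).comap π)) π' hs ?_
  intro N _ _ hN k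
  let c : LinearMap.ker π →ₗ[A] LinearMap.ker π' :=
      { toFun := fun x => ⟨⟨x, 0, (map_zero i).trans (LinearMap.mem_ker.1 x.2).symm⟩,
          LinearMap.mem_ker.2 (hi ((hπ' _).trans ((LinearMap.mem_ker.1 x.2).trans
            (map_zero i).symm)))⟩
        map_add' := fun x y => rfl
        map_smul' := fun a x => rfl }
  obtain ⟨h, hh⟩ := hM.extend π hπ hN (k ∘ₗ c)
  refine ⟨h ∘ₗ ((LinearMap.range i).comap π).subtype, fun x => ?_⟩
  have hx : π ((x : ((LinearMap.range i).comap π)) : M →₀ A) = 0 := by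
    rw [← hπ', show π' x = 0 from x.2, map_zero]
  exact hh ⟨_, hx⟩

/-- extension closure -/
theorem ExtV.of_exact (i : M' →ₗ[A] M) (p : M →ₗ[A] M'') (hp : Function.Surjective p)
    (hip : ∀ x, p x = 0 ↔ ∃ y, i y = x) (hi : Function.Injective i)
    (h' : ExtV S M') (h'' : ExtV S M'') : ExtV S M := by
  obtain ⟨π, hπ⟩ : ∃ π : (M →₀ A) →ₗ[A] M, Function.Surjective π :=
    ⟨Finsupp.linearCombination A id, Finsupp.linearCombination_surjective A Function.surjective_id⟩
  refine ExtV.of_extend π hπ ?_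
  intro N _ _ hN k
  -- first extend to the kernel of `p ∘ π`
  obtain ⟨π', hπ'⟩ : ∃ π' : LinearMap.ker (p ∘ₗ π) →ₗ[A] M', ∀ x, i (π' x) = π x :=
    exists_factor_inj (P := LinearMap.ker (p ∘ₗ π)) i hi
      (π ∘ₗ (LinearMap.ker (p ∘ₗ π)).subtype) (fun x => (hip (π x)).1 x.2)
  have hs' : Function.Surjective π' := by
    intro m
    obtain ⟨y, hy⟩ := hπ (i m)
    refine ⟨⟨y, ?_⟩, hi ?_⟩
    · rw [LinearMap.mem_ker, LinearMap.comp_apply, hy]
      exact (hip _).2 ⟨m, rfl⟩
    · rw [hπ']; exact hy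
  let c : LinearMap.ker π' →ₗ[A] LinearMap.ker π :=
    { toFun := fun x => ⟨x, by
        rw [LinearMap.mem_ker, ← hπ', show π' x = 0 from x.2, map_zero]⟩
      map_add' := fun x y => rfl
      map_smul' := fun a x => rfl }
  obtain ⟨h1, hh1⟩ := h'.extend (P := LinearMap.ker (p ∘ₗ π)) π' hs' hN (k ∘ₗ c)
  obtain ⟨h2, hh2⟩ := h''.extend (p ∘ₗ π) (hp.comp hπ) hN h1
  refine ⟨h2, fun x => ?_⟩
  have hx1 : (x : M →₀ A) ∈ LinearMap.ker (p ∘ₗ π) := by
    rw [LinearMap.mem_ker, LinearMap.comp_apply, show π x = 0 from x.2, map_zero]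
  have hx2 : (⟨x, hx1⟩ : LinearMap.ker (p ∘ₗ π)) ∈ LinearMap.ker π' := by
    rw [LinearMap.mem_ker]; apply hi; rw [hπ', map_zero]; exact x.2
  rw [hh2 ⟨x, hx1⟩, hh1 ⟨⟨x, hx1⟩, hx2⟩]
  rfl

end ext

section tors

variable {A : Type} [Ring A] (S : MSet A)

/-- torsion modules -/
structure Tors (M : Type) [AddCommGroup M] [Module A M] : Prop where
  fin : Module.Finite A M
  hom : ∀ (N : Type) [AddCommGroup N] [Module A N], Loc S N → ∀ f : M →ₗ[A] N, f = 0
  ext : ExtV S M

variable {S} {D : Type} [DivisionRing D] {δ : A →+* D}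
variable {M M' P N : Type} [AddCommGroup M] [Module A M] [AddCommGroup M'] [Module A M']
  [AddCommGroup P] [Module A P] [AddCommGroup N] [Module A N]

theorem Tors.of_equiv (e : M ≃ₗ[A] M') (hM : Tors S M) : Tors S M' where
  fin := by haveI := hM.fin; exact Module.Finite.equiv e
  hom N _ _ hN f := by
    have := hM.hom N hN (f ∘ₗ e.toLinearMap)
    ext x
    have := LinearMap.congr_fun this (e.symm x)
    simpa using this
  ext := hM.ext.of_equiv e

theorem Tors.hom_good (h : LData δ S) (hM : Tors S M) {X : Type} [AddCommGroup X] [Module A X]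
    (hX : Good S X) (f : M →ₗ[A] X) : f = 0 := by
  obtain ⟨N, _, _, k, hN, hk⟩ := hX.embed h
  have := hM.hom N hN (k ∘ₗ f)
  ext x
  apply hk
  rw [LinearMap.zero_apply, map_zero]
  exact LinearMap.congr_fun this x

/-- the kernel of a finite presentation of a torsion module is finitely generated -/
theorem ExtV.ker_fin (h : LData δ S) (hH : Hered A) (hM : ExtV S M) {m : ℕ}
    (π : (Fin m →₀ A) →ₗ[A] M) (hπ : Function.Surjective π) :
    Module.Finite A (LinearMap.ker π) := by
  classical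
  haveI : Module.Projective A (LinearMap.ker π) := hH _ _
  obtain ⟨k, -, s, hs, hk⟩ := h.embed_projective (LinearMap.ker π)
  obtain ⟨g, hg⟩ := hM.extend π hπ (h.loc _) k
  let J : Finset (LinearMap.ker π) :=
    Finset.univ.biUnion fun i : Fin m =>
      ((toRes (M := LinearMap.ker π →₀ D) δ).symm (g (Finsupp.single i 1))).support
  have hgJ : ∀ x : Fin m →₀ A, ((toRes (M := LinearMap.ker π →₀ D) δ).symm (g x)).support ⊆ J := by
    intro x
    induction x using Finsupp.induction_linear with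
    | zero =>
      have : ((toRes (M := LinearMap.ker π →₀ D) δ).symm (g 0)) = (0 : LinearMap.ker π →₀ D) := by
        rw [map_zero]; rfl
      rw [this]; exact Finset.empty_subset _
    | add x y hx hy =>
      have : ((toRes (M := LinearMap.ker π →₀ D) δ).symm (g (x + y)))
          = (toRes (M := LinearMap.ker π →₀ D) δ).symm (g x)
            + (toRes (M := LinearMap.ker π →₀ D) δ).symm (g y) := by
        rw [map_add]; rfl
      rw [this]
      exact Finsupp.support_add.trans (Finset.union_subset hx hy)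
    | single i a =>
      have : Finsupp.single i a = a • Finsupp.single i (1 : A) := by simp
      have h2 : ((toRes (M := LinearMap.ker π →₀ D) δ).symm (g (Finsupp.single i a)))
          = δ a • (toRes (M := LinearMap.ker π →₀ D) δ).symm (g (Finsupp.single i 1)) := by
        rw [this, map_smul]; rfl
      rw [h2]
      intro z hz
      exact Finset.mem_biUnion.2 ⟨i, Finset.mem_univ _, Finsupp.support_smul hz⟩
  refine ⟨⟨J, ?_⟩⟩
  rw [eq_top_iff]
  intro x _
  rw [← hs x, Finsupp.linearCombination_apply, Finsupp.sum]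
  refine Submodule.sum_mem _ fun j hj => ?_
  refine Submodule.smul_mem _ _ (Submodule.subset_span ?_)
  have h1 : ((toRes (M := LinearMap.ker π →₀ D) δ).symm (k x)) j ≠ 0 := by
    rw [hk, Finsupp.mapRange_apply]
    exact fun h0 => (Finsupp.mem_support_iff.1 hj) ((map_eq_zero_iff δ h.inj).1 h0)
  have h2 : j ∈ ((toRes (M := LinearMap.ker π →₀ D) δ).symm (k x)).support :=
    Finsupp.mem_support_iff.2 h1
  rw [← hg x] at h2
  exact hgJ _ h2

theorem ExtV.ker_proj (hH : Hered A) {m : ℕ} (π : (Fin m →₀ A) →ₗ[A] M) :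
    Module.Projective A (LinearMap.ker π) := hH _ _

theorem exists_pres (M : Type) [AddCommGroup M] [Module A M] [Module.Finite A M] :
    ∃ (m : ℕ) (π : (Fin m →₀ A) →ₗ[A] M), Function.Surjective π := by
  obtain ⟨m, f, hf⟩ := Module.Finite.exists_fin' A M
  exact ⟨m, f ∘ₗ (Finsupp.linearEquivFunOnFinite A A (Fin m)).toLinearMap,
    hf.comp (LinearEquiv.surjective _)⟩

/-- range -/
theorem Tors.range (hH : Hered A) (hM : Tors S M) (hM' : ExtV S M') (f : M →ₗ[A] M') :
    Tors S (LinearMap.range f) where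
  fin := by
    haveI := hM.fin
    exact Module.Finite.range f
  hom N _ _ hN g := by
    have := hM.hom N hN (g ∘ₗ f.rangeRestrict)
    ext x
    obtain ⟨y, hy⟩ := f.surjective_rangeRestrict x
    rw [← hy]
    exact LinearMap.congr_fun this y
  ext := hM'.sub hH (LinearMap.range f).subtype (Submodule.injective_subtype _)

/-- cokernel -/
theorem Tors.coker (hM : Tors S M) (hM' : Tors S M') (f : M →ₗ[A] M') :
    Tors S (M' ⧸ LinearMap.range f) where
  fin := by haveI := hM'.fin; infer_instance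
  hom N _ _ hN g := by
    have := hM'.hom N hN (g ∘ₗ (LinearMap.range f).mkQ)
    apply Submodule.linearMap_qext
    rw [this, LinearMap.zero_comp]
  ext := by
    obtain ⟨π, hπ⟩ : ∃ π : (M' →₀ A) →ₗ[A] M', Function.Surjective π :=
      ⟨Finsupp.linearCombination A id,
        Finsupp.linearCombination_surjective A Function.surjective_id⟩
    apply ExtV.of_extend ((LinearMap.range f).mkQ ∘ₗ π)
      ((Submodule.mkQ_surjective _).comp hπ)
    intro N _ _ hN k
    let c : LinearMap.ker π →ₗ[A] LinearMap.ker ((LinearMap.range f).mkQ ∘ₗ π) :=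
      { toFun := fun x => ⟨x, by
          rw [LinearMap.mem_ker, LinearMap.comp_apply, show π x = 0 from x.2, map_zero]⟩
        map_add' := fun x y => rfl
        map_smul' := fun a x => rfl }
    obtain ⟨h, hh⟩ := hM'.ext.extend π hπ hN (k ∘ₗ c)
    refine ⟨h, fun x => ?_⟩
    -- the difference factors through `range f`
    let g : LinearMap.ker ((LinearMap.range f).mkQ ∘ₗ π) →ₗ[A] N :=
      h ∘ₗ (LinearMap.ker ((LinearMap.range f).mkQ ∘ₗ π)).subtype - k
    have hmem : ∀ x : LinearMap.ker ((LinearMap.range f).mkQ ∘ₗ π), π x ∈ LinearMap.range f := by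
      intro x
      have : (LinearMap.range f).mkQ (π x) = 0 := x.2
      rwa [Submodule.mkQ_apply, Submodule.Quotient.mk_eq_zero] at this
    obtain ⟨ρ, hρ'⟩ : ∃ ρ : LinearMap.ker ((LinearMap.range f).mkQ ∘ₗ π) →ₗ[A] LinearMap.range f,
        ∀ x, ((ρ x : LinearMap.range f) : M') = π x :=
      ⟨(π ∘ₗ (LinearMap.ker ((LinearMap.range f).mkQ ∘ₗ π)).subtype).codRestrict _ hmem,
        fun x => rfl⟩
    have hρ : Function.Surjective ρ := by
      rintro ⟨y, hy⟩
      obtain ⟨x, rfl⟩ := hπ y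
      refine ⟨⟨x, ?_⟩, Subtype.ext (hρ' _)⟩
      rw [LinearMap.mem_ker, LinearMap.comp_apply, Submodule.mkQ_apply,
        Submodule.Quotient.mk_eq_zero]
      exact hy
    obtain ⟨g', hg'⟩ := exists_factor (P := LinearMap.ker ((LinearMap.range f).mkQ ∘ₗ π)) ρ hρ g
      (fun x hx => by
      have hx' : π x = 0 := by rw [← hρ', hx]; rfl
      have := hh ⟨x, hx'⟩
      change h x - k x = 0
      rw [this, sub_eq_zero]
      rfl)
    have h0 := hM.hom N hN (g' ∘ₗ f.rangeRestrict)
    have h1 : g x = 0 := by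
      rw [← hg' x]
      obtain ⟨y, hy⟩ := f.surjective_rangeRestrict (ρ x)
      rw [← hy]
      exact LinearMap.congr_fun h0 y
    exact sub_eq_zero.1 h1

/-- kernel -/
theorem Tors.ker (h : LData δ S) (hH : Hered A) (hM : Tors S M) (hM' : ExtV S M')
    (f : M →ₗ[A] M') : Tors S (LinearMap.ker f) := by
  haveI := hM.fin
  obtain ⟨m, π, hπ⟩ := exists_pres (A := A) M
  have hR := hM.range hH hM' f
  have hs : Function.Surjective (f.rangeRestrict ∘ₗ π) :=
    f.surjective_rangeRestrict.comp hπ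
  have hfin := hR.ext.ker_fin h hH _ hs
  have hkk : ∀ x, x ∈ LinearMap.ker (f.rangeRestrict ∘ₗ π) ↔ π x ∈ LinearMap.ker f := by
    intro x
    rw [LinearMap.mem_ker, LinearMap.mem_ker, LinearMap.comp_apply]
    exact ⟨fun h => congrArg Subtype.val h, fun h => Subtype.ext h⟩
  let ρ : LinearMap.ker (f.rangeRestrict ∘ₗ π) →ₗ[A] LinearMap.ker f :=
    (π ∘ₗ (LinearMap.ker (f.rangeRestrict ∘ₗ π)).subtype).codRestrict _ (fun x => (hkk x).1 x.2)
  have hρ : Function.Surjective ρ := by
    rintro ⟨y, hy⟩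
    obtain ⟨x, rfl⟩ := hπ y
    exact ⟨⟨x, (hkk x).2 hy⟩, rfl⟩
  refine ⟨Module.Finite.of_surjective ρ hρ, ?_, hM.ext.sub hH (LinearMap.ker f).subtype
    (Submodule.injective_subtype _)⟩
  intro N _ _ hN g
  obtain ⟨k, hk⟩ := hR.ext.extend (f.rangeRestrict ∘ₗ π) hs hN (g ∘ₗ ρ)
  have hk0 : LinearMap.ker π ≤ LinearMap.ker k := by
    intro x hx
    have hx' : π x ∈ LinearMap.ker f := by rw [show π x = 0 from hx]; exact Submodule.zero_mem _
    have h1 := hk ⟨x, (hkk x).2 hx'⟩
    have h2 : ρ ⟨x, (hkk x).2 hx'⟩ = 0 := Subtype.ext hx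
    rw [LinearMap.mem_ker]
    change k x = g (ρ ⟨x, (hkk x).2 hx'⟩) at h1
    rw [h1, h2, map_zero]
  obtain ⟨k', hk'⟩ := exists_factor π hπ k (fun x hx => hk0 hx)
  have h0 := hM.hom N hN k'
  ext y
  obtain ⟨x, rfl⟩ := hρ y
  have h1 := hk x
  rw [LinearMap.zero_apply]
  change k x = g (ρ x) at h1
  rw [← h1, ← hk', h0, LinearMap.zero_apply]

end tors

end Crest.Agent.R181.KS
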