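import Crest.Agent.R181.LC598a

/-!
R181 (helper598), block B9: `LU` for matrix rings, for families and for `Rg`; the ring of upper
triangular matrices.
-/

set_option autoImplicit false
set_option linter.unusedSectionVars false

namespace Crest.Agent.R181.PO

open UR LOC

noncomputable section

section LUm

variable {S S' : Type} [Ring S] [Ring S']

theorem LU_mapMatrix {m : Type} [Fintype m] [DecidableEq m] {f : S →+* S'} (hf : LU f) :
    LU (f.mapMatrix : Matrix m m S →+* Matrix m m S') := by
  intro n A hA
  have h1 : IsUnit ((Matrix.compRingEquiv (Fin n) m S A).map f) := by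
    have := hA.map (Matrix.compRingEquiv (Fin n) m S')
    have e : Matrix.compRingEquiv (Fin n) m S' (A.map f.mapMatrix) =
        (Matrix.compRingEquiv (Fin n) m S A).map f := by
      ext i j; rfl
    rwa [e] at this
  have h2 := hf.isUnit _ h1
  exact (MulEquiv.isUnit_map (Matrix.compRingEquiv (Fin n) m S)).1 h2

/-- matrices over a product -/
def matPi (m P B : Type) [Fintype m] [DecidableEq m] [Ring B] :
    Matrix m m (P → B) ≃+* (P → Matrix m m B) where
  toFun M p i j := M i j p
  invFun M i j p := M p i j
  left_inv _ := rfl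
  right_inv _ := rfl
  map_mul' M N := by
    funext p
    ext i j
    show (M * N) i j p =
      ((show Matrix m m B from fun i j => M i j p) * (show Matrix m m B from fun i j => N i j p)) i j
    rw [Matrix.mul_apply, Matrix.mul_apply, Finset.sum_apply]
    rfl
  map_add' M N := rfl

theorem LU_pi_mapMatrix {m : Type} [Fintype m] [DecidableEq m] {P : Type} {d : P → (S →+* S')}
    (h : LU (RingHom.pi d)) :
    LU (RingHom.pi (fun p => ((d p).mapMatrix : Matrix m m S →+* Matrix m m S'))) := by
  have e : RingHom.pi (fun p => ((d p).mapMatrix : Matrix m m S →+* Matrix m m S')) =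
      ((matPi m P S' : Matrix m m (P → S') ≃+* (P → Matrix m m S')) :
        Matrix m m (P → S') →+* (P → Matrix m m S')).comp (RingHom.pi d).mapMatrix := by
    ext x p i j
    rfl
  rw [e]
  exact LU.comp (LU.equiv _) (LU_mapMatrix h)

theorem surj_pi_mapMatrix {m : Type} [Fintype m] [DecidableEq m] {P : Type} {d : P → (S →+* S')}
    (h : Function.Surjective (RingHom.pi d)) :
    Function.Surjective
      (RingHom.pi (fun p => ((d p).mapMatrix : Matrix m m S →+* Matrix m m S'))) := by
  intro y
  choose g hg using h
  refine ⟨fun i j => g (fun p => y p i j), ?_⟩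
  funext p
  ext i j
  exact congrFun (hg (fun p => y p i j)) p

end LUm

section Rgm

variable {I ι ν : Type} [DecidableEq I] (a : I → ℕ)

theorem Rg.map_LU (Ls : List (Stp I ι)) : ∀ {B C : Type} [Ring B] [Ring C] (f : B →+* C)
    (_ : LU f), LU (Rg.map a Ls f) := by
  induction Ls with
  | nil => intro B C _ _ f hf; exact hf
  | cons s Ls ih =>
    intro B C _ _ f hf
    exact ih (B := Matrix (Sz a s) (Sz a s) B) (C := Matrix (Sz a s) (Sz a s) C) f.mapMatrix
      (LU_mapMatrix hf)

theorem Rg.pi_LU (Ls : List (Stp I ι)) {P : Type} : ∀ {B C : Type} [Ring B] [Ring C]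
    (d : P → (B →+* C)) (_ : LU (RingHom.pi d)), LU (RingHom.pi (fun p => Rg.map a Ls (d p))) := by
  induction Ls with
  | nil => intro B C _ _ f hf; exact hf
  | cons s Ls ih =>
    intro B C _ _ f hf
    exact ih (B := Matrix (Sz a s) (Sz a s) B) (C := Matrix (Sz a s) (Sz a s) C)
      (fun p => (f p).mapMatrix) (LU_pi_mapMatrix hf)

theorem Rg.pi_surjective (Ls : List (Stp I ι)) {P : Type} : ∀ {B C : Type} [Ring B] [Ring C]
    (d : P → (B →+* C)) (_ : Function.Surjective (RingHom.pi d)),
    Function.Surjective (RingHom.pi (fun p => Rg.map a Ls (d p))) := by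
  induction Ls with
  | nil => intro B C _ _ f hf; exact hf
  | cons s Ls ih =>
    intro B C _ _ f hf
    exact ih (B := Matrix (Sz a s) (Sz a s) B) (C := Matrix (Sz a s) (Sz a s) C)
      (fun p => (f p).mapMatrix) (surj_pi_mapMatrix hf)

end Rgm

section UT

variable (n : ℕ) (B : Type) [Ring B]

/-- upper triangular matrices -/
def UT : Subring (Matrix (Fin n) (Fin n) B) where
  carrier := {M | ∀ p q, q < p → M p q = 0}
  mul_mem' := by
    intro M N hM hN p q hpq
    rw [Matrix.mul_apply]
    refine Finset.sum_eq_zero fun r _ => ?_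
    by_cases h : r < p
    · rw [hM p r h, zero_mul]
    · rw [hN r q (lt_of_lt_of_le hpq (not_lt.1 h)), mul_zero]
  one_mem' := by
    intro p q hpq
    exact Matrix.one_apply_ne (ne_of_gt hpq)
  add_mem' := by
    intro M N hM hN p q hpq
    rw [Matrix.add_apply, hM p q hpq, hN p q hpq, add_zero]
  zero_mem' := by intro p q _; rfl
  neg_mem' := by
    intro M hM p q hpq
    rw [Matrix.neg_apply, hM p q hpq, neg_zero]

variable {n B}

theorem mem_UT {M : Matrix (Fin n) (Fin n) B} : M ∈ UT n B ↔ ∀ p q, q < p → M p q = 0 := Iff.rfl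

/-- the diagonal entry -/
def dg (p : Fin n) : UT n B →+* B where
  toFun M := M.1 p p
  map_one' := by simp
  map_zero' := rfl
  map_add' M N := rfl
  map_mul' M N := by
    show (M.1 * N.1) p p = M.1 p p * N.1 p p
    rw [Matrix.mul_apply, Finset.sum_eq_single p]
    · intro r _ hr
      rcases lt_or_gt_of_ne hr with h | h
      · rw [M.2 p r h, zero_mul]
      · rw [N.2 r p h, mul_zero]
    · intro h; exact absurd (Finset.mem_univ p) h

@[simp] theorem dg_apply (p : Fin n) (M : UT n B) : dg p M = M.1 p p := rfl

theorem surj_dg : Function.Surjective (RingHom.pi (fun p : Fin n => (dg p : UT n B →+* B))) := by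
  intro y
  refine ⟨⟨Matrix.diagonal y, fun p q h => Matrix.diagonal_apply_ne _ (ne_of_gt h)⟩, ?_⟩
  funext p
  show (Matrix.diagonal y) p p = y p
  simp

theorem nil_UT (M : UT n B) (h : ∀ p, dg p M = 0) : IsNilpotent M := by
  have key : ∀ k : ℕ, ∀ p q : Fin n, (q : ℕ) < p + k → (M.1 ^ k) p q = 0 := by
    intro k
    induction k with
    | zero =>
      intro p q hpq
      rw [pow_zero]
      exact Matrix.one_apply_ne (fun e => by subst e; omega)
    | succ k ih =>
      intro p q hpq
      rw [pow_succ, Matrix.mul_apply]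
      refine Finset.sum_eq_zero fun r _ => ?_
      by_cases h1 : (r : ℕ) < p + k
      · rw [ih p r h1, zero_mul]
      · by_cases h2 : q < r
        · rw [M.2 r q h2, mul_zero]
        · have h3 : r = q := by
            apply le_antisymm
            · exact not_lt.1 h2
            · rw [Fin.le_def]; omega
          subst h3
          have := h r
          rw [dg_apply] at this
          rw [this, mul_zero]
  refine ⟨n, Subtype.ext ?_⟩
  show ((M ^ n : UT n B) : Matrix (Fin n) (Fin n) B) = 0
  rw [SubmonoidClass.coe_pow]
  ext p q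
  rw [key n p q (by have := q.2; omega)]
  rfl

theorem LU_dg : LU (RingHom.pi (fun p : Fin n => (dg p : UT n B →+* B))) := by
  apply LU.of_nil surj_dg
  intro M hM
  exact nil_UT M (fun p => congrFun hM p)

end UT

end

end Crest.Agent.R181.PO
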