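import Crest.Agent.R181.LC598b

/-!
R181 (helper598), block B9: a step whose last entry vanishes is upper triangular; locality can be
checked on the diagonal pieces.
-/

set_option autoImplicit false
set_option linter.unusedSectionVars false

namespace Crest.Agent.R181.PO

open UR LOC

noncomputable section

section Tri

variable {I ι ν : Type} [DecidableEq I] (a : I → ℕ)

/-- `W i` is multiplied by `om i ^ k` -/
def tws {B : Type} [Ring B] (i : I) (k : ℕ) (S : St I ι ν B) : St I ι ν B :=
  { S with W := fun l u => if l = i then S.om i ^ k * S.W l u else S.W l u }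

variable {B C : Type} [Ring B] [Ring C]

@[simp] theorem tws_om (i : I) (k : ℕ) (S : St I ι ν B) : (tws i k S).om = S.om := rfl
@[simp] theorem tws_th (i : I) (k : ℕ) (S : St I ι ν B) : (tws i k S).th = S.th := rfl
@[simp] theorem tws_tl (i : I) (k : ℕ) (S : St I ι ν B) : (tws i k S).tl = S.tl := rfl
@[simp] theorem tws_vec (i : I) (k : ℕ) (S : St I ι ν B) : (tws i k S).vec = S.vec := rfl
@[simp] theorem tws_W0 (i : I) (k : ℕ) (S : St I ι ν B) : (tws i k S).W0 = S.W0 := rfl

theorem tws_zero (i : I) (S : St I ι ν B) : tws i 0 S = S := by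
  refine St.ext rfl rfl rfl rfl rfl ?_
  funext l u
  simp [tws]

theorem tws_tws (i : I) (k k' : ℕ) (S : St I ι ν B) : tws i k (tws i k' S) = tws i (k + k') S := by
  refine St.ext rfl rfl rfl rfl rfl ?_
  funext l u
  simp only [tws]
  split_ifs with h
  · rw [pow_add, mul_assoc]
  · rfl

/-- the last entry of the block vanishes -/
def Last0 (s : Stp I ι) (S : St I ι ν B) : Prop := ∀ u, ent a s S (a s.op - 1) u = 0

/-- no step compares an operator with itself -/
def Stp.good : Stp I ι → Prop
  | .mono _ _ => True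
  | .pair i l => l ≠ i

theorem Last0.tws {s : Stp I ι} {S : St I ι ν B} (h : Last0 a s S) (hg : s.good) (k : ℕ) :
    Last0 a s (tws s.op k S) := by
  cases s with
  | mono i k' => exact h
  | pair i l =>
    intro u
    have := h u
    simp only [ent, Stp.op_pair] at this ⊢
    simpa [PO.tws, show l ≠ i from hg] using this

theorem scalar_mem_UT {n : ℕ} (x : B) : Matrix.scalar (Fin n) x ∈ UT n B := by
  intro p q h
  rw [Matrix.scalar_apply]
  exact Matrix.diagonal_apply_ne _ (ne_of_gt h)

/-- the scalars -/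
def scU (n : ℕ) (B : Type) [Ring B] : B →+* UT n B :=
  (Matrix.scalar (Fin n)).codRestrict _ scalar_mem_UT

theorem scU_comm {n : ℕ} (x : B) (hx : ∀ y, Commute x y) (z : UT n B) :
    Commute (scU n B x) z := by
  apply Subtype.ext
  exact Matrix.scalar_commute x (fun r => hx r) z.1

theorem blk_mem_UT {m : ℕ} (om y : B) (e : ℕ → B) (he : e m = 0) :
    blk (n := m + 1) om y e ∈ UT (m + 1) B := by
  intro p q h
  simp only [blk]
  rw [if_neg (ne_of_lt h), zero_add]
  split_ifs with h1
  · have hp : p = Fin.last m := by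
      by_contra hne
      have h2 : p < Fin.last m := lt_of_le_of_ne (Fin.le_last p) hne
      have h3 : p < p + 1 := Fin.lt_add_one_iff.2 h2
      rw [← h1] at h3
      exact absurd h (not_lt.2 h3.le)
    rw [hp, Fin.val_last, he]
  · rfl

/-- the step with values in the upper triangular matrices -/
def runU (s : Stp I ι) (S : St I ι ν B) (h : Last0 a s S) :
    St I ι ν (UT (a s.op - 1 + 1) B) where
  om i := ⟨(run a s S).om i, scalar_mem_UT _⟩
  th i l := ⟨(run a s S).th i l, scalar_mem_UT _⟩
  tl i := ⟨(run a s S).tl i, scalar_mem_UT _⟩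
  vec k u := ⟨(run a s S).vec k u, scalar_mem_UT _⟩
  W0 i u := ⟨(run a s S).W0 i u, scalar_mem_UT _⟩
  W i u := ⟨(run a s S).W i u, by
    simp only [run]
    split_ifs
    · exact blk_mem_UT _ _ _ (h u)
    · exact scalar_mem_UT _⟩

theorem runU_subtype (s : Stp I ι) (S : St I ι ν B) (h : Last0 a s S) :
    (runU a s S h).map (UT (a s.op - 1 + 1) B).subtype = run a s S := rfl

theorem blk_diag {m : ℕ} (om y : B) (e : ℕ → B) (he : e m = 0) (p : Fin (m + 1)) :
    blk (n := m + 1) om y e p p = om ^ (p : ℕ) * y := by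
  simp only [blk, if_true]
  split_ifs with h1
  · have hp : p = Fin.last m := by
      by_contra hne
      have h2 : p < Fin.last m := lt_of_le_of_ne (Fin.le_last p) hne
      have h3 : p < p + 1 := Fin.lt_add_one_iff.2 h2
      rw [← h1] at h3
      exact lt_irrefl _ h3
    rw [hp, Fin.val_last, he, add_zero]
  · rw [add_zero]

theorem runU_dg (s : Stp I ι) (S : St I ι ν B) (h : Last0 a s S) (p : Fin (a s.op - 1 + 1)) :
    (runU a s S h).map (dg p) = tws s.op p S := by
  refine St.ext ?_ ?_ ?_ ?_ ?_ ?_
  · funext i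
    show (Matrix.scalar _ (S.om i)) p p = _
    simp
  · funext i l
    show (Matrix.scalar _ (S.th i l)) p p = _
    simp
  · funext i
    show (Matrix.scalar _ (S.tl i)) p p = _
    simp
  · funext k u
    show (Matrix.scalar _ (S.vec k u)) p p = _
    simp
  · funext i u
    show (Matrix.scalar _ (S.W0 i u)) p p = _
    simp
  · funext i u
    show (run a s S).W i u p p = (tws s.op p S).W i u
    simp only [run, tws]
    split_ifs with h1
    · rw [blk_diag _ _ _ (h u), h1]
    · simp

/-- functoriality of `UT` -/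
def UT.map {n : ℕ} (f : B →+* C) : UT n B →+* UT n C :=
  (f.mapMatrix.comp (UT n B).subtype).codRestrict _ (fun M p q h => by
    show f (M.1 p q) = 0
    rw [M.2 p q h, map_zero])

theorem UT.map_injective {n : ℕ} (f : B →+* C) (hf : Function.Injective f) :
    Function.Injective (UT.map (n := n) f) := by
  intro x y h
  apply Subtype.ext
  ext p q
  exact hf (congrFun (congrFun (congrArg Subtype.val h) p) q)

theorem Last0.map {s : Stp I ι} {S : St I ι ν B} (h : Last0 a s S) (f : B →+* C) :
    Last0 a s (S.map f) := by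
  intro u
  rw [ent_map, h u, map_zero]

theorem runU_map (f : B →+* C) (s : Stp I ι) (S : St I ι ν B) (h : Last0 a s S) :
    runU a s (S.map f) (h.map a f) = (runU a s S h).map (UT.map f) := by
  have := run_map a f s S
  refine St.ext ?_ ?_ ?_ ?_ ?_ ?_
  · funext i; exact Subtype.ext (congrFun (congrArg St.om this) i)
  · funext i l; exact Subtype.ext (congrFun (congrFun (congrArg St.th this) i) l)
  · funext i; exact Subtype.ext (congrFun (congrArg St.tl this) i)
  · funext i l; exact Subtype.ext (congrFun (congrFun (congrArg St.vec this) i) l)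
  · funext i l; exact Subtype.ext (congrFun (congrFun (congrArg St.W0 this) i) l)
  · funext i l; exact Subtype.ext (congrFun (congrFun (congrArg St.W this) i) l)

theorem Last0.pull {ν' : Type} {s : Stp I ι} {S : St I ι ν B} (h : Last0 a s S) (g : ν' → ν) :
    Last0 a s (S.pull g) := by
  intro u
  have : ent a s (S.pull g) (a s.op - 1) u = ent a s S (a s.op - 1) (g u) := by
    cases s <;> rfl
  rw [this, h]

theorem runU_pull {ν' : Type} (g : ν' → ν) (s : Stp I ι) (S : St I ι ν B) (h : Last0 a s S) :
    runU a s (S.pull g) (h.pull a g) = (runU a s S h).pull g := by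
  have := run_pull a g s S
  refine St.ext rfl rfl rfl rfl rfl ?_
  funext i l; exact Subtype.ext (congrFun (congrFun (congrArg St.W this) i) l)

theorem tws_map (f : B →+* C) (i : I) (k : ℕ) (S : St I ι ν B) :
    (tws i k S).map f = tws i k (S.map f) := by
  refine St.ext rfl rfl rfl rfl rfl ?_
  funext l u
  simp only [tws, St.map_W, St.map_om]
  split_ifs <;> simp

theorem tws_pull {ν' : Type} (g : ν' → ν) (i : I) (k : ℕ) (S : St I ι ν B) :
    (tws i k S).pull g = tws i k (S.pull g) := rfl

end Tri

section Tri2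

variable {F D I σ ι : Type} [Field F] [DivisionRing D] [Algebra F D] [Fintype I] [Fintype σ]
  [DecidableEq I] {a : I → ℕ} {th : I → I → F} {ω : I → F} {T : TwD a th ω}
  {Q0 : I → MvPolynomial σ F} {w : I → σ → D}

/-- the final tuple is local as soon as it is a tuple -/
def LocFin (a : I → ℕ) (th : I → I → F) (Q0 : I → MvPolynomial σ F) (w : I → σ → D)
    (Ls : List (Stp I ι)) {B : Type} [Ring B] (lam : F →+* B)
    (S : St I ι σ B) : Prop :=
  IsTuple a th Q0 ((sc a Ls).comp lam) (fin a Ls S).W →
    IsLoc w ((sc a Ls).comp lam) (fin a Ls S).W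

variable {B C : Type} [Ring B] [Ring C]

/-- the final tuple over `C` from the final tuple over `B` -/
theorem fin_tuple_map {ν : Type} [Fintype ν] {Q : I → MvPolynomial ν F} (Ls : List (Stp I ι))
    (f : B →+* C) (lam : F →+* B)
    (S : St I ι ν B) (h : IsTuple a th Q ((sc a Ls).comp lam) (fin a Ls S).W) :
    IsTuple a th Q ((sc a Ls).comp (f.comp lam)) (fin a Ls (S.map f)).W := by
  have h1 := h.map (Rg.map a Ls f)
  rw [fin_map]
  have e : (Rg.map a Ls f).comp ((sc a Ls).comp lam) = (sc a Ls).comp (f.comp lam) := by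
    ext c; exact Rg.map_sc a Ls f (lam c)
  rw [e] at h1
  exact h1

theorem fin_tuple_of_injective {ν : Type} [Fintype ν] {Q : I → MvPolynomial ν F}
    (Ls : List (Stp I ι)) (f : B →+* C)
    (hf : Function.Injective f) (lam : F →+* B)
    (S : St I ι ν B) (h : IsTuple a th Q ((sc a Ls).comp (f.comp lam)) (fin a Ls (S.map f)).W) :
    IsTuple a th Q ((sc a Ls).comp lam) (fin a Ls S).W := by
  rw [fin_map] at h
  have e : (Rg.map a Ls f).comp ((sc a Ls).comp lam) = (sc a Ls).comp (f.comp lam) := by
    ext c; exact Rg.map_sc a Ls f (lam c)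
  rw [← e] at h
  exact IsTuple.of_injective (Rg.map a Ls f) (Rg.map_injective a Ls f hf) h

theorem fin_loc_map (Ls : List (Stp I ι)) (f : B →+* C) (lam : F →+* B)
    (S : St I ι σ B) (h : IsLoc w ((sc a Ls).comp lam) (fin a Ls S).W) :
    IsLoc w ((sc a Ls).comp (f.comp lam)) (fin a Ls (S.map f)).W := by
  have h1 := h.map (Rg.map a Ls f)
  rw [fin_map]
  have e : (Rg.map a Ls f).comp ((sc a Ls).comp lam) = (sc a Ls).comp (f.comp lam) := by
    ext c; exact Rg.map_sc a Ls f (lam c)
  rw [e] at h1
  exact h1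

/-- locality lifts along a surjection `f : B → C` which reflects invertibility -/
theorem LocFin.of_LU (hL : LocHyp T Q0 w) (Ls : List (Stp I ι)) (f : B →+* C)
    (hf : Function.Surjective f) (hf' : LU f) (lam : F →+* B) (hlam : ∀ c x, Commute (lam c) x)
    (S : St I ι σ B) (h : LocFin a th Q0 w Ls (f.comp lam) (S.map f)) :
    LocFin a th Q0 w Ls lam S := by
  intro ht
  have h1 := h (fin_tuple_map Ls f lam S ht)
  refine hL.rad (Rg.map a Ls f) (Rg.map_surjective a Ls f hf) (Rg.map_LU a Ls f hf') _
    (fun c x => sc_comm a Ls _ (hlam c) x) _ ht ?_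
  rw [fin_map] at h1
  have e : (Rg.map a Ls f).comp ((sc a Ls).comp lam) = (sc a Ls).comp (f.comp lam) := by
    ext c; exact Rg.map_sc a Ls f (lam c)
  rw [e]
  exact h1

/-- locality lifts along a family -/
theorem LocFin.of_family (hL : LocHyp T Q0 w) (Ls : List (Stp I ι)) {P : Type} (f : P → (B →+* C))
    (hf : Function.Surjective (RingHom.pi f)) (hf' : LU (RingHom.pi f)) (lam : F →+* B)
    (hlam : ∀ c x, Commute (lam c) x)
    (S : St I ι σ B) (h : ∀ p, LocFin a th Q0 w Ls ((f p).comp lam) (S.map (f p))) :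
    LocFin a th Q0 w Ls lam S := by
  intro ht
  refine hL.rad (RingHom.pi (fun p => Rg.map a Ls (f p))) (Rg.pi_surjective a Ls f hf)
    (Rg.pi_LU a Ls f hf') _
    (fun c x => sc_comm a Ls _ (hlam c) x) _ ht ?_
  refine IsLoc.pi fun p => ?_
  have h1 := h p (fin_tuple_map Ls (f p) lam S ht)
  rw [fin_map] at h1
  have e : (Rg.map a Ls (f p)).comp ((sc a Ls).comp lam) = (sc a Ls).comp ((f p).comp lam) := by
    ext c; exact Rg.map_sc a Ls (f p) (lam c)
  rw [← e] at h1
  exact h1

/-- one triangular step, over the ring of upper triangular matrices -/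
theorem LocFin.runU (hL : LocHyp T Q0 w) (s : Stp I ι) (Ls : List (Stp I ι)) (lam : F →+* B)
    (hlam : ∀ c x, Commute (lam c) x) (S : St I ι σ B) (hs : Last0 a s S)
    (h : ∀ p : ℕ, LocFin a th Q0 w Ls lam (tws s.op p S)) :
    LocFin a th Q0 w Ls ((scU (a s.op - 1 + 1) B).comp lam) (runU a s S hs) := by
  refine LocFin.of_family hL Ls (fun p : Fin (a s.op - 1 + 1) => dg p) surj_dg LU_dg _
    (fun c x => scU_comm _ (hlam c) x) _ fun p => ?_
  rw [runU_dg]
  have e : (dg p).comp ((scU (a s.op - 1 + 1) B).comp lam) = lam := by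
    ext c
    show (Matrix.scalar _ (lam c)) p p = _
    simp
  rw [e]
  exact h p

theorem LocFin.cons (hL : LocHyp T Q0 w) (s : Stp I ι) (Ls : List (Stp I ι)) (lam : F →+* B)
    (hlam : ∀ c x, Commute (lam c) x) (S : St I ι σ B) (hs : Last0 a s S)
    (h : ∀ p : ℕ, LocFin a th Q0 w Ls lam (tws s.op p S)) :
    LocFin a th Q0 w (s :: Ls) lam S := by
  intro ht
  have h1 := LocFin.runU hL s Ls lam hlam S hs h
  have h2 : IsTuple a th Q0 ((sc a Ls).comp ((scU (a s.op - 1 + 1) B).comp lam))
      (fin a Ls (PO.runU a s S hs)).W := by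
    refine fin_tuple_of_injective Ls (UT (a s.op - 1 + 1) B).subtype Subtype.val_injective _ _ ?_
    exact ht
  have h3 := fin_loc_map Ls (UT (a s.op - 1 + 1) B).subtype _ _ (h1 h2)
  exact h3

/-- the steps of one operator -/
theorem LocFin.tri (hL : LocHyp T Q0 w) (l : I) (Ls2 : List (Stp I ι)) (lam : F →+* B)
    (hlam : ∀ c x, Commute (lam c) x) :
    ∀ (Ls1 : List (Stp I ι)) (_ : ∀ s ∈ Ls1, s.op = l ∧ s.good) (S : St I ι σ B)
    (_ : ∀ s ∈ Ls1, Last0 a s S)
    (_ : ∀ k : ℕ, LocFin a th Q0 w Ls2 lam (tws l k S)),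
    LocFin a th Q0 w (Ls1 ++ Ls2) lam S := by
  intro Ls1
  induction Ls1 with
  | nil =>
    intro _ S _ h
    have := h 0
    rw [tws_zero] at this
    exact this
  | cons s Ls1 ih =>
    intro hop S hlast h
    have hs := hop s List.mem_cons_self
    refine LocFin.cons hL s (Ls1 ++ Ls2) lam hlam S (hlast s List.mem_cons_self) fun p => ?_
    rw [hs.1]
    refine ih (fun s' h' => hop s' (List.mem_cons_of_mem _ h')) (tws l p S) ?_ ?_
    · intro s' h'
      have h1 := hop s' (List.mem_cons_of_mem _ h')
      have := (hlast s' (List.mem_cons_of_mem _ h')).tws a h1.2 p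
      rwa [h1.1] at this
    · intro k
      rw [tws_tws]
      exact h _

end Tri2

end

end Crest.Agent.R181.PO
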