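import Crest.Agent.R181.LC598c

/-!
R181 (helper598), block B9: twisted homs `F → R` (`HasTw`).
-/

set_option autoImplicit false
set_option linter.unusedSectionVars false

namespace Crest.Agent.R181.PO

open UR LOC

noncomputable section

section Tw

variable {F I : Type} [Field F] [Fintype I] {a : I → ℕ} {th : I → I → F} {ω : I → F}
  {T : TwD a th ω} {R R' : Type} [Ring R] [Ring R']

theorem HasTw.map {lam : F →+* R} {tl : I → R} {lam' : F →+* R} (h : HasTw T lam tl lam')
    (g : R →+* R') : HasTw T (g.comp lam) (fun l => g (tl l)) (g.comp lam') := by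
  obtain ⟨c, h1, h2, h3⟩ := h
  exact ⟨g.comp c, fun x => congrArg g (h1 x), fun l => congrArg g (h2 l),
    fun x => congrArg g (h3 x)⟩

theorem frac_ext {Lam : Type} [CommRing Lam] [IsDomain Lam] [Algebra Lam F] [IsFractionRing Lam F]
    {f g : F →+* R} (h : ∀ x : Lam, f (algebraMap Lam F x) = g (algebraMap Lam F x)) : f = g := by
  ext x
  obtain ⟨p, q, hq, rfl⟩ := IsFractionRing.div_surjective (A := Lam) x
  have hq0 : algebraMap Lam F q ≠ 0 := by
    rw [Ne, IsFractionRing.to_map_eq_zero_iff]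
    exact nonZeroDivisors.ne_zero hq
  rw [div_eq_mul_inv, map_mul, map_mul, h]
  congr 1
  have h1 : f (algebraMap Lam F q)⁻¹ * f (algebraMap Lam F q) = 1 := by
    rw [← map_mul, inv_mul_cancel₀ hq0, map_one]
  have h2 : g (algebraMap Lam F q) * g (algebraMap Lam F q)⁻¹ = 1 := by
    rw [← map_mul, mul_inv_cancel₀ hq0, map_one]
  calc f (algebraMap Lam F q)⁻¹ = f (algebraMap Lam F q)⁻¹ *
      (g (algebraMap Lam F q) * g (algebraMap Lam F q)⁻¹) := by rw [h2, mul_one]
    _ = g (algebraMap Lam F q)⁻¹ := by rw [← mul_assoc, ← h, h1, one_mul]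

theorem HasTw.unique {lam : F →+* R} {tl : I → R} {lam1 lam2 : F →+* R}
    (h1 : HasTw T lam tl lam1) (h2 : HasTw T lam tl lam2) : lam1 = lam2 := by
  obtain ⟨c, h3, h4, h5⟩ := h1
  obtain ⟨c', h3', h4', h5'⟩ := h2
  have e : c = c' := by
    apply MvPolynomial.ringHom_ext
    · intro x; rw [h3, h3']
    · intro l; rw [h4, h4']
  apply frac_ext (Lam := T.Lam)
  intro x
  rw [h5, h5', e]

/-- the hom `F[τ] → R` given by central elements -/
theorem exists_central_eval (lam : F →+* R) (hlam : ∀ c x, Commute (lam c) x) (tl : I → R)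
    (htl : ∀ l x, Commute (tl l) x) : ∃ c : MvPolynomial I F →+* R,
    (∀ x, c (MvPolynomial.C x) = lam x) ∧ (∀ l, c (MvPolynomial.X l) = tl l) ∧
    ∀ p x, Commute (c p) x := by
  let lz : F →+* Subring.center R := lam.codRestrict _ (fun c => by
    rw [Subring.mem_center_iff]; exact fun g => (hlam c g).eq.symm)
  let tz : I → Subring.center R := fun l => ⟨tl l, by
    rw [Subring.mem_center_iff]; exact fun g => (htl l g).eq.symm⟩
  refine ⟨(Subring.center R).subtype.comp (MvPolynomial.eval₂Hom lz tz), ?_, ?_, ?_⟩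
  · intro x
    simp [lz]
  · intro l
    simp [tz]
  · intro p x
    have := Subring.mem_center_iff.1 (MvPolynomial.eval₂Hom lz tz p).2 x
    exact this.symm

theorem isUnit_of_LU {g : R →+* R'} (hg : LU g) {y : R} (hy : IsUnit (g y)) : IsUnit y := by
  have h1 : IsUnit ((Matrix.scalar (Fin 1) y).map g) := by
    have := hy.map (Matrix.scalar (Fin 1) : R' →+* _)
    have e : (Matrix.scalar (Fin 1) y).map g = Matrix.scalar (Fin 1) (g y) := by
      ext i j
      simp [Matrix.scalar_apply, Matrix.diagonal_apply, apply_ite g]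
    rwa [e]
  have h2 := hg 1 _ h1
  obtain ⟨u, hu⟩ := h2
  refine ⟨⟨y, u⁻¹.val 0 0, ?_, ?_⟩, rfl⟩
  · have h3 := congrFun (congrFun (u.mul_inv) 0) 0
    rw [hu] at h3
    simpa [Matrix.mul_apply] using h3
  · have h3 := congrFun (congrFun (u.inv_mul) 0) 0
    rw [hu] at h3
    simpa [Matrix.mul_apply] using h3

/-- extension of a central hom from `Lam` to `F` -/
theorem exists_frac_lift {Lam : Type} [CommRing Lam] [IsDomain Lam] [Algebra Lam F]
    [IsFractionRing Lam F] (f : Lam →+* R) (hf : ∀ p x, Commute (f p) x)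
    (hu : ∀ p, p ≠ 0 → IsUnit (f p)) : ∃ g : F →+* R, (∀ p, g (algebraMap Lam F p) = f p) ∧
    ∀ c x, Commute (g c) x := by
  let fz : Lam →+* Subring.center R := f.codRestrict _ (fun c => by
    rw [Subring.mem_center_iff]; exact fun g => (hf c g).eq.symm)
  have hz : ∀ y : nonZeroDivisors Lam, IsUnit (fz y) := by
    intro y
    obtain ⟨u, hu'⟩ := hu y.1 (nonZeroDivisors.ne_zero y.2)
    have hc : (u⁻¹).val ∈ Subring.center R := by
      rw [Subring.mem_center_iff]
      intro g
      have h1 : Commute u.val g := by rw [hu']; exact hf _ g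
      exact (h1.units_inv_left).eq.symm
    refine ⟨⟨fz y, ⟨(u⁻¹).val, hc⟩, ?_, ?_⟩, rfl⟩
    · apply Subtype.ext
      show f y.1 * (u⁻¹).val = 1
      rw [← hu', Units.mul_inv]
    · apply Subtype.ext
      show (u⁻¹).val * f y.1 = 1
      rw [← hu', Units.inv_mul]
  refine ⟨(Subring.center R).subtype.comp (IsLocalization.lift (M := nonZeroDivisors Lam) hz),
    ?_, ?_⟩
  · intro p
    rw [RingHom.comp_apply, IsLocalization.lift_eq]
    rfl
  · intro c x
    have := Subring.mem_center_iff.1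
      ((IsLocalization.lift (M := nonZeroDivisors Lam) hz : F →+* Subring.center R) c).2 x
    exact this.symm

/-- twisted homs lift along homs reflecting invertibility -/
theorem HasTw.lift {g : R →+* R'} (hg : LU g) {lam : F →+* R} (hlam : ∀ c x, Commute (lam c) x)
    {tl : I → R} (htl : ∀ l x, Commute (tl l) x) {lam2 : F →+* R'}
    (h : HasTw T (g.comp lam) (fun l => g (tl l)) lam2) :
    ∃ lam1 : F →+* R, HasTw T lam tl lam1 ∧ (∀ c x, Commute (lam1 c) x) ∧ g.comp lam1 = lam2 := by
  obtain ⟨c, hc1, hc2, hc3⟩ := exists_central_eval lam hlam tl htl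
  obtain ⟨c', h1, h2, h3⟩ := h
  have e : g.comp c = c' := by
    apply MvPolynomial.ringHom_ext
    · intro x; rw [RingHom.comp_apply, hc1, h1]; rfl
    · intro l; rw [RingHom.comp_apply, hc2, h2]
  let f : T.Lam →+* R := (c.comp (MvPolynomial.map (algebraMap T.Lam F))).comp T.Δ
  have hu : ∀ p : T.Lam, p ≠ 0 → IsUnit (f p) := by
    intro p hp
    apply isUnit_of_LU hg
    have e2 : g (f p) = lam2 (algebraMap T.Lam F p) := by
      rw [h3, ← e]; rfl
    rw [e2]
    apply IsUnit.map
    rw [isUnit_iff_ne_zero, Ne, IsFractionRing.to_map_eq_zero_iff]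
    exact hp
  obtain ⟨lam1, hl1, hl2⟩ := exists_frac_lift (F := F) f (fun p x => hc3 _ x) hu
  refine ⟨lam1, ⟨c, hc1, hc2, fun x => hl1 x⟩, hl2, ?_⟩
  apply frac_ext (Lam := T.Lam)
  intro x
  rw [RingHom.comp_apply, hl1, h3, ← e]
  rfl

/-- the twist by roots of unity -/
theorem HasTw.base {D : Type} [Ring D] [Algebra F D] (e : I → ℕ) (α : F ≃+* F)
    (hα : ∀ x : T.Lam, α (algebraMap T.Lam F x) =
      MvPolynomial.eval (fun l => (ω l ^ e l)⁻¹) (MvPolynomial.map (algebraMap T.Lam F) (T.Δ x))) :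
    HasTw T (algebraMap F D) (fun l => algebraMap F D ((ω l ^ e l)⁻¹))
      ((algebraMap F D).comp (α : F →+* F)) := by
  refine ⟨(algebraMap F D).comp (MvPolynomial.eval (fun l => (ω l ^ e l)⁻¹)), ?_, ?_, ?_⟩
  · intro x; simp
  · intro l; simp
  · intro x
    show algebraMap F D (α (algebraMap T.Lam F x)) = _
    rw [hα]
    rfl

end Tw

end

end Crest.Agent.R181.PO
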