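import Crest.Agent.R181.UR396b

/-!
R181 (helper396): substitution of variables in tuples.

`subA f τ' X : PA A σ →+* PA A' σ'` is `f : A →+* A'` on the coefficients and sends the variable
`v : σ` to the central linear form `∑ v', τ' (X v v') * x_{v'}`.
-/

set_option autoImplicit false
set_option linter.unusedSectionVars false

namespace Crest.Agent.R181.UR

open AddMonoidAlgebra

section Subst

variable {F : Type*} [CommRing F] {L L' : Type*} [CommRing L] [Algebra F L] [CommRing L']
  [Algebra F L'] {A A' : Type*} [Ring A] [Ring A'] {σ σ' : Type*} [Fintype σ] [Fintype σ']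

/-- the substitution in the commutative polynomial ring -/
noncomputable def subL (g : L →+* L') (X : σ → σ' → L') : MvPolynomial σ L →+* MvPolynomial σ' L' :=
  MvPolynomial.eval₂Hom (MvPolynomial.C.comp g)
    (fun v => ∑ v', MvPolynomial.C (X v v') * MvPolynomial.X v')

@[simp] theorem subL_C (g : L →+* L') (X : σ → σ' → L') (c : L) :
    subL g X (MvPolynomial.C c) = MvPolynomial.C (g c) := by
  simp [subL]

@[simp] theorem subL_X (g : L →+* L') (X : σ → σ' → L') (v : σ) :
    subL g X (MvPolynomial.X v) = ∑ v', MvPolynomial.C (X v v') * MvPolynomial.X v' := by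
  simp [subL]

theorem mp_C (τ : L →+* A) (c : L) : mp σ τ (MvPolynomial.C c) = cst σ (τ c) := by
  show mp σ τ (single 0 c) = single 0 (τ c)
  simp

theorem mp_X (τ : L →+* A) (v : σ) : mp σ τ (MvPolynomial.X v) = var A v := by
  show mp σ τ (single (Finsupp.single v 1) 1) = single (Finsupp.single v 1) 1
  simp

/-- constants commute with central polynomials -/
theorem cst_comm_mp (τ : L →+* A) (hτ : ∀ x y, Commute (τ x) y) (y : A) (p : MvPolynomial σ L) :
    Commute (cst σ y) (mp σ τ p) := by
  show _ * _ = _ * _
  induction p using AddMonoidAlgebra.induction_linear with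
  | zero => simp
  | add x y hx hy => rw [map_add, mul_add, add_mul, hx, hy]
  | single α a =>
    rw [mp_single, cst_apply, single_mul_single, single_mul_single, zero_add, add_zero,
      (hτ a y).eq]

/-- The image of a monomial. -/
noncomputable def monS (τ' : L' →+* A') (X : σ → σ' → L') :
    Multiplicative (σ →₀ ℕ) →* PA A' σ' where
  toFun α := mp σ' τ' (∏ v, (∑ v', MvPolynomial.C (X v v') * MvPolynomial.X v') ^
    (Multiplicative.toAdd α v))
  map_one' := by simp
  map_mul' α β := by simp [pow_add, Finset.prod_mul_distrib]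

/-- the substitution in polynomials over a noncommutative ring -/
noncomputable def subA (f : A →+* A') (τ' : L' →+* A') (hτ' : ∀ x y, Commute (τ' x) y)
    (X : σ → σ' → L') : PA A σ →+* PA A' σ' :=
  liftNCRingHom ((cst σ').comp f) (monS τ' X) (fun _ _ => cst_comm_mp τ' hτ' _ _)

variable (f : A →+* A') (g : L →+* L') (τ : L →+* A) (τ' : L' →+* A')
  (hτ' : ∀ x y, Commute (τ' x) y) (X : σ → σ' → L')

theorem subA_single (α : σ →₀ ℕ) (c : A) : subA f τ' hτ' X (single α c) =
    cst σ' (f c) * mp σ' τ' (∏ v, (∑ v', MvPolynomial.C (X v v') * MvPolynomial.X v') ^ α v) := by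
  simp [subA, monS]

@[simp] theorem subA_cst (c : A) : subA f τ' hτ' X (cst σ c) = cst σ' (f c) := by
  rw [cst_apply, subA_single]
  simp

@[simp] theorem subA_var (v : σ) : subA f τ' hτ' X (var A v) =
    lf (fun v' => τ' (X v v')) := by
  classical
  rw [var, subA_single, map_one, map_one, one_mul]
  have : ∏ v₁, (∑ v', MvPolynomial.C (X v₁ v') * MvPolynomial.X v') ^
      (Finsupp.single v 1 : σ →₀ ℕ) v₁ =
      (∑ v', MvPolynomial.C (X v v') * MvPolynomial.X v' : MvPolynomial σ' L') := by
    rw [Finset.prod_eq_single v]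
    · simp
    · intro v₁ _ h
      rw [Finsupp.single_eq_of_ne h]
      simp
    · simp
  rw [this, map_sum, lf_eq]
  refine Finset.sum_congr rfl fun v' _ => ?_
  rw [map_mul, mp_C, mp_X]

theorem cst_mul_lf (c : A) (w : σ → A) : cst σ c * lf w = lf (fun v => c * w v) := by
  rw [lf_eq, lf_eq, Finset.mul_sum]
  refine Finset.sum_congr rfl fun v _ => ?_
  rw [map_mul, mul_assoc]

theorem lf_sum {ι : Type*} (s : Finset ι) (w : ι → σ → A) :
    lf (fun v => ∑ i ∈ s, w i v) = ∑ i ∈ s, lf (w i) := by
  simp only [lf_eq, map_sum, Finset.sum_mul]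
  rw [Finset.sum_comm]

theorem subA_lf (w : σ → A) : subA f τ' hτ' X (lf w) =
    lf (fun v' => ∑ v, f (w v) * τ' (X v v')) := by
  rw [lf_eq, map_sum, lf_sum]
  refine Finset.sum_congr rfl fun v _ => ?_
  rw [map_mul, subA_cst, subA_var, cst_mul_lf]

theorem subA_mp (hfg : f.comp τ = τ'.comp g) (p : MvPolynomial σ L) :
    subA f τ' hτ' X (mp σ τ p) = mp σ' τ' (subL g X p) := by
  have h : (subA f τ' hτ' X).comp (mp σ τ) = (mp σ' τ').comp (subL g X) := by
    apply MvPolynomial.ringHom_ext
    · intro c
      rw [RingHom.comp_apply, RingHom.comp_apply, mp_C, subA_cst, subL_C, mp_C]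
      exact congrArg _ (RingHom.congr_fun hfg c)
    · intro v
      rw [RingHom.comp_apply, RingHom.comp_apply, mp_X, subA_var, subL_X, map_sum, lf_eq]
      refine Finset.sum_congr rfl fun v' _ => ?_
      rw [map_mul, mp_C, mp_X]
  exact RingHom.congr_fun h p

variable {I : Type*} [Fintype I] {a : I → ℕ} {th : I → I → F} {Q : I → MvPolynomial σ L}
  {w : I → σ → A}

include hτ' in
/-- Substitution of variables in a tuple. -/
theorem IsTuple.subst (h : IsTuple a th Q τ w) (hfg : f.comp τ = τ'.comp g)
    (hg : ∀ c : F, g (algebraMap F L c) = algebraMap F L' c) :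
    IsTuple a th (fun i => subL g X (Q i)) τ' (fun i v' => ∑ v, f (w i v) * τ' (X v v')) where
  comm i j := by
    have := congrArg (subA f τ' hτ' X) (h.comm i j)
    simpa only [map_mul, subA_lf] using this
  rel i := by
    have := congrArg (subA f τ' hτ' X) (h.rel i)
    rw [map_pow, subA_lf, map_add, subA_mp f g τ τ' hτ' X hfg, map_sum] at this
    rw [this]
    congr 1
    refine Finset.sum_congr rfl fun l _ => ?_
    rw [map_mul, map_pow, subA_lf, subA_cst]
    congr 2
    have h1 := RingHom.congr_fun hfg (algebraMap F L (th i l))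
    rw [RingHom.comp_apply, RingHom.comp_apply, hg] at h1
    rw [h1]

/-- If the substitution is injective, tuples can be recognised after substitution. -/
theorem IsTuple.of_subst (hinj : Function.Injective (subA f τ' hτ' X))
    (hfg : f.comp τ = τ'.comp g) (hg : ∀ c : F, g (algebraMap F L c) = algebraMap F L' c)
    (h : IsTuple a th (fun i => subL g X (Q i)) τ' (fun i v' => ∑ v, f (w i v) * τ' (X v v'))) :
    IsTuple a th Q τ w where
  comm i j := by
    apply hinj
    simpa only [map_mul, subA_lf] using h.comm i j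
  rel i := by
    apply hinj
    rw [map_pow, subA_lf, map_add, subA_mp f g τ τ' hτ' X hfg, map_sum, h.rel]
    congr 1
    refine Finset.sum_congr rfl fun l _ => ?_
    rw [map_mul, map_pow, subA_lf, subA_cst]
    congr 2
    have h1 := RingHom.congr_fun hfg (algebraMap F L (th i l))
    rw [RingHom.comp_apply, RingHom.comp_apply, hg] at h1
    rw [h1]

end Subst

end Crest.Agent.R181.UR
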