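import Crest.Agent.R181.LC598d
import Crest.Agent.R181.UR396c

/-!
R181 (helper598), block B9: injectivity of the hom from the cone ring `KK`: it can be checked on
the first diagonal piece of a triangular step, given locality.
-/

set_option autoImplicit false
set_option linter.unusedSectionVars false

namespace Crest.Agent.R181.PO

open UR LOC

noncomputable section

section Kpart

variable {F D I σ ι : Type} [Field F] [DivisionRing D] [Algebra F D] [Fintype I] [Fintype σ]
  [DecidableEq I] {a : I → ℕ} {th : I → I → F} {ω : I → F} {T : TwD a th ω}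
  {Q0 : I → MvPolynomial σ F} {w : I → σ → D}

theorem tuple_pull {R : Type} [Ring R] {τ : F →+* R} (hτ : ∀ c x, Commute (τ c) x)
    {W : I → Option σ → R} (h : IsTuple a th (QK Q0) τ W) :
    IsTuple a th Q0 τ (fun i v => W i (some v)) := by
  classical
  have h1 := h.subst (RingHom.id R) (RingHom.id F) τ τ hτ
    (fun v v' => if v = some v' then 1 else 0) (by ext x; rfl) (fun c => rfl)
  have hQ : (fun i => subL (RingHom.id F) (fun (v : Option σ) (v' : σ) =>
      if v = some v' then (1 : F) else 0) (QK Q0 i)) = Q0 := by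
    funext i
    have h3 : (subL (RingHom.id F) (fun (v : Option σ) (v' : σ) =>
        if v = some v' then (1 : F) else 0)).comp (MvPolynomial.rename (some : σ → Option σ) :
          MvPolynomial σ F →ₐ[F] MvPolynomial (Option σ) F).toRingHom = RingHom.id _ := by
      apply MvPolynomial.ringHom_ext
      · intro c
        simp
      · intro v
        simp [subL_X]
    exact RingHom.congr_fun h3 (Q0 i)
  rw [hQ] at h1
  have hw : (fun (i : I) (v' : σ) => ∑ v : Option σ, (RingHom.id R) (W i v) *
      τ (if v = some v' then 1 else 0)) = fun i v => W i (some v) := by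
    funext i v'
    rw [Finset.sum_eq_single (some v')]
    · simp
    · intro b _ hb
      simp [hb]
    · intro h; exact absurd (Finset.mem_univ _) h
  rw [hw] at h1
  exact h1

theorem exists_K {R : Type} [Ring R] {lam : F →+* R} (hlam : ∀ c x, Commute (lam c) x)
    {W : I → Option σ → R} (ht : IsTuple a th (QK Q0) lam W)
    (hloc : IsLoc w lam (fun i v => W i (some v))) :
    ∃ f : KK a th Q0 w →+* R, (∀ c, f (iL a th (QK Q0) w c) = lam c) ∧
      ∀ i u, f (wU a th (QK Q0) w i u) = W i u := by
  obtain ⟨g, h1, h2⟩ := hloc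
  have hW : ∀ i, ext' (fun i v => g (w i v)) (fun i => W i none) i = W i := by
    intro i
    funext u
    cases u with
    | none => rfl
    | some v => exact h2 i v
  obtain ⟨f, hf1, hf2, hf3⟩ := exists_lift (a := a) (th := th) (Q := QK Q0) (w := w) g lam
    (fun i => W i none) (fun c => h1 c) (fun x d => hlam x _) (fun x i => hlam x _) (by
      have e : (ext' (fun i v => g (w i v)) (fun i => W i none)) = W := funext hW
      rw [e]; exact ht)
  refine ⟨f, hf2, fun i u => ?_⟩
  cases u with
  | none => exact hf3 i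
  | some v => exact (hf1 _).trans (h2 i v)

theorem K_ext (hL : LocHyp T Q0 w) {R : Type} [Ring R] {f g : KK a th Q0 w →+* R}
    (h1 : ∀ c, f (iL a th (QK Q0) w c) = g (iL a th (QK Q0) w c))
    (h2 : ∀ i u, f (wU a th (QK Q0) w i u) = g (wU a th (QK Q0) w i u)) : f = g := by
  have h3 : f.comp (iD a th (QK Q0) w) = g.comp (iD a th (QK Q0) w) := by
    apply hL.uniq
    · intro c
      rw [RingHom.comp_apply, RingHom.comp_apply, iD_base]
      exact h1 _
    · intro i v
      exact h2 i (some v)
  refine hom_ext' _ _ _ _ (fun d => RingHom.congr_fun h3 d) h1 (fun i => h2 i none)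

theorem IsInj.of_map (hL : LocHyp T Q0 w) {R R' : Type} [Ring R] [Ring R'] (g : R →+* R')
    {lam : F →+* R} {W : I → Option σ → R}
    (hf : ∃ f : KK a th Q0 w →+* R, (∀ c, f (iL a th (QK Q0) w c) = lam c) ∧
      ∀ i u, f (wU a th (QK Q0) w i u) = W i u)
    (h : IsInj (iL a th (QK Q0) w) (wU a th (QK Q0) w) (g.comp lam) (fun i u => g (W i u))) :
    IsInj (iL a th (QK Q0) w) (wU a th (QK Q0) w) lam W := by
  obtain ⟨f, h1, h2⟩ := hf
  obtain ⟨f', h0, h1', h2'⟩ := h
  have e : g.comp f = f' := by
    apply K_ext hL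
    · intro c; rw [RingHom.comp_apply, h1, h1']; rfl
    · intro i u; rw [RingHom.comp_apply, h2, h2']
  refine ⟨f, ?_, h1, h2⟩
  intro x y hxy
  apply h0
  rw [← e]
  exact congrArg g hxy

/-- the final tuple gives an injective hom from the cone ring as soon as it is a tuple -/
def InjFin (a : I → ℕ) (th : I → I → F) (Q0 : I → MvPolynomial σ F) (w : I → σ → D)
    (Ls : List (Stp I ι)) {B : Type} [Ring B] (lam : F →+* B)
    (S : St I ι (Option σ) B) : Prop :=
  IsTuple a th (QK Q0) ((sc a Ls).comp lam) (fin a Ls S).W →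
    IsInj (iL a th (QK Q0) w) (wU a th (QK Q0) w) ((sc a Ls).comp lam) (fin a Ls S).W

variable {B B0 C : Type} [Ring B] [Ring B0] [Ring C]

theorem InjFin.of_inj (Ls : List (Stp I ι)) (k : B →+* C) (hk : Function.Injective k)
    (lam : F →+* B) (S : St I ι (Option σ) B) (h : InjFin a th Q0 w Ls lam S) :
    InjFin a th Q0 w Ls (k.comp lam) (S.map k) := by
  intro ht
  obtain ⟨f, h0, h1, h2⟩ := h (fin_tuple_of_injective Ls k hk lam S ht)
  refine ⟨(Rg.map a Ls k).comp f, (Rg.map_injective a Ls k hk).comp h0, ?_, ?_⟩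
  · intro c
    rw [RingHom.comp_apply, h1]
    exact Rg.map_sc a Ls k (lam c)
  · intro i u
    rw [RingHom.comp_apply, h2, fin_map]
    rfl

theorem InjFin.of_map (hL : LocHyp T Q0 w) (Ls : List (Stp I ι)) (g : B →+* C)
    (lam : F →+* B) (hlam : ∀ c x, Commute (lam c) x) (S : St I ι (Option σ) B)
    (hloc : IsTuple a th (QK Q0) ((sc a Ls).comp lam) (fin a Ls S).W →
      IsLoc w ((sc a Ls).comp lam) (fin a Ls (S.pull some)).W)
    (h : InjFin a th Q0 w Ls (g.comp lam) (S.map g)) : InjFin a th Q0 w Ls lam S := by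
  intro ht
  have h1 := h (fin_tuple_map Ls g lam S ht)
  have h2 := hloc ht
  rw [fin_pull] at h2
  have h3 := exists_K (w := w) (fun c x => sc_comm a Ls _ (hlam c) x) ht h2
  refine IsInj.of_map hL (Rg.map a Ls g) h3 ?_
  rw [fin_map] at h1
  have e : (Rg.map a Ls g).comp ((sc a Ls).comp lam) = (sc a Ls).comp (g.comp lam) := by
    ext c; exact Rg.map_sc a Ls g (lam c)
  rw [e]
  exact h1

theorem Last0.of_map {s : Stp I ι} {ν : Type} {S : St I ι ν B0} (k : B0 →+* B)
    (hk : Function.Injective k)
    (h : Last0 a s (S.map k)) : Last0 a s S := by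
  intro u
  apply hk
  rw [← ent_map, h u, map_zero]

theorem runU_congr {s : Stp I ι} {ν : Type} {S S' : St I ι ν B} (e : S = S') (h : Last0 a s S)
    (h' : Last0 a s S') : runU a s S h = runU a s S' h' := by
  subst e; rfl

/-- one triangular step -/
theorem InjFin.cons (hL : LocHyp T Q0 w) (k : B0 →+* B) (hk : Function.Injective k)
    (lam0 : F →+* B0) (hlam0 : ∀ c x, Commute (lam0 c) x)
    (hlam : ∀ c x, Commute (k (lam0 c)) x) (s : Stp I ι) (Ls : List (Stp I ι))
    (S0 : St I ι σ B0) (S : St I ι (Option σ) B) (hS : S.pull some = S0.map k)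
    (hs : Last0 a s S) (H0 : ∀ p : ℕ, LocFin a th Q0 w Ls lam0 (tws s.op p S0))
    (HK : InjFin a th Q0 w Ls (k.comp lam0) S) :
    InjFin a th Q0 w (s :: Ls) (k.comp lam0) S := by
  have hs1 : Last0 a s (S0.map k) := by rw [← hS]; exact hs.pull a some
  have hs0 : Last0 a s S0 := Last0.of_map k hk hs1
  have hS' : (runU a s S hs).pull some = (runU a s S0 hs0).map (UT.map k) := by
    rw [← runU_map a k s S0 hs0, ← runU_pull a some s S hs]
    exact runU_congr hS _ _
  have key : InjFin a th Q0 w Ls ((scU (a s.op - 1 + 1) B).comp (k.comp lam0)) (runU a s S hs) := by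
    refine InjFin.of_map hL Ls (dg (0 : Fin (a s.op - 1 + 1))) _
      (fun c x => scU_comm _ (hlam c) x) _ ?_ ?_
    · intro ht
      have h1 := LocFin.runU hL s Ls lam0 hlam0 S0 hs0 H0
      have ecomp : (UT.map (n := a s.op - 1 + 1) k).comp ((scU (a s.op - 1 + 1) B0).comp lam0) =
          (scU (a s.op - 1 + 1) B).comp (k.comp lam0) := by
        refine RingHom.ext fun c => Subtype.ext ?_
        exact scalar_map k (lam0 c)
      have h2 := tuple_pull (fun c x => sc_comm a Ls _
        (fun y => scU_comm _ (hlam c) y) x) ht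
      have h3 : IsTuple a th Q0 ((sc a Ls).comp ((scU (a s.op - 1 + 1) B0).comp lam0))
          (fin a Ls (runU a s S0 hs0)).W := by
        refine fin_tuple_of_injective Ls (UT.map k) (UT.map_injective k hk) _ _ ?_
        rw [ecomp, ← hS', fin_pull]
        exact h2
      have h4 := fin_loc_map Ls (UT.map (n := a s.op - 1 + 1) k) _ _ (h1 h3)
      rw [ecomp, ← hS'] at h4
      exact h4
    · rw [runU_dg]
      have e : (dg (0 : Fin (a s.op - 1 + 1))).comp
          ((scU (a s.op - 1 + 1) B).comp (k.comp lam0)) = k.comp lam0 := by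
        ext c
        show (Matrix.scalar (Fin (a s.op - 1 + 1)) (k (lam0 c))) 0 0 = _
        simp
      rw [e]
      have e2 : tws s.op ((0 : Fin (a s.op - 1 + 1)) : ℕ) S = S := tws_zero _ _
      rw [e2]
      exact HK
  exact InjFin.of_inj Ls (UT (a s.op - 1 + 1) B).subtype Subtype.val_injective _ _ key

/-- all steps of one operator -/
theorem InjFin.tri (hL : LocHyp T Q0 w) (k : B0 →+* B) (hk : Function.Injective k)
    (lam0 : F →+* B0) (hlam0 : ∀ c x, Commute (lam0 c) x)
    (hlam : ∀ c x, Commute (k (lam0 c)) x) (l : I) (Ls2 : List (Stp I ι))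
    (S0 : St I ι σ B0) (S : St I ι (Option σ) B) (hS : S.pull some = S0.map k)
    (H0 : ∀ p : ℕ, LocFin a th Q0 w Ls2 lam0 (tws l p S0))
    (HK : InjFin a th Q0 w Ls2 (k.comp lam0) S) :
    ∀ (Ls1 : List (Stp I ι)) (_ : ∀ s ∈ Ls1, s.op = l ∧ s.good) (_ : ∀ s ∈ Ls1, Last0 a s S),
    InjFin a th Q0 w (Ls1 ++ Ls2) (k.comp lam0) S := by
  intro Ls1
  induction Ls1 with
  | nil => intro _ _; exact HK
  | cons s Ls1 ih =>
    intro hop hlast
    have ih' := ih (fun s' h' => hop s' (List.mem_cons_of_mem _ h'))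
      (fun s' h' => hlast s' (List.mem_cons_of_mem _ h'))
    refine InjFin.cons hL k hk lam0 hlam0 hlam s (Ls1 ++ Ls2) S0 S hS
      (hlast s List.mem_cons_self) (fun p => ?_) ih'
    rw [(hop s List.mem_cons_self).1]
    refine LocFin.tri hL l Ls2 lam0 hlam0 Ls1
      (fun s' h' => hop s' (List.mem_cons_of_mem _ h')) (tws l p S0) ?_ ?_
    · intro s' h'
      have h1 := hop s' (List.mem_cons_of_mem _ h')
      have h2 : Last0 a s' S0 := by
        refine Last0.of_map k hk ?_
        rw [← hS]
        exact (hlast s' (List.mem_cons_of_mem _ h')).pull a some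
      have := h2.tws a h1.2 p
      rwa [h1.1] at this
    · intro q
      rw [tws_tws]
      exact H0 _

end Kpart

end

end Crest.Agent.R181.PO
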