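import Mathlib

/-!
R181 (helper598): functoriality of Laurent series over noncommutative rings.
-/

set_option autoImplicit false

namespace Crest.Agent.R181.PO

noncomputable section

variable {R S S' : Type*} [Ring R] [Ring S] [Ring S']

/-- change of coefficients for Laurent series -/
def lsMap (f : R →+* S) : LaurentSeries R →+* LaurentSeries S where
  toFun x := HahnSeries.map x f
  map_one' := by
    ext n
    rw [HahnSeries.map_coeff, HahnSeries.coeff_one, HahnSeries.coeff_one]
    split_ifs <;> simp
  map_zero' := by
    ext n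
    simp
  map_add' x y := by
    ext n
    simp
  map_mul' x y := HahnSeries.map_mul (f : R →ₙ+* S)

@[simp] theorem lsMap_coeff (f : R →+* S) (x : LaurentSeries R) (n : ℤ) :
    (lsMap f x).coeff n = f (x.coeff n) := rfl

@[simp] theorem lsMap_C (f : R →+* S) (r : R) : lsMap f (HahnSeries.C r) = HahnSeries.C (f r) := by
  ext n
  rw [lsMap_coeff, HahnSeries.C_apply, HahnSeries.C_apply, HahnSeries.coeff_single,
    HahnSeries.coeff_single]
  split_ifs <;> simp

@[simp] theorem lsMap_single (f : R →+* S) (m : ℤ) (r : R) :
    lsMap f (HahnSeries.single m r) = HahnSeries.single m (f r) := by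
  ext n
  rw [lsMap_coeff, HahnSeries.coeff_single, HahnSeries.coeff_single]
  split_ifs <;> simp

theorem lsMap_ofPowerSeries (f : R →+* S) (p : PowerSeries R) :
    lsMap f (HahnSeries.ofPowerSeries ℤ R p) =
      HahnSeries.ofPowerSeries ℤ S (PowerSeries.map f p) := by
  ext n
  rw [lsMap_coeff]
  erw [PowerSeries.coeff_coe, PowerSeries.coeff_coe]
  split_ifs
  · simp
  · simp

theorem lsMap_injective (f : R →+* S) (hf : Function.Injective f) :
    Function.Injective (lsMap f) := by
  intro x y h
  ext n
  apply hf
  rw [← lsMap_coeff, h, lsMap_coeff]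

theorem C_comm {c : R} (hc : ∀ x, Commute c x) (y : LaurentSeries R) :
    Commute (HahnSeries.C c : LaurentSeries R) y := by
  ext n
  rw [HahnSeries.C_apply]
  have h1 := HahnSeries.coeff_single_zero_mul (Γ := ℤ) (r := c) (x := y) (a := n)
  have h2 := HahnSeries.coeff_mul_single_zero (Γ := ℤ) (r := c) (x := y) (a := n)
  rw [h1, h2]
  exact hc _

theorem single_comm (m : ℤ) (y : LaurentSeries R) :
    Commute (HahnSeries.single m 1 : LaurentSeries R) y := by
  ext n
  have h1 := HahnSeries.coeff_single_mul_add (Γ := ℤ) (r := (1 : R)) (x := y) (a := n - m) (b := m)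
  have h2 := HahnSeries.coeff_mul_single_add (Γ := ℤ) (r := (1 : R)) (x := y) (a := n - m) (b := m)
  rw [sub_add_cancel] at h1 h2
  rw [h1, h2, one_mul, mul_one]

end

end Crest.Agent.R181.PO
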