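import Crest.Agent.R181.LOC773

/-!
# R181, block B9, (RF2): the local ring `O` inside the rational functions `E = D(t)` at `t = z`

Given `L : E → D((u))`, `t ↦ z + u`, the ring `O := L⁻¹(D[[u]])` with its evaluation `O → D`
reflecting invertibility of matrices.
-/

set_option autoImplicit false

namespace Crest.Agent.R181.RF2

open Crest.Agent.R181.LOC

theorem ofPS_injective (D : Type) [DivisionRing D] :
    Function.Injective (HahnSeries.ofPowerSeries ℤ D) := HahnSeries.ofPowerSeries_injective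

theorem exists_local (D E : Type) [DivisionRing D] [DivisionRing E] (j : D →+* E) (t : E)
    (ht : ∀ x, Commute t x) (z : D) (L : E →+* LaurentSeries D)
    (hLj : ∀ d, L (j d) = HahnSeries.C d)
    (hLt : L t = HahnSeries.C z + HahnSeries.single 1 1) :
    ∃ (O : Type) (_ : Ring O) (iO : D →+* O) (tO : O) (k : O →+* E) (ev : O →+* D)
      (kS : O →+* PowerSeries D), Function.Injective k ∧ (∀ d, k (iO d) = j d) ∧ k tO = t ∧
      (∀ x, Commute tO x) ∧ (∀ d, ev (iO d) = d) ∧ ev tO = z ∧
      (∀ x, L (k x) = HahnSeries.ofPowerSeries ℤ D (kS x)) ∧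
      (∀ x, PowerSeries.constantCoeff (kS x) = ev x) ∧ Function.Surjective ev ∧ LU ev := by
  classical
  let P : Subring (LaurentSeries D) := (HahnSeries.ofPowerSeries ℤ D).range
  let O : Subring E := P.comap L
  have hjO : ∀ d, j d ∈ O := fun d => by
    show L (j d) ∈ P
    rw [hLj]
    exact ⟨PowerSeries.C d, HahnSeries.ofPowerSeries_C d⟩
  have htO : t ∈ O := by
    show L t ∈ P
    rw [hLt]
    refine ⟨PowerSeries.C z + PowerSeries.X, ?_⟩
    rw [map_add, HahnSeries.ofPowerSeries_C, HahnSeries.ofPowerSeries_X]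
  let e : PowerSeries D ≃+* P := RingEquiv.ofBijective (HahnSeries.ofPowerSeries ℤ D).rangeRestrict
    ⟨fun x y h => ofPS_injective D (congrArg Subtype.val h),
      (HahnSeries.ofPowerSeries ℤ D).rangeRestrict_surjective⟩
  have he : ∀ s, ((e s : P) : LaurentSeries D) = HahnSeries.ofPowerSeries ℤ D s := fun s => rfl
  let LO : O →+* P := L.restrict O P (fun x hx => hx)
  have hLO : ∀ x : O, ((LO x : P) : LaurentSeries D) = L x := fun x => rfl
  let kS : O →+* PowerSeries D := (e.symm : P →+* PowerSeries D).comp LO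
  have hkS : ∀ x : O, L (x : E) = HahnSeries.ofPowerSeries ℤ D (kS x) := by
    intro x
    rw [← he, ← hLO]
    congr 1
    exact (e.apply_symm_apply (LO x)).symm
  let ev : O →+* D := (PowerSeries.constantCoeff (R := D)).comp kS
  have hkSj : ∀ d, kS ⟨j d, hjO d⟩ = PowerSeries.C d := by
    intro d
    apply ofPS_injective D
    rw [← hkS, HahnSeries.ofPowerSeries_C]
    exact hLj d
  have hkSt : kS ⟨t, htO⟩ = PowerSeries.C z + PowerSeries.X := by
    apply ofPS_injective D
    rw [← hkS, map_add, HahnSeries.ofPowerSeries_C, HahnSeries.ofPowerSeries_X]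
    exact hLt
  have hevj : ∀ d, ev ⟨j d, hjO d⟩ = d := by
    intro d
    show PowerSeries.constantCoeff (kS ⟨j d, hjO d⟩) = d
    rw [hkSj]; simp
  have hsurj : Function.Surjective ev := fun d => ⟨_, hevj d⟩
  refine ⟨O, inferInstance, j.codRestrict O hjO, ⟨t, htO⟩, O.subtype, ev, kS,
    Subtype.val_injective, fun _ => rfl, rfl, fun x => Subtype.ext (ht x), hevj, ?_, hkS,
    fun _ => rfl, hsurj, ?_⟩
  · show PowerSeries.constantCoeff (kS ⟨t, htO⟩) = z
    rw [hkSt]; simp
  · refine LU.of_rad hsurj fun x hx => ?_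
    have hx1 : PowerSeries.constantCoeff (kS x) = ((1 : Dˣ) : D) := hx
    have h2 := PowerSeries.mul_invOfUnit (kS x) (1 : Dˣ) hx1
    have h3 := PowerSeries.invOfUnit_mul (kS x) (1 : Dˣ) hx1
    have hne : (x : E) ≠ 0 := by
      intro h
      have h4 : x = 0 := Subtype.ext h
      rw [h4, map_zero] at hx
      exact zero_ne_one hx
    have hL : L ((x : E)⁻¹) = HahnSeries.ofPowerSeries ℤ D (PowerSeries.invOfUnit (kS x) 1) := by
      have h5 : L ((x : E)⁻¹) * L (x : E) = 1 := by
        rw [← map_mul, inv_mul_cancel₀ hne, map_one]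
      calc L ((x : E)⁻¹) = L ((x : E)⁻¹) * (HahnSeries.ofPowerSeries ℤ D (kS x) *
            HahnSeries.ofPowerSeries ℤ D (PowerSeries.invOfUnit (kS x) 1)) := by
            rw [← map_mul, h2, map_one, mul_one]
        _ = _ := by rw [← mul_assoc, ← hkS, h5, one_mul]
    have hinv : (x : E)⁻¹ ∈ O := ⟨_, hL.symm⟩
    exact ⟨⟨x, ⟨(x : E)⁻¹, hinv⟩, Subtype.ext (mul_inv_cancel₀ hne),
      Subtype.ext (inv_mul_cancel₀ hne)⟩, rfl⟩

end Crest.Agent.R181.RF2
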