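import Crest.Agent.R181.LC598e
import Crest.Agent.R181.LS598
import Crest.Agent.R181.RF681a
import Crest.Agent.R181.RF963a

/-!
R181 (helper598), block B9: the tower of skew fields `E_l = E_{l-1}(τ_l)` and the induction over
the operators.
-/

set_option autoImplicit false
set_option linter.unusedSectionVars false

namespace Crest.Agent.R181.PO

open UR LOC

noncomputable section

section Tower

variable {F D I σ ι : Type} [Field F] [DivisionRing D] [Algebra F D] [Fintype I] [Fintype σ]
  [DecidableEq I] {a : I → ℕ} {th : I → I → F} {ω : I → F} {T : TwD a th ω}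
  {Q0 : I → MvPolynomial σ F} {w : I → σ → D}

theorem HasTw.central {R : Type} [Ring R] {lam : F →+* R} {tl : I → R} {lam' : F →+* R}
    (h : HasTw T lam tl lam')
    (hlam : ∀ c x, Commute (lam c) x) (htl : ∀ l x, Commute (tl l) x) :
    ∀ c x, Commute (lam' c) x := by
  obtain ⟨c, h1, h2, h3⟩ := h
  obtain ⟨c', h1', h2', h3'⟩ := exists_central_eval lam hlam tl htl
  have e : c = c' := by
    apply MvPolynomial.ringHom_ext
    · intro x; rw [h1, h1']
    · intro l; rw [h2, h2']
  intro y x
  obtain ⟨p, q, hq, rfl⟩ := IsFractionRing.div_surjective (A := T.Lam) y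
  have hq0 : algebraMap T.Lam F q ≠ 0 := by
    rw [Ne, IsFractionRing.to_map_eq_zero_iff]
    exact nonZeroDivisors.ne_zero hq
  have hp : Commute (lam' (algebraMap T.Lam F p)) x := by rw [h3, e]; exact h3' _ _
  have hq' : Commute (lam' (algebraMap T.Lam F q)) x := by rw [h3, e]; exact h3' _ _
  rw [div_eq_mul_inv, map_mul]
  refine hp.mul_left ?_
  let u : Rˣ := Units.map (lam' : F →* R) (Units.mk0 _ hq0)
  have h4 : Commute (u : R) x := hq'
  exact h4.units_inv_left

theorem bst_map {ν S R R' : Type} [Ring S] [Ring R] [Ring R'] (cF : F →+* S)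
    (v : ι → ν → F) (wS : I → ν → S) (j : S →+* R) (tl : I → R) (W : I → ν → R) (k : R →+* R') :
    (bst ω th cF v wS j tl W).map k =
      bst ω th cF v wS (k.comp j) (fun i => k (tl i)) (fun i u => k (W i u)) := rfl

theorem bst_congr {ν S R : Type} [Ring S] [Ring R] {cF : F →+* S}
    {v : ι → ν → F} {wS : I → ν → S} {j j' : S →+* R} {tl tl' : I → R} {W W' : I → ν → R}
    (hj : ∀ x, j x = j' x) (htl : ∀ i, tl i = tl' i) (hW : ∀ i u, W i u = W' i u) :
    bst ω th cF v wS j tl W = bst ω th cF v wS j' tl' W' := by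
  have e1 : j = j' := RingHom.ext hj
  have e2 : tl = tl' := funext htl
  have e3 : W = W' := funext fun i => funext fun u => hW i u
  rw [e1, e2, e3]

/-- the state of the cone ring -/
def SK (T : TwD a th ω) (Q0 : I → MvPolynomial σ F) (w : I → σ → D) (v1 : ι → Option σ → F)
    {R : Type} [Ring R] (jK : KK a th Q0 w →+* R) (tl : I → R) : St I ι (Option σ) R :=
  bst ω th (iL a th (QK Q0) w) v1 (wU a th (QK Q0) w) jK tl
    (fun i u => jK (wU a th (QK Q0) w i u))

theorem SK_pull (v1 : ι → Option σ → F) {R : Type} [Ring R] (jK : KK a th Q0 w →+* R)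
    (tl : I → R) : (SK T Q0 w v1 jK tl).pull some =
      bst ω th (algebraMap F D) (fun k u => v1 k (some u)) w (jK.comp (iD a th (QK Q0) w)) tl
        (fun i u => jK (iD a th (QK Q0) w (w i u))) := by
  have h : ∀ c : F, jK (iL a th (QK Q0) w c) =
      jK (iD a th (QK Q0) w (algebraMap F D c)) := by
    intro c
    rw [iD_base]
    rfl
  refine St.ext ?_ ?_ ?_ ?_ ?_ ?_
  · funext i; exact h _
  · funext i l; exact h _
  · rfl
  · funext i u; exact h _
  · rfl
  · rfl

theorem SK_map (v1 : ι → Option σ → F) {R R' : Type} [Ring R] [Ring R']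
    (jK : KK a th Q0 w →+* R)
    (tl : I → R) (k : R →+* R') :
    (SK T Q0 w v1 jK tl).map k = SK T Q0 w v1 (k.comp jK) (fun i => k (tl i)) := rfl

/-- the twisting elements -/
def tlv {E : Type} [Ring E] (ω : I → F) (j : D →+* E) (τ : I → E) (ops : List I)
    (e : I → ℕ) (l : I) : E :=
  if l ∈ ops then τ l else j (algebraMap F D ((ω l ^ e l)⁻¹))

/-- the current point -/
def Wv {E : Type} [Ring E] (ω : I → F) (w : I → σ → D) (j : D →+* E) (ops : List I)
    (e : I → ℕ) (l : I) (u : σ) : E :=
  if l ∈ ops then j (w l u) else j (algebraMap F D (ω l ^ e l) * w l u)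

/-- the state over `E` -/
def Sst (T : TwD a th ω) (w : I → σ → D) (v1 : ι → Option σ → F) {E : Type} [Ring E]
    (j : D →+* E) (τ : I → E) (ops : List I) (e : I → ℕ) : St I ι σ E :=
  bst ω th (algebraMap F D) (fun k u => v1 k (some u)) w j (tlv ω j τ ops e) (Wv ω w j ops e)

/-- the induction package: `ops` = the operators which are not yet specialised -/
structure Pk (T : TwD a th ω) (Q0 : I → MvPolynomial σ F) (w : I → σ → D)
    (v1 : ι → Option σ → F) (Ls : List (Stp I ι)) (ops : List I) where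
  E : Type
  [dE : DivisionRing E]
  𝓛 : Type
  [r𝓛 : Ring 𝓛]
  j : D →+* E
  jK : KK a th Q0 w →+* 𝓛
  h : E →+* 𝓛
  τ : I → E
  hτ : ∀ l x, Commute (τ l) x
  hF : ∀ c x, Commute (j (algebraMap F D c)) x
  hτ' : ∀ l x, Commute (h (τ l)) x
  hF' : ∀ c x, Commute (jK (iL a th (QK Q0) w c)) x
  hh : ∀ d, h (j d) = jK (iD a th (QK Q0) w d)
  hinj : Function.Injective h
  ex : ∀ e : I → ℕ, ∃ lam1 : F →+* E,
    HasTw T (j.comp (algebraMap F D)) (tlv ω j τ ops e) lam1
  loc : ∀ (e : I → ℕ) (lam1 : F →+* E),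
    HasTw T (j.comp (algebraMap F D)) (tlv ω j τ ops e) lam1 →
    LocFin a th Q0 w Ls lam1 (Sst T w v1 j τ ops e)
  inj : ∀ lam1 : F →+* E,
    HasTw T (j.comp (algebraMap F D)) (tlv ω j τ ops (fun _ => 0)) lam1 →
    InjFin a th Q0 w Ls (h.comp lam1)
      (SK T Q0 w v1 jK (fun i => h (tlv ω j τ ops (fun _ => 0) i)))

attribute [instance] Pk.dE Pk.r𝓛

theorem Pk.base (hL : LocHyp T Q0 w) (v1 : ι → Option σ → F) [Nontrivial (KK a th Q0 w)] :
    Nonempty (Pk T Q0 w v1 ([] : List (Stp I ι)) []) := by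
  have htl : ∀ e : I → ℕ, tlv ω (RingHom.id D) (fun _ => (1 : D)) [] e =
      fun l => algebraMap F D ((ω l ^ e l)⁻¹) := by
    intro e
    funext l
    simp [tlv]
  refine ⟨{
    E := D
    𝓛 := KK a th Q0 w
    j := RingHom.id D
    jK := RingHom.id _
    h := iD a th (QK Q0) w
    τ := fun _ => 1
    hτ := fun _ x => Commute.one_left x
    hF := fun c x => Algebra.commutes c x
    hτ' := fun _ x => by rw [map_one]; exact Commute.one_left x
    hF' := fun c x => iL_comm _ _ _ _ c x
    hh := fun d => rfl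
    hinj := RingHom.injective _
    ex := ?_
    loc := ?_
    inj := ?_ }⟩
  · intro e
    obtain ⟨α, hα⟩ := T.auto e
    refine ⟨(algebraMap F D).comp (α : F →+* F), ?_⟩
    rw [htl e]
    exact HasTw.base e α hα
  · intro e lam1 h1 _
    obtain ⟨α, hα⟩ := T.auto e
    rw [htl e] at h1
    have e1 : lam1 = (algebraMap F D).comp (α : F →+* F) := h1.unique (HasTw.base e α hα)
    have h2 := hL.tw e α hα
    rw [← e1] at h2
    have e2 : (Sst T w v1 (RingHom.id D) (fun _ => (1 : D)) [] e : St I ι σ D).W =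
        fun i v => algebraMap F D (ω i ^ e i) * w i v := by
      funext i v
      show Wv ω w (RingHom.id D) [] e i v = _
      simp [Wv]
    show IsLoc w lam1 (Sst T w v1 (RingHom.id D) (fun _ => (1 : D)) [] e : St I ι σ D).W
    rw [e2]
    exact h2
  · intro lam1 h1 _
    rw [htl] at h1
    have h2 : HasTw T (algebraMap F D) (fun l => algebraMap F D ((ω l ^ (0 : ℕ))⁻¹))
        (algebraMap F D) := by
      refine ⟨(algebraMap F D).comp (MvPolynomial.eval (fun _ => 1)), ?_, ?_, ?_⟩
      · intro x; simp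
      · intro l; simp
      · intro x
        rw [RingHom.comp_apply, MvPolynomial.eval_map]
        congr 1
        have h3 : MvPolynomial.eval₂ (algebraMap T.Lam F) (fun _ : I => (1 : F)) (T.Δ x) =
            algebraMap T.Lam F (MvPolynomial.eval (fun _ => 1) (T.Δ x)) := by
          rw [MvPolynomial.eval, MvPolynomial.coe_eval₂Hom, MvPolynomial.hom_eval₂]
          simp
        rw [h3, T.counit]
    have e1 : lam1 = algebraMap F D := h1.unique h2
    refine ⟨RingHom.id _, Function.injective_id, ?_, ?_⟩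
    · intro c
      show iL a th (QK Q0) w c = iD a th (QK Q0) w (lam1 c)
      rw [e1, iD_base]
      rfl
    · intro i u
      rfl

end Tower

end

end Crest.Agent.R181.PO
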