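import Crest.Agent.R181.LC598f

/-!
R181 (helper598), block B9: the induction step of the tower.
-/

set_option autoImplicit false
set_option linter.unusedSectionVars false
set_option linter.unusedVariables false

namespace Crest.Agent.R181.PO

open UR LOC

noncomputable section

section Step

variable {F D I σ ι : Type} [Field F] [DivisionRing D] [Algebra F D] [Fintype I] [Fintype σ]
  [DecidableEq I] {a : I → ℕ} {th : I → I → F} {ω : I → F} {T : TwD a th ω}
  {Q0 : I → MvPolynomial σ F} {w : I → σ → D} {v1 : ι → Option σ → F}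
  {Ls : List (Stp I ι)} {ops : List I}

theorem LocFin.of_inj {B C : Type} [Ring B] [Ring C] (Ls : List (Stp I ι)) (k : B →+* C)
    (hk : Function.Injective k)
    (lam : F →+* B) (S : St I ι σ B) (h : LocFin a th Q0 w Ls lam S) :
    LocFin a th Q0 w Ls (k.comp lam) (S.map k) := by
  intro ht
  exact fin_loc_map Ls k lam S (h (fin_tuple_of_injective Ls k hk lam S ht))

/-- the elements `tl` over the local ring -/
def tlO {E O : Type} [Ring E] [Ring O] (l : I) (iO : E →+* O) (tO : O) (tl : I → E) (m : I) : O :=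
  if m = l then tO else iO (tl m)

theorem Pk.key (hL : LocHyp T Q0 w) (P : Pk T Q0 w v1 Ls ops) (l : I) (hl : l ∉ ops)
    {E : Type} [DivisionRing E] (i : P.E →+* E) (t : E) (ht : ∀ x, Commute t x)
    (hic : ∀ c, (∀ x, Commute c x) → ∀ x, Commute (i c) x)
    (hLz : ∀ z : P.E, (∀ x, Commute z x) → ∃ L : E →+* LaurentSeries P.E,
      (∀ d, L (i d) = HahnSeries.C d) ∧ L t = HahnSeries.C z + HahnSeries.single 1 1)
    (e : I → ℕ) :
    ∃ (O : Type) (_ : Ring O) (iO : P.E →+* O) (tO : O) (kk : O →+* E)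
      (kS : O →+* PowerSeries P.E) (L : E →+* LaurentSeries P.E) (lamO : F →+* O),
      Function.Injective kk ∧ (∀ x, kk (iO x) = i x) ∧ kk tO = t ∧
      (∀ x, L (i x) = HahnSeries.C x) ∧
      L t = HahnSeries.C (P.j (algebraMap F D ((ω l ^ e l)⁻¹))) + HahnSeries.single 1 1 ∧
      (∀ x, L (kk x) = HahnSeries.ofPowerSeries ℤ P.E (kS x)) ∧
      (∀ c x, Commute (lamO c) x) ∧
      HasTw T ((iO.comp P.j).comp (algebraMap F D)) (tlO l iO tO (tlv ω P.j P.τ ops e)) lamO ∧
      LocFin a th Q0 w Ls lamO (bst ω th (algebraMap F D) (fun k u => v1 k (some u)) w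
        (iO.comp P.j) (tlO l iO tO (tlv ω P.j P.τ ops e))
        (fun m u => iO (Wv ω w P.j ops e m u))) := by
  have hz : ∀ x, Commute (P.j (algebraMap F D ((ω l ^ e l)⁻¹))) x := fun x => P.hF _ x
  obtain ⟨L, hL1, hL2⟩ := hLz _ hz
  obtain ⟨O, rO, iO, tO, kk, ev, kS, h1, h2, h3, h4, h5, h6, h7, h8, h9, h10⟩ :=
    RF2.exists_local P.E E i t ht _ L hL1 hL2
  have hiO : ∀ c, (∀ x, Commute c x) → ∀ x, Commute (iO c) x := by
    intro c hc x
    apply h1
    rw [map_mul, map_mul, h2]
    exact hic c hc _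
  have htl : ∀ m x, Commute (tlv ω P.j P.τ ops e m) x := by
    intro m x
    rw [tlv]
    split_ifs
    · exact P.hτ m x
    · exact P.hF _ x
  have htlO : ∀ m x, Commute (tlO l iO tO (tlv ω P.j P.τ ops e) m) x := by
    intro m x
    rw [tlO]
    split_ifs
    · exact h4 x
    · exact hiO _ (htl m) x
  have hev : ∀ m, ev (tlO l iO tO (tlv ω P.j P.τ ops e) m) = tlv ω P.j P.τ ops e m := by
    intro m
    rw [tlO]
    split_ifs with hm
    · rw [h6, hm, tlv, if_neg hl]
    · rw [h5]
  obtain ⟨lam2, hlam2⟩ := P.ex e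
  have hcomp : ev.comp ((iO.comp P.j).comp (algebraMap F D)) = P.j.comp (algebraMap F D) := by
    ext c
    exact h5 _
  obtain ⟨lamO, hO1, hO2, hO3⟩ := HasTw.lift (T := T) h10
    (lam := (iO.comp P.j).comp (algebraMap F D)) (fun c x => hiO _ (fun y => P.hF c y) x)
    (tl := tlO l iO tO (tlv ω P.j P.τ ops e)) htlO (lam2 := lam2) (by
      rw [hcomp]
      have : (fun l_1 => ev (tlO l iO tO (tlv ω P.j P.τ ops e) l_1)) = tlv ω P.j P.τ ops e :=
        funext hev
      rw [this]
      exact hlam2)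
  refine ⟨O, rO, iO, tO, kk, kS, L, lamO, h1, h2, h3, hL1, hL2, h7, hO2, hO1, ?_⟩
  refine LocFin.of_LU hL Ls ev h9 h10 lamO hO2 _ ?_
  rw [hO3, bst_map]
  have e3 := P.loc e lam2 hlam2
  have e4 : (bst ω th (algebraMap F D) (fun k u => v1 k (some u)) w (ev.comp (iO.comp P.j))
      (fun i => ev (tlO l iO tO (tlv ω P.j P.τ ops e) i))
      (fun i u => ev (iO (Wv ω w P.j ops e i u))) : St I ι σ P.E) =
      Sst T w v1 P.j P.τ ops e := by
    refine bst_congr ?_ ?_ ?_
    · intro x; exact h5 _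
    · intro m; exact hev m
    · intro m u; exact h5 _
  rw [e4]
  exact e3

theorem Last0_mono {ν B : Type} [Ring B] {S : St I ι ν B} {l : I} {k : ℕ → ι}
    (h : ∀ u, S.vec (k (a l - 1)) u = 0) : Last0 a (Stp.mono l k) S := h

theorem Last0_pair {ν B : Type} [Ring B] {S : St I ι ν B} {l m : I} (ha : 1 ≤ a l)
    (hom : S.om l ^ a l = 1) (h : ∀ u, S.tl m * S.W m u = S.W0 m u) :
    Last0 a (Stp.pair l m : Stp I ι) S := by
  intro u
  show (if a l - 1 = a l - 1 then S.th l m else 1) *
      (S.tl m * S.W m u - S.om l ^ (a l - 1 + 1) * S.W0 m u) = 0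
  rw [Nat.sub_add_cancel ha, hom, h u, one_mul, sub_self, mul_zero]

/-- the state over the big field, the operator `l` finished with exponent `k` -/
theorem key_state {E O : Type} [Ring E] [Ring O] {E' : Type} [Ring E'] (j' : D →+* E')
    (τ' : I → E') (l : I) (hl : l ∉ ops)
    (i : E' →+* E) (t : E) (iO : E' →+* O) (tO : O) (kk : O →+* E)
    (h2 : ∀ x, kk (iO x) = i x) (h3 : kk tO = t) (e : I → ℕ) (k : ℕ) :
    (bst ω th (algebraMap F D) (fun k u => v1 k (some u)) w
        (iO.comp j') (tlO l iO tO (tlv ω j' τ' ops (Function.update e l k)))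
        (fun m u => iO (Wv ω w j' ops (Function.update e l k) m u)) : St I ι σ O).map kk =
      tws l k (Sst T w v1 (i.comp j') (fun m => if m = l then t else i (τ' m)) (l :: ops) e) := by
  rw [bst_map]
  refine St.ext ?_ ?_ ?_ ?_ ?_ ?_
  · funext m; exact h2 _
  · funext m m'; exact h2 _
  · funext m
    show kk (tlO l iO tO (tlv ω j' τ' ops (Function.update e l k)) m) =
      tlv ω (i.comp j') (fun m => if m = l then t else i (τ' m)) (l :: ops) e m
    rw [tlO, tlv, tlv]
    by_cases hm : m = l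
    · rw [if_pos hm, if_pos (by rw [hm]; exact List.mem_cons_self), if_pos hm, h3]
    · rw [if_neg hm, h2, Function.update_of_ne hm]
      by_cases hmo : m ∈ ops
      · rw [if_pos hmo, if_pos (List.mem_cons_of_mem _ hmo), if_neg hm]
      · rw [if_neg hmo, if_neg (by
          intro hc; rcases List.mem_cons.1 hc with h | h
          · exact hm h
          · exact hmo h)]
        rfl
  · funext m m'; exact h2 _
  · funext m m'; exact h2 _
  · funext m u
    show kk (iO (Wv ω w j' ops (Function.update e l k) m u)) =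
      if m = l then (i.comp j') (algebraMap F D (ω l)) ^ k *
        Wv ω w (i.comp j') (l :: ops) e m u else Wv ω w (i.comp j') (l :: ops) e m u
    rw [h2, Wv, Wv]
    by_cases hm : m = l
    · subst hm
      rw [if_neg hl, if_pos rfl, if_pos List.mem_cons_self, Function.update_self, map_mul,
        map_pow, map_mul, map_pow, map_pow]
      rfl
    · rw [if_neg hm, Function.update_of_ne hm]
      by_cases hmo : m ∈ ops
      · rw [if_pos hmo, if_pos (List.mem_cons_of_mem _ hmo)]
        rfl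
      · rw [if_neg hmo, if_neg (by
          intro hc; rcases List.mem_cons.1 hc with h | h
          · exact hm h
          · exact hmo h)]
        rfl

theorem key_tl {E O : Type} [Ring E] [Ring O] {E' : Type} [Ring E'] (j' : D →+* E')
    (τ' : I → E') (l : I)
    (i : E' →+* E) (t : E) (iO : E' →+* O) (tO : O) (kk : O →+* E)
    (h2 : ∀ x, kk (iO x) = i x) (h3 : kk tO = t) (e e' : I → ℕ) (he : ∀ m, m ≠ l → e' m = e m)
    (m : I) :
    kk (tlO l iO tO (tlv ω j' τ' ops e') m) =
      tlv ω (i.comp j') (fun m => if m = l then t else i (τ' m)) (l :: ops) e m := by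
  rw [tlO, tlv, tlv]
  by_cases hm : m = l
  · rw [if_pos hm, if_pos (by rw [hm]; exact List.mem_cons_self), if_pos hm, h3]
  · rw [if_neg hm, h2, he m hm]
    by_cases hmo : m ∈ ops
    · rw [if_pos hmo, if_pos (List.mem_cons_of_mem _ hmo), if_neg hm]
    · rw [if_neg hmo, if_neg (by
        intro hc; rcases List.mem_cons.1 hc with h | h
        · exact hm h
        · exact hmo h)]
      rfl

theorem opSteps_good {ml : I → List (ℕ → ι)} {pl : I → List I} {l : I}
    (hpl : ∀ m ∈ pl l, m ≠ l) : ∀ s ∈ opSteps ml pl l, s.op = l ∧ s.good := by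
  intro s hs
  rcases List.mem_append.1 hs with h | h
  · obtain ⟨k, _, rfl⟩ := List.mem_map.1 h
    exact ⟨rfl, trivial⟩
  · obtain ⟨m, hm, rfl⟩ := List.mem_map.1 h
    exact ⟨rfl, hpl m hm⟩

theorem Sst_last (hω : ∀ l, ω l ^ a l = 1) (ha : ∀ l, 1 ≤ a l) {ml : I → List (ℕ → ι)}
    {pl : I → List I} {l : I} (hpl : ∀ m ∈ pl l, m ∉ l :: ops)
    (hml : ∀ k ∈ ml l, ∀ u, v1 (k (a l - 1)) u = 0) {E : Type} [Ring E] (j : D →+* E)
    (τ : I → E) (e : I → ℕ) :
    ∀ s ∈ opSteps ml pl l, Last0 a s (Sst T w v1 j τ (l :: ops) e : St I ι σ E) := by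
  intro s hs
  have hom : ∀ m : I, (j (algebraMap F D (ω m))) ^ a m = 1 := by
    intro m
    rw [← map_pow, ← map_pow, hω, map_one, map_one]
  have hω0 : ∀ m, ω m ≠ 0 := by
    intro m h
    have := hω m
    rw [h, zero_pow (by have := ha m; omega)] at this
    exact zero_ne_one this
  rcases List.mem_append.1 hs with h | h
  · obtain ⟨k, hk, rfl⟩ := List.mem_map.1 h
    refine Last0_mono fun u => ?_
    show j (algebraMap F D (v1 (k (a l - 1)) (some u))) = 0
    rw [hml k hk, map_zero, map_zero]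
  · obtain ⟨m, hm, rfl⟩ := List.mem_map.1 h
    refine Last0_pair (ha l) (hom l) fun u => ?_
    show tlv ω j τ (l :: ops) e m * Wv ω w j (l :: ops) e m u = j (w m u)
    rw [tlv, Wv, if_neg (hpl m hm), if_neg (hpl m hm), ← map_mul, ← mul_assoc, ← map_mul,
      inv_mul_cancel₀ (pow_ne_zero _ (hω0 m)), map_one, one_mul]

end Step

end

end Crest.Agent.R181.PO
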