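import Crest.Agent.R181.LC598g

/-!
R181 (helper598), block B9: the induction step of the tower, the output `Pkg`.
-/

set_option autoImplicit false
set_option linter.unusedSectionVars false
set_option linter.unusedVariables false

namespace Crest.Agent.R181.PO

open UR LOC

noncomputable section

section Step

variable {F D I σ ι : Type} [Field F] [DivisionRing D] [Algebra F D] [Fintype I] [Fintype σ]
  [DecidableEq I] {a : I → ℕ} {th : I → I → F} {ω : I → F} {T : TwD a th ω}
  {Q0 : I → MvPolynomial σ F} {w : I → σ → D} {v1 : ι → Option σ → F}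
  {ops : List I}

theorem SK_last (hω : ∀ l, ω l ^ a l = 1) (ha : ∀ l, 1 ≤ a l) {ml : I → List (ℕ → ι)}
    {pl : I → List I} {l : I} 
    (hml : ∀ k ∈ ml l, ∀ u, v1 (k (a l - 1)) u = 0) {R : Type} [Ring R] (jK : KK a th Q0 w →+* R)
    (tl : I → R) (htl : ∀ m ∈ pl l, tl m = 1) :
    ∀ s ∈ opSteps ml pl l, Last0 a s (SK T Q0 w v1 jK tl) := by
  intro s hs
  have hom : ∀ m : I, (jK (iL a th (QK Q0) w (ω m))) ^ a m = 1 := by
    intro m
    rw [← map_pow, ← map_pow, hω, map_one, map_one]
  rcases List.mem_append.1 hs with h | h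
  · obtain ⟨k, hk, rfl⟩ := List.mem_map.1 h
    refine Last0_mono fun u => ?_
    show jK (iL a th (QK Q0) w (v1 (k (a l - 1)) u)) = 0
    rw [hml k hk, map_zero, map_zero]
  · obtain ⟨m, hm, rfl⟩ := List.mem_map.1 h
    refine Last0_pair (ha l) (hom l) fun u => ?_
    show tl m * jK (wU a th (QK Q0) w m u) = jK (wU a th (QK Q0) w m u)
    rw [htl m hm, one_mul]

theorem Pk.step (hL : LocHyp T Q0 w) (hω : ∀ l, ω l ^ a l = 1) (ha : ∀ l, 1 ≤ a l)
    (ml : I → List (ℕ → ι)) (pl : I → List I) (l : I) (hl : l ∉ ops)
    (hpl : ∀ m ∈ pl l, m ∉ l :: ops)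
    (hml : ∀ k ∈ ml l, ∀ u, v1 (k (a l - 1)) u = 0)
    (P : Pk T Q0 w v1 (allSteps ml pl ops) ops) :
    Nonempty (Pk T Q0 w v1 (allSteps ml pl (l :: ops)) (l :: ops)) := by
  obtain ⟨E, dE, i, t, ht, hLz⟩ := RF.exists_ratfun P.E
  have hic : ∀ c : P.E, (∀ x, Commute c x) → ∀ x, Commute (i c) x := by
    obtain ⟨L, h1, h2⟩ := hLz 1 (Commute.one_left)
    intro c hc x
    apply L.injective
    rw [map_mul, map_mul, h1]
    exact C_comm hc _
  have key := fun e => P.key hL l hl i t ht hic hLz e
  obtain ⟨O, rO, iO, tO, kk, kS, L, lamO, k1, k2, k3, k4, k5, k6, k7, k8, k9⟩ :=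
    key (fun _ => 0)
  have : Nontrivial P.𝓛 := P.hinj.nontrivial
  let τ : I → E := fun m => if m = l then t else i (P.τ m)
  let h : E →+* LaurentSeries P.𝓛 := (lsMap P.h).comp L
  let jK : KK a th Q0 w →+* LaurentSeries P.𝓛 := HahnSeries.C.comp P.jK
  have hi : ∀ x, h (i x) = HahnSeries.C (P.h x) := by
    intro x
    show lsMap P.h (L (i x)) = _
    rw [k4, lsMap_C]
  have hhj : ∀ d, h (i (P.j d)) = jK (iD a th (QK Q0) w d) := by
    intro d
    rw [hi, P.hh]
    rfl
  have hFc : ∀ (c : F) x, Commute (P.h (P.j (algebraMap F D c))) x := by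
    intro c x
    rw [P.hh, iD_base]
    exact P.hF' _ x
  have ht' : h t = HahnSeries.C (P.h (P.j (algebraMap F D ((ω l ^ (0 : ℕ))⁻¹)))) +
      HahnSeries.single 1 1 := by
    show lsMap P.h (L t) = _
    rw [k5, map_add, lsMap_C, lsMap_single, map_one]
  have hτ : ∀ m x, Commute (τ m) x := by
    intro m x
    show Commute (if m = l then t else i (P.τ m)) x
    split_ifs
    · exact ht x
    · exact hic _ (P.hτ m) x
  have hF : ∀ (c : F) x, Commute ((i.comp P.j) (algebraMap F D c)) x :=
    fun c x => hic _ (fun y => P.hF c y) x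
  have hτ' : ∀ m x, Commute (h (τ m)) x := by
    intro m x
    show Commute (h (if m = l then t else i (P.τ m))) x
    split_ifs
    · rw [ht']
      exact (C_comm (fun y => hFc _ y) x).add_left (single_comm 1 x)
    · rw [hi]
      exact C_comm (fun y => P.hτ' m y) x
  have hF' : ∀ (c : F) x, Commute (jK (iL a th (QK Q0) w c)) x :=
    fun c x => C_comm (fun y => P.hF' c y) x
  have hinj : Function.Injective h := RingHom.injective _
  -- the twisting elements
  have etl : ∀ (e e' : I → ℕ) (_ : ∀ m, m ≠ l → e' m = e m) (O' : Type) [Ring O']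
      (iO' : P.E →+* O') (tO' : O') (kk' : O' →+* E) (_ : ∀ x, kk' (iO' x) = i x)
      (_ : kk' tO' = t), (fun m => kk' (tlO l iO' tO' (tlv ω P.j P.τ ops e') m)) =
        tlv ω (i.comp P.j) τ (l :: ops) e := by
    intro e e' he O' _ iO' tO' kk' h2 h3
    funext m
    exact key_tl P.j P.τ l i t iO' tO' kk' h2 h3 e e' he m
  have ecomp : ∀ (O' : Type) [Ring O']
      (iO' : P.E →+* O') (kk' : O' →+* E) (_ : ∀ x, kk' (iO' x) = i x),
      kk'.comp ((iO'.comp P.j).comp (algebraMap F D)) =
        (i.comp P.j).comp (algebraMap F D) := by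
    intro O' _ iO' kk' h2
    ext c
    exact h2 _
  have tail : ∀ (e : I → ℕ) (lam1 : F →+* E),
      HasTw T ((i.comp P.j).comp (algebraMap F D)) (tlv ω (i.comp P.j) τ (l :: ops) e) lam1 →
      ∀ k : ℕ, LocFin a th Q0 w (allSteps ml pl ops) lam1
        (tws l k (Sst T w v1 (i.comp P.j) τ (l :: ops) e)) := by
    intro e lam1 hlam1 k
    obtain ⟨O', rO', iO', tO', kk', kS', L', lamO', k1', k2', k3', k4', k5', k6', k7', k8', k9'⟩ :=
      key (Function.update e l k)
    have h1 := LocFin.of_inj (allSteps ml pl ops) kk' k1' lamO' _ k9'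
    have h2 : kk'.comp lamO' = lam1 := by
      have h3 := k8'.map kk'
      rw [ecomp O' iO' kk' k2', etl e (Function.update e l k)
        (fun m hm => Function.update_of_ne hm _ _) O' iO' tO' kk' k2' k3'] at h3
      exact h3.unique hlam1
    rw [h2, key_state P.j P.τ l hl i t iO' tO' kk' k2' k3' e k] at h1
    exact h1
  have hgood : ∀ s ∈ opSteps ml pl l, s.op = l ∧ s.good :=
    opSteps_good (fun m hm e => hpl m hm (by rw [e]; exact List.mem_cons_self))
  have hcen : ∀ (e : I → ℕ) (lam1 : F →+* E),
      HasTw T ((i.comp P.j).comp (algebraMap F D)) (tlv ω (i.comp P.j) τ (l :: ops) e) lam1 →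
      ∀ c x, Commute (lam1 c) x := by
    intro e lam1 h1
    refine h1.central (fun c x => hF c x) ?_
    intro m x
    rw [tlv]
    split_ifs
    · exact hτ m x
    · exact hF _ x
  have hcen' : ∀ (e : I → ℕ) (lam1 : F →+* E),
      HasTw T ((i.comp P.j).comp (algebraMap F D)) (tlv ω (i.comp P.j) τ (l :: ops) e) lam1 →
      ∀ c x, Commute (h (lam1 c)) x := by
    intro e lam1 h1
    refine (h1.map h).central ?_ ?_
    · intro c x
      show Commute (h (i (P.j (algebraMap F D c)))) x
      rw [hi]
      exact C_comm (fun y => hFc c y) x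
    · intro m x
      show Commute (h (tlv ω (i.comp P.j) τ (l :: ops) e m)) x
      rw [tlv]
      split_ifs
      · exact hτ' m x
      · show Commute (h (i (P.j (algebraMap F D _)))) x
        rw [hi]
        exact C_comm (fun y => hFc _ y) x
  refine ⟨{
    E := E
    𝓛 := LaurentSeries P.𝓛
    j := i.comp P.j
    jK := jK
    h := h
    τ := τ
    hτ := hτ
    hF := hF
    hτ' := hτ'
    hF' := hF'
    hh := hhj
    hinj := hinj
    ex := ?_
    loc := ?_
    inj := ?_ }⟩
  · intro e
    obtain ⟨O', rO', iO', tO', kk', kS', L', lamO', k1', k2', k3', k4', k5', k6', k7', k8', k9'⟩ :=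
      key e
    refine ⟨kk'.comp lamO', ?_⟩
    have h3 := k8'.map kk'
    rw [ecomp O' iO' kk' k2', etl e e (fun m hm => rfl) O' iO' tO' kk' k2' k3'] at h3
    exact h3
  · intro e lam1 hlam1
    refine LocFin.tri hL l (allSteps ml pl ops) lam1 (hcen e lam1 hlam1) (opSteps ml pl l) hgood _
      (Sst_last hω ha hpl hml _ _ e) (tail e lam1 hlam1)
  · intro lam1 hlam1
    refine InjFin.tri hL h hinj lam1 (hcen _ lam1 hlam1) (hcen' _ lam1 hlam1) l
      (allSteps ml pl ops) (Sst T w v1 (i.comp P.j) τ (l :: ops) (fun _ => 0)) _ ?_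
      (tail _ lam1 hlam1) ?_ (opSteps ml pl l) hgood ?_
    · -- restriction to the variables `σ`
      rw [SK_pull]
      show _ = (bst ω th (algebraMap F D) (fun k u => v1 k (some u)) w (i.comp P.j) _ _).map h
      rw [bst_map]
      refine bst_congr (fun x => (hhj x).symm) (fun m => rfl) ?_
      intro m u
      rw [Wv]
      split_ifs
      · exact (hhj _).symm
      · rw [pow_zero, map_one, one_mul]
        exact (hhj _).symm
    · -- specialisation `t ↦ z`
      have hkk : kk.comp lamO = lam1 := by
        have h3 := k8.map kk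
        rw [ecomp O iO kk k2, etl (fun _ => 0) (fun _ => 0) (fun m hm => rfl) O iO tO kk k2 k3]
          at h3
        exact h3.unique hlam1
      have hkS : ∀ x, kS (iO x) = PowerSeries.C x := by
        intro x
        apply HahnSeries.ofPowerSeries_injective (Γ := ℤ)
        rw [← k6, k2, k4, HahnSeries.ofPowerSeries_C]
      have hkSt : kS tO = PowerSeries.C (P.j (algebraMap F D ((ω l ^ (0 : ℕ))⁻¹))) +
          PowerSeries.X := by
        apply HahnSeries.ofPowerSeries_injective (Γ := ℤ)
        rw [← k6, k3, k5, map_add, HahnSeries.ofPowerSeries_C, HahnSeries.ofPowerSeries_X]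
      let kSP : O →+* PowerSeries P.𝓛 := (PowerSeries.map P.h).comp kS
      have hkSP : ∀ x, kSP (iO x) = PowerSeries.C (P.h x) := by
        intro x
        show PowerSeries.map P.h (kS (iO x)) = _
        rw [hkS, PowerSeries.map_C]
      have hof : ∀ x : O, HahnSeries.ofPowerSeries ℤ P.𝓛 (kSP x) = h (kk x) := by
        intro x
        show _ = lsMap P.h (L (kk x))
        rw [k6, lsMap_ofPowerSeries]
        rfl
      have hkSPinj : Function.Injective kSP := by
        intro x y hxy
        apply k1
        apply hinj
        rw [← hof, ← hof, hxy]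
      have hofinj : Function.Injective (HahnSeries.ofPowerSeries ℤ P.𝓛) :=
        HahnSeries.ofPowerSeries_injective
      let lamP : F →+* PowerSeries P.𝓛 := kSP.comp lamO
      have e1 : (HahnSeries.ofPowerSeries ℤ P.𝓛).comp lamP = h.comp lam1 := by
        refine RingHom.ext fun c => ?_
        show HahnSeries.ofPowerSeries ℤ P.𝓛 (kSP (lamO c)) = h (lam1 c)
        rw [hof, ← hkk]
        rfl
      have hlamP : ∀ c x, Commute (lamP c) x := by
        intro c x
        apply hofinj
        rw [map_mul, map_mul]
        have := hcen' _ lam1 hlam1 c (HahnSeries.ofPowerSeries ℤ P.𝓛 x)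
        have h2 : HahnSeries.ofPowerSeries ℤ P.𝓛 (lamP c) = h (lam1 c) := RingHom.congr_fun e1 c
        rw [h2]
        exact this
      let tlP : I → PowerSeries P.𝓛 := fun m => kSP (tlO l iO tO (tlv ω P.j P.τ ops (fun _ => 0)) m)
      let SP : St I ι (Option σ) (PowerSeries P.𝓛) :=
        SK T Q0 w v1 (PowerSeries.C.comp P.jK) tlP
      have e2 : SP.map (HahnSeries.ofPowerSeries ℤ P.𝓛) =
          SK T Q0 w v1 jK (fun m => h (tlv ω (i.comp P.j) τ (l :: ops) (fun _ => 0) m)) := by
        show (SK T Q0 w v1 (PowerSeries.C.comp P.jK) tlP).map _ = _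
        rw [SK_map]
        have e3 : (HahnSeries.ofPowerSeries ℤ P.𝓛).comp (PowerSeries.C.comp P.jK) = jK := by
          refine RingHom.ext fun x => ?_
          exact HahnSeries.ofPowerSeries_C _
        rw [e3]
        congr 1
        funext m
        show HahnSeries.ofPowerSeries ℤ P.𝓛 (kSP _) = _
        rw [hof]
        exact congrArg h (congrFun (etl (fun _ => 0) (fun _ => 0) (fun m hm => rfl) O iO tO kk k2 k3) m)
      have e4 : SP.pull some = (bst ω th (algebraMap F D) (fun k u => v1 k (some u)) w
          (iO.comp P.j) (tlO l iO tO (tlv ω P.j P.τ ops (fun _ => 0)))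
          (fun m u => iO (Wv ω w P.j ops (fun _ => 0) m u))).map kSP := by
        rw [SK_pull, bst_map]
        refine bst_congr ?_ (fun m => rfl) ?_
        · intro x
          show PowerSeries.C (P.jK (iD a th (QK Q0) w x)) = kSP (iO (P.j x))
          rw [hkSP, P.hh]
        · intro m u
          show PowerSeries.C (P.jK (iD a th (QK Q0) w (w m u))) =
            kSP (iO (Wv ω w P.j ops (fun _ => 0) m u))
          rw [hkSP, Wv]
          split_ifs
          · rw [P.hh]
          · rw [pow_zero, map_one, one_mul, P.hh]
      have key2 : InjFin a th Q0 w (allSteps ml pl ops) lamP SP := by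
        refine InjFin.of_map hL (allSteps ml pl ops) (PowerSeries.constantCoeff (R := P.𝓛)) lamP
          hlamP SP ?_ ?_
        · intro ht1
          have h2 := tuple_pull (fun c x => sc_comm a _ _ (fun y => hlamP c y) x) ht1
          have h3 : IsTuple a th Q0 ((sc a (allSteps ml pl ops)).comp lamP)
              (fin a (allSteps ml pl ops) (SP.pull some)).W := by
            rw [fin_pull]; exact h2
          rw [e4] at h3 ⊢
          have h4 := fin_tuple_of_injective (allSteps ml pl ops) kSP hkSPinj lamO _ h3
          exact fin_loc_map (allSteps ml pl ops) kSP lamO _ (k9 h4)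
        · let lam1' : F →+* P.E := ((PowerSeries.constantCoeff (R := P.E)).comp kS).comp lamO
          have h5 : HasTw T (P.j.comp (algebraMap F D)) (tlv ω P.j P.τ ops (fun _ => 0)) lam1' := by
            have h3 := k8.map ((PowerSeries.constantCoeff (R := P.E)).comp kS)
            have h6 : ((PowerSeries.constantCoeff (R := P.E)).comp kS).comp
                ((iO.comp P.j).comp (algebraMap F D)) = P.j.comp (algebraMap F D) := by
              refine RingHom.ext fun c => ?_
              show PowerSeries.constantCoeff (kS (iO (P.j (algebraMap F D c)))) = _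
              rw [hkS]
              simp
            have h7 : (fun m => ((PowerSeries.constantCoeff (R := P.E)).comp kS)
                (tlO l iO tO (tlv ω P.j P.τ ops (fun _ => 0)) m)) =
                tlv ω P.j P.τ ops (fun _ => 0) := by
              funext m
              show PowerSeries.constantCoeff (kS (tlO l iO tO _ m)) = _
              rw [tlO]
              split_ifs with hm
              · rw [hkSt, hm, tlv, if_neg hl]
                simp
              · rw [hkS]
                simp
            rw [h6, h7] at h3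
            exact h3
          have h8 := P.inj lam1' h5
          have h9 : (PowerSeries.constantCoeff (R := P.𝓛)).comp lamP = P.h.comp lam1' := by
            refine RingHom.ext fun c => ?_
            show PowerSeries.constantCoeff (PowerSeries.map P.h (kS (lamO c))) =
              P.h (PowerSeries.constantCoeff (kS (lamO c)))
            rw [← PowerSeries.coeff_zero_eq_constantCoeff_apply, PowerSeries.coeff_map,
              PowerSeries.coeff_zero_eq_constantCoeff_apply]
          have h10 : SP.map (PowerSeries.constantCoeff (R := P.𝓛)) =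
              SK T Q0 w v1 P.jK (fun m => P.h (tlv ω P.j P.τ ops (fun _ => 0) m)) := by
            show (SK T Q0 w v1 (PowerSeries.C.comp P.jK) tlP).map _ = _
            rw [SK_map]
            have e3 : (PowerSeries.constantCoeff (R := P.𝓛)).comp (PowerSeries.C.comp P.jK) =
                P.jK := by
              refine RingHom.ext fun x => ?_
              show PowerSeries.constantCoeff (PowerSeries.C (P.jK x)) = _
              simp
            rw [e3]
            congr 1
            funext m
            show PowerSeries.constantCoeff (PowerSeries.map P.h (kS (tlO l iO tO _ m))) = _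
            rw [tlO]
            split_ifs with hm
            · rw [hkSt, hm, tlv, if_neg hl]
              simp
            · rw [hkS]
              simp
          rw [h9, h10]
          exact h8
      have key3 := InjFin.of_inj (allSteps ml pl ops) (HahnSeries.ofPowerSeries ℤ P.𝓛) hofinj
        lamP SP key2
      rw [e1, e2] at key3
      exact key3
    · refine SK_last hω ha hml jK _ ?_
      intro m hm
      rw [tlv, if_neg (hpl m hm), pow_zero, inv_one, map_one, map_one, map_one]

end Step

end

end Crest.Agent.R181.PO
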