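import Mathlib

/-! R181, Lemma K: classes of modules, exact sequences, extension closure of an exact abelian
class is wide. -/

set_option autoImplicit false
set_option linter.unusedSectionVars false

namespace Crest.Agent.R181.LK

universe u

variable {R : Type u} [Ring R]

section SES

/-- short exact sequence, elementwise -/
structure SES {A M B : Type*} [AddCommGroup A] [Module R A] [AddCommGroup M] [Module R M]
    [AddCommGroup B] [Module R B] (i : A →ₗ[R] M) (p : M →ₗ[R] B) : Prop where
  inj : Function.Injective i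
  surj : Function.Surjective p
  ex : ∀ x, p x = 0 ↔ ∃ a, i a = x

variable {A M B C N : Type*} [AddCommGroup A] [Module R A] [AddCommGroup M] [Module R M]
    [AddCommGroup B] [Module R B] [AddCommGroup C] [Module R C] [AddCommGroup N] [Module R N]

theorem SES.comp_zero {i : A →ₗ[R] M} {p : M →ₗ[R] B} (h : SES i p) (a : A) : p (i a) = 0 :=
  (h.ex _).2 ⟨a, rfl⟩

theorem SES.subtype_mkQ (S : Submodule R M) : SES S.subtype S.mkQ :=
  ⟨S.subtype_injective, S.mkQ_surjective, fun x => by
    simp [Submodule.Quotient.mk_eq_zero]⟩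

theorem SES.ker {f : M →ₗ[R] N} (hf : Function.Surjective f) : SES (LinearMap.ker f).subtype f :=
  ⟨Submodule.subtype_injective _, hf, fun x => by simp [LinearMap.mem_ker]⟩

theorem SES.range {f : A →ₗ[R] M} (hf : Function.Injective f) :
    SES f (LinearMap.range f).mkQ :=
  ⟨hf, Submodule.mkQ_surjective _, fun x => by simp [Submodule.Quotient.mk_eq_zero]⟩

theorem exists_equiv_of_ker_eq {p : M →ₗ[R] B} {q : M →ₗ[R] C}
    (hp : Function.Surjective p) (hq : Function.Surjective q)
    (h : ∀ x, p x = 0 ↔ q x = 0) : ∃ e : B ≃ₗ[R] C, ∀ x, e (p x) = q x := by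
  have hk : LinearMap.ker p = LinearMap.ker q := by ext x; simp [h x]
  refine ⟨((p.quotKerEquivOfSurjective hp).symm.trans
    (Submodule.quotEquivOfEq _ _ hk)).trans (q.quotKerEquivOfSurjective hq), fun x => ?_⟩
  have h1 : (p.quotKerEquivOfSurjective hp).symm (p x) = Submodule.Quotient.mk x := by
    rw [LinearEquiv.symm_apply_eq]; rfl
  simp only [LinearEquiv.trans_apply, h1]
  rfl

theorem exists_equiv_of_range_eq {i : A →ₗ[R] M} {j : B →ₗ[R] M}
    (hi : Function.Injective i) (hj : Function.Injective j)
    (h : ∀ x, (∃ a, i a = x) ↔ ∃ b, j b = x) : ∃ e : A ≃ₗ[R] B, ∀ a, j (e a) = i a := by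
  have hr : LinearMap.range i = LinearMap.range j := by ext x; simp [h x]
  refine ⟨((LinearEquiv.ofInjective i hi).trans (LinearEquiv.ofEq _ _ hr)).trans
    (LinearEquiv.ofInjective j hj).symm, fun a => ?_⟩
  have : ∀ y : LinearMap.range j, j ((LinearEquiv.ofInjective j hj).symm y) = y := by
    intro y
    have := congrArg Subtype.val ((LinearEquiv.ofInjective j hj).apply_symm_apply y)
    simpa using this
  simp only [LinearEquiv.trans_apply, this]
  rfl

/-- factor a map through a surjection -/
theorem exists_desc {p : M →ₗ[R] B} (hp : Function.Surjective p) (f : M →ₗ[R] N)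
    (h : ∀ x, p x = 0 → f x = 0) : ∃ g : B →ₗ[R] N, ∀ x, g (p x) = f x := by
  refine ⟨((LinearMap.ker p).liftQ f (fun x hx => h x (by simpa using hx))).comp
    (p.quotKerEquivOfSurjective hp).symm.toLinearMap, fun x => ?_⟩
  have h1 : (p.quotKerEquivOfSurjective hp).symm (p x) = Submodule.Quotient.mk x := by
    rw [LinearEquiv.symm_apply_eq]; rfl
  simp only [LinearMap.comp_apply, LinearEquiv.coe_coe, h1]
  rfl

/-- factor a map through an injection -/
theorem exists_lift {i : A →ₗ[R] M} (hi : Function.Injective i) (f : N →ₗ[R] M)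
    (h : ∀ x, ∃ a, i a = f x) : ∃ g : N →ₗ[R] A, ∀ x, i (g x) = f x := by
  refine ⟨(LinearEquiv.ofInjective i hi).symm.toLinearMap.comp
    (f.codRestrict (LinearMap.range i) (fun x => by simpa using h x)), fun x => ?_⟩
  have : ∀ y : LinearMap.range i, i ((LinearEquiv.ofInjective i hi).symm y) = y := by
    intro y
    have := congrArg Subtype.val ((LinearEquiv.ofInjective i hi).apply_symm_apply y)
    simpa using this
  simp [this]

end SES

/-- a class of modules, closed under isomorphism, kernels and cokernels, containing 0 -/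
structure AbClass (R : Type u) [Ring R] where
  mem : ∀ (M : Type u) [AddCommGroup M] [Module R M], Prop
  iso : ∀ {M N : Type u} [AddCommGroup M] [Module R M] [AddCommGroup N] [Module R N],
    (M ≃ₗ[R] N) → mem M → mem N
  zero : ∀ (M : Type u) [AddCommGroup M] [Module R M], Subsingleton M → mem M
  ker : ∀ {M N : Type u} [AddCommGroup M] [Module R M] [AddCommGroup N] [Module R N],
    mem M → mem N → ∀ f : M →ₗ[R] N, mem (LinearMap.ker f)
  coker : ∀ {M N : Type u} [AddCommGroup M] [Module R M] [AddCommGroup N] [Module R N],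
    mem M → mem N → ∀ f : M →ₗ[R] N, mem (N ⧸ LinearMap.range f)

namespace AbClass

variable (W : AbClass R)
variable {A M B C N : Type u} [AddCommGroup A] [Module R A] [AddCommGroup M] [Module R M]
    [AddCommGroup B] [Module R B] [AddCommGroup C] [Module R C] [AddCommGroup N] [Module R N]

variable {W}

theorem ker' (hM : W.mem M) (hN : W.mem N) (f : M →ₗ[R] N) (i : A →ₗ[R] M)
    (hi : Function.Injective i) (h : ∀ x, f x = 0 ↔ ∃ a, i a = x) : W.mem A := by
  obtain ⟨e, -⟩ := exists_equiv_of_range_eq (Submodule.subtype_injective (LinearMap.ker f)) hi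
    (fun x => by rw [← h x]; simp)
  exact W.iso e (W.ker hM hN f)

theorem coker' (hM : W.mem M) (hN : W.mem N) (f : M →ₗ[R] N) (p : N →ₗ[R] B)
    (hp : Function.Surjective p) (h : ∀ x, p x = 0 ↔ ∃ a, f a = x) : W.mem B := by
  obtain ⟨e, -⟩ := exists_equiv_of_ker_eq (Submodule.mkQ_surjective (LinearMap.range f)) hp
    (fun x => by rw [h x]; simp [Submodule.Quotient.mk_eq_zero])
  exact W.iso e (W.coker hM hN f)

theorem range (hM : W.mem M) (hN : W.mem N) (f : M →ₗ[R] N) : W.mem (LinearMap.range f) :=
  W.ker' hN (W.coker hM hN f) (LinearMap.range f).mkQ (LinearMap.range f).subtype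
    (Submodule.subtype_injective _) (fun x => by simp [Submodule.Quotient.mk_eq_zero])

/-- image, presented by a surjection -/
theorem image' (hM : W.mem M) (hN : W.mem N) (f : M →ₗ[R] N) (p : M →ₗ[R] B)
    (hp : Function.Surjective p) (h : ∀ x, p x = 0 ↔ f x = 0) : W.mem B := by
  obtain ⟨e, -⟩ := exists_equiv_of_ker_eq f.surjective_rangeRestrict hp
    (fun x => by rw [h x]; simp [Subtype.ext_iff])
  exact W.iso e (W.range hM hN f)

/-- in a short exact sequence, two of three (kernel) -/
theorem left_of_ses {i : A →ₗ[R] M} {p : M →ₗ[R] B} (h : SES i p) (hM : W.mem M) (hB : W.mem B) :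
    W.mem A := W.ker' hM hB p i h.inj h.ex

theorem right_of_ses {i : A →ₗ[R] M} {p : M →ₗ[R] B} (h : SES i p) (hA : W.mem A) (hM : W.mem M) :
    W.mem B := W.coker' hA hM i p h.surj h.ex

variable (W)

/-- modules with a filtration of length `n` with quotients in `W` -/
def FN : ℕ → ∀ (M : Type u) [AddCommGroup M] [Module R M], Prop
  | 0 => fun M _ _ => Subsingleton M
  | n + 1 => fun M _ _ => ∃ N : Submodule R M, W.mem N ∧ FN n (M ⧸ N)

variable {W}

theorem FN_iso : ∀ (n : ℕ) {M N : Type u} [AddCommGroup M] [Module R M] [AddCommGroup N]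
    [Module R N] (_ : M ≃ₗ[R] N), W.FN n M → W.FN n N
  | 0, M, N, _, _, _, _, e, h => by
      have : Subsingleton M := h
      exact e.symm.toEquiv.subsingleton
  | n + 1, M, N, _, _, _, _, e, h => by
      obtain ⟨S, hS, hq⟩ := h
      refine ⟨S.map e.toLinearMap, W.iso (e.submoduleMap S) hS, ?_⟩
      exact FN_iso n (Submodule.Quotient.equiv S (S.map e.toLinearMap) e rfl) hq

theorem FN_succ {n : ℕ} {i : A →ₗ[R] M} {p : M →ₗ[R] B} (h : SES i p) (hA : W.mem A)
    (hB : W.FN n B) : W.FN (n + 1) M := by
  refine ⟨LinearMap.range i, W.iso (LinearEquiv.ofInjective i h.inj) hA, ?_⟩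
  obtain ⟨e, -⟩ := exists_equiv_of_ker_eq h.surj (Submodule.mkQ_surjective (LinearMap.range i))
    (fun x => by rw [h.ex x]; simp [Submodule.Quotient.mk_eq_zero])
  exact FN_iso n e hB

theorem FN_succ_iff {n : ℕ} : W.FN (n + 1) M ↔
    ∃ (A : Type u) (_ : AddCommGroup A) (_ : Module R A) (B : Type u) (_ : AddCommGroup B)
      (_ : Module R B) (i : A →ₗ[R] M) (p : M →ₗ[R] B), SES i p ∧ W.mem A ∧ W.FN n B := by
  constructor
  · rintro ⟨S, hS, hq⟩
    exact ⟨S, inferInstance, inferInstance, M ⧸ S, inferInstance, inferInstance, S.subtype,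
      S.mkQ, SES.subtype_mkQ S, hS, hq⟩
  · rintro ⟨A, _, _, B, _, _, i, p, h, hA, hB⟩
    exact FN_succ h hA hB

/-- closed under extensions, lengths add -/
theorem FN_ext : ∀ (m n : ℕ) {A M B : Type u} [AddCommGroup A] [Module R A] [AddCommGroup M]
    [Module R M] [AddCommGroup B] [Module R B] {i : A →ₗ[R] M} {p : M →ₗ[R] B} (_ : SES i p),
    W.FN m A → W.FN n B → W.FN (m + n) M
  | 0, n, A, M, B, _, _, _, _, _, _, i, p, h, hA, hB => by
      have : Subsingleton A := hA
      have hinj : Function.Injective p := by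
        rw [injective_iff_map_eq_zero]
        intro x hx
        obtain ⟨a, rfl⟩ := (h.ex x).1 hx
        rw [Subsingleton.elim a 0, map_zero]
      rw [Nat.zero_add]
      exact FN_iso n (LinearEquiv.ofBijective p ⟨hinj, h.surj⟩).symm hB
  | m + 1, n, A, M, B, _, _, _, _, _, _, i, p, h, hA, hB => by
      obtain ⟨A1, _, _, A2, _, _, j, q, hjq, hA1, hA2⟩ := FN_succ_iff.1 hA
      -- M / i(j A1) is an extension of B by A2
      let S : Submodule R M := LinearMap.range (i.comp j)
      obtain ⟨i', hi'⟩ := exists_desc (N := M ⧸ S) hjq.surj (S.mkQ.comp i) (by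
        intro x hx
        obtain ⟨a, rfl⟩ := (hjq.ex x).1 hx
        simp only [LinearMap.comp_apply, Submodule.mkQ_apply, Submodule.Quotient.mk_eq_zero]
        exact ⟨a, rfl⟩)
      obtain ⟨p', hp'⟩ := exists_desc (N := B) S.mkQ_surjective p (by
        intro x hx
        simp only [Submodule.mkQ_apply, Submodule.Quotient.mk_eq_zero] at hx
        obtain ⟨a, rfl⟩ := hx
        exact h.comp_zero _)
      have hs : SES i' p' := by
        refine ⟨?_, ?_, ?_⟩
        · rw [injective_iff_map_eq_zero]
          intro y hy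
          obtain ⟨x, rfl⟩ := hjq.surj y
          rw [hi'] at hy
          simp only [LinearMap.comp_apply, Submodule.mkQ_apply, Submodule.Quotient.mk_eq_zero] at hy
          obtain ⟨a, ha⟩ := hy
          have : j a = x := h.inj ha
          rw [← this]; exact hjq.comp_zero a
        · intro b
          obtain ⟨x, rfl⟩ := h.surj b
          exact ⟨S.mkQ x, hp' x⟩
        · intro y
          obtain ⟨x, rfl⟩ := S.mkQ_surjective y
          rw [hp']
          constructor
          · intro hx
            obtain ⟨a, rfl⟩ := (h.ex x).1 hx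
            exact ⟨q a, hi' a⟩
          · rintro ⟨a, ha⟩
            obtain ⟨a, rfl⟩ := hjq.surj a
            rw [hi'] at ha
            have : S.mkQ (i a - x) = 0 := by rw [map_sub, sub_eq_zero]; exact ha
            simp only [Submodule.mkQ_apply, Submodule.Quotient.mk_eq_zero] at this
            obtain ⟨c, hc⟩ := this
            have hx : x = i (a - j c) := by
              rw [map_sub, ← LinearMap.comp_apply i j, hc]; abel
            rw [hx]; exact h.comp_zero _
      have := FN_ext m n hs hA2 hB
      rw [Nat.add_right_comm]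
      refine FN_succ (i := i.comp j) (p := S.mkQ) ?_ hA1 this
      exact SES.range (h.inj.comp hjq.inj)

end AbClass

end Crest.Agent.R181.LK
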