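import Crest.Agent.R181.LK980a

/-! R181, Lemma K: the extension closure of an exact abelian class is wide (closed under kernels and
cokernels). -/

set_option autoImplicit false
set_option linter.unusedSectionVars false

namespace Crest.Agent.R181.LK

universe u

variable {R : Type u} [Ring R]

namespace AbClass

variable {W : AbClass R}

theorem FN_zero_of_sub {M : Type u} [AddCommGroup M] [Module R M] (h : Subsingleton M) :
    W.FN 0 M := h

theorem FN_of_sub : ∀ (n : ℕ) {M : Type u} [AddCommGroup M] [Module R M] (_ : Subsingleton M),
    W.FN n M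
  | 0, _, _, _, h => h
  | n + 1, M, _, _, h => ⟨⊥, W.zero _ inferInstance, FN_of_sub n (by
      have := h
      exact (Submodule.mkQ_surjective (⊥ : Submodule R M)).subsingleton)⟩

/-- kernels and cokernels of maps from `W` to a filtered module -/
theorem one_n : ∀ (n : ℕ) {M N : Type u} [AddCommGroup M] [Module R M] [AddCommGroup N] [Module R N]
    (_ : W.mem M) (_ : W.FN n N) (f : M →ₗ[R] N), W.mem (LinearMap.ker f) ∧
      W.FN n (N ⧸ LinearMap.range f)
  | 0, M, N, _, _, _, _, hM, hN, f => by
      have : Subsingleton N := hN
      refine ⟨?_, ?_⟩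
      · refine W.ker' hM (W.zero N this) f _ (Submodule.subtype_injective _) (fun x => by simp)
      · exact (Submodule.mkQ_surjective (LinearMap.range f)).subsingleton
  | n + 1, M, N, _, _, _, _, hM, hN, f => by
      obtain ⟨A, _, _, B, _, _, i, p, h, hA, hB⟩ := FN_succ_iff.1 hN
      obtain ⟨hk, hc⟩ := one_n n hM hB (p.comp f)
      -- the restriction of `f` to `ker (p ∘ f)` lands in `A`
      obtain ⟨f', hf'⟩ := exists_lift h.inj (f.comp (LinearMap.ker (p.comp f)).subtype) (by
        intro x
        exact (h.ex _).1 x.2)
      have hker : ∀ x, f x = 0 ↔ ∃ a : LinearMap.ker f', (a : LinearMap.ker (p.comp f)) = x := by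
        intro x
        constructor
        · intro hx
          have hx' : x ∈ LinearMap.ker (p.comp f) := by simp [hx]
          refine ⟨⟨⟨x, hx'⟩, ?_⟩, rfl⟩
          rw [LinearMap.mem_ker]
          apply h.inj
          rw [hf', map_zero]
          exact hx
        · rintro ⟨⟨a, ha⟩, rfl⟩
          have := hf' a
          rw [LinearMap.mem_ker.1 ha, map_zero] at this
          exact this.symm
      have h1 : W.mem (LinearMap.ker f') := W.ker hk hA f'
      have h2 : W.mem (LinearMap.ker f) := by
        obtain ⟨e, -⟩ := exists_equiv_of_range_eq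
          (i := (LinearMap.ker (p.comp f)).subtype.comp (LinearMap.ker f').subtype)
          (j := (LinearMap.ker f).subtype)
          ((Submodule.subtype_injective _).comp (Submodule.subtype_injective _))
          (Submodule.subtype_injective _) (by
            intro x
            constructor
            · rintro ⟨a, rfl⟩
              exact ⟨⟨_, LinearMap.mem_ker.2 ((hker _).2 ⟨a, rfl⟩)⟩, rfl⟩
            · rintro ⟨b, rfl⟩
              obtain ⟨a, ha⟩ := (hker b).1 b.2
              exact ⟨a, ha⟩)
        exact W.iso e h1
      refine ⟨h2, ?_⟩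
      have h3 : W.mem (A ⧸ LinearMap.range f') := W.coker hk hA f'
      -- maps
      obtain ⟨i', hi'⟩ := exists_desc (N := N ⧸ LinearMap.range f)
        (Submodule.mkQ_surjective (LinearMap.range f')) ((LinearMap.range f).mkQ.comp i) (by
          intro a ha
          simp only [Submodule.mkQ_apply, Submodule.Quotient.mk_eq_zero] at ha
          obtain ⟨x, rfl⟩ := ha
          simp only [LinearMap.comp_apply, Submodule.mkQ_apply, Submodule.Quotient.mk_eq_zero, hf']
          exact ⟨_, rfl⟩)
      obtain ⟨p', hp'⟩ := exists_desc (N := B ⧸ LinearMap.range (p.comp f))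
        (Submodule.mkQ_surjective (LinearMap.range f)) ((LinearMap.range (p.comp f)).mkQ.comp p) (by
          intro a ha
          simp only [Submodule.mkQ_apply, Submodule.Quotient.mk_eq_zero] at ha
          obtain ⟨x, rfl⟩ := ha
          simp only [LinearMap.comp_apply, Submodule.mkQ_apply, Submodule.Quotient.mk_eq_zero]
          exact ⟨x, rfl⟩)
      have hs : SES i' p' := by
        refine ⟨?_, ?_, ?_⟩
        · rw [injective_iff_map_eq_zero]
          intro y hy
          obtain ⟨a, rfl⟩ := Submodule.mkQ_surjective _ y
          rw [hi'] at hy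
          simp only [LinearMap.comp_apply, Submodule.mkQ_apply, Submodule.Quotient.mk_eq_zero] at hy
          obtain ⟨x, hx⟩ := hy
          have hx' : x ∈ LinearMap.ker (p.comp f) := by
            simp [hx, h.comp_zero]
          simp only [Submodule.mkQ_apply, Submodule.Quotient.mk_eq_zero]
          refine ⟨⟨x, hx'⟩, h.inj ?_⟩
          rw [hf']; exact hx
        · intro y
          obtain ⟨b, rfl⟩ := Submodule.mkQ_surjective _ y
          obtain ⟨x, rfl⟩ := h.surj b
          exact ⟨Submodule.mkQ _ x, hp' x⟩
        · intro y
          obtain ⟨x, rfl⟩ := Submodule.mkQ_surjective _ y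
          rw [hp']
          constructor
          · intro hx
            simp only [LinearMap.comp_apply, Submodule.mkQ_apply,
              Submodule.Quotient.mk_eq_zero] at hx
            obtain ⟨m, hm⟩ := hx
            obtain ⟨a, ha⟩ := (h.ex (x - f m)).1 (by
              rw [map_sub, sub_eq_zero]; exact hm.symm)
            refine ⟨Submodule.mkQ _ a, ?_⟩
            rw [hi']
            simp only [LinearMap.comp_apply, ha, map_sub]
            rw [sub_eq_self]
            simp only [Submodule.mkQ_apply, Submodule.Quotient.mk_eq_zero]
            exact ⟨m, rfl⟩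
          · rintro ⟨a, ha⟩
            obtain ⟨a, rfl⟩ := Submodule.mkQ_surjective _ a
            rw [hi'] at ha
            have h0 : (LinearMap.range f).mkQ (x - i a) = 0 := by
              rw [map_sub, sub_eq_zero]; exact ha.symm
            simp only [Submodule.mkQ_apply, Submodule.Quotient.mk_eq_zero] at h0
            obtain ⟨m, hm⟩ := h0
            simp only [LinearMap.comp_apply, Submodule.mkQ_apply, Submodule.Quotient.mk_eq_zero]
            refine ⟨m, ?_⟩
            rw [LinearMap.comp_apply, hm, map_sub, h.comp_zero, sub_zero]
      exact FN_succ hs h3 hc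

/-- kernels and cokernels of maps between filtered modules -/
theorem m_n : ∀ (m : ℕ) {n : ℕ} {M N : Type u} [AddCommGroup M] [Module R M] [AddCommGroup N]
    [Module R N] (_ : W.FN m M) (_ : W.FN n N) (f : M →ₗ[R] N), W.FN m (LinearMap.ker f) ∧
      W.FN n (N ⧸ LinearMap.range f)
  | 0, n, M, N, _, _, _, _, hM, hN, f => by
      have : Subsingleton M := hM
      refine ⟨(Submodule.subtype_injective (LinearMap.ker f)).subsingleton, ?_⟩
      obtain ⟨e, -⟩ := exists_equiv_of_ker_eq (p := (LinearMap.id : N →ₗ[R] N))
        (q := (LinearMap.range f).mkQ) Function.surjective_id (Submodule.mkQ_surjective _) (by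
          intro x
          simp only [LinearMap.id_apply, Submodule.mkQ_apply, Submodule.Quotient.mk_eq_zero]
          constructor
          · rintro rfl; exact Submodule.zero_mem _
          · rintro ⟨y, rfl⟩
            rw [Subsingleton.elim y 0, map_zero])
      exact FN_iso n e hN
  | m + 1, n, M, N, _, _, _, _, hM, hN, f => by
      obtain ⟨A, _, _, B, _, _, i, p, h, hA, hB⟩ := FN_succ_iff.1 hM
      obtain ⟨hk, hc⟩ := one_n n hA hN (f.comp i)
      obtain ⟨g, hg⟩ := exists_desc (N := N ⧸ LinearMap.range (f.comp i)) h.surj
        ((LinearMap.range (f.comp i)).mkQ.comp f) (by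
          intro x hx
          obtain ⟨a, rfl⟩ := (h.ex x).1 hx
          simp only [LinearMap.comp_apply, Submodule.mkQ_apply, Submodule.Quotient.mk_eq_zero]
          exact ⟨a, rfl⟩)
      obtain ⟨hk', hc'⟩ := m_n m hB hc g
      constructor
      · -- 0 → ker (f i) → ker f → ker g → 0
        obtain ⟨i', hi'⟩ := exists_lift (Submodule.subtype_injective (LinearMap.ker f))
          (i.comp (LinearMap.ker (f.comp i)).subtype) (by
            intro x
            exact ⟨⟨i x, x.2⟩, rfl⟩)
        obtain ⟨p', hp'⟩ := exists_lift (Submodule.subtype_injective (LinearMap.ker g))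
          (p.comp (LinearMap.ker f).subtype) (by
            intro x
            refine ⟨⟨p x, ?_⟩, rfl⟩
            rw [LinearMap.mem_ker, hg, LinearMap.comp_apply, LinearMap.mem_ker.1 x.2, map_zero])
        refine FN_succ (i := i') (p := p') ⟨?_, ?_, ?_⟩ hk hk'
        · intro x y hxy
          have := congrArg (LinearMap.ker f).subtype hxy
          rw [hi', hi'] at this
          exact Subtype.ext (h.inj this)
        · rintro ⟨b, hb⟩
          obtain ⟨x, rfl⟩ := h.surj b
          rw [LinearMap.mem_ker, hg] at hb
          simp only [LinearMap.comp_apply, Submodule.mkQ_apply, Submodule.Quotient.mk_eq_zero] at hb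
          obtain ⟨a, ha⟩ := hb
          refine ⟨⟨x - i a, by rw [LinearMap.mem_ker, map_sub, sub_eq_zero]; exact ha.symm⟩, ?_⟩
          apply Submodule.subtype_injective (LinearMap.ker g)
          rw [hp']
          simp [h.comp_zero]
        · intro x
          constructor
          · intro hx
            have h1 := hp' x
            rw [hx, map_zero] at h1
            obtain ⟨a, ha⟩ := (h.ex _).1 h1.symm
            refine ⟨⟨a, ?_⟩, ?_⟩
            · rw [LinearMap.mem_ker, LinearMap.comp_apply, ha]; exact x.2
            · apply Submodule.subtype_injective (LinearMap.ker f)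
              rw [hi']; exact ha
          · rintro ⟨a, rfl⟩
            apply Submodule.subtype_injective (LinearMap.ker g)
            rw [hp', map_zero, LinearMap.comp_apply, hi', LinearMap.comp_apply, h.comp_zero]
      · obtain ⟨e, -⟩ := exists_equiv_of_ker_eq
          (p := (LinearMap.range g).mkQ.comp (LinearMap.range (f.comp i)).mkQ)
          (q := (LinearMap.range f).mkQ)
          ((Submodule.mkQ_surjective _).comp (Submodule.mkQ_surjective _))
          (Submodule.mkQ_surjective _) (by
            intro x
            simp only [LinearMap.comp_apply, Submodule.mkQ_apply, Submodule.Quotient.mk_eq_zero,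
              LinearMap.mem_range]
            constructor
            · rintro ⟨b, hb⟩
              obtain ⟨y, rfl⟩ := h.surj b
              rw [hg] at hb
              have h0 : (LinearMap.range (f.comp i)).mkQ (x - f y) = 0 := by
                rw [map_sub, sub_eq_zero]; exact hb.symm
              simp only [Submodule.mkQ_apply, Submodule.Quotient.mk_eq_zero] at h0
              obtain ⟨a, ha⟩ := h0
              refine ⟨y + i a, ?_⟩
              rw [map_add]
              rw [LinearMap.comp_apply] at ha
              rw [ha]; abel
            · rintro ⟨y, rfl⟩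
              exact ⟨p y, hg y⟩)
        exact FN_iso n e hc'

/-- the extension closure, as a class -/
def filt (W : AbClass R) : AbClass R where
  mem := fun M _ _ => ∃ n, W.FN n M
  iso := fun e h => by obtain ⟨n, hn⟩ := h; exact ⟨n, FN_iso n e hn⟩
  zero := fun M _ _ h => ⟨0, h⟩
  ker := fun hM hN f => by
    obtain ⟨m, hm⟩ := hM
    obtain ⟨n, hn⟩ := hN
    exact ⟨m, (m_n m hm hn f).1⟩
  coker := fun hM hN f => by
    obtain ⟨m, hm⟩ := hM
    obtain ⟨n, hn⟩ := hN
    exact ⟨n, (m_n m hm hn f).2⟩

theorem filt_ext {A M B : Type u} [AddCommGroup A] [Module R A] [AddCommGroup M] [Module R M]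
    [AddCommGroup B] [Module R B] {i : A →ₗ[R] M} {p : M →ₗ[R] B} (h : SES i p)
    (hA : W.filt.mem A) (hB : W.filt.mem B) : W.filt.mem M := by
  obtain ⟨m, hm⟩ := hA
  obtain ⟨n, hn⟩ := hB
  exact ⟨m + n, FN_ext m n h hm hn⟩

theorem filt_of_mem {M : Type u} [AddCommGroup M] [Module R M] (h : W.mem M) : W.filt.mem M :=
  ⟨1, ⟨⊤, W.iso Submodule.topEquiv.symm h,
    (Submodule.Quotient.subsingleton_iff.2 rfl : Subsingleton (M ⧸ (⊤ : Submodule R M)))⟩⟩

/-- a filtered submodule of a module of `W` is in `W` -/
theorem mem_of_injective : ∀ (m : ℕ) {M N : Type u} [AddCommGroup M] [Module R M] [AddCommGroup N]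
    [Module R N] (_ : W.FN m M) (_ : W.mem N) (f : M →ₗ[R] N) (_ : Function.Injective f),
    W.mem M
  | 0, M, N, _, _, _, _, hM, hN, f, hf => W.zero M hM
  | m + 1, M, N, _, _, _, _, hM, hN, f, hf => by
      obtain ⟨A, _, _, B, _, _, i, p, h, hA, hB⟩ := FN_succ_iff.1 hM
      have hc := W.coker hA hN (f.comp i)
      obtain ⟨g, hg⟩ := exists_desc (N := N ⧸ LinearMap.range (f.comp i)) h.surj
        ((LinearMap.range (f.comp i)).mkQ.comp f) (by
          intro x hx
          obtain ⟨a, rfl⟩ := (h.ex x).1 hx
          simp only [LinearMap.comp_apply, Submodule.mkQ_apply, Submodule.Quotient.mk_eq_zero]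
          exact ⟨a, rfl⟩)
      have hginj : Function.Injective g := by
        rw [injective_iff_map_eq_zero]
        intro b hb
        obtain ⟨x, rfl⟩ := h.surj b
        rw [hg] at hb
        simp only [LinearMap.comp_apply, Submodule.mkQ_apply, Submodule.Quotient.mk_eq_zero] at hb
        obtain ⟨a, ha⟩ := hb
        have : i a = x := hf ha
        rw [← this]; exact h.comp_zero a
      have hB' := mem_of_injective m hB hc g hginj
      have hcc : W.mem (N ⧸ LinearMap.range f) := by
        refine W.coker' hB' hc g
          ((LinearMap.range (f.comp i)).mapQ (LinearMap.range f) LinearMap.id (by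
            rintro _ ⟨a, rfl⟩; exact ⟨i a, rfl⟩)) ?_ ?_
        · intro y
          obtain ⟨x, rfl⟩ := Submodule.mkQ_surjective _ y
          exact ⟨Submodule.mkQ _ x, by simp⟩
        · intro y
          obtain ⟨x, rfl⟩ := Submodule.mkQ_surjective _ y
          simp only [Submodule.mkQ_apply, Submodule.mapQ_apply, LinearMap.id_apply,
            Submodule.Quotient.mk_eq_zero, LinearMap.mem_range]
          constructor
          · rintro ⟨z, rfl⟩
            exact ⟨p z, hg z⟩
          · rintro ⟨b, hb⟩
            obtain ⟨z, rfl⟩ := h.surj b
            rw [hg] at hb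
            have h0 : (LinearMap.range (f.comp i)).mkQ (x - f z) = 0 := by
              rw [map_sub, sub_eq_zero]; exact hb.symm
            simp only [Submodule.mkQ_apply, Submodule.Quotient.mk_eq_zero] at h0
            obtain ⟨a, ha⟩ := h0
            refine ⟨z + i a, ?_⟩
            rw [map_add]
            rw [LinearMap.comp_apply] at ha
            rw [ha]; abel
      exact W.ker' hN hcc (LinearMap.range f).mkQ f hf (fun x => by
        simp [Submodule.Quotient.mk_eq_zero])

end AbClass

end Crest.Agent.R181.LK
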