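import Crest.Agent.R181.TW825a
import Crest.Agent.R181.LOC773

/-!
# Stably full matrices (helper773)

`StFull A`: the square matrix `A ⊕ 1_r` never factors through a smaller size.  This is intrinsic
(preserved by ring automorphisms).  If all finitely generated projectives over `T` are stably free,
`T` is hereditary and has a positive model, then the stably full matrices are exactly the matrices
inverted by the skew field `D = T_Σ`.
-/

set_option autoImplicit false
set_option linter.unusedSectionVars false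

open Matrix

namespace Crest.Agent.R181.TW

section stfull

theorem StFull.of_map {T S : Type} [Ring T] [Ring S] (f : T →+* S) {m : ℕ}
    {A : Matrix (Fin m) (Fin m) T} (h : StFull (A.map f)) : StFull A := by
  intro k r P Q hPQ
  refine h k r (P.map f) (Q.map f) ?_
  rw [← Matrix.map_mul, hPQ, Matrix.fromBlocks_map, Matrix.map_zero _ (map_zero f),
    Matrix.map_zero _ (map_zero f), Matrix.map_one _ (map_zero f) (map_one f)]

theorem StFull.map_equiv {T S : Type} [Ring T] [Ring S] (e : T ≃+* S) {m : ℕ}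
    {A : Matrix (Fin m) (Fin m) T} (h : StFull A) : StFull (A.map e) := by
  apply StFull.of_map (e.symm : S →+* T)
  have : (A.map e).map (e.symm : S →+* T) = A := by ext i j; simp
  rw [this]
  exact h

theorem stFull_of_isUnit {D : Type} [DivisionRing D] {m : ℕ} {A : Matrix (Fin m) (Fin m) D}
    (h : IsUnit A) : StFull A := by
  intro k r P Q hPQ
  have hU : IsUnit (Matrix.fromBlocks A 0 0 (1 : Matrix (Fin r) (Fin r) D)) := by
    obtain ⟨u, hu⟩ := h
    refine ⟨⟨Matrix.fromBlocks A 0 0 1, Matrix.fromBlocks (u⁻¹).val 0 0 1, ?_, ?_⟩, rfl⟩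
    · rw [Matrix.fromBlocks_multiply, ← hu]; simp
    · rw [Matrix.fromBlocks_multiply, ← hu]; simp
  obtain ⟨v, hv⟩ := hU
  have h1 : P * (Q * (v⁻¹).val) = 1 := by
    rw [← Matrix.mul_assoc, hPQ, ← hv, Units.mul_inv]
  have h2 : rkE (P * (Q * (v⁻¹).val)) ≤ k := by
    refine (rkE_mul_right _ _).trans ?_
    have := rkE_mul_left (1 : Matrix (Fin k) (Fin k) D) (Q * (v⁻¹).val)
    rw [Matrix.one_mul, rkE_one, Fintype.card_fin] at this
    exact this
  rw [h1, rkE_one] at h2
  simpa using h2

theorem stFull_of_isUnit_map {T D : Type} [Ring T] [DivisionRing D] (φ : T →+* D) {m : ℕ}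
    {A : Matrix (Fin m) (Fin m) T} (h : IsUnit (A.map φ)) : StFull A :=
  (stFull_of_isUnit h).of_map φ

/-- stably full matrices have full rank for any projective rank function -/
theorem isUnit_phi_of_stFull {T : Type} [Ring T] (σ : MK.ProjRank T) (hT : MK.SH T)
    (hS : AllSF T) {m : ℕ} (A : Matrix (Fin m) (Fin m) T) (hA : StFull A) :
    IsUnit (A.map (σ.toSyl hT).phi) := by
  classical
  apply (σ.toSyl hT).isUnit_phi
  apply le_antisymm ((σ.toSyl hT).rk_le_card_left A)
  rw [MK.ProjRank.toSyl_rk, Fintype.card_fin]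
  obtain ⟨k, X, e, Y, he, h1, h2, hXY, hr⟩ := σ.exists_fac' A
  obtain ⟨a, b, X', Y', h3, h4⟩ := exists_matrices hS e he
  -- ranks
  have h5 : σ.rk (Matrix.fromBlocks e 0 0 (1 : Matrix (Fin a) (Fin a) T)) = σ.rk e + a := by
    rw [σ.rk_diag e 1 he (Matrix.one_mul 1), ← (σ.toSyl_idem hT 1 (Matrix.one_mul 1)),
      (σ.toSyl hT).rk_one_fin]
  have h6 : σ.rk (X' * Y') = σ.rk (Y' * X') := by
    apply σ.rk_comm
    · rw [h3, Matrix.fromBlocks_multiply]; simp [he]
    · rw [h4, Matrix.one_mul]
  have h7 : σ.rk (1 : Matrix (Fin b) (Fin b) T) = b := by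
    rw [← (σ.toSyl_idem hT 1 (Matrix.one_mul 1)), (σ.toSyl hT).rk_one_fin]
  rw [h3, h4, h5, h7, hr] at h6
  let X1 : Matrix (Fin m ⊕ Fin a) (Fin k ⊕ Fin a) T := Matrix.fromBlocks X 0 0 1
  let Y1 : Matrix (Fin k ⊕ Fin a) (Fin m ⊕ Fin a) T := Matrix.fromBlocks Y 0 0 1
  let E1 : Matrix (Fin k ⊕ Fin a) (Fin k ⊕ Fin a) T := Matrix.fromBlocks e 0 0 1
  have h9 : X1 * E1 * Y1 = Matrix.fromBlocks A 0 0 1 := by
    simp only [X1, E1, Y1]
    rw [Matrix.fromBlocks_multiply, Matrix.fromBlocks_multiply]
    simp [h1, hXY]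
  have h8 := hA b a (X1 * X') (Y' * Y1) (by
    have h10 : X' * Y' = E1 := h3
    rw [← h9, ← h10]
    simp only [Matrix.mul_assoc])
  omega

/-- **the matrices inverted by the skew field are the stably full ones** -/
theorem isUnit_of_stFull {T D : Type} [Ring T] [DivisionRing D] (φ : T →+* D) (hu : UnivLoc φ)
    (hH : Hered T) (hS : AllSF T) (hM : PosModel T) {m : ℕ} (A : Matrix (Fin m) (Fin m) T)
    (hA : StFull A) : IsUnit (A.map φ) := by
  classical
  obtain ⟨s, E, _, ψ, hs, hψ⟩ := hM
  let σ := projRank ψ hs hS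
  have hT : MK.SH T := MK.SH.of_projective fun k N _ => hH k N
  obtain ⟨χ, hχ⟩ := hu.lift (σ.toSyl hT).phi fun m B hB =>
    isUnit_phi_of_stFull σ hT hS B (stFull_of_isUnit_map φ hB)
  have h1 := isUnit_phi_of_stFull σ hT hS A hA
  have h2 : A.map (σ.toSyl hT).phi = (A.map φ).map χ := by rw [← hχ]; rfl
  rw [h2] at h1
  by_contra hn
  -- a nonzero row vector killed by `A.map φ`
  have h3 : ∃ v : Fin m → D, v ≠ 0 ∧ v ᵥ* (A.map φ) = 0 := by
    by_contra hc
    push Not at hc
    apply hn
    have hinj : Function.Injective (vecMulLinear (A.map φ)) := by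
      rw [← LinearMap.ker_eq_bot, LinearMap.ker_eq_bot']
      intro v hv
      by_contra hv0
      exact hc v hv0 hv
    have hsurj : Function.Surjective (vecMulLinear (A.map φ)) :=
      LinearMap.surjective_of_injective hinj
    choose B hB using fun i => hsurj (Pi.single i 1)
    have hBA : Matrix.of B * A.map φ = 1 := by
      ext i j
      have := congrFun (hB i) j
      rw [Matrix.mul_apply]
      simp only [vecMulLinear_apply, Matrix.vecMul, dotProduct] at this
      rw [← Matrix.one_apply_eq i] at this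
      simpa [Matrix.one_apply, Pi.single_apply, eq_comm] using this
    exact IsUnit.of_mul_eq_one_right _ hBA
  obtain ⟨v, hv0, hv⟩ := h3
  obtain ⟨u, hu'⟩ := h1
  have h4 : (fun i => χ (v i)) ᵥ* ((A.map φ).map χ) = 0 := by
    funext j
    have := congrArg χ (congrFun hv j)
    simpa [Matrix.vecMul, dotProduct, map_sum] using this
  have h5 : (fun i => χ (v i)) = 0 := by
    have : (fun i => χ (v i)) = ((fun i => χ (v i)) ᵥ* ((A.map φ).map χ)) ᵥ* (u⁻¹).val := by
      rw [Matrix.vecMul_vecMul, ← hu', Units.mul_inv, Matrix.vecMul_one]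
    rw [this, h4, Matrix.zero_vecMul]
  apply hv0
  funext i
  have := congrFun h5 i
  exact (map_eq_zero χ).1 this

end stfull

end Crest.Agent.R181.TW
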