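import Crest.Agent.R181.TW825b
import Crest.Agent.R181.LOC773b

/-!
# Points of the levels of the tower: uniqueness, locality, twists (helper773)
-/

set_option autoImplicit false
set_option linter.unusedSectionVars false

open Matrix

namespace Crest.Agent.R181.LOC

open TW UR

section

variable {F I : Type} [Field F] [Fintype I] {n : ℕ} {d : Dat F I n}

/-- the point `(lam, W)` extends to the skew field of the level -/
def IsLoc {i : ℕ} (X : Lvl d i) {B : Type} [Ring B] (lam : F →+* B) (W : I → Vr i → B) : Prop :=
  ∃ f : X.D →+* B, (∀ c, f (algebraMap F X.D c) = lam c) ∧ ∀ l v, f (X.w l v) = W l v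

theorem step_iD {i : ℕ} {X : Lvl d i} {Y : Lvl d (i + 1)} (s : Step X Y) (c : F) :
    s.φ (iD _ _ _ _ (algebraMap F X.D c)) = algebraMap F Y.D c := by
  rw [iD_base, ← s.alg]; rfl

/-- **uniqueness** -/
theorem hom_ext {i : ℕ} {X : Lvl d i} (c : Chain d i X) {B : Type} [Ring B] {f g : X.D →+* B}
    (hF : ∀ c, f (algebraMap F X.D c) = g (algebraMap F X.D c))
    (hw : ∀ l v, f (X.w l v) = g (X.w l v)) : f = g := by
  induction c with
  | base => exact RingHom.ext hF
  | @step i X Y c s ih =>
    apply s.univ.ext
    apply hom_ext'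
    · intro x
      refine RingHom.congr_fun (ih (f := (f.comp s.φ).comp (iD _ _ _ _))
        (g := (g.comp s.φ).comp (iD _ _ _ _)) ?_ ?_) x
      · intro c
        simp only [RingHom.comp_apply, step_iD]
        exact hF c
      · intro l v
        have := hw l (some v)
        rw [← s.hw] at this
        exact this
    · intro c
      simp only [RingHom.comp_apply, s.alg]
      exact hF c
    · intro l
      have := hw l none
      rw [← s.hw] at this
      exact this

/-- restriction of a tuple to the lower level -/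
theorem tuple_restrict {i : ℕ} {B : Type} [Ring B] {lam : F →+* B} (hlam : ∀ x b, Commute (lam x) b)
    {W : I → Vr (i + 1) → B} (ht : IsTuple d.a d.th (d.Qr (i + 1)) lam W) :
    IsTuple d.a d.th (d.Qr i) lam (fun l v => W l (some v)) := by
  classical
  let X : Option (Vr i) → Vr i → F := fun v v' => match v with
    | none => 0
    | some v => if v = v' then 1 else 0
  have h := ht.subst (σ' := Vr i) (RingHom.id B) (RingHom.id F) lam lam hlam X rfl (fun _ => rfl)
  have e1 : (fun l => subL (RingHom.id F) X (d.Qr (i + 1) l)) = d.Qr i := by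
    funext l
    have h1 : ∀ t : Fin n, subL (RingHom.id F) X (vars F (i + 1) t) = vars F i t := by
      intro t
      rw [vars]
      split_ifs with ht
      · rw [vars_eq_zero F i t (by omega), subL_X]
        simp [X]
      · have h2 : ∀ p : MvPolynomial (Vr i) F,
            subL (RingHom.id F) X (MvPolynomial.rename some p) = p := by
          intro p
          induction p using MvPolynomial.induction_on with
          | C c => simp
          | add p q hp hq => rw [map_add, map_add, hp, hq]
          | mul_X p v hp =>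
            rw [map_mul, map_mul, hp, MvPolynomial.rename_X, subL_X]
            simp [X]
        exact h2 _
    have h3 : ∀ p : MvPolynomial (Fin n) F,
        subL (RingHom.id F) X (MvPolynomial.aeval (vars F (i + 1)) p) =
          MvPolynomial.aeval (vars F i) p := by
      intro p
      induction p using MvPolynomial.induction_on with
      | C c => simp
      | add p q hp hq => rw [map_add, map_add, map_add, hp, hq]
      | mul_X p v hp => rw [map_mul, map_mul, map_mul, hp, MvPolynomial.aeval_X,
          MvPolynomial.aeval_X, h1]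
    exact h3 _
  have e2 : (fun l v' => ∑ v, (RingHom.id B) (W l v) * lam (X v v')) =
      fun l v => W l (some v) := by
    funext l v'
    rw [Fintype.sum_option]
    simp [X]
  rw [e1, e2] at h
  exact h

/-- **locality**: a point over `B` extends if its image over `B'` does, for `g : B → B'` which
reflects invertibility of matrices. -/
theorem isLoc_of_LU {i : ℕ} {X : Lvl d i} (c : Chain d i X) {B B' : Type} [Ring B] [Ring B']
    (g : B →+* B') (hg : LU g) (lam : F →+* B) (hlam : ∀ x b, Commute (lam x) b)
    (W : I → Vr i → B) (ht : IsTuple d.a d.th (d.Qr i) lam W)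
    (h : IsLoc X (g.comp lam) (fun l v => g (W l v))) : IsLoc X lam W := by
  induction c with
  | base => exact ⟨lam, fun _ => rfl, fun _ v => v.elim⟩
  | @step i X Y c s ih =>
    obtain ⟨f', hf1, hf2⟩ := h
    replace hf2 : ∀ l v, f' (Y.w l v) = g (W l v) := hf2
    have ht' := tuple_restrict hlam ht
    have h2 : ∀ l v, (f'.comp (s.φ.comp (iD _ _ _ _))) (X.w l v) = g (W l (some v)) := by
      intro l v
      have h1 := s.hw l (some v)
      simp only [RingHom.comp_apply]
      rw [← hf2, ← h1]
      rfl
    have h1 : ∀ c : F, (f'.comp (s.φ.comp (iD _ _ _ _))) (algebraMap F X.D c) = g (lam c) := by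
      intro c
      simp only [RingHom.comp_apply, step_iD]
      exact hf1 c
    obtain ⟨f₀, h3, h4⟩ := ih (fun l v => W l (some v)) ht' ⟨_, h1, h2⟩
    obtain ⟨ψ, hψ1, hψ2, hψ3⟩ := exists_lift (a := d.a) (th := d.th) (Q := d.Ql i (dl F i))
      (w := X.w) f₀ lam (fun l => W l none) h3 (fun _ _ => hlam _ _) (fun _ _ => hlam _ _) (by
        rw [d.Ql_dl]
        have e : (ext' (fun i v => f₀ (X.w i v)) fun l => W l none) = W := by
          funext l v
          rcases v with _ | v
          · rfl
          · exact h4 l v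
        rw [e]
        exact ht)
    have hcomp : g.comp ψ = f'.comp s.φ := by
      apply hom_ext'
      · intro x
        have e : g.comp f₀ = f'.comp (s.φ.comp (iD _ _ _ _)) := by
          apply hom_ext c
          · intro c; rw [h1, RingHom.comp_apply, h3]
          · intro l v; rw [h2, RingHom.comp_apply, h4]
        rw [RingHom.comp_apply, hψ1]
        exact RingHom.congr_fun e x
      · intro x
        rw [RingHom.comp_apply, RingHom.comp_apply, hψ2, s.alg, hf1]
        rfl
      · intro l
        rw [RingHom.comp_apply, RingHom.comp_apply, hψ3, ← hf2, ← s.hw]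
        rfl
    obtain ⟨f, hf⟩ := s.univ.lift ψ fun m A hA => by
      apply hg
      have e : (A.map ψ).map g = (A.map s.φ).map f' := by
        have := congrArg (fun χ : X.T →+* B' => A.map χ) hcomp
        exact this
      rw [e]
      exact hA.map f'.mapMatrix
    refine ⟨f, fun c => ?_, fun l v => ?_⟩
    · rw [← s.alg, ← RingHom.comp_apply, hf, hψ2]
    · rw [← s.hw, ← RingHom.comp_apply, hf]
      rcases v with _ | v
      · exact hψ3 l
      · exact (hψ1 _).trans (h4 l v)

/-- twist data: `α` an automorphism of `F` fixing the forms, `α (th i l) = eps l ^ (- a i) th i l` -/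
structure Tw (d : Dat F I n) (α : F ≃+* F) (eps : I → F) : Prop where
  hQ : ∀ l, MvPolynomial.map (α : F →+* F) (d.Q l) = d.Q l
  hth : ∀ i l, α (d.th i l) * eps l ^ d.a i = d.th i l
  he : ∀ l, eps l ^ d.a l = 1

theorem Tw.ne {α : F ≃+* F} {eps : I → F} (h : Tw d α eps) (l : I) : eps l ≠ 0 := by
  intro h0
  have h1 := h.he l
  have h2 := d.ha l
  rw [h0, zero_pow (by omega)] at h1
  exact zero_ne_one h1

theorem Tw.symm {α : F ≃+* F} {eps : I → F} (h : Tw d α eps) :
    Tw d α.symm (fun l => (α.symm (eps l))⁻¹) where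
  hQ l := by
    conv_lhs => rw [← h.hQ l]
    rw [MvPolynomial.map_map]
    have : ((α.symm : F →+* F).comp (α : F →+* F)) = RingHom.id F := by
      ext x; simp
    rw [this, MvPolynomial.map_id]
  hth i l := by
    have h1 := congrArg α.symm (h.hth i l)
    have h2 : α.symm (eps l) ≠ 0 := by
      intro h0
      exact h.ne l ((map_eq_zero α.symm).1 h0)
    rw [map_mul, map_pow, RingEquiv.symm_apply_apply] at h1
    rw [← h1, inv_pow, mul_assoc, mul_inv_cancel₀ (pow_ne_zero _ h2), mul_one]
  he l := by rw [inv_pow, ← map_pow, h.he, map_one, inv_one]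

theorem Tw.map_Qr {α : F ≃+* F} {eps : I → F} (h : Tw d α eps) (i : ℕ) (l : I) :
    MvPolynomial.map (α : F →+* F) (d.Qr i l) = d.Qr i l := by
  have key : ∀ p : MvPolynomial (Fin n) F, MvPolynomial.map (α : F →+* F)
      (MvPolynomial.aeval (vars F i) p) =
      MvPolynomial.aeval (vars F i) (MvPolynomial.map (α : F →+* F) p) := by
    intro p
    induction p using MvPolynomial.induction_on with
    | C c => simp [MvPolynomial.algebraMap_eq]
    | add p q hp hq => simp only [map_add, hp, hq]
    | mul_X p v hp =>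
      simp only [map_mul, hp, MvPolynomial.aeval_X, MvPolynomial.map_X, map_vars]
  rw [Dat.Qr, key, h.hQ]

theorem mp_eq_map {σ : Type} {A B : Type} [CommRing A] [CommRing B] (f : A →+* B)
    (p : MvPolynomial σ A) : mp σ f p = MvPolynomial.map f p := by
  ext α
  rw [MvPolynomial.coeff_map]
  exact mp_coeff f p α

/-- the scaled tuple is a tuple for the twisted structure -/
theorem Tw.tuple {α : F ≃+* F} {eps : I → F} (h : Tw d α eps) {B : Type} [Ring B]
    {lam : F →+* B} (hlam : ∀ x b, Commute (lam x) b) {i : ℕ} {W : I → Vr i → B}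
    (ht : IsTuple d.a d.th (d.Qr i) lam W) :
    IsTuple d.a d.th (d.Qr i) (lam.comp (α : F →+* F)) (fun l v => lam (eps l) * W l v) := by
  have hc : ∀ (x : F) (y : PA B (Vr i)), Commute (cst (Vr i) (lam x)) y := by
    intro x y
    show _ * _ = _ * _
    ext β
    rw [cst_apply, AddMonoidAlgebra.coeff_single_zero_mul, AddMonoidAlgebra.coeff_mul_single_zero]
    exact hlam _ _
  constructor
  · intro l m
    rw [← cst_mul_lf, ← cst_mul_lf]
    calc _ = cst (Vr i) (lam (eps l)) * (lf (W l) * cst (Vr i) (lam (eps m))) * lf (W m) := by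
          simp only [mul_assoc]
      _ = cst (Vr i) (lam (eps l)) * cst (Vr i) (lam (eps m)) * (lf (W l) * lf (W m)) := by
          rw [← (hc (eps m) (lf (W l))).eq]; simp only [mul_assoc]
      _ = cst (Vr i) (lam (eps m)) * cst (Vr i) (lam (eps l)) * (lf (W m) * lf (W l)) := by
          rw [(hc (eps l) _).eq, ht.comm]
      _ = cst (Vr i) (lam (eps m)) * (cst (Vr i) (lam (eps l)) * lf (W m)) * lf (W l) := by
          simp only [mul_assoc]
      _ = _ := by rw [(hc (eps l) (lf (W m))).eq]; simp only [mul_assoc]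
  · intro l
    have hpow : ∀ (m : I) (k : ℕ), (lf fun v => lam (eps m) * W m v) ^ k =
        cst (Vr i) (lam (eps m ^ k)) * lf (W m) ^ k := by
      intro m k
      rw [← cst_mul_lf, (hc (eps m) (lf (W m))).mul_pow, ← map_pow, ← map_pow]
    rw [hpow, h.he, map_one, map_one, one_mul, ht.rel l]
    congr 1
    · rw [← mp_comp]
      rw [mp_eq_map, h.map_Qr]
    · refine Finset.sum_congr rfl fun m _ => ?_
      rw [hpow, ← mul_assoc, ← map_mul]
      congr 2
      simp only [RingHom.comp_apply, Algebra.algebraMap_self, RingHom.id_apply]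
      rw [← map_mul]
      congr 1
      exact (h.hth l m).symm

/-- the twist of `T_{i+1}` -/
theorem exists_twT {i : ℕ} (X : Lvl d i) {α : F ≃+* F} {eps : I → F} (h : Tw d α eps)
    (β : X.D →+* X.D) (hβ1 : ∀ c, β (algebraMap F X.D c) = algebraMap F X.D (α c))
    (hβ2 : ∀ l v, β (X.w l v) = algebraMap F X.D (eps l) * X.w l v) :
    ∃ A : X.T →+* X.T, (∀ x, A (iD _ _ _ _ x) = iD _ _ _ _ (β x)) ∧
      (∀ c, A (iL _ _ _ _ c) = iL _ _ _ _ (α c)) ∧
      ∀ l, A (eta _ _ _ _ l) = iL _ _ _ _ (eps l) * eta _ _ _ _ l := by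
  have h0 : ∀ Q', d.Ql i (dl F i) = Q' → IsTuple d.a d.th Q'
      (iL d.a d.th (d.Ql i (dl F i)) X.w) (wU d.a d.th (d.Ql i (dl F i)) X.w) := by
    intro Q' hQ'
    rw [← hQ']
    exact isTuple_wU _ _ _ _
  have h1 := h.tuple (i := i + 1) (iL_comm d.a d.th (d.Ql i (dl F i)) X.w) (h0 _ (d.Ql_dl i))
  refine exists_lift (a := d.a) (th := d.th) (Q := d.Ql i (dl F i)) (w := X.w)
    ((iD d.a d.th (d.Ql i (dl F i)) X.w).comp β)
    ((iL d.a d.th (d.Ql i (dl F i)) X.w).comp (α : F →+* F))
    (fun l => iL d.a d.th (d.Ql i (dl F i)) X.w (eps l) * eta d.a d.th (d.Ql i (dl F i)) X.w l)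
    ?_ (fun x y => iL_comm _ _ _ _ _ _) (fun x y => iL_comm _ _ _ _ _ _) ?_
  · intro c
    simp only [RingHom.comp_apply, hβ1, iD_base]
    rfl
  · rw [← d.Ql_dl] at h1
    convert h1 using 1
    funext l v
    rcases v with _ | v
    · rfl
    · show iD _ _ _ _ (β (X.w l v)) = _
      rw [hβ2, map_mul, iD_base]
      rfl

/-- **twists extend to the skew fields of the tower** -/
theorem exists_twist {i : ℕ} {X : Lvl d i} (c : Chain d i X) :
    ∀ {α : F ≃+* F} {eps : I → F}, Tw d α eps →
      ∃ β : X.D →+* X.D, (∀ c, β (algebraMap F X.D c) = algebraMap F X.D (α c)) ∧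
        ∀ l v, β (X.w l v) = algebraMap F X.D (eps l) * X.w l v := by
  induction c with
  | base => exact fun {α eps} _ => ⟨(α : F →+* F), fun _ => rfl, fun _ v => v.elim⟩
  | @step i X Y c s ih =>
    intro α eps h
    obtain ⟨β, hβ1, hβ2⟩ := ih h
    obtain ⟨β', hβ1', hβ2'⟩ := ih h.symm
    obtain ⟨A, hA1, hA2, hA3⟩ := exists_twT X h β hβ1 hβ2
    obtain ⟨A', hA1', hA2', hA3'⟩ := exists_twT X h.symm β' hβ1' hβ2'
    have hk1 : ∀ l, α ((α.symm (eps l))⁻¹) * eps l = 1 := fun l => by
      rw [map_inv₀, RingEquiv.apply_symm_apply, inv_mul_cancel₀ (h.ne l)]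
    have hk2 : ∀ l, α.symm (eps l) * (α.symm (eps l))⁻¹ = 1 := fun l =>
      mul_inv_cancel₀ (fun h0 => h.ne l ((map_eq_zero α.symm).1 h0))
    have hb1 : β.comp β' = RingHom.id _ := by
      apply hom_ext c
      · intro x; simp [hβ1, hβ1']
      · intro l v
        simp only [RingHom.comp_apply, hβ2', map_mul, hβ1, hβ2, RingHom.id_apply]
        rw [← mul_assoc, ← map_mul, hk1, map_one, one_mul]
    have hb2 : β'.comp β = RingHom.id _ := by
      apply hom_ext c
      · intro x; simp [hβ1, hβ1']
      · intro l v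
        simp only [RingHom.comp_apply, hβ2, map_mul, hβ1', hβ2', RingHom.id_apply]
        rw [← mul_assoc, ← map_mul, hk2, map_one, one_mul]
    have ha1 : A.comp A' = RingHom.id _ := by
      apply hom_ext'
      · intro x
        simp only [RingHom.comp_apply, hA1', hA1, RingHom.id_apply]
        congr 1
        exact RingHom.congr_fun hb1 x
      · intro x
        simp [hA2', hA2]
      · intro l
        simp only [RingHom.comp_apply, hA3', map_mul, hA2, hA3, RingHom.id_apply]
        rw [← mul_assoc, ← map_mul, hk1, map_one, one_mul]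
    have ha2 : A'.comp A = RingHom.id _ := by
      apply hom_ext'
      · intro x
        simp only [RingHom.comp_apply, hA1', hA1, RingHom.id_apply]
        congr 1
        exact RingHom.congr_fun hb2 x
      · intro x
        simp [hA2', hA2]
      · intro l
        simp only [RingHom.comp_apply, hA3', map_mul, hA2', hA3, RingHom.id_apply]
        rw [← mul_assoc, ← map_mul, hk2, map_one, one_mul]
    let e : X.T ≃+* X.T := RingEquiv.ofRingHom A A' ha1 ha2
    obtain ⟨γ, hγ⟩ := s.univ.lift (s.φ.comp A) fun m M hM => by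
      have h1 : StFull (T := X.T) M := stFull_of_isUnit_map s.φ hM
      exact s.full m (M.map e) (h1.map_equiv e)
    refine ⟨γ, fun x => ?_, fun l v => ?_⟩
    · rw [← s.alg, ← RingHom.comp_apply, hγ, RingHom.comp_apply, hA2, s.alg]
    · rw [← s.hw, ← RingHom.comp_apply, hγ, RingHom.comp_apply, ← s.alg, ← map_mul]
      congr 1
      rcases v with _ | v
      · exact hA3 l
      · show A (iD _ _ _ _ (X.w l v)) = _ * iD _ _ _ _ (X.w l v)
        rw [hA1, hβ2, map_mul, iD_base]
        rfl

/-- the twist as a point over `D` -/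
theorem isLoc_twist {i : ℕ} {X : Lvl d i} (c : Chain d i X) {α : F ≃+* F} {eps : I → F}
    (h : Tw d α eps) : IsLoc X ((algebraMap F X.D).comp (α : F →+* F))
      (fun l v => algebraMap F X.D (eps l) * X.w l v) := by
  obtain ⟨β, h1, h2⟩ := exists_twist c h
  exact ⟨β, h1, h2⟩

end

end Crest.Agent.R181.LOC
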