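import Crest.Agent.R181.LOC773c
import Crest.Agent.R181.RN598a

/-!
# Joint locality and the matrix models (helper773)
-/

set_option autoImplicit false
set_option linter.unusedSectionVars false

open Matrix

namespace Crest.Agent.R181.LOC

open TW UR PO

/-- a family of ring homomorphisms which jointly reflects invertibility of square matrices -/
def LUF {P : Type} {B : Type} [Ring B] {B' : P → Type} [∀ p, Ring (B' p)]
    (g : ∀ p, B →+* B' p) : Prop :=
  ∀ (n : ℕ) (A : Matrix (Fin n) (Fin n) B), (∀ p, IsUnit (A.map (g p))) → IsUnit A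

section family

variable {P B : Type} [Ring B] {B' : P → Type} [∀ p, Ring (B' p)]

theorem LUF.of_LU {B' : Type} [Ring B'] {f : B →+* B'} (h : LU f) :
    LUF (P := Unit) (fun _ => f) := fun n A hA => h n A (hA ())

theorem LUF.isUnit {g : ∀ p, B →+* B' p} (hg : LUF g) {κ : Type} [Fintype κ] [DecidableEq κ]
    (A : Matrix κ κ B) (hA : ∀ p, IsUnit (A.map (g p))) : IsUnit A := by
  let e := Fintype.equivFin κ
  have h1 : ∀ p, IsUnit ((Matrix.reindexRingEquiv B e A).map (g p)) := by
    intro p
    have := (hA p).map (Matrix.reindexRingEquiv (B' p) e)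
    have e1 : (Matrix.reindexRingEquiv B e A).map (g p) =
        Matrix.reindexRingEquiv (B' p) e (A.map (g p)) := by
      ext i j; rfl
    rw [e1]; exact this
  exact (MulEquiv.isUnit_map (Matrix.reindexRingEquiv B e)).1 (hg _ _ h1)

/-- a matrix over a matrix ring as a matrix -/
theorem isUnit_compRingEquiv {κ κ' : Type} [Fintype κ] [DecidableEq κ] [Fintype κ'] [DecidableEq κ']
    (A : Matrix κ κ (Matrix κ' κ' B)) : IsUnit A ↔ IsUnit (Matrix.compRingEquiv κ κ' B A) :=
  (MulEquiv.isUnit_map (Matrix.compRingEquiv κ κ' B)).symm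

theorem LUF.mapMatrix {g : ∀ p, B →+* B' p} (hg : LUF g) (κ : Type) [Fintype κ] [DecidableEq κ] :
    LUF (fun p => ((g p).mapMatrix : Matrix κ κ B →+* Matrix κ κ (B' p))) := by
  intro n A hA
  rw [isUnit_compRingEquiv]
  apply hg.isUnit
  intro p
  have h1 := hA p
  rw [isUnit_compRingEquiv] at h1
  exact h1

variable {I ι : Type} [DecidableEq I] (a : I → ℕ)

theorem LUF.rg (Ls : List (Stp I ι)) : ∀ {P : Type} {B : Type} [Ring B] {B' : P → Type}
    [∀ p, Ring (B' p)] {g : ∀ p, B →+* B' p} (_ : LUF g),
    LUF (fun p => Rg.map a Ls (g p)) := by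
  induction Ls with
  | nil => intro P B _ B' _ g hg; exact hg
  | cons s Ls ih =>
    intro P B _ B' _ g hg
    exact ih (B := Matrix (Sz a s) (Sz a s) B) (B' := fun p => Matrix (Sz a s) (Sz a s) (B' p))
      (g := fun p => (g p).mapMatrix) (hg.mapMatrix (Sz a s))

theorem LU.rg {B B' : Type} [Ring B] [Ring B'] {f : B →+* B'} (h : LU f) (Ls : List (Stp I ι)) :
    LU (Rg.map a Ls f) := fun n A hA => LUF.rg a Ls (LUF.of_LU h) n A (fun _ => hA)

end family

section loc

variable {F I : Type} [Field F] [Fintype I] {n : ℕ} {d : Dat F I n}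

/-- **joint locality** -/
theorem isLoc_of_LUF {i : ℕ} {X : Lvl d i} (c : Chain d i X) {P B : Type} [Ring B] {B' : P → Type}
    [∀ p, Ring (B' p)] (g : ∀ p, B →+* B' p) (hg : LUF g) (lam : F →+* B)
    (hlam : ∀ x b, Commute (lam x) b)
    (W : I → Vr i → B) (ht : IsTuple d.a d.th (d.Qr i) lam W)
    (h : ∀ p, IsLoc X ((g p).comp lam) (fun l v => g p (W l v))) : IsLoc X lam W := by
  induction c with
  | base => exact ⟨lam, fun _ => rfl, fun _ v => v.elim⟩
  | @step i X Y c s ih =>
    choose f' hf1 hf2 using h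
    replace hf2 : ∀ p l v, f' p (Y.w l v) = g p (W l v) := hf2
    have ht' := tuple_restrict hlam ht
    have h2 : ∀ p l v, ((f' p).comp (s.φ.comp (iD _ _ _ _))) (X.w l v) = g p (W l (some v)) := by
      intro p l v
      have h1 := s.hw l (some v)
      simp only [RingHom.comp_apply]
      rw [← hf2, ← h1]
      rfl
    have h1 : ∀ p (c : F), ((f' p).comp (s.φ.comp (iD _ _ _ _))) (algebraMap F X.D c) =
        g p (lam c) := by
      intro p c
      simp only [RingHom.comp_apply, step_iD]
      exact hf1 p c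
    obtain ⟨f₀, h3, h4⟩ := ih (fun l v => W l (some v)) ht' (fun p => ⟨_, h1 p, h2 p⟩)
    obtain ⟨ψ, hψ1, hψ2, hψ3⟩ := exists_lift (a := d.a) (th := d.th) (Q := d.Ql i (dl F i))
      (w := X.w) f₀ lam (fun l => W l none) h3 (fun _ _ => hlam _ _) (fun _ _ => hlam _ _) (by
        rw [d.Ql_dl]
        have e : (ext' (fun i v => f₀ (X.w i v)) fun l => W l none) = W := by
          funext l v
          rcases v with _ | v
          · rfl
          · exact h4 l v
        rw [e]
        exact ht)
    have hcomp : ∀ p, (g p).comp ψ = (f' p).comp s.φ := by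
      intro p
      apply hom_ext'
      · intro x
        have e : (g p).comp f₀ = (f' p).comp (s.φ.comp (iD _ _ _ _)) := by
          apply hom_ext c
          · intro c; rw [h1, RingHom.comp_apply, h3]
          · intro l v; rw [h2, RingHom.comp_apply, h4]
        rw [RingHom.comp_apply, hψ1]
        exact RingHom.congr_fun e x
      · intro x
        rw [RingHom.comp_apply, RingHom.comp_apply, hψ2, s.alg, hf1]
        rfl
      · intro l
        rw [RingHom.comp_apply, RingHom.comp_apply, hψ3, ← hf2, ← s.hw]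
        rfl
    obtain ⟨f, hf⟩ := s.univ.lift ψ fun m A hA => by
      apply hg
      intro p
      have e : (A.map ψ).map (g p) = (A.map s.φ).map (f' p) := by
        have := congrArg (fun χ : X.T →+* B' p => A.map χ) (hcomp p)
        exact this
      rw [e]
      exact hA.map (f' p).mapMatrix
    refine ⟨f, fun c => ?_, fun l v => ?_⟩
    · rw [← s.alg, ← RingHom.comp_apply, hf, hψ2]
    · rw [← s.hw, ← RingHom.comp_apply, hf]
      rcases v with _ | v
      · exact hψ3 l
      · exact (hψ1 _).trans (h4 l v)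

theorem IsLoc.map {i : ℕ} {X : Lvl d i} {B B' : Type} [Ring B] [Ring B'] {lam : F →+* B}
    {W : I → Vr i → B} (h : IsLoc X lam W) (g : B →+* B') :
    IsLoc X (g.comp lam) (fun l v => g (W l v)) := by
  obtain ⟨f, h1, h2⟩ := h
  exact ⟨g.comp f, fun c => congrArg g (h1 c), fun l v => congrArg g (h2 l v)⟩

end loc

section upper

variable (n : ℕ) (B : Type) [Ring B]

/-- upper triangular matrices -/
def UTr : Subring (Matrix (Fin n) (Fin n) B) where
  carrier := {M | ∀ i j, j < i → M i j = 0}
  mul_mem' := by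
    intro M N hM hN i j hij
    rw [Matrix.mul_apply]
    refine Finset.sum_eq_zero fun k _ => ?_
    rcases lt_or_ge k i with h | h
    · rw [hM i k h, zero_mul]
    · rw [hN k j (lt_of_lt_of_le hij h), mul_zero]
  one_mem' := fun i j hij => Matrix.one_apply_ne hij.ne'
  add_mem' := by
    intro M N hM hN i j hij
    rw [Matrix.add_apply, hM i j hij, hN i j hij, add_zero]
  zero_mem' := fun i j _ => rfl
  neg_mem' := by
    intro M hM i j hij
    rw [Matrix.neg_apply, hM i j hij, neg_zero]

variable {n B}

/-- the diagonal entries -/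
def dg (p : Fin n) : UTr n B →+* B where
  toFun M := (M : Matrix (Fin n) (Fin n) B) p p
  map_one' := Matrix.one_apply_eq p
  map_zero' := rfl
  map_add' _ _ := rfl
  map_mul' M N := by
    show ((M : Matrix (Fin n) (Fin n) B) * (N : Matrix (Fin n) (Fin n) B)) p p = _
    rw [Matrix.mul_apply, Finset.sum_eq_single p]
    · intro k _ hk
      rcases lt_or_gt_of_ne hk with h | h
      · rw [M.2 p k h, zero_mul]
      · rw [N.2 k p h, mul_zero]
    · simp

/-- all diagonal entries -/
def dgs : UTr n B →+* (Fin n → B) := RingHom.pi dg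

theorem isNilpotent_of_dgs (x : UTr n B) (hx : dgs x = 0) : IsNilpotent x := by
  have h0 : ∀ i j : Fin n, j ≤ i → (x : Matrix (Fin n) (Fin n) B) i j = 0 := by
    intro i j hij
    rcases hij.lt_or_eq with h | h
    · exact x.2 i j h
    · rw [h]; exact congrFun hx i
  have key : ∀ k : ℕ, ∀ i j : Fin n, (j : ℕ) < i + k →
      ((x ^ k : UTr n B) : Matrix (Fin n) (Fin n) B) i j = 0 := by
    intro k
    induction k with
    | zero =>
      intro i j hij
      exact Matrix.one_apply_ne (by rintro rfl; omega)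
    | succ k ih =>
      intro i j hij
      rw [pow_succ]
      show ((x ^ k : UTr n B) * x : Matrix (Fin n) (Fin n) B) i j = 0
      rw [Matrix.mul_apply]
      refine Finset.sum_eq_zero fun m _ => ?_
      by_cases hm : (m : ℕ) < i + k
      · rw [ih i m hm, zero_mul]
      · rw [h0 m j (by rw [Fin.le_def]; omega), mul_zero]
  refine ⟨n, Subtype.ext ?_⟩
  ext i j
  exact key n i j (by omega)

theorem dgs_surjective : Function.Surjective (dgs : UTr n B →+* (Fin n → B)) := by
  intro v
  refine ⟨⟨Matrix.diagonal v, fun i j hij => Matrix.diagonal_apply_ne _ hij.ne'⟩, ?_⟩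
  funext p
  exact Matrix.diagonal_apply_eq _ _

theorem isUnit_pi {m : ℕ} {P : Type} (A : Matrix (Fin m) (Fin m) (P → B))
    (hA : ∀ p, IsUnit (A.map fun x => x p)) : IsUnit A := by
  choose u hu using hA
  let V : Matrix (Fin m) (Fin m) (P → B) := Matrix.of fun i j p => ((u p)⁻¹).val i j
  have hone : ∀ i j p, (1 : Matrix (Fin m) (Fin m) (P → B)) i j p =
      (1 : Matrix (Fin m) (Fin m) B) i j := by
    intro i j p
    rw [Matrix.one_apply, Matrix.one_apply]; split_ifs <;> rfl
  have h1 : A * V = 1 := by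
    ext i j p
    have h1 := congrFun (congrFun (u p).mul_inv i) j
    rw [hu p, Matrix.mul_apply] at h1
    rw [Matrix.mul_apply, Finset.sum_apply, hone, ← h1]
    rfl
  have h2 : V * A = 1 := by
    ext i j p
    have h1 := congrFun (congrFun (u p).inv_mul i) j
    rw [hu p, Matrix.mul_apply] at h1
    rw [Matrix.mul_apply, Finset.sum_apply, hone, ← h1]
    rfl
  exact ⟨⟨A, V, h1, h2⟩, rfl⟩

theorem LU_dgs : LU (dgs : UTr n B →+* (Fin n → B)) :=
  LU.of_nil dgs_surjective (fun x hx => isNilpotent_of_dgs x hx)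

theorem LUF_dg : LUF (P := Fin n) (fun p => (dg p : UTr n B →+* B)) := by
  intro m A hA
  apply LU_dgs m A
  apply isUnit_pi
  intro p
  have e : (A.map (dgs : UTr n B →+* (Fin n → B))).map (fun x => x p) =
      A.map (dg p : UTr n B →+* B) := rfl
  rw [e]
  exact hA p

end upper

end Crest.Agent.R181.LOC
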