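import Mathlib

/-!
# R181, block (I4) of #11789, part a: moments of Laurent polynomials

`mom p f = ∑ f_w p(w)`; a Laurent polynomial in `(single s 1 - 1)^c • A + augI^N` is killed by
every function `p` on the exponent lattice which is polynomial of degree `< N` and polynomial of
degree `< c` in the direction `s`.
-/

set_option linter.unusedSectionVars false

namespace Crest.Agent.R181.LP

open Finset AddMonoidAlgebra

noncomputable section

variable {R : Type*} [CommRing R] {Λ : Type*} [AddCommGroup Λ]

/-! ## Moments -/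

/-- the moment of a Laurent polynomial against a function on the exponent lattice -/
def mom (p : Λ → R) : AddMonoidAlgebra R Λ →ₗ[R] R :=
  (Finsupp.linearCombination R p) ∘ₗ (coeffLinearEquiv R).toLinearMap

theorem mom_apply (p : Λ → R) (f : AddMonoidAlgebra R Λ) :
    mom p f = f.coeff.sum fun w x => x * p w := rfl

theorem mom_eq_sum (p : Λ → R) (f : AddMonoidAlgebra R Λ) {s : Finset Λ}
    (hs : f.coeff.support ⊆ s) : mom p f = ∑ w ∈ s, f.coeff w * p w := by
  rw [mom_apply, Finsupp.sum_of_support_subset _ hs]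
  intros; simp

@[simp] theorem mom_single (p : Λ → R) (w : Λ) (x : R) : mom p (single w x) = x * p w := by
  rw [mom_apply]; simp

@[simp] theorem mom_one (p : Λ → R) : mom p (1 : AddMonoidAlgebra R Λ) = p 0 := by
  rw [AddMonoidAlgebra.one_def, mom_single, one_mul]

theorem mom_single_mul (p : Λ → R) (v : Λ) (f : AddMonoidAlgebra R Λ) :
    mom p (single v 1 * f) = mom (fun w => p (v + w)) f := by
  induction f using AddMonoidAlgebra.induction_linear with
  | zero => simp
  | add f g hf hg => rw [mul_add, map_add, map_add, hf, hg]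
  | single w x => simp

theorem mom_add_left (p q : Λ → R) (f : AddMonoidAlgebra R Λ) :
    mom (p + q) f = mom p f + mom q f := by
  simp only [mom_apply, Finsupp.sum, ← sum_add_distrib, Pi.add_apply, mul_add]

theorem mom_sub_left (p q : Λ → R) (f : AddMonoidAlgebra R Λ) :
    mom (fun w => p w - q w) f = mom p f - mom q f := by
  simp only [mom_apply, Finsupp.sum, ← sum_sub_distrib, mul_sub]

theorem mom_smul_left (a : R) (p : Λ → R) (f : AddMonoidAlgebra R Λ) :
    mom (fun w => a * p w) f = a * mom p f := by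
  simp only [mom_apply, Finsupp.sum, mul_sum]
  exact sum_congr rfl fun w _ => by ring

theorem mom_zero_left (f : AddMonoidAlgebra R Λ) : mom (0 : Λ → R) f = 0 := by
  simp [mom_apply, Finsupp.sum]

theorem mom_sum_left {ι : Type*} (s : Finset ι) (p : ι → Λ → R) (f : AddMonoidAlgebra R Λ) :
    mom (fun w => ∑ i ∈ s, p i w) f = ∑ i ∈ s, mom (p i) f := by
  classical
  simp only [mom_apply, Finsupp.sum, mul_sum]
  rw [sum_comm]

theorem mom_congr {p q : Λ → R} {f : AddMonoidAlgebra R Λ}
    (h : ∀ w ∈ f.coeff.support, p w = q w) : mom p f = mom q f := by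
  simp only [mom_apply, Finsupp.sum]
  exact sum_congr rfl fun w hw => by rw [h w hw]

theorem mom_single_sub_one_mul (p : Λ → R) (v : Λ) (f : AddMonoidAlgebra R Λ) :
    mom p ((single v 1 - 1) * f) = mom (fun w => p (v + w) - p w) f := by
  rw [sub_mul, one_mul, map_sub, mom_single_mul, mom_sub_left]

/-! ## Polynomial functions -/

/-- `PolyOn S n p`: all `n`-fold differences of `p` in directions of `S` vanish
("degree `< n`"). -/
def PolyOn (S : Set Λ) : ℕ → (Λ → R) → Prop
  | 0, p => p = 0
  | n + 1, p => ∀ v ∈ S, PolyOn S n (fun w => p (v + w) - p w)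

theorem polyOn_zero_iff {S : Set Λ} {p : Λ → R} : PolyOn S 0 p ↔ p = 0 := Iff.rfl

theorem polyOn_succ_iff {S : Set Λ} {n : ℕ} {p : Λ → R} :
    PolyOn S (n + 1) p ↔ ∀ v ∈ S, PolyOn S n (fun w => p (v + w) - p w) := Iff.rfl

theorem polyOn_zero (S : Set Λ) (n : ℕ) : PolyOn S n (0 : Λ → R) := by
  induction n with
  | zero => rfl
  | succ n ih =>
    intro v _
    have : (fun w : Λ => (0 : Λ → R) (v + w) - (0 : Λ → R) w) = 0 := by ext; simp
    rw [this]; exact ih

theorem PolyOn.add {S : Set Λ} {n : ℕ} : ∀ {p q : Λ → R}, PolyOn S n p → PolyOn S n q →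
    PolyOn S n (p + q) := by
  induction n with
  | zero => intro p q hp hq; rw [polyOn_zero_iff] at *; rw [hp, hq, add_zero]
  | succ n ih =>
    intro p q hp hq v hv
    have : (fun w : Λ => (p + q) (v + w) - (p + q) w) =
        (fun w => p (v + w) - p w) + (fun w => q (v + w) - q w) := by
      ext w; simp only [Pi.add_apply]; ring
    rw [this]
    exact ih (hp v hv) (hq v hv)

theorem PolyOn.smul {S : Set Λ} {n : ℕ} (a : R) : ∀ {p : Λ → R}, PolyOn S n p →
    PolyOn S n (fun w => a * p w) := by
  induction n with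
  | zero => intro p hp; rw [polyOn_zero_iff] at *; ext; simp [hp]
  | succ n ih =>
    intro p hp v hv
    have : (fun w : Λ => a * p (v + w) - a * p w) = (fun w => a * (p (v + w) - p w)) := by
      ext w; ring
    rw [this]
    exact ih (hp v hv)

theorem PolyOn.sub {S : Set Λ} {n : ℕ} {p q : Λ → R} (hp : PolyOn S n p) (hq : PolyOn S n q) :
    PolyOn S n (p - q) := by
  have := hp.add (hq.smul (-1))
  convert this using 1
  ext w; simp [sub_eq_add_neg]

theorem PolyOn.succ {S : Set Λ} {n : ℕ} : ∀ {p : Λ → R}, PolyOn S n p → PolyOn S (n + 1) p := by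
  induction n with
  | zero => intro p hp; rw [polyOn_zero_iff] at hp; rw [hp]; exact polyOn_zero _ _
  | succ n ih => intro p hp v hv; exact ih (hp v hv)

theorem PolyOn.mono {S : Set Λ} {n n' : ℕ} (h : n ≤ n') {p : Λ → R} (hp : PolyOn S n p) :
    PolyOn S n' p := by
  induction h with
  | refl => exact hp
  | step _ ih => exact ih.succ

theorem PolyOn.mul {S : Set Λ} : ∀ {k n m : ℕ} {p q : Λ → R}, PolyOn S n p → PolyOn S m q →
    n + m ≤ k + 1 → PolyOn S k (p * q) := by
  intro k
  induction k with
  | zero =>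
    intro n m p q hp hq h
    have : n = 0 ∨ m = 0 := by omega
    rcases this with rfl | rfl
    · rw [polyOn_zero_iff] at hp; rw [hp, zero_mul]; rfl
    · rw [polyOn_zero_iff] at hq; rw [hq, mul_zero]; rfl
  | succ k ih =>
    intro n m p q hp hq h
    rcases n with _ | n
    · rw [polyOn_zero_iff] at hp; rw [hp, zero_mul]; exact polyOn_zero _ _
    rcases m with _ | m
    · rw [polyOn_zero_iff] at hq; rw [hq, mul_zero]; exact polyOn_zero _ _
    intro v hv
    have e : (fun w : Λ => (p * q) (v + w) - (p * q) w) =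
        (fun w => p (v + w) - p w) * q + p * (fun w => q (v + w) - q w) +
          (fun w => p (v + w) - p w) * (fun w => q (v + w) - q w) := by
      ext w; simp only [Pi.add_apply, Pi.mul_apply]; ring
    rw [e]
    refine PolyOn.add (PolyOn.add ?_ ?_) ?_
    · exact ih (hp v hv) hq (by omega)
    · exact ih hp (hq v hv) (by omega)
    · exact ih (hp v hv) (hq v hv) (by omega)

theorem polyOn_const (S : Set Λ) (a : R) : PolyOn S 1 (fun _ : Λ => a) := by
  intro v _; rw [polyOn_zero_iff]; ext; simp

theorem polyOn_addHom (S : Set Λ) (φ : Λ →+ ℤ) : PolyOn S 2 (fun w : Λ => ((φ w : ℤ) : R)) := by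
  intro v _ v' _
  rw [polyOn_zero_iff]; ext; simp

theorem polyOn_addHom_of_eq_zero {S : Set Λ} (φ : Λ →+ ℤ) (h : ∀ v ∈ S, φ v = 0) :
    PolyOn S 1 (fun w : Λ => ((φ w : ℤ) : R)) := by
  intro v hv
  rw [polyOn_zero_iff]; ext; simp [h v hv]

theorem polyOn_pow {S : Set Λ} {e : ℕ} {p : Λ → R} (hp : PolyOn S (e + 1) p) (n : ℕ) :
    PolyOn S (e * n + 1) (p ^ n) := by
  induction n with
  | zero => rw [pow_zero]; exact polyOn_const S 1
  | succ n ih =>
    rw [pow_succ]
    exact ih.mul hp (by ring_nf; omega)

theorem polyOn_prod {S : Set Λ} {ι : Type*} (s : Finset ι) (e : ℕ) (p : ι → Λ → R)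
    (hp : ∀ i ∈ s, PolyOn S (e + 1) (p i)) : PolyOn S (e * s.card + 1) (∏ i ∈ s, p i) := by
  classical
  induction s using Finset.induction_on with
  | empty => simp only [prod_empty]; exact polyOn_const S 1
  | insert i s hi ih =>
    rw [prod_insert hi, card_insert_of_notMem hi]
    refine (hp i (mem_insert_self _ _)).mul (ih fun j hj => hp j (mem_insert_of_mem hj)) ?_
    ring_nf; omega

/-- a polynomial `P` of degree `≤ n` in a function of degree `≤ 1` has degree `≤ n` -/
theorem polyOn_eval {S : Set Λ} {p : Λ → R} (hp : PolyOn S 2 p) (P : Polynomial R) {n : ℕ}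
    (hP : P.natDegree ≤ n) : PolyOn S (n + 1) (fun w => P.eval (p w)) := by
  have e : (fun w => P.eval (p w)) = ∑ i ∈ range (n + 1), (fun w => P.coeff i * (p ^ i) w) := by
    ext w
    rw [Finset.sum_apply, Polynomial.eval_eq_sum_range' (Nat.lt_succ_of_le hP)]
    rfl
  rw [e]
  refine Finset.sum_induction _ (PolyOn S (n + 1)) (fun _ _ => PolyOn.add)
    (polyOn_zero _ _) fun i hi => ?_
  refine (PolyOn.smul _ (polyOn_pow (e := 1) hp i)).mono ?_
  have := mem_range.1 hi
  omega

/-! ## Ideals -/

variable (R Λ) in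
/-- the augmentation ideal -/
def augI : Ideal (AddMonoidAlgebra R Λ) :=
  Ideal.span (Set.range fun v : Λ => (single v 1 - 1 : AddMonoidAlgebra R Λ))

theorem single_sub_one_mem (v : Λ) : (single v 1 - 1 : AddMonoidAlgebra R Λ) ∈ augI R Λ :=
  Ideal.subset_span ⟨v, rfl⟩

theorem one_sub_single_mem (v : Λ) : (1 - single v 1 : AddMonoidAlgebra R Λ) ∈ augI R Λ := by
  rw [← neg_sub]; exact neg_mem (single_sub_one_mem v)

/-- `augI` is the kernel of the augmentation -/
theorem mem_augI_iff {f : AddMonoidAlgebra R Λ} : f ∈ augI R Λ ↔ mom (fun _ => 1) f = 0 := by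
  constructor
  · intro h
    refine Submodule.span_induction (p := fun f _ => mom (fun _ => (1 : R)) f = 0) ?_ ?_ ?_ ?_ h
    · rintro _ ⟨v, rfl⟩; simp
    · simp
    · intro x y _ _ hx hy; rw [map_add, hx, hy, add_zero]
    · intro a x hx hx'
      -- need: the augmentation is multiplicative
      rw [smul_eq_mul]
      induction a using AddMonoidAlgebra.induction_linear with
      | zero => simp
      | add f g hf hg => rw [add_mul, map_add, hf, hg, add_zero]
      | single w y =>
        have : (single w y : AddMonoidAlgebra R Λ) = y • single w 1 := by simp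
        rw [this, smul_mul_assoc, map_smul, mom_single_mul]
        rw [hx', smul_zero]
  · intro h
    have key : ∀ f : AddMonoidAlgebra R Λ,
        f - single 0 (mom (fun _ => (1 : R)) f) ∈ augI R Λ := by
      intro f
      induction f using AddMonoidAlgebra.induction_linear with
      | zero => simp
      | add f g hf hg =>
        have := add_mem hf hg
        convert this using 1
        rw [map_add, single_add]; ring
      | single w y =>
        have : (single w y - single 0 (mom (fun _ => (1 : R)) (single w y)) :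
            AddMonoidAlgebra R Λ) = y • (single w 1 - 1) := by
          rw [mom_single, mul_one, smul_sub, AddMonoidAlgebra.one_def]; simp
        rw [this]
        exact Submodule.smul_of_tower_mem _ y (single_sub_one_mem w)
    have := key f
    rwa [h, single_zero, sub_zero] at this

theorem mom_eq_zero_of_mem_pow {N : ℕ} : ∀ {f : AddMonoidAlgebra R Λ} {p : Λ → R},
    f ∈ augI R Λ ^ N → PolyOn Set.univ N p → mom p f = 0 := by
  induction N with
  | zero => intro f p _ hp; rw [polyOn_zero_iff] at hp; rw [hp, mom_zero_left]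
  | succ N ih =>
    intro f p hf hp
    rw [pow_succ'] at hf
    refine Submodule.mul_induction_on hf ?_ ?_
    · intro x hx h hh
      refine Submodule.span_induction
        (p := fun x _ => ∀ h ∈ augI R Λ ^ N, mom p (x * h) = 0) ?_ ?_ ?_ ?_ hx h hh
      · rintro _ ⟨v, rfl⟩ h hh
        rw [mom_single_sub_one_mul]
        exact ih hh (hp v (Set.mem_univ v))
      · intro h _; simp
      · intro x y _ _ hx hy h hh
        rw [add_mul, map_add, hx h hh, hy h hh, add_zero]
      · intro a x _ hx h hh
        have : a • x * h = x * (a * h) := by rw [smul_eq_mul]; ring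
        rw [this]
        exact hx _ (Ideal.mul_mem_left _ a hh)
    · intro x y hx hy
      rw [map_add, hx, hy, add_zero]

theorem mom_eq_zero_of_dvd {s : Λ} {c : ℕ} : ∀ {f : AddMonoidAlgebra R Λ} {p : Λ → R},
    PolyOn {s} c p → mom p ((single s 1 - 1) ^ c * f) = 0 := by
  induction c with
  | zero => intro f p hp; rw [polyOn_zero_iff] at hp; rw [hp, mom_zero_left]
  | succ c ih =>
    intro f p hp
    rw [pow_succ', mul_assoc, mom_single_sub_one_mul]
    exact ih (hp s rfl)

variable (R) in
/-- the ideal `(s - 1)^c A + augI^N` -/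
def starI (s : Λ) (c N : ℕ) : Ideal (AddMonoidAlgebra R Λ) :=
  Ideal.span {(single s 1 - 1) ^ c} ⊔ augI R Λ ^ N

theorem mom_eq_zero_of_mem_starI {s : Λ} {c N : ℕ} {f : AddMonoidAlgebra R Λ} {p : Λ → R}
    (hf : f ∈ starI R s c N) (h1 : PolyOn Set.univ N p) (h2 : PolyOn {s} c p) :
    mom p f = 0 := by
  obtain ⟨x, hx, y, hy, rfl⟩ := Submodule.mem_sup.1 hf
  obtain ⟨z, rfl⟩ := Ideal.mem_span_singleton'.1 hx
  rw [map_add, mom_eq_zero_of_mem_pow hy h1, mul_comm z, mom_eq_zero_of_dvd h2, add_zero]

end

end Crest.Agent.R181.LP
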