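import Crest.Agent.R181.LP963a

/-!
# R181, block (I4) of #11789, part b: the arithmetic of the index theorem

`index_theorem`: `g = ∑ G_j` Laurent polynomial with integer coefficients divisible by `δ`,
every class part `G_j ∈ (s-1)^c A + augI^(c+m+1)`, `g = r (1-s)^c` mod `augI^(c+1)`, weights of
degree `κ` in every block, symmetric under the rotations of the blocks: then
`a^m δ ∣ κ^m r`.
-/

set_option linter.unusedSectionVars false

namespace Crest.Agent.R181.LP

open Finset AddMonoidAlgebra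

noncomputable section

variable {Λ : Type*} [AddCommGroup Λ]

/-- base change of coefficients -/
def toQ : AddMonoidAlgebra ℤ Λ →+* AddMonoidAlgebra ℚ Λ :=
  mapRingHom Λ (Int.castRingHom ℚ)

@[simp] theorem coeff_toQ (f : AddMonoidAlgebra ℤ Λ) (w : Λ) :
    (toQ f).coeff w = (f.coeff w : ℚ) := by
  simp [toQ, coeff_mapRingHom]

@[simp] theorem toQ_single (w : Λ) (x : ℤ) :
    toQ (single w x) = single w (x : ℚ) := by
  simp [toQ]

theorem mom_toQ (p : Λ → ℤ) (f : AddMonoidAlgebra ℤ Λ) :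
    mom (fun w => ((p w : ℤ) : ℚ)) (toQ f) = ((mom p f : ℤ) : ℚ) := by
  induction f using AddMonoidAlgebra.induction_linear with
  | zero => simp
  | add f g hf hg => rw [map_add, map_add, map_add, hf, hg, Int.cast_add]
  | single w x => rw [toQ_single, mom_single, mom_single, Int.cast_mul]

theorem toQ_injective : Function.Injective (toQ : AddMonoidAlgebra ℤ Λ → _) := by
  intro f g h
  apply coeff_injective
  ext w
  have := congrArg (fun x => x.coeff w) h
  simp only [coeff_toQ] at this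
  exact_mod_cast this

/-! ## comparison of two products of functions with the same slope along `s` -/

theorem polyOn_prod_range {S : Set Λ} {R : Type*} [CommRing R] (y : ℕ → Λ → R)
    (hy : ∀ l, PolyOn S 2 (y l)) (c : ℕ) :
    PolyOn S (c + 1) (fun w => ∏ l ∈ range c, y l w) := by
  have h := polyOn_prod (range c) 1 y fun i _ => hy i
  rw [card_range, one_mul] at h
  convert h using 1
  ext w; rw [Finset.prod_apply]

theorem polyOn_prod_sub_prod {S : Set Λ} {R : Type*} [CommRing R] (y y' : ℕ → Λ → R)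
    (hy : ∀ l, PolyOn S 2 (y l)) (hy' : ∀ l, PolyOn S 2 (y' l))
    (h : ∀ l, PolyOn S 1 (y l - y' l)) (c : ℕ) :
    PolyOn S c (fun w => ∏ l ∈ range c, y l w - ∏ l ∈ range c, y' l w) := by
  induction c with
  | zero => rw [polyOn_zero_iff]; ext; simp
  | succ c ih =>
    have e : (fun w => ∏ l ∈ range (c + 1), y l w - ∏ l ∈ range (c + 1), y' l w) =
        (fun w => ∏ l ∈ range c, y l w - ∏ l ∈ range c, y' l w) * y c +
          (fun w => ∏ l ∈ range c, y' l w) * (y c - y' c) := by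
      ext w
      simp only [prod_range_succ, Pi.add_apply, Pi.mul_apply, Pi.sub_apply]
      ring
    rw [e]
    exact (ih.mul (hy c) (by omega)).add
      ((polyOn_prod_range y' hy' c).mul (h c) (by omega))

/-! ## the normalising constant -/

theorem mom_desc_pow (R : Type*) [CommRing R] (u : Λ →+ ℤ) (s : Λ) (A : ℤ) (hu : u s = A)
    (c : ℕ) :
    mom (fun w => ∏ l ∈ range c, (((u w - A * l : ℤ)) : R))
      ((single s 1 - 1 : AddMonoidAlgebra R Λ) ^ c) = (c.factorial : R) * (A : R) ^ c := by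
  induction c with
  | zero => simp
  | succ c ih =>
    rw [pow_succ', mom_single_sub_one_mul]
    have e : (fun w => ∏ l ∈ range (c + 1), (((u (s + w) - A * (l : ℕ) : ℤ)) : R) -
        ∏ l ∈ range (c + 1), (((u w - A * (l : ℕ) : ℤ)) : R)) =
        (fun w => (((c + 1 : ℕ) : R) * (A : R)) *
          ∏ l ∈ range c, (((u w - A * (l : ℕ) : ℤ)) : R)) := by
      ext w
      rw [prod_range_succ', prod_range_succ]
      have e2 : ∀ l ∈ range c, (((u (s + w) - A * ((l + 1 : ℕ) : ℤ) : ℤ)) : R) =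
          (((u w - A * (l : ℕ) : ℤ)) : R) := by
        intro l _
        rw [map_add, hu]; push_cast; ring
      rw [prod_congr rfl e2, map_add, hu]
      push_cast
      ring
    rw [e, mom_smul_left, ih, Nat.factorial_succ]
    push_cast
    ring

theorem mom_pow_single_sub_one (R : Type*) [CommRing R] (u : Λ →+ ℤ) (s : Λ) (A : ℤ)
    (hu : u s = A) (c : ℕ) :
    mom (fun w => (((u w : ℤ)) : R) ^ c)
      ((single s 1 - 1 : AddMonoidAlgebra R Λ) ^ c) = (c.factorial : R) * (A : R) ^ c := by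
  rw [← mom_desc_pow R u s A hu c, ← sub_eq_zero, ← mom_sub_left]
  have h := polyOn_prod_sub_prod (S := {s}) (R := R) (fun _ w => ((u w : ℤ) : R))
    (fun l w => (((u w - A * (l : ℕ) : ℤ)) : R)) (fun l => polyOn_addHom _ u) ?_ ?_ c
  · have h2 := mom_eq_zero_of_dvd (f := (1 : AddMonoidAlgebra R Λ)) h
    rw [mul_one] at h2
    rw [← h2]
    refine congrArg (fun p => mom p _) (funext fun w => ?_)
    simp only [prod_const, card_range]
  · intro l
    have e : (fun w => (((u w - A * (l : ℕ) : ℤ)) : R)) =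
        (fun w => ((u w : ℤ) : R)) - fun _ => ((A * (l : ℕ) : ℤ) : R) := by
      ext w; simp
    rw [e]
    exact (polyOn_addHom _ u).sub ((polyOn_const _ _).succ)
  · intro l
    have e : ((fun w => ((u w : ℤ) : R)) - (fun w => (((u w - A * (l : ℕ) : ℤ)) : R)) :
        Λ → R) = fun _ => ((A * (l : ℕ) : ℤ) : R) := by
      ext w; simp
    rw [e]
    exact polyOn_const _ _

/-! ## integrality of the mixed moments of one class part -/

theorem dvd_moment {K : Type*} [Fintype K] (x : K → Λ →+ ℤ) (u v : Λ →+ ℤ) (s : Λ) (A : ℤ)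
    (hxs : ∀ k, x k s = 0) (hus : u s = A) (hvs : v s = A) (c : ℕ)
    (G : AddMonoidAlgebra ℤ Λ) (hG : toQ G ∈ starI ℚ s c (c + Fintype.card K + 1))
    (β : ℤ) (hβ : ∀ w ∈ G.coeff.support, A ∣ v w - β)
    (δ : ℤ) (hδ : ∀ w, δ ∣ G.coeff w) :
    (c.factorial : ℤ) * A ^ c * δ ∣ mom (fun w => u w ^ c * ∏ k, x k w) G := by
  classical
  -- the polynomial function
  set y' : ℕ → Λ → ℚ := fun l w => (((v w - β - A * (l : ℕ) : ℤ)) : ℚ) with hy'
  set P : Λ → ℚ := fun w => ∏ k, (((x k w : ℤ)) : ℚ) with hP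
  have hy2 : ∀ (S : Set Λ) l, PolyOn S 2 (y' l) := by
    intro S l
    have e : y' l = (fun w => ((v w : ℤ) : ℚ)) - fun _ => ((β + A * (l : ℕ) : ℤ) : ℚ) := by
      ext w; simp only [hy', Pi.sub_apply]; push_cast; ring
    rw [e]
    exact (polyOn_addHom _ v).sub ((polyOn_const _ _).succ)
  have hP1 : PolyOn Set.univ (Fintype.card K + 1) P := by
    have := polyOn_prod (S := Set.univ) (univ : Finset K) 1
      (fun k w => (((x k w : ℤ)) : ℚ)) fun k _ => polyOn_addHom _ (x k)
    rw [one_mul, card_univ] at this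
    convert this using 1
    ext w; rw [Finset.prod_apply]
  have hP0 : PolyOn {s} 1 P := by
    have := polyOn_prod (S := {s}) (univ : Finset K) 0
      (fun k w => (((x k w : ℤ)) : ℚ)) fun k _ => by
        refine polyOn_addHom_of_eq_zero (x k) ?_
        rintro v rfl; exact hxs k
    rw [zero_mul, zero_add] at this
    convert this using 1
    ext w; rw [Finset.prod_apply]
  have hdiff : mom ((fun w => ∏ l ∈ range c, (fun _ w => ((u w : ℤ) : ℚ)) l w -
      ∏ l ∈ range c, y' l w) * P) (toQ G) = 0 := by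
    refine mom_eq_zero_of_mem_starI hG ?_ ?_
    · have h1 : PolyOn Set.univ (c + 1) (fun w => ∏ l ∈ range c,
          (fun (_ : ℕ) w => ((u w : ℤ) : ℚ)) l w - ∏ l ∈ range c, y' l w) :=
        (polyOn_prod_range (fun (_ : ℕ) w => ((u w : ℤ) : ℚ)) (fun _ => polyOn_addHom _ u) c).sub
          (polyOn_prod_range y' (hy2 _) c)
      exact h1.mul hP1 (by omega)
    · refine (polyOn_prod_sub_prod (fun (_ : ℕ) w => ((u w : ℤ) : ℚ)) y'
        (fun _ => polyOn_addHom _ u) (hy2 _) ?_ c).mul hP0 (by omega)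
      intro l
      have e : ((fun w => ((u w : ℤ) : ℚ)) - y' l : Λ → ℚ) =
          (fun w => (((u - v) w : ℤ) : ℚ)) + fun _ => ((β + A * (l : ℕ) : ℤ) : ℚ) := by
        ext w; simp only [hy', Pi.sub_apply, Pi.add_apply, AddMonoidHom.sub_apply]
        push_cast; ring
      rw [e]
      refine (polyOn_addHom_of_eq_zero (u - v) ?_).add (polyOn_const _ _)
      rintro w rfl
      simp [hus, hvs]
  -- back to integers
  have hint : mom (fun w => u w ^ c * ∏ k, x k w) G =
      mom (fun w => (∏ l ∈ range c, (v w - β - A * (l : ℕ))) * ∏ k, x k w) G := by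
    have h3 : ((mom (fun w => u w ^ c * ∏ k, x k w) G : ℤ) : ℚ) =
        ((mom (fun w => (∏ l ∈ range c, (v w - β - A * (l : ℕ))) * ∏ k, x k w) G : ℤ) : ℚ) := by
      rw [← mom_toQ, ← mom_toQ, ← sub_eq_zero, ← mom_sub_left, ← hdiff]
      refine congrArg (fun p => mom p (toQ G)) (funext fun w => ?_)
      simp only [hy', hP, Pi.mul_apply, prod_const, card_range]
      push_cast
      ring
    exact_mod_cast h3
  rw [hint, mom_apply]
  refine dvd_sum fun w hw => ?_
  obtain ⟨b, hb⟩ := hβ w hw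
  obtain ⟨z, hz⟩ := hδ w
  have hfac : ∃ q : ℤ, ∏ l ∈ range c, (b - (l : ℕ)) = (c.factorial : ℤ) * q := by
    refine ⟨Ring.choose b c, ?_⟩
    have h4 := Ring.descPochhammer_eq_factorial_smul_choose b c
    rw [nsmul_eq_mul] at h4
    rw [← h4]
    rw [← Polynomial.eval_eq_smeval, descPochhammer_eval_eq_prod_range]
  obtain ⟨q, hq⟩ := hfac
  have e1 : ∏ l ∈ range c, (v w - β - A * (l : ℕ)) = A ^ c * ((c.factorial : ℤ) * q) := by
    rw [← hq]
    have : ∀ l ∈ range c, v w - β - A * ((l : ℕ) : ℤ) = A * (b - (l : ℕ)) := by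
      intro l _; rw [hb]; ring
    rw [prod_congr rfl this, prod_mul_distrib, prod_const, card_range]
  show (c.factorial : ℤ) * A ^ c * δ ∣ G.coeff w * _
  rw [e1, hz]
  exact ⟨z * q * ∏ k, x k w, by ring⟩

/-! ## The index theorem -/

theorem mom_sum_right {R ι : Type*} [CommRing R] (p : Λ → R) (s : Finset ι)
    (G : ι → AddMonoidAlgebra R Λ) : mom p (∑ j ∈ s, G j) = ∑ j ∈ s, mom p (G j) :=
  map_sum _ _ _

theorem mom_equiv {R : Type*} [CommRing R] (p : Λ → R) (g : AddMonoidAlgebra R Λ)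
    (σ : Λ ≃ Λ) (hσ : ∀ w, g.coeff (σ w) = g.coeff w) :
    mom (fun w => p (σ w)) g = mom p g := by
  classical
  have hs : ∀ w, w ∈ g.coeff.support ↔ σ w ∈ g.coeff.support := by
    intro w; rw [Finsupp.mem_support_iff, Finsupp.mem_support_iff, hσ]
  rw [mom_apply, mom_apply, Finsupp.sum, Finsupp.sum]
  refine Finset.sum_bij (fun w _ => σ w) (fun w hw => (hs w).1 hw)
    (fun _ _ _ _ h => σ.injective h) (fun w hw => ⟨σ.symm w, ?_, by simp⟩) fun w _ => ?_
  · rw [hs]; simpa using hw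
  · rw [hσ]

/-- `g = r (1-s)^c` modulo `augI^(c+1)` determines the `c`-th moment along `u` -/
theorem mom_leading (u : Λ →+ ℤ) (s : Λ) (A : ℤ) (hus : u s = A) (c : ℕ)
    (g : AddMonoidAlgebra ℤ Λ) (r : ℤ)
    (hr : toQ g - (r : ℚ) • (1 - single s 1) ^ c ∈ augI ℚ Λ ^ (c + 1)) :
    mom (fun w => u w ^ c) g = (-1) ^ c * (c.factorial : ℤ) * A ^ c * r := by
  have h1 : PolyOn (R := ℚ) Set.univ (c + 1) (fun w : Λ => (((u w : ℤ)) : ℚ) ^ c) := by
    have := polyOn_pow (S := Set.univ) (e := 1) (polyOn_addHom (R := ℚ) Set.univ u) c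
    rw [one_mul] at this
    exact this
  have h2 := mom_eq_zero_of_mem_pow hr h1
  rw [map_sub, map_smul, sub_eq_zero] at h2
  have h3 : (1 - single s 1 : AddMonoidAlgebra ℚ Λ) ^ c = (-1 : ℚ) ^ c • (single s 1 - 1) ^ c := by
    rw [← neg_sub, neg_pow, Algebra.smul_def, map_pow, map_neg, map_one]
  rw [h3, map_smul, mom_pow_single_sub_one ℚ u s A hus c] at h2
  have h4 : ((mom (fun w => u w ^ c) g : ℤ) : ℚ) =
      (((-1) ^ c * (c.factorial : ℤ) * A ^ c * r : ℤ) : ℚ) := by
    rw [← mom_toQ]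
    have : (fun w => ((u w ^ c : ℤ) : ℚ)) = fun w => (((u w : ℤ)) : ℚ) ^ c := by
      ext w; push_cast; rfl
    rw [this, h2]
    simp only [smul_eq_mul]
    push_cast
    ring
  exact_mod_cast h4

/-- **Index theorem**, arithmetic part. -/
theorem index_theorem {K I J : Type*} [Fintype K] [Fintype I] [Nonempty I] [Fintype J]
    (x : K → I → Λ →+ ℤ) (u v : Λ →+ ℤ) (s : Λ) (A : ℤ) (hA : A ≠ 0)
    (hxs : ∀ k i, x k i s = 0) (hus : u s = A) (hvs : v s = A) (c : ℕ)
    (g : AddMonoidAlgebra ℤ Λ) (G : J → AddMonoidAlgebra ℤ Λ) (hgG : g = ∑ j, G j)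
    (hstar : ∀ j, toQ (G j) ∈ starI ℚ s c (c + Fintype.card K + 1))
    (β : J → ℤ) (hβ : ∀ j, ∀ w ∈ (G j).coeff.support, A ∣ v w - β j)
    (δ : ℤ) (hδ : ∀ j w, δ ∣ (G j).coeff w)
    (κ : ℤ) (hκ : ∀ w ∈ g.coeff.support, ∀ k, ∑ i, x k i w = κ)
    (hsym : ∀ i i' : K → I, ∃ σ : Λ ≃ Λ, (∀ w, u (σ w) = u w) ∧
      (∀ k w, x k (i k) (σ w) = x k (i' k) w) ∧ ∀ w, g.coeff (σ w) = g.coeff w)
    (r : ℤ) (hr : toQ g - (r : ℚ) • (1 - single s 1) ^ c ∈ augI ℚ Λ ^ (c + 1)) :
    (Fintype.card I : ℤ) ^ Fintype.card K * δ ∣ κ ^ Fintype.card K * r := by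
  classical
  -- the mixed moments
  let M : (K → I) → ℤ := fun i => mom (fun w => u w ^ c * ∏ k, x k (i k) w) g
  obtain ⟨i₀⟩ : Nonempty (K → I) := inferInstance
  have hM : ∀ i, M i = M i₀ := by
    intro i
    obtain ⟨σ, h1, h2, h3⟩ := hsym i₀ i
    have h4 := mom_equiv (fun w => u w ^ c * ∏ k, x k (i₀ k) w) g σ h3
    simp only [h1, h2] at h4
    exact h4
  have hdvd : (c.factorial : ℤ) * A ^ c * δ ∣ M i₀ := by
    have e : M i₀ = ∑ j, mom (fun w => u w ^ c * ∏ k, x k (i₀ k) w) (G j) := by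
      show mom _ g = _
      rw [hgG, mom_sum_right]
    rw [e]
    exact dvd_sum fun j _ => dvd_moment (fun k => x k (i₀ k)) u v s A (fun k => hxs k _) hus hvs c
      (G j) (hstar j) (β j) (hβ j) δ (hδ j)
  have hsum : ∑ i, M i = κ ^ Fintype.card K * mom (fun w => u w ^ c) g := by
    show ∑ i, mom _ g = _
    rw [← mom_sum_left, ← mom_smul_left]
    refine mom_congr fun w hw => ?_
    rw [← mul_sum]
    have : ∑ i : K → I, ∏ k, x k (i k) w = ∏ k, ∑ i, x k i w := by
      rw [Finset.prod_univ_sum, Fintype.piFinset_univ]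
    rw [this, prod_congr rfl fun k _ => hκ w hw k, prod_const, card_univ]
    ring
  rw [sum_congr rfl fun i _ => hM i, sum_const, card_univ, Fintype.card_fun, nsmul_eq_mul,
    mom_leading u s A hus c g r hr] at hsum
  obtain ⟨z, hz⟩ := hdvd
  rw [hz] at hsum
  have hne : (c.factorial : ℤ) * A ^ c ≠ 0 :=
    mul_ne_zero (by exact_mod_cast c.factorial_ne_zero) (pow_ne_zero _ hA)
  refine ⟨(-1) ^ c * z, mul_left_cancel₀ hne ?_⟩
  have h1 : ((-1 : ℤ) ^ c) * (-1) ^ c = 1 := by
    rw [← mul_pow]; norm_num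
  push_cast at hsum
  calc (c.factorial : ℤ) * A ^ c * (κ ^ Fintype.card K * r)
      = (-1) ^ c * ((κ ^ Fintype.card K) * ((-1) ^ c * (c.factorial : ℤ) * A ^ c * r)) := by
        linear_combination (-(c.factorial : ℤ) * A ^ c * (κ ^ Fintype.card K * r)) * h1
    _ = (-1) ^ c * ((Fintype.card I : ℤ) ^ Fintype.card K *
          ((c.factorial : ℤ) * A ^ c * δ * z)) := by rw [hsum]
    _ = _ := by ring

end

end Crest.Agent.R181.LP
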