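import Crest.Agent.R181.LP963b

/-!
# R181, block (I4) of #11789, part c: interfaces

* `mem_starI_of_series`: from a series `G / (1-s)^c = ∑ ρ_b`, `ρ_b ∈ augI^N` for large `b`,
  to `G ∈ starI s c N`;
* `index_blocks`: the index theorem on the lattice `(Fin m → ZMod a → ℤ) × ℤ` with the class
  function `u - ∑ val(i) x_{k,i}` modulo `a D`.
-/

set_option linter.unusedSectionVars false

namespace Crest.Agent.R181.LP

open Finset AddMonoidAlgebra

noncomputable section

variable {R : Type*} [CommRing R] {Λ : Type*} [AddCommGroup Λ]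

theorem single_nsmul_eq_pow (s : Λ) (l : ℕ) :
    (single (l • s) 1 : AddMonoidAlgebra R Λ) = single s 1 ^ l := by
  rw [AddMonoidAlgebra.single_pow, one_pow]

theorem one_sub_single_pow (s : Λ) (c : ℕ) :
    (1 - single s 1 : AddMonoidAlgebra R Λ) ^ c =
      ∑ l ∈ range (c + 1), ((-1) ^ l * (c.choose l : AddMonoidAlgebra R Λ)) * single s 1 ^ l := by
  rw [sub_eq_add_neg, add_comm, add_pow]
  refine sum_congr rfl fun l _ => ?_
  rw [one_pow, mul_one, neg_pow]
  ring

theorem one_sub_pow_mul_mem_starI (s : Λ) (c N : ℕ) (f : AddMonoidAlgebra R Λ) :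
    (1 - single s 1) ^ c * f ∈ starI R s c N := by
  refine Submodule.mem_sup_left ?_
  have e : (1 - single s 1 : AddMonoidAlgebra R Λ) ^ c * f =
      (single s 1 - 1) ^ c * ((-1) ^ c * f) := by
    rw [← neg_sub, neg_pow]; ring
  rw [e]
  exact Ideal.mul_mem_right _ _ (Ideal.mem_span_singleton_self _)

theorem pow_le_starI (s : Λ) (c N : ℕ) : augI R Λ ^ N ≤ starI R s c N := le_sup_right

/-- The series criterion: if `G = (1-s)^c * ∑_b ρ_b` (written degree by degree, `G` having
components only in the window `[b₀, B)`), `ρ_b = 0` for `b < b₀` and `ρ_b ∈ augI^N` for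
`b ≥ b₁`, then `G ∈ starI s c N`. -/
theorem mem_starI_of_series (s : Λ) (c N : ℕ) (ρ : ℤ → AddMonoidAlgebra R Λ) (b₀ b₁ B : ℤ)
    (h0 : ∀ b < b₀, ρ b = 0) (h1 : ∀ b, b₁ ≤ b → ρ b ∈ augI R Λ ^ N) (hB : b₁ + c ≤ B)
    (G : AddMonoidAlgebra R Λ)
    (hG : G = ∑ b ∈ Ico b₀ B, ∑ l ∈ range (c + 1),
      ((-1) ^ l * (c.choose l : AddMonoidAlgebra R Λ)) * single s 1 ^ l * ρ (b - l)) :
    G ∈ starI R s c N := by
  classical
  -- replace ρ by its truncation
  let τ : ℤ → AddMonoidAlgebra R Λ := fun b => if b < b₁ then ρ b else 0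
  have hτ : ∀ b, ρ b - τ b ∈ augI R Λ ^ N := by
    intro b
    by_cases hb : b < b₁
    · simp [τ, hb]
    · simp only [τ, hb, if_false, sub_zero]
      exact h1 b (by omega)
  have key : G - (1 - single s 1) ^ c * ∑ b ∈ Ico b₀ B, τ b ∈ augI R Λ ^ N := by
    have e : (1 - single s 1) ^ c * ∑ b ∈ Ico b₀ B, τ b =
        ∑ b ∈ Ico b₀ B, ∑ l ∈ range (c + 1),
          ((-1) ^ l * (c.choose l : AddMonoidAlgebra R Λ)) * single s 1 ^ l * τ (b - l) := by
      rw [one_sub_single_pow, sum_mul, sum_comm]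
      refine sum_congr rfl fun l hl => ?_
      rw [mul_sum, ← mul_sum, ← mul_sum]
      congr 1
      -- ∑_{b ∈ [b₀,B)} τ b = ∑_{b ∈ [b₀,B)} τ (b - l)
      have hl' : l ≤ c := Nat.lt_succ_iff.1 (mem_range.1 hl)
      have e1 : ∑ b ∈ Ico b₀ B, τ (b - l) = ∑ b ∈ Ico (b₀ - l) (B - l), τ b := by
        refine Finset.sum_bij (fun b _ => b - (l : ℤ)) ?_ ?_ ?_ ?_
        · intro b hb; rw [mem_Ico] at *; omega
        · intro b _ b' _ h; omega
        · intro b hb
          refine ⟨b + l, ?_, by ring⟩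
          rw [mem_Ico] at *; omega
        · intro b _; rfl
      rw [e1]
      -- both are the sum over the window [b₀, b₁)
      have e2 : ∀ S : Finset ℤ, (∀ b, b₀ ≤ b → b < b₁ → b ∈ S) →
          ∑ b ∈ S, τ b = ∑ b ∈ Ico b₀ b₁, τ b := by
        intro S hS
        symm
        refine Finset.sum_subset (fun b hb => ?_) (fun b _ hb => ?_)
        · rw [mem_Ico] at hb; exact hS b hb.1 hb.2
        · rw [mem_Ico, not_and_or] at hb
          by_cases h : b < b₁
          · rcases hb with hb | hb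
            · simp only [τ, h, if_true]; exact h0 b (by omega)
            · exact absurd h hb
          · simp [τ, h]
      rw [e2 (Ico b₀ B) fun b h h' => by rw [mem_Ico]; omega,
        e2 (Ico (b₀ - l) (B - l)) fun b h h' => by rw [mem_Ico]; omega]
    rw [e, hG, ← sum_sub_distrib]
    refine sum_mem fun b _ => ?_
    rw [← sum_sub_distrib]
    refine sum_mem fun l _ => ?_
    rw [← mul_sub]
    exact Ideal.mul_mem_left _ _ (hτ _)
  have : G = (G - (1 - single s 1) ^ c * ∑ b ∈ Ico b₀ B, τ b) +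
      (1 - single s 1) ^ c * ∑ b ∈ Ico b₀ B, τ b := by ring
  rw [this]
  exact add_mem (pow_le_starI s c N key) (one_sub_pow_mul_mem_starI s c N _)

/-! ## base change -/

theorem toQ_mem_augI {f : AddMonoidAlgebra ℤ Λ} (h : f ∈ augI ℤ Λ) : toQ f ∈ augI ℚ Λ := by
  have : augI ℤ Λ ≤ (augI ℚ Λ).comap (toQ (Λ := Λ)) := by
    refine Ideal.span_le.2 ?_
    rintro _ ⟨v, rfl⟩
    show toQ (single v 1 - 1) ∈ augI ℚ Λ
    rw [map_sub, map_one, toQ_single, Int.cast_one]
    exact single_sub_one_mem v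
  exact this h

theorem map_augI_le : (augI ℤ Λ).map (toQ (Λ := Λ)) ≤ augI ℚ Λ := by
  rw [Ideal.map_le_iff_le_comap]
  intro f hf
  exact toQ_mem_augI hf

theorem toQ_mem_augI_pow {f : AddMonoidAlgebra ℤ Λ} {N : ℕ} (h : f ∈ augI ℤ Λ ^ N) :
    toQ f ∈ augI ℚ Λ ^ N := by
  have h1 : toQ f ∈ (augI ℤ Λ ^ N).map (toQ (Λ := Λ)) := Ideal.mem_map_of_mem _ h
  rw [Ideal.map_pow] at h1
  exact Ideal.pow_right_mono map_augI_le N h1

theorem toQ_mem_starI {f : AddMonoidAlgebra ℤ Λ} {s : Λ} {c N : ℕ} (h : f ∈ starI ℤ s c N) :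
    toQ f ∈ starI ℚ s c N := by
  obtain ⟨x, hx, y, hy, rfl⟩ := Submodule.mem_sup.1 h
  obtain ⟨z, rfl⟩ := Ideal.mem_span_singleton'.1 hx
  rw [map_add, map_mul, map_pow, map_sub, map_one, toQ_single, Int.cast_one]
  exact add_mem (Submodule.mem_sup_left (Ideal.mul_mem_left _ _ (Ideal.mem_span_singleton_self _)))
    (Submodule.mem_sup_right (toQ_mem_augI_pow hy))

/-! ## The lattice of `m` blocks of size `a` -/

/-- exponent lattice of the torus coordinates `t_{k,i}` and of `u` -/
abbrev Lat (m a : ℕ) : Type := (Fin m → ZMod a → ℤ) × ℤ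

variable {m a : ℕ}

/-- exponent of `t_{k,i}` -/
def xco (k : Fin m) (i : ZMod a) : Lat m a →+ ℤ where
  toFun w := w.1 k i
  map_zero' := rfl
  map_add' _ _ := rfl

/-- exponent of `u` -/
def uco : Lat m a →+ ℤ where
  toFun w := w.2
  map_zero' := rfl
  map_add' _ _ := rfl

/-- exponent of `u` after the substitution `t'_{k,i} = t_{k,i} u^{val i}` -/
def vco [NeZero a] : Lat m a →+ ℤ where
  toFun w := w.2 - ∑ k, ∑ i, (ZMod.val i : ℤ) * w.1 k i
  map_zero' := by simp
  map_add' w w' := by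
    simp only [Prod.snd_add, Prod.fst_add, Pi.add_apply, mul_add, sum_add_distrib]
    ring

/-- the weight `u^{A}` -/
def sLat (A : ℤ) : Lat m a := (0, A)

/-- rotation of all the blocks -/
def rot (τ : Fin m → ZMod a) : Lat m a ≃ Lat m a where
  toFun w := (fun k i => w.1 k (i + τ k), w.2)
  invFun w := (fun k i => w.1 k (i - τ k), w.2)
  left_inv w := by ext <;> simp
  right_inv w := by ext <;> simp

/-- rotation of one block by one step -/
def rot1 (k₀ : Fin m) (w : Lat m a) : Lat m a :=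
  (fun k i => if k = k₀ then w.1 k (i + 1) else w.1 k i, w.2)

theorem rot_invariant_of_rot1 [NeZero a] (g : Lat m a → ℤ) (h : ∀ k₀ w, g (rot1 k₀ w) = g w)
    (τ : Fin m → ZMod a) (w : Lat m a) : g (rot τ w) = g w := by
  classical
  -- the set of good rotations is closed under addition and contains the `Pi.single k 1`
  have hadd : ∀ τ τ' : Fin m → ZMod a, (∀ w, g (rot τ w) = g w) → (∀ w, g (rot τ' w) = g w) →
      ∀ w, g (rot (τ + τ') w) = g w := by
    intro τ τ' h1 h2 w
    have : rot (τ + τ') w = rot τ' (rot τ w) := by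
      refine Prod.ext ?_ rfl
      ext k i
      show w.1 k (i + (τ + τ') k) = w.1 k (i + τ' k + τ k)
      rw [Pi.add_apply, add_comm (τ k), ← add_assoc]
    rw [this, h2, h1]
  have hone : ∀ k₀ : Fin m, ∀ w, g (rot (Pi.single k₀ 1) w) = g w := by
    intro k₀ w
    rw [← h k₀ w]
    congr 1
    refine Prod.ext ?_ rfl
    ext k i
    show w.1 k (i + (Pi.single k₀ 1 : Fin m → ZMod a) k) =
        if k = k₀ then w.1 k (i + 1) else w.1 k i
    by_cases hk : k = k₀
    · subst hk; simp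
    · rw [if_neg hk, Pi.single_eq_of_ne hk, add_zero]
  have hnat : ∀ (k₀ : Fin m) (n : ℕ), ∀ w, g (rot (Pi.single k₀ (n : ZMod a)) w) = g w := by
    intro k₀ n
    induction n with
    | zero =>
      intro w
      congr 1
      refine Prod.ext ?_ rfl
      ext k i
      show w.1 k (i + (Pi.single k₀ ((0 : ℕ) : ZMod a) : Fin m → ZMod a) k) = w.1 k i
      simp
    | succ n ih =>
      have : (Pi.single k₀ ((n + 1 : ℕ) : ZMod a) : Fin m → ZMod a) =
          Pi.single k₀ (n : ZMod a) + Pi.single k₀ 1 := by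
        rw [← Pi.single_add]; push_cast; rfl
      rw [this]
      exact hadd _ _ ih (hone k₀)
  have hall : ∀ S : Finset (Fin m), ∀ w, g (rot (∑ k ∈ S, Pi.single k (τ k)) w) = g w := by
    intro S
    induction S using Finset.induction_on with
    | empty =>
      intro w
      congr 1
      refine Prod.ext ?_ rfl
      ext k i
      show w.1 k (i + (∑ k ∈ (∅ : Finset (Fin m)), Pi.single k (τ k) : Fin m → ZMod a) k) = w.1 k i
      simp
    | insert k S hk ih =>
      rw [sum_insert hk]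
      refine hadd _ _ ?_ ih
      have := hnat k (τ k).val
      rwa [ZMod.natCast_zmod_val] at this
  have := hall univ w
  rwa [Finset.univ_sum_single] at this

/-- **Index theorem on the block lattice.**  `A = a D`.  `G j` are the class parts of `g`
(for instance the K-polynomials of the `E^{(j)}`), `β j` the class.  The hypothesis `hA` only says
`A ≠ 0`, its value plays no role. -/
theorem index_blocks [NeZero a] {J : Type*} [Fintype J] (A : ℤ) (hA : A ≠ 0) (c : ℕ)
    (g : AddMonoidAlgebra ℤ (Lat m a)) (G : J → AddMonoidAlgebra ℤ (Lat m a))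
    (hgG : g = ∑ j, G j)
    (hstar : ∀ j, toQ (G j) ∈ starI ℚ (sLat A) c (c + m + 1))
    (β : J → ℤ) (hβ : ∀ j, ∀ w ∈ (G j).coeff.support, A ∣ vco w - β j)
    (δ : ℤ) (hδ : ∀ j w, δ ∣ (G j).coeff w)
    (κ : ℤ) (hκ : ∀ w ∈ g.coeff.support, ∀ k, ∑ i, w.1 k i = κ)
    (hrot : ∀ k₀ w, g.coeff (rot1 k₀ w) = g.coeff w)
    (r : ℤ) (hr : toQ g - (r : ℚ) • (1 - single (sLat A) 1) ^ c ∈ augI ℚ (Lat m a) ^ (c + 1)) :
    (a : ℤ) ^ m * δ ∣ κ ^ m * r := by
  have := index_theorem (K := Fin m) (I := ZMod a) (fun k i => xco k i) uco vco (sLat A) A hA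
    (fun _ _ => rfl) rfl (by simp [vco, sLat]) c g G hgG
    (by simpa using hstar) β hβ δ hδ κ (fun w hw k => hκ w hw k)
    (fun i i' => ⟨rot (fun k => i' k - i k), fun _ => rfl, fun k w => by
      show w.1 k (i k + (i' k - i k)) = w.1 k (i' k)
      rw [add_sub_cancel], fun w => rot_invariant_of_rot1 _ hrot _ w⟩) r hr
  simpa [ZMod.card] using this

end

end Crest.Agent.R181.LP
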