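import Crest.Agent.R181.LK980b

/-! R181, V-chain, V2a (A1): the class of modules `Theta (x)_E M`, `M` finitely generated over the
left noetherian ring `E`, in matrix form, is closed under kernels and cokernels. -/

set_option autoImplicit false
set_option linter.unusedSectionVars false

open MulOpposite

namespace Crest.Agent.R181.VA

open LK

universe u

variable {Lam : Type u} [Ring Lam] {E : Type u} [Ring E]
variable (Θ : Type u) [AddCommGroup Θ] [Module Lam Θ] [Module Eᵐᵒᵖ Θ] [SMulCommClass Lam Eᵐᵒᵖ Θ]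

section mR

variable {ι κ μ : Type} [Fintype ι] [Fintype κ] [Fintype μ]

variable (Lam) in
/-- right multiplication of row vectors over `Θ` by a matrix over `E` -/
def mR (A : Matrix ι κ E) : (ι → Θ) →ₗ[Lam] (κ → Θ) where
  toFun θ j := ∑ i, op (A i j) • θ i
  map_add' x y := by
    funext j
    simp [smul_add, Finset.sum_add_distrib]
  map_smul' c x := by
    funext j
    simp only [Pi.smul_apply, RingHom.id_apply, Finset.smul_sum]
    exact Finset.sum_congr rfl fun i _ => (smul_comm _ _ _).symm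

@[simp] theorem mR_apply (A : Matrix ι κ E) (θ : ι → Θ) (j : κ) :
    mR Lam Θ A θ j = ∑ i, op (A i j) • θ i := rfl

theorem mR_mul (A : Matrix ι κ E) (B : Matrix κ μ E) (θ : ι → Θ) :
    mR Lam Θ (A * B) θ = mR Lam Θ B (mR Lam Θ A θ) := by
  funext j
  simp only [mR_apply, Matrix.mul_apply, Finset.op_sum, op_mul, Finset.sum_smul, Finset.smul_sum,
    smul_smul]
  rw [Finset.sum_comm]

theorem mR_zero (θ : ι → Θ) : mR Lam Θ (0 : Matrix ι κ E) θ = 0 := by
  funext j; simp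

theorem mR_fromRows (A : Matrix ι μ E) (B : Matrix κ μ E) (x : ι → Θ) (y : κ → Θ) :
    mR Lam Θ (Matrix.fromRows A B) (Sum.elim x y) = mR Lam Θ A x + mR Lam Θ B y := by
  funext j
  simp [Fintype.sum_sum_type]

theorem mR_fromCols (A : Matrix ι κ E) (B : Matrix ι μ E) (x : ι → Θ) :
    mR Lam Θ (Matrix.fromCols A B) x = Sum.elim (mR Lam Θ A x) (mR Lam Θ B x) := by
  funext j
  rcases j with j | j <;> simp

end mR

/-- matrix flatness of `Θ` over `E` (on the right) -/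
def Flat (Lam : Type u) [Ring Lam] (E : Type u) [Ring E] (Θ : Type u) [AddCommGroup Θ]
    [Module Lam Θ] [Module Eᵐᵒᵖ Θ] [SMulCommClass Lam Eᵐᵒᵖ Θ] : Prop :=
  ∀ (ι κ μ : Type) [Fintype ι] [Fintype κ] [Fintype μ] (A : Matrix ι κ E) (B : Matrix κ μ E),
    (∀ v : κ → E, Matrix.vecMul v B = 0 ↔ ∃ w : ι → E, Matrix.vecMul w A = v) →
    ∀ v : κ → Θ, mR Lam Θ B v = 0 → ∃ w : ι → Θ, mR Lam Θ A w = v

/-- the module `Θ ⊗_E coker C` -/
abbrev TH {ι κ : Type} [Fintype ι] [Fintype κ] (C : Matrix ι κ E) : Type u :=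
  (κ → Θ) ⧸ LinearMap.range (mR Lam Θ C)

/-- maps out of `Θ` into `Θ ⊗ M` are elements of `M` -/
def Full (Lam : Type u) [Ring Lam] (E : Type u) [Ring E] (Θ : Type u) [AddCommGroup Θ]
    [Module Lam Θ] [Module Eᵐᵒᵖ Θ] [SMulCommClass Lam Eᵐᵒᵖ Θ] : Prop :=
  ∀ (ι κ : Type) [Fintype ι] [Fintype κ] (C : Matrix ι κ E)
    (f : Θ →ₗ[Lam] ((κ → Θ) ⧸ LinearMap.range (mR Lam Θ C))),
    ∃ g : κ → E, ∀ θ, f θ = (LinearMap.range (mR Lam Θ C)).mkQ (fun j => op (g j) • θ)

variable {Θ}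

/-- over a left noetherian ring every matrix has a matrix of syzygies -/
theorem exists_syz [IsNoetherianRing E] {κ μ : Type} [Fintype κ] [Fintype μ] (B : Matrix κ μ E) :
    ∃ (k : ℕ) (A : Matrix (Fin k) κ E),
      ∀ v : κ → E, Matrix.vecMul v B = 0 ↔ ∃ w : Fin k → E, Matrix.vecMul w A = v := by
  classical
  have hN : IsNoetherian E (κ → E) := inferInstance
  obtain ⟨k, s, hs⟩ := Submodule.fg_iff_exists_fin_generating_family.1
    (hN.noetherian (LinearMap.ker (Matrix.vecMulLinear B)))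
  refine ⟨k, Matrix.of s, fun v => ?_⟩
  have h1 : Matrix.vecMul v B = 0 ↔ v ∈ Submodule.span E (Set.range s) := by
    rw [hs, LinearMap.mem_ker]; rfl
  rw [h1, Submodule.mem_span_range_iff_exists_fun]
  constructor
  · rintro ⟨c, hc⟩
    refine ⟨c, ?_⟩
    rw [← hc]
    funext j
    simp [Matrix.vecMul, dotProduct]
  · rintro ⟨c, hc⟩
    refine ⟨c, ?_⟩
    rw [← hc]
    funext j
    simp [Matrix.vecMul, dotProduct]

theorem mkQ_eq_zero_iff {M : Type u} [AddCommGroup M] [Module Lam M] {ι κ : Type} [Fintype ι]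
    [Fintype κ] (C : Matrix ι κ E) (x : κ → Θ) :
    (LinearMap.range (mR Lam Θ C)).mkQ x = 0 ↔ ∃ w, mR Lam Θ C w = x := by
  simp [Submodule.Quotient.mk_eq_zero]

/-- a map between `Θ ⊗ M` and `Θ ⊗ M'` is given by a matrix -/
theorem exists_matrix (hH : Full Lam E Θ) {ι κ ι' κ' : Type} [Fintype ι] [Fintype κ] [Fintype ι']
    [Fintype κ'] (A : Matrix ι κ E) (C : Matrix ι' κ' E)
    (f : ((κ → Θ) ⧸ LinearMap.range (mR Lam Θ A)) →ₗ[Lam]
      ((κ' → Θ) ⧸ LinearMap.range (mR Lam Θ C))) :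
    ∃ G : Matrix κ κ' E, ∀ v, f ((LinearMap.range (mR Lam Θ A)).mkQ v) =
      (LinearMap.range (mR Lam Θ C)).mkQ (mR Lam Θ G v) := by
  classical
  have h := fun k : κ => hH ι' κ' C
    ((f.comp (LinearMap.range (mR Lam Θ A)).mkQ).comp (LinearMap.single Lam (fun _ : κ => Θ) k))
  choose g hg using h
  refine ⟨Matrix.of g, fun v => ?_⟩
  have hv : v = ∑ k, LinearMap.single Lam (fun _ : κ => Θ) k (v k) := by
    funext j
    simp [Finset.sum_apply, Pi.single_apply]
  conv_lhs => rw [hv]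
  rw [map_sum, map_sum]
  have h2 : mR Lam Θ (Matrix.of g) v = ∑ k, fun j => op (g k j) • v k := by
    funext j
    simp [Finset.sum_apply]
  rw [h2, map_sum]
  exact Finset.sum_congr rfl fun k _ => hg k (v k)

variable (Lam E Θ) in
/-- the class of modules `Θ ⊗_E M`, `M` a finitely generated left `E`-module -/
def memTH (Y : Type u) [AddCommGroup Y] [Module Lam Y] : Prop :=
  ∃ (ι κ : Type) (_ : Fintype ι) (_ : Fintype κ) (C : Matrix ι κ E),
    Nonempty (Y ≃ₗ[Lam] ((κ → Θ) ⧸ LinearMap.range (mR Lam Θ C)))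

theorem memTH_of_surj {Y : Type u} [AddCommGroup Y] [Module Lam Y] {ι κ : Type} [Fintype ι]
    [Fintype κ] (C : Matrix ι κ E) (p : (κ → Θ) →ₗ[Lam] Y) (hp : Function.Surjective p)
    (h : ∀ x, p x = 0 ↔ ∃ w, mR Lam Θ C w = x) : memTH Lam E Θ Y := by
  obtain ⟨e, -⟩ := exists_equiv_of_ker_eq hp (Submodule.mkQ_surjective
    (LinearMap.range (mR Lam Θ C))) (fun x => by
      rw [h x]; simp [Submodule.Quotient.mk_eq_zero])
  exact ⟨ι, κ, inferInstance, inferInstance, C, ⟨e⟩⟩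

theorem memTH_zero {Y : Type u} [AddCommGroup Y] [Module Lam Y] (h : Subsingleton Y) :
    memTH Lam E Θ Y := by
  refine memTH_of_surj (ι := Empty) (κ := Empty) (0 : Matrix Empty Empty E) 0 ?_ ?_
  · intro y; exact ⟨0, Subsingleton.elim _ _⟩
  · intro x
    constructor
    · intro _; exact ⟨0, Subsingleton.elim _ _⟩
    · intro _; rfl

theorem ker_matrix [IsNoetherianRing E] (hF : Flat Lam E Θ)
    {ι κ ι' κ' : Type} [Fintype ι] [Fintype κ] [Fintype ι']
    [Fintype κ'] (A : Matrix ι κ E) (C : Matrix ι' κ' E) (G : Matrix κ κ' E)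
    (f : ((κ → Θ) ⧸ LinearMap.range (mR Lam Θ A)) →ₗ[Lam]
      ((κ' → Θ) ⧸ LinearMap.range (mR Lam Θ C)))
    (hG : ∀ v, f ((LinearMap.range (mR Lam Θ A)).mkQ v) =
      (LinearMap.range (mR Lam Θ C)).mkQ (mR Lam Θ G v)) :
    memTH Lam E Θ (LinearMap.ker f) := by
  classical
  obtain ⟨k, K, hK⟩ := exists_syz (Matrix.fromRows G C)
  -- K1 : first block of columns
  let K1 : Matrix (Fin k) κ E := fun i j => K i (Sum.inl j)
  let K2 : Matrix (Fin k) ι' E := fun i j => K i (Sum.inr j)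
  have hKK : K = Matrix.fromCols K1 K2 := by
    ext i j; rcases j with j | j <;> rfl
  obtain ⟨l, R, hR⟩ := exists_syz (Matrix.fromRows K1 A)
  let R1 : Matrix (Fin l) (Fin k) E := fun i j => R i (Sum.inl j)
  let R2 : Matrix (Fin l) ι E := fun i j => R i (Sum.inr j)
  have hRR : R = Matrix.fromCols R1 R2 := by
    ext i j; rcases j with j | j <;> rfl
  -- products are zero
  have hKz : K * Matrix.fromRows G C = 0 := by
    ext i j
    have := (hK (K i)).2 ⟨Pi.single i 1, by simp; rfl⟩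
    exact congrFun this j
  have hRz : R * Matrix.fromRows K1 A = 0 := by
    ext i j
    have := (hR (R i)).2 ⟨Pi.single i 1, by simp; rfl⟩
    exact congrFun this j
  have key1 : ∀ u : Fin k → Θ, mR Lam Θ G (mR Lam Θ K1 u) = mR Lam Θ C (- mR Lam Θ K2 u) := by
    intro u
    have h1 : mR Lam Θ (K * Matrix.fromRows G C) u = 0 := by rw [hKz, mR_zero]
    rw [mR_mul, hKK, mR_fromCols, mR_fromRows] at h1
    rw [map_neg]
    exact eq_neg_of_add_eq_zero_left h1
  let p : (Fin k → Θ) →ₗ[Lam] LinearMap.ker f :=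
    ((LinearMap.range (mR Lam Θ A)).mkQ.comp (mR Lam Θ K1)).codRestrict (LinearMap.ker f) (by
      intro u
      rw [LinearMap.mem_ker, LinearMap.comp_apply, hG, key1]
      rw [mkQ_eq_zero_iff (M := Θ)]
      exact ⟨_, rfl⟩)
  refine memTH_of_surj R1 p ?_ ?_
  · rintro ⟨y, hy⟩
    obtain ⟨v, rfl⟩ := Submodule.mkQ_surjective _ y
    rw [LinearMap.mem_ker, hG, mkQ_eq_zero_iff (M := Θ)] at hy
    obtain ⟨w, hw⟩ := hy
    have h1 : mR Lam Θ (Matrix.fromRows G C) (Sum.elim v (-w)) = 0 := by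
      rw [mR_fromRows, map_neg, hw]; abel
    obtain ⟨u, hu⟩ := hF _ _ _ K (Matrix.fromRows G C) hK _ h1
    refine ⟨u, Subtype.ext ?_⟩
    change (LinearMap.range (mR Lam Θ A)).mkQ (mR Lam Θ K1 u) =
      (LinearMap.range (mR Lam Θ A)).mkQ v
    congr 1
    rw [hKK, mR_fromCols] at hu
    funext j
    exact congrFun hu (Sum.inl j)
  · intro u
    have h0 : p u = 0 ↔ (LinearMap.range (mR Lam Θ A)).mkQ (mR Lam Θ K1 u) = 0 := by
      rw [Subtype.ext_iff]; rfl
    rw [h0, mkQ_eq_zero_iff (M := Θ)]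
    constructor
    · rintro ⟨w, hw⟩
      have h1 : mR Lam Θ (Matrix.fromRows K1 A) (Sum.elim u (-w)) = 0 := by
        rw [mR_fromRows, map_neg, hw]; abel
      obtain ⟨s, hs⟩ := hF _ _ _ R (Matrix.fromRows K1 A) hR _ h1
      refine ⟨s, ?_⟩
      rw [hRR, mR_fromCols] at hs
      funext j
      exact congrFun hs (Sum.inl j)
    · rintro ⟨s, rfl⟩
      have h1 : mR Lam Θ (R * Matrix.fromRows K1 A) s = 0 := by rw [hRz, mR_zero]
      rw [mR_mul, hRR, mR_fromCols, mR_fromRows] at h1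
      refine ⟨- mR Lam Θ R2 s, ?_⟩
      rw [map_neg]
      exact (eq_neg_of_add_eq_zero_left h1).symm

theorem coker_matrix {ι κ ι' κ' : Type} [Fintype ι] [Fintype κ] [Fintype ι']
    [Fintype κ'] (A : Matrix ι κ E) (C : Matrix ι' κ' E) (G : Matrix κ κ' E)
    (f : ((κ → Θ) ⧸ LinearMap.range (mR Lam Θ A)) →ₗ[Lam]
      ((κ' → Θ) ⧸ LinearMap.range (mR Lam Θ C)))
    (hG : ∀ v, f ((LinearMap.range (mR Lam Θ A)).mkQ v) =
      (LinearMap.range (mR Lam Θ C)).mkQ (mR Lam Θ G v)) :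
    memTH Lam E Θ (((κ' → Θ) ⧸ LinearMap.range (mR Lam Θ C)) ⧸ LinearMap.range f) := by
  refine memTH_of_surj (Matrix.fromRows G C)
    ((LinearMap.range f).mkQ.comp (LinearMap.range (mR Lam Θ C)).mkQ)
    ((Submodule.mkQ_surjective _).comp (Submodule.mkQ_surjective _)) ?_
  intro x
  have h0 : ((LinearMap.range f).mkQ.comp (LinearMap.range (mR Lam Θ C)).mkQ) x = 0 ↔
      ∃ y, f y = (LinearMap.range (mR Lam Θ C)).mkQ x := by
    simp [Submodule.Quotient.mk_eq_zero]
  rw [h0]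
  constructor
  · rintro ⟨y, hy⟩
    obtain ⟨v, rfl⟩ := Submodule.mkQ_surjective _ y
    rw [hG] at hy
    have h1 : (LinearMap.range (mR Lam Θ C)).mkQ (x - mR Lam Θ G v) = 0 := by
      rw [map_sub, sub_eq_zero]; exact hy.symm
    rw [mkQ_eq_zero_iff (M := Θ)] at h1
    obtain ⟨w, hw⟩ := h1
    refine ⟨Sum.elim v w, ?_⟩
    rw [mR_fromRows, hw]; abel
  · rintro ⟨w, rfl⟩
    have hw : w = Sum.elim (fun i => w (Sum.inl i)) (fun i => w (Sum.inr i)) := by
      funext i; rcases i with i | i <;> rfl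
    refine ⟨(LinearMap.range (mR Lam Θ A)).mkQ (fun i => w (Sum.inl i)), ?_⟩
    rw [hG, hw, mR_fromRows, map_add]
    have : (LinearMap.range (mR Lam Θ C)).mkQ (mR Lam Θ C (fun i => w (Sum.inr i))) = 0 :=
      (mkQ_eq_zero_iff (M := Θ) _ _).2 ⟨_, rfl⟩
    simp [this]

/-- the exact abelian class of all `Θ ⊗_E M` -/
def thClass [IsNoetherianRing E] (hF : Flat Lam E Θ) (hH : Full Lam E Θ) : AbClass Lam where
  mem := fun Y _ _ => memTH Lam E Θ Y
  iso := by
    rintro M N _ _ _ _ e ⟨ι, κ, _, _, C, ⟨e'⟩⟩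
    exact ⟨ι, κ, inferInstance, inferInstance, C, ⟨e.symm.trans e'⟩⟩
  zero := fun _ _ _ h => memTH_zero h
  ker := by
    rintro M N _ _ _ _ ⟨ι, κ, _, _, A, ⟨e⟩⟩ ⟨ι', κ', _, _, C, ⟨e'⟩⟩ f
    obtain ⟨G, hG⟩ := exists_matrix hH A C ((e'.toLinearMap.comp f).comp e.symm.toLinearMap)
    obtain ⟨ι1, κ1, _, _, C1, ⟨e1⟩⟩ := ker_matrix hF A C G _ hG
    obtain ⟨e2, -⟩ := exists_equiv_of_range_eq (i := (LinearMap.ker f).subtype)
      (j := e.symm.toLinearMap.comp
        (LinearMap.ker ((e'.toLinearMap.comp f).comp e.symm.toLinearMap)).subtype)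
      (Submodule.subtype_injective _) (e.symm.injective.comp (Submodule.subtype_injective _)) (by
        intro x
        constructor
        · rintro ⟨a, rfl⟩
          refine ⟨⟨e a, ?_⟩, ?_⟩
          · have := a.2
            rw [LinearMap.mem_ker] at this
            simp [this]
          · simp
        · rintro ⟨b, rfl⟩
          refine ⟨⟨e.symm b, ?_⟩, rfl⟩
          have := b.2
          rw [LinearMap.mem_ker] at this
          rw [LinearMap.mem_ker]
          apply e'.injective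
          rw [map_zero]
          exact this)
    exact ⟨ι1, κ1, inferInstance, inferInstance, C1, ⟨e2.trans e1⟩⟩
  coker := by
    rintro M N _ _ _ _ ⟨ι, κ, _, _, A, ⟨e⟩⟩ ⟨ι', κ', _, _, C, ⟨e'⟩⟩ f
    obtain ⟨G, hG⟩ := exists_matrix hH A C ((e'.toLinearMap.comp f).comp e.symm.toLinearMap)
    obtain ⟨ι1, κ1, _, _, C1, ⟨e1⟩⟩ := coker_matrix A C G _ hG
    obtain ⟨e2, -⟩ := exists_equiv_of_ker_eq (p := (LinearMap.range f).mkQ)
      (q := (LinearMap.range ((e'.toLinearMap.comp f).comp e.symm.toLinearMap)).mkQ.comp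
        e'.toLinearMap)
      (Submodule.mkQ_surjective _) ((Submodule.mkQ_surjective _).comp e'.surjective) (by
        intro x
        simp only [LinearMap.comp_apply, Submodule.mkQ_apply, Submodule.Quotient.mk_eq_zero,
          LinearMap.mem_range, LinearEquiv.coe_coe]
        constructor
        · rintro ⟨y, rfl⟩
          exact ⟨e y, by simp⟩
        · rintro ⟨y, hy⟩
          exact ⟨e.symm y, e'.injective hy⟩)
    exact ⟨ι1, κ1, inferInstance, inferInstance, C1, ⟨e2.trans e1⟩⟩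

end Crest.Agent.R181.VA
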