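import Crest.Agent.R181.FR459a
import Crest.Agent.R181.PR980a
import Crest.Agent.R181.VA980a

/-!
# R181 B6 (A5): base change of finite free resolutions in matrix form

`Θ` a `(Lam, E)`-bimodule, matrix-flat over `E` on the right.  If `coker C` (`C` a matrix over `E`)
has a finite free resolution over `E` then `Θ ⊗ coker C = (κ → Θ) ⧸ range (mR C)` has a finite
resolution by powers of `Θ`.
-/

set_option linter.unusedSectionVars false

namespace Crest.Agent.R181.MF

open MulOpposite VA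

universe u

section

variable {Lam : Type u} [Ring Lam] {E : Type u} [Ring E]
variable (Θ : Type u) [AddCommGroup Θ] [Module Lam Θ] [Module Eᵐᵒᵖ Θ] [SMulCommClass Lam Eᵐᵒᵖ Θ]
variable {ι κ μ ι' κ' : Type} [Fintype ι] [Fintype κ] [Fintype μ] [Fintype ι'] [Fintype κ']

theorem mR_add (A B : Matrix ι κ E) (x : ι → Θ) :
    mR Lam Θ (A + B) x = mR Lam Θ A x + mR Lam Θ B x := by
  funext j
  simp [add_smul, Finset.sum_add_distrib]

theorem mR_one [DecidableEq κ] (x : κ → Θ) : mR Lam Θ (1 : Matrix κ κ E) x = x := by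
  funext j
  simp only [mR_apply]
  rw [Finset.sum_eq_single j]
  · simp
  · intro i _ hij
    rw [Matrix.one_apply_ne hij]; simp
  · intro h; exact absurd (Finset.mem_univ j) h

variable {M : Type*} [AddCommGroup M] [Module E M]

omit [Fintype μ] in
theorem lin_apply [DecidableEq κ] (p : (κ → E) →ₗ[E] M) (v : κ → E) :
    p v = ∑ i, v i • p (Pi.single i 1) := by
  have h : v = ∑ i, v i • (Pi.single i 1 : κ → E) := by
    funext j
    simp [Finset.sum_apply, Pi.single_apply]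
  conv_lhs => rw [h]
  rw [map_sum]
  exact Finset.sum_congr rfl fun i _ => map_smul _ _ _

theorem vecMul_sum (H : Matrix κ κ' E) (v : κ → E) :
    Matrix.vecMul v H = ∑ i, v i • (H i : κ' → E) := by
  funext j
  simp [Matrix.vecMul, dotProduct, Finset.sum_apply]

/-- a comparison matrix between two presentations of `M` -/
theorem exists_comparison (p : (κ → E) →ₗ[E] M) (p' : (κ' → E) →ₗ[E] M)
    (hp' : Function.Surjective p') :
    ∃ H : Matrix κ κ' E, ∀ v, p' (Matrix.vecMul v H) = p v := by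
  classical
  choose H hH using fun i : κ => hp' (p (Pi.single i 1))
  refine ⟨Matrix.of H, fun v => ?_⟩
  rw [vecMul_sum, map_sum, lin_apply p v]
  apply Finset.sum_congr rfl
  intro i _
  rw [map_smul]
  congr 1
  exact hH i

theorem exists_factor (p' : (κ' → E) →ₗ[E] M) (C' : Matrix ι' κ' E)
    (hC' : ∀ v, p' v = 0 ↔ ∃ w, Matrix.vecMul w C' = v) (Z : Matrix ι κ' E)
    (hZ : ∀ i, p' (Z i) = 0) : ∃ X : Matrix ι ι' E, Z = X * C' := by
  choose X hX using fun i => (hC' (Z i)).1 (hZ i)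
  refine ⟨Matrix.of X, ?_⟩
  ext i j
  have := congrFun (hX i) j
  rw [← this]
  rfl

/-- the map `Θ ⊗ coker C → Θ ⊗ coker C'` -/
noncomputable def thMap (C : Matrix ι κ E) (C' : Matrix ι' κ' E) (H : Matrix κ κ' E)
    (hH : ∃ X : Matrix ι ι' E, C * H = X * C') :
    ((κ → Θ) ⧸ LinearMap.range (mR Lam Θ C)) →ₗ[Lam]
      ((κ' → Θ) ⧸ LinearMap.range (mR Lam Θ C')) :=
  (LinearMap.range (mR Lam Θ C)).mapQ (LinearMap.range (mR Lam Θ C')) (mR Lam Θ H) (by
    rintro _ ⟨x, rfl⟩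
    obtain ⟨X, hX⟩ := hH
    refine ⟨mR Lam Θ X x, ?_⟩
    rw [← mR_mul, ← mR_mul, hX])

theorem thMap_mkQ (C : Matrix ι κ E) (C' : Matrix ι' κ' E) (H : Matrix κ κ' E)
    (hH : ∃ X : Matrix ι ι' E, C * H = X * C') (v : κ → Θ) :
    thMap (Lam := Lam) Θ C C' H hH ((LinearMap.range (mR Lam Θ C)).mkQ v) =
      (LinearMap.range (mR Lam Θ C')).mkQ (mR Lam Θ H v) := rfl

variable (Lam) in
/-- independence of the presentation -/
theorem TH_equiv (C : Matrix ι κ E) (C' : Matrix ι' κ' E)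
    (p : (κ → E) →ₗ[E] M) (hp : Function.Surjective p)
    (hC : ∀ v, p v = 0 ↔ ∃ w, Matrix.vecMul w C = v)
    (p' : (κ' → E) →ₗ[E] M) (hp' : Function.Surjective p')
    (hC' : ∀ v, p' v = 0 ↔ ∃ w, Matrix.vecMul w C' = v) :
    Nonempty (((κ → Θ) ⧸ LinearMap.range (mR Lam Θ C)) ≃ₗ[Lam]
      ((κ' → Θ) ⧸ LinearMap.range (mR Lam Θ C'))) := by
  classical
  obtain ⟨H, hH⟩ := exists_comparison p p' hp'
  obtain ⟨H', hH'⟩ := exists_comparison p' p hp
  have hrow : ∀ (C : Matrix ι κ E) (i : ι), ∃ w, Matrix.vecMul w C = C i := fun C i =>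
    ⟨Pi.single i 1, by simp; rfl⟩
  have hrow' : ∀ (C : Matrix ι' κ' E) (i : ι'), ∃ w, Matrix.vecMul w C = C i := fun C i =>
    ⟨Pi.single i 1, by simp; rfl⟩
  have h1 : ∃ X : Matrix ι ι' E, C * H = X * C' := by
    apply exists_factor p' C' hC'
    intro i
    have : (C * H) i = Matrix.vecMul (C i) H := rfl
    rw [this, hH]
    exact (hC _).2 (hrow C i)
  have h2 : ∃ X : Matrix ι' ι E, C' * H' = X * C := by
    apply exists_factor p C hC
    intro i
    have : (C' * H') i = Matrix.vecMul (C' i) H' := rfl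
    rw [this, hH']
    exact (hC' _).2 (hrow' C' i)
  have h3 : ∃ Y : Matrix κ ι E, H * H' - 1 = Y * C := by
    apply exists_factor p C hC
    intro i
    have : (H * H' - 1 : Matrix κ κ E) i = Matrix.vecMul (H i) H' - (1 : Matrix κ κ E) i := rfl
    rw [this, map_sub, hH']
    have e1 : (H i : κ' → E) = Matrix.vecMul (Pi.single i 1) H := by simp; rfl
    have e2 : ((1 : Matrix κ κ E) i : κ → E) = Pi.single i 1 := by
      funext j; simp [Matrix.one_apply, Pi.single_apply, eq_comm]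
    rw [e1, hH, e2, sub_self]
  have h4 : ∃ Y : Matrix κ' ι' E, H' * H - 1 = Y * C' := by
    apply exists_factor p' C' hC'
    intro i
    have : (H' * H - 1 : Matrix κ' κ' E) i = Matrix.vecMul (H' i) H - (1 : Matrix κ' κ' E) i := rfl
    rw [this, map_sub, hH]
    have e1 : (H' i : κ → E) = Matrix.vecMul (Pi.single i 1) H' := by simp; rfl
    have e2 : ((1 : Matrix κ' κ' E) i : κ' → E) = Pi.single i 1 := by
      funext j; simp [Matrix.one_apply, Pi.single_apply, eq_comm]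
    rw [e1, hH', e2, sub_self]
  obtain ⟨Y, hY⟩ := h3
  obtain ⟨Y', hY'⟩ := h4
  refine ⟨LinearEquiv.ofLinearMap (thMap (Lam := Lam) Θ C C' H h1)
    (thMap (Lam := Lam) Θ C' C H' h2) ?_ ?_⟩
  · refine LinearMap.ext fun y => ?_
    obtain ⟨v, rfl⟩ := Submodule.mkQ_surjective _ y
    rw [LinearMap.comp_apply, thMap_mkQ, thMap_mkQ, ← mR_mul]
    have e1 : H' * H = 1 + Y' * C' := by rw [← hY']; abel
    rw [e1, mR_add, mR_one, mR_mul, map_add]
    have e2 : (LinearMap.range (mR Lam Θ C')).mkQ (mR Lam Θ C' (mR Lam Θ Y' v)) = 0 :=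
      (mkQ_eq_zero_iff (M := Θ) _ _).2 ⟨_, rfl⟩
    rw [e2, add_zero]
    rfl
  · refine LinearMap.ext fun y => ?_
    obtain ⟨v, rfl⟩ := Submodule.mkQ_surjective _ y
    rw [LinearMap.comp_apply, thMap_mkQ, thMap_mkQ, ← mR_mul]
    have e1 : H * H' = 1 + Y * C := by rw [← hY]; abel
    rw [e1, mR_add, mR_one, mR_mul, map_add]
    have e2 : (LinearMap.range (mR Lam Θ C)).mkQ (mR Lam Θ C (mR Lam Θ Y v)) = 0 :=
      (mkQ_eq_zero_iff (M := Θ) _ _).2 ⟨_, rfl⟩
    rw [e2, add_zero]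
    rfl

variable (Lam) in
/-- **(A5)** -/
theorem res_TH [IsNoetherianRing E] (hF : Flat Lam E Θ) :
    ∀ (n : ℕ) (ι κ : Type) [Fintype ι] [Fintype κ] (C : Matrix ι κ E) (M : Type u)
      [AddCommGroup M] [Module E M] (p : (κ → E) →ₗ[E] M) (_ : Function.Surjective p)
      (_ : ∀ v, p v = 0 ↔ ∃ w, Matrix.vecMul w C = v), FR.Res E n M →
      PR.Res Lam Θ n ((κ → Θ) ⧸ LinearMap.range (mR Lam Θ C))
  | 0, ι, κ, _, _, C, M, _, _, p, hp, hC, ⟨k, ⟨e⟩⟩ => by
    obtain ⟨e1⟩ := TH_equiv Lam Θ C (0 : Matrix (Fin 0) (Fin k) E) p hp hC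
      e.symm.toLinearMap e.symm.surjective (by
        intro v
        constructor
        · intro h
          have hv : v = 0 := e.symm.injective (by rw [map_zero]; exact h)
          exact ⟨0, by rw [hv]; simp⟩
        · rintro ⟨w, rfl⟩
          simp)
    have h0 : LinearMap.range (mR Lam Θ (0 : Matrix (Fin 0) (Fin k) E)) = ⊥ := by
      rw [eq_bot_iff]
      rintro _ ⟨x, rfl⟩
      rw [mR_zero]; exact zero_mem _
    refine ⟨k, ⟨e1.trans (Submodule.quotEquivOfEqBot _ h0)⟩⟩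
  | n + 1, ι, κ, _, _, C, M, _, _, p, hp, hC, ⟨k, f, hf, hk⟩ => by
    classical
    -- generators of the kernel
    have hN : IsNoetherian E (Fin k → E) := inferInstance
    obtain ⟨m, s, hs⟩ := Submodule.fg_iff_exists_fin_generating_family.1
      (hN.noetherian (LinearMap.ker f))
    let G : Matrix (Fin m) (Fin k) E := Matrix.of s
    have hG : ∀ v, f v = 0 ↔ ∃ w, Matrix.vecMul w G = v := by
      intro v
      have h1 : f v = 0 ↔ v ∈ Submodule.span E (Set.range s) := by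
        rw [hs, LinearMap.mem_ker]
      rw [h1, Submodule.mem_span_range_iff_exists_fun]
      constructor
      · rintro ⟨c, hc⟩
        exact ⟨c, by rw [← hc, vecMul_sum]; rfl⟩
      · rintro ⟨c, hc⟩
        exact ⟨c, by rw [← hc, vecMul_sum]; rfl⟩
    obtain ⟨l, D, hD⟩ := exists_syz G
    -- `ker f = range G = E^m / range D`
    let q : (Fin m → E) →ₗ[E] LinearMap.ker f :=
      LinearMap.codRestrict _ (Matrix.vecMulLinear G) (fun v => (hG _).2 ⟨v, rfl⟩)
    have hq : Function.Surjective q := by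
      rintro ⟨v, hv⟩
      obtain ⟨w, hw⟩ := (hG v).1 hv
      exact ⟨w, Subtype.ext hw⟩
    have hqD : ∀ v, q v = 0 ↔ ∃ w, Matrix.vecMul w D = v := by
      intro v
      rw [← hD v]
      constructor
      · intro h; exact congrArg Subtype.val h
      · intro h; exact Subtype.ext h
    have ih := res_TH hF n (Fin l) (Fin m) D (LinearMap.ker f) q hq hqD hk
    -- `Θ^m / range D ≃ range (mR G) = ker (Θ^k → Θ^k / range G)`
    have hexact : ∀ v : Fin m → Θ, mR Lam Θ G v = 0 ↔ ∃ w, mR Lam Θ D w = v := by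
      intro v
      constructor
      · intro h; exact hF _ _ _ D G hD v h
      · rintro ⟨w, rfl⟩
        have hDG : D * G = 0 := by
          ext i j
          have := (hD (D i)).2 ⟨Pi.single i 1, by simp; rfl⟩
          exact congrFun this j
        rw [← mR_mul, hDG, mR_zero]
    let g : (Fin m → Θ) →ₗ[Lam] LinearMap.ker (LinearMap.range (mR Lam Θ G)).mkQ :=
      LinearMap.codRestrict _ (mR Lam Θ G) (fun v => by
        rw [Submodule.ker_mkQ]; exact ⟨v, rfl⟩)
    have hg : Function.Surjective g := by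
      rintro ⟨v, hv⟩
      rw [Submodule.ker_mkQ] at hv
      obtain ⟨w, hw⟩ := hv
      exact ⟨w, Subtype.ext hw⟩
    have hgk : LinearMap.ker g = LinearMap.range (mR Lam Θ D) := by
      ext v
      rw [LinearMap.mem_ker, LinearMap.mem_range, ← hexact v]
      constructor
      · intro h; exact congrArg Subtype.val h
      · intro h; exact Subtype.ext h
    have e1 : ((Fin m → Θ) ⧸ LinearMap.range (mR Lam Θ D)) ≃ₗ[Lam]
        LinearMap.ker (LinearMap.range (mR Lam Θ G)).mkQ :=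
      (Submodule.quotEquivOfEq _ _ hgk.symm).trans (g.quotKerEquivOfSurjective hg)
    have h2 : PR.Res Lam Θ (n + 1) ((Fin k → Θ) ⧸ LinearMap.range (mR Lam Θ G)) :=
      ⟨k, (LinearMap.range (mR Lam Θ G)).mkQ, Submodule.mkQ_surjective _, ih.of_equiv e1⟩
    obtain ⟨e2⟩ := TH_equiv Lam Θ G C f hf hG p hp hC
    exact h2.of_equiv e2

variable (Lam) in
/-- **(A5), final form** -/
theorem ffr_TH [IsNoetherianRing E] (hF : Flat Lam E Θ) {ι κ : Type} [Fintype ι] [Fintype κ]
    (C : Matrix ι κ E)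
    (h : FR.FFR E ((κ → E) ⧸ LinearMap.range (Matrix.vecMulLinear C))) :
    PR.FFR Lam Θ ((κ → Θ) ⧸ LinearMap.range (mR Lam Θ C)) := by
  obtain ⟨n, hn⟩ := h
  exact ⟨n, res_TH Lam Θ hF n ι κ C _ (LinearMap.range (Matrix.vecMulLinear C)).mkQ
    (Submodule.mkQ_surjective _) (by
      intro v
      rw [Submodule.mkQ_apply, Submodule.Quotient.mk_eq_zero]
      rfl) hn⟩

variable (Lam) in
/-- every object of the class `memTH` has a finite resolution by powers of `Θ` if all f.g.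
`E`-modules have finite free resolutions -/
theorem ffr_of_memTH [IsNoetherianRing E] (hF : Flat Lam E Θ)
    (hE : ∀ (M : Type u) [AddCommGroup M] [Module E M], Module.Finite E M → FR.FFR E M)
    {Y : Type u} [AddCommGroup Y] [Module Lam Y] (hY : memTH Lam E Θ Y) : PR.FFR Lam Θ Y := by
  obtain ⟨ι, κ, _, _, C, ⟨e⟩⟩ := hY
  obtain ⟨n, hn⟩ := ffr_TH Lam Θ hF C (hE _ inferInstance)
  exact ⟨n, hn.of_equiv e.symm⟩

/-- `P = R`: the relative notion is the absolute one -/
theorem pr_res_iff {R : Type u} [Ring R] : ∀ {n : ℕ} {M : Type u} [AddCommGroup M] [Module R M],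
    PR.Res R R n M ↔ FR.Res R n M
  | 0, _, _, _ => Iff.rfl
  | _ + 1, _, _, _ =>
    ⟨fun ⟨k, f, hf, h⟩ => ⟨k, f, hf, pr_res_iff.1 h⟩, fun ⟨k, f, hf, h⟩ => ⟨k, f, hf, pr_res_iff.2 h⟩⟩

theorem pr_ffr_iff {R : Type u} [Ring R] {M : Type u} [AddCommGroup M] [Module R M] :
    PR.FFR R R M ↔ FR.FFR R M :=
  ⟨fun ⟨n, h⟩ => ⟨n, pr_res_iff.1 h⟩, fun ⟨n, h⟩ => ⟨n, pr_res_iff.2 h⟩⟩

end

end Crest.Agent.R181.MF
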