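import Mathlib

/-! Integer valued Sylvester matrix rank functions: calculus. -/

set_option autoImplicit false
set_option linter.unusedSectionVars false
open Matrix

namespace Crest.Agent.R181.MK

/-- An integer valued Sylvester matrix rank function on the ring `R`. -/
structure SylRank (R : Type) [Ring R] where
  rk : ∀ {m n : Type}, Matrix m n R → ℕ
  rk_one : rk (1 : Matrix (Fin 1) (Fin 1) R) = 1
  rk_mul_left : ∀ {l m n : Type} [Fintype l] [Fintype m] [Fintype n]
    (A : Matrix l m R) (B : Matrix m n R), rk (A * B) ≤ rk A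
  rk_mul_right : ∀ {l m n : Type} [Fintype l] [Fintype m] [Fintype n]
    (A : Matrix l m R) (B : Matrix m n R), rk (A * B) ≤ rk B
  rk_diag_le : ∀ {m n m' n' : Type} [Fintype m] [Fintype n] [Fintype m'] [Fintype n']
    (A : Matrix m n R) (B : Matrix m' n' R), rk (fromBlocks A 0 0 B) ≤ rk A + rk B
  rk_tri : ∀ {m n m' n' : Type} [Fintype m] [Fintype n] [Fintype m'] [Fintype n']
    (A : Matrix m n R) (C : Matrix m' n R) (B : Matrix m' n' R),
    rk A + rk B ≤ rk (fromBlocks A 0 C B)

namespace SylRank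

variable {R : Type} [Ring R] (ρ : SylRank R)

section
variable {l m n m' n' p q : Type} [Fintype l] [Fintype m] [Fintype n] [Fintype m'] [Fintype n']
  [Fintype p] [Fintype q]

theorem rk_diag (A : Matrix m n R) (B : Matrix m' n' R) :
    ρ.rk (fromBlocks A 0 0 B) = ρ.rk A + ρ.rk B :=
  le_antisymm (ρ.rk_diag_le A B) (ρ.rk_tri A 0 B)

theorem submatrix_eq_mul [DecidableEq m] [DecidableEq n] (A : Matrix m n R) (f : m' → m) (g : n' → n) :
    A.submatrix f g = ((1 : Matrix m m R).submatrix f id) * A * ((1 : Matrix n n R).submatrix id g) := by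
  rw [← Matrix.submatrix_id_id A]
  rw [← Matrix.submatrix_mul (1 : Matrix m m R) A f id id Function.bijective_id]
  rw [Matrix.submatrix_id_id, ← Matrix.submatrix_mul (1 * A) (1 : Matrix n n R) f id g Function.bijective_id]
  simp

theorem rk_submatrix_le (A : Matrix m n R) (f : m' → m) (g : n' → n) :
    ρ.rk (A.submatrix f g) ≤ ρ.rk A := by
  classical
  rw [submatrix_eq_mul]
  exact (ρ.rk_mul_left _ _).trans (ρ.rk_mul_right _ _)

theorem rk_reindex (A : Matrix m n R) (f : m' ≃ m) (g : n' ≃ n) :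
    ρ.rk (A.submatrix f g) = ρ.rk A := by
  refine le_antisymm (ρ.rk_submatrix_le A f g) ?_
  have h := ρ.rk_submatrix_le (A.submatrix f g) f.symm g.symm
  rwa [Matrix.submatrix_submatrix, Equiv.self_comp_symm, Equiv.self_comp_symm,
    Matrix.submatrix_id_id] at h

theorem rk_neg (A : Matrix m n R) : ρ.rk (-A) = ρ.rk A := by
  classical
  have h : ∀ B : Matrix m n R, ρ.rk (-B) ≤ ρ.rk B := by
    intro B
    have : -B = (-1 : Matrix m m R) * B := by simp
    rw [this]; exact ρ.rk_mul_right _ _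
  refine le_antisymm (h A) ?_
  have := h (-A)
  rwa [neg_neg] at this

theorem rk_empty [IsEmpty m] [IsEmpty n] (A : Matrix m n R) : ρ.rk A = 0 := by
  have h1 := ρ.rk_diag (1 : Matrix (Fin 1) (Fin 1) R) A
  have e : fromBlocks (1 : Matrix (Fin 1) (Fin 1) R) 0 0 A
      = (1 : Matrix (Fin 1) (Fin 1) R).submatrix (Equiv.sumEmpty (Fin 1) m) (Equiv.sumEmpty (Fin 1) n) := by
    ext (i | i) (j | j)
    · simp only [fromBlocks_apply₁₁, Matrix.submatrix_apply, Matrix.one_apply]; congr
    · exact isEmptyElim j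
    · exact isEmptyElim i
    · exact isEmptyElim i
  rw [e, ρ.rk_reindex] at h1
  omega

theorem rk_zero : ρ.rk (0 : Matrix m n R) = 0 := by
  have h : (0 : Matrix m n R) = (0 : Matrix m Empty R) * ((0 : Matrix Empty Empty R) * (0 : Matrix Empty n R)) := by
    ext i j; simp [Matrix.mul_apply]
  have h2 := (ρ.rk_mul_right (0 : Matrix m Empty R)
    ((0 : Matrix Empty Empty R) * (0 : Matrix Empty n R))).trans (ρ.rk_mul_left _ _)
  rw [← h, ρ.rk_empty (0 : Matrix Empty Empty R)] at h2
  omega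

theorem rk_eq_zero_of_isEmpty_left [IsEmpty m] (A : Matrix m n R) : ρ.rk A = 0 := by
  have : A = 0 := by ext i; exact isEmptyElim i
  rw [this, rk_zero]

theorem rk_eq_zero_of_isEmpty_right [IsEmpty n] (A : Matrix m n R) : ρ.rk A = 0 := by
  have : A = 0 := by ext i j; exact isEmptyElim j
  rw [this, rk_zero]

theorem rk_one_fin (k : ℕ) : ρ.rk (1 : Matrix (Fin k) (Fin k) R) = k := by
  induction k with
  | zero => exact ρ.rk_empty _
  | succ k ih =>
    have h := ρ.rk_diag (1 : Matrix (Fin k) (Fin k) R) (1 : Matrix (Fin 1) (Fin 1) R)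
    rw [Matrix.fromBlocks_one, ih, ρ.rk_one] at h
    have e : (1 : Matrix (Fin k ⊕ Fin 1) (Fin k ⊕ Fin 1) R)
      = (1 : Matrix (Fin (k+1)) (Fin (k+1)) R).submatrix finSumFinEquiv finSumFinEquiv := by
      rw [Matrix.submatrix_one_equiv]
    calc ρ.rk (1 : Matrix (Fin (k+1)) (Fin (k+1)) R)
        = ρ.rk ((1 : Matrix (Fin (k+1)) (Fin (k+1)) R).submatrix finSumFinEquiv finSumFinEquiv) :=
          (ρ.rk_reindex _ _ _).symm
      _ = k + 1 := by rw [← e, h]

theorem rk_one' [DecidableEq n] : ρ.rk (1 : Matrix n n R) = Fintype.card n := by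
  have e : (1 : Matrix n n R)
      = (1 : Matrix (Fin (Fintype.card n)) (Fin (Fintype.card n)) R).submatrix
          (Fintype.equivFin n) (Fintype.equivFin n) := by
    rw [Matrix.submatrix_one_equiv]
  rw [e, ρ.rk_reindex, ρ.rk_one_fin]

theorem rk_le_card_left (A : Matrix m n R) : ρ.rk A ≤ Fintype.card m := by
  classical
  have := ρ.rk_mul_left (1 : Matrix m m R) A
  rwa [Matrix.one_mul, ρ.rk_one'] at this

theorem rk_le_card_right (A : Matrix m n R) : ρ.rk A ≤ Fintype.card n := by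
  classical
  have := ρ.rk_mul_right A (1 : Matrix n n R)
  rwa [Matrix.mul_one, ρ.rk_one'] at this

theorem rk_isUnit [DecidableEq n] (A : Matrix n n R) (h : IsUnit A) : ρ.rk A = Fintype.card n := by
  obtain ⟨u, rfl⟩ := h
  refine le_antisymm (ρ.rk_le_card_left _) ?_
  have := ρ.rk_mul_left (u : Matrix n n R) ((u⁻¹ : (Matrix n n R)ˣ) : Matrix n n R)
  rwa [Units.mul_inv, ρ.rk_one'] at this

theorem rk_unit_mul [DecidableEq m] {U : Matrix m m R} (hU : IsUnit U) (A : Matrix m n R) :
    ρ.rk (U * A) = ρ.rk A := by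
  refine le_antisymm (ρ.rk_mul_right _ _) ?_
  obtain ⟨u, rfl⟩ := hU
  have := ρ.rk_mul_right ((u⁻¹ : (Matrix m m R)ˣ) : Matrix m m R) ((u : Matrix m m R) * A)
  rwa [← Matrix.mul_assoc, Units.inv_mul, Matrix.one_mul] at this

theorem rk_mul_unit [DecidableEq n] {U : Matrix n n R} (hU : IsUnit U) (A : Matrix m n R) :
    ρ.rk (A * U) = ρ.rk A := by
  refine le_antisymm (ρ.rk_mul_left _ _) ?_
  obtain ⟨u, rfl⟩ := hU
  have := ρ.rk_mul_left (A * (u : Matrix n n R)) ((u⁻¹ : (Matrix n n R)ˣ) : Matrix n n R)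
  rwa [Matrix.mul_assoc, Units.mul_inv, Matrix.mul_one] at this

theorem rk_fromRows_le (A : Matrix m n R) (B : Matrix m' n R) :
    ρ.rk (fromRows A B) ≤ ρ.rk A + ρ.rk B := by
  classical
  have : fromRows A B = fromBlocks A (0 : Matrix m n R) (0 : Matrix m' n R) B *
      fromRows (1 : Matrix n n R) (1 : Matrix n n R) := by
    rw [fromBlocks_mul_fromRows]; simp
  rw [this]
  exact (ρ.rk_mul_left _ _).trans (ρ.rk_diag_le A B)

theorem rk_fromCols_le (A : Matrix m n R) (B : Matrix m n' R) :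
    ρ.rk (fromCols A B) ≤ ρ.rk A + ρ.rk B := by
  classical
  have : fromCols A B = fromCols (1 : Matrix m m R) (1 : Matrix m m R) *
      fromBlocks A (0 : Matrix m n' R) (0 : Matrix m n R) B := by
    rw [fromCols_mul_fromBlocks]; simp
  rw [this]
  exact (ρ.rk_mul_right _ _).trans (ρ.rk_diag_le A B)

theorem rk_le_fromRows_left (A : Matrix m n R) (B : Matrix m' n R) :
    ρ.rk A ≤ ρ.rk (fromRows A B) :=
  ρ.rk_submatrix_le (fromRows A B) Sum.inl id

theorem rk_le_fromRows_right (A : Matrix m n R) (B : Matrix m' n R) :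
    ρ.rk B ≤ ρ.rk (fromRows A B) :=
  ρ.rk_submatrix_le (fromRows A B) Sum.inr id

theorem rk_le_fromCols_left (A : Matrix m n R) (B : Matrix m n' R) :
    ρ.rk A ≤ ρ.rk (fromCols A B) :=
  ρ.rk_submatrix_le (fromCols A B) id Sum.inl

theorem rk_le_fromCols_right (A : Matrix m n R) (B : Matrix m n' R) :
    ρ.rk B ≤ ρ.rk (fromCols A B) :=
  ρ.rk_submatrix_le (fromCols A B) id Sum.inr

/-- `[[1,0],[X,1]]` is a unit. -/
theorem isUnit_lower [DecidableEq m] [DecidableEq n] (X : Matrix n m R) :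
    IsUnit (fromBlocks (1 : Matrix m m R) 0 X (1 : Matrix n n R)) := by
  refine ⟨⟨fromBlocks 1 0 X 1, fromBlocks 1 0 (-X) 1, ?_, ?_⟩, rfl⟩ <;>
  simp [fromBlocks_multiply]

theorem isUnit_upper [DecidableEq m] [DecidableEq n] (X : Matrix m n R) :
    IsUnit (fromBlocks (1 : Matrix m m R) X 0 (1 : Matrix n n R)) := by
  refine ⟨⟨fromBlocks 1 X 0 1, fromBlocks 1 (-X) 0 1, ?_, ?_⟩, rfl⟩ <;>
  simp [fromBlocks_multiply]

/-- upper triangular version of `rk_tri` -/
theorem rk_tri' (A : Matrix m n R) (C : Matrix m n' R) (B : Matrix m' n' R) :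
    ρ.rk A + ρ.rk B ≤ ρ.rk (fromBlocks A C 0 B) := by
  have h := ρ.rk_tri B C A
  have e : fromBlocks A C 0 B = (fromBlocks B 0 C A).submatrix (Equiv.sumComm m m') (Equiv.sumComm n n') := by
    ext (i | i) (j | j) <;> rfl
  rw [e, ρ.rk_reindex]
  omega

theorem rk_fromRows_comm (A : Matrix m n R) (B : Matrix m' n R) :
    ρ.rk (fromRows A B) = ρ.rk (fromRows B A) := by
  have e : fromRows A B = (fromRows B A).submatrix (Equiv.sumComm m m') (Equiv.refl n) := by
    ext (i | i) j <;> rfl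
  rw [e, ρ.rk_reindex]

/-- left multiples of rows can be adjoined -/
theorem rk_fromRows_mul_left (P : Matrix m n R) (X : Matrix m' m R) (Q : Matrix p n R) :
    ρ.rk (fromRows (fromRows P Q) (X * P)) = ρ.rk (fromRows P Q) := by
  classical
  refine le_antisymm ?_ (ρ.rk_le_fromRows_left _ _)
  have : fromRows (fromRows P Q) (X * P)
      = fromRows (1 : Matrix (m ⊕ p) (m ⊕ p) R) (fromCols X 0) * fromRows P Q := by
    rw [fromRows_mul, Matrix.one_mul, fromCols_mul_fromRows]; simp
  rw [this]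
  exact ρ.rk_mul_right _ _

/-- submodularity in the rows -/
theorem rk_submod (P : Matrix p n R) (X : Matrix m n R) (Y : Matrix m' n R) :
    ρ.rk (fromRows P (fromRows X Y)) + ρ.rk P ≤ ρ.rk (fromRows P X) + ρ.rk (fromRows P Y) := by
  classical
  have h1 := ρ.rk_diag_le (fromRows P X) (fromRows P Y)
  -- row operation
  let U : Matrix ((p ⊕ m) ⊕ (p ⊕ m')) ((p ⊕ m) ⊕ (p ⊕ m')) R :=
    fromBlocks 1 (fromBlocks (-1) 0 0 0) 0 1
  let V : Matrix (n ⊕ n) (n ⊕ n) R := fromBlocks 1 1 0 1
  have hU : IsUnit U := isUnit_upper _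
  have hV : IsUnit V := isUnit_upper _
  have h2 : ρ.rk (U * fromBlocks (fromRows P X) 0 0 (fromRows P Y) * V)
      = ρ.rk (fromBlocks (fromRows P X) 0 0 (fromRows P Y)) := by
    rw [ρ.rk_mul_unit hV, ρ.rk_unit_mul hU]
  have h3 : ρ.rk P + ρ.rk (fromRows P (fromRows X Y))
      ≤ ρ.rk (U * fromBlocks (fromRows P X) 0 0 (fromRows P Y) * V) := by
    have h4 := ρ.rk_tri P (fromRows (0 : Matrix p n R) (fromRows X 0)) (fromRows P (fromRows X Y))
    refine h4.trans ?_
    let f : (p ⊕ (p ⊕ (m ⊕ m'))) → ((p ⊕ m) ⊕ (p ⊕ m')) :=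
      Sum.elim (Sum.inl ∘ Sum.inl) (Sum.elim (Sum.inr ∘ Sum.inl)
        (Sum.elim (Sum.inl ∘ Sum.inr) (Sum.inr ∘ Sum.inr)))
    have h5 := ρ.rk_submatrix_le (U * fromBlocks (fromRows P X) 0 0 (fromRows P Y) * V) f id
    refine le_trans (le_of_eq ?_) h5
    congr 1
    have e : U * fromBlocks (fromRows P X) 0 0 (fromRows P Y) * V
        = fromBlocks (fromRows P X) (fromRows 0 X) 0 (fromRows P Y) := by
      simp only [U, V, fromBlocks_multiply, Matrix.one_mul, Matrix.mul_one, Matrix.mul_zero,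
        Matrix.zero_mul, add_zero, zero_add, fromBlocks_mul_fromRows]
      congr 1
      ext (i | i) j <;> simp
    rw [e]
    ext (i | i | i | i) (j | j) <;> simp [f]
  omega

/-- Sylvester's law -/
theorem rk_mul_ge (A : Matrix m n R) (B : Matrix n p R) :
    ρ.rk A + ρ.rk B ≤ ρ.rk (A * B) + Fintype.card n := by
  classical
  let W : Matrix (m ⊕ n) (p ⊕ n) R := fromBlocks (A * B) 0 0 1
  have h1 : ρ.rk W ≤ ρ.rk (A * B) + Fintype.card n := by
    have := ρ.rk_diag_le (A * B) (1 : Matrix n n R)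
    rwa [ρ.rk_one'] at this
  let U : Matrix (m ⊕ n) (m ⊕ n) R := fromBlocks 1 (-A) 0 1
  let V : Matrix (p ⊕ n) (p ⊕ n) R := fromBlocks 1 0 B 1
  have hU : IsUnit U := isUnit_upper _
  have hV : IsUnit V := isUnit_lower _
  have h2 : ρ.rk (U * W * V) = ρ.rk W := by
    rw [ρ.rk_mul_unit hV, ρ.rk_unit_mul hU]
  have h3 : ρ.rk A + ρ.rk B ≤ ρ.rk (U * W * V) := by
    have h4 := ρ.rk_tri (-A) (1 : Matrix n n R) B
    rw [ρ.rk_neg] at h4
    refine h4.trans ?_
    have h5 := ρ.rk_submatrix_le (U * W * V) id (Equiv.sumComm n p)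
    refine le_trans (le_of_eq ?_) h5
    congr 1
    have e : U * W * V = fromBlocks 0 (-A) B 1 := by
      simp only [U, V, W, fromBlocks_multiply, Matrix.one_mul, Matrix.mul_one, Matrix.mul_zero,
        Matrix.zero_mul, add_zero, zero_add]
      simp
    rw [e]
    ext (i | i) (j | j) <;> simp
  omega

/-- If every row of `Q` depends on `P`, then all of `Q` does. -/
theorem rk_rows_of_forall (P : Matrix p n R) (Q : Matrix q n R)
    (h : ∀ i, ρ.rk (fromRows P (Q.submatrix (fun _ : Unit => i) id)) ≤ ρ.rk P) :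
    ρ.rk (fromRows P Q) ≤ ρ.rk P := by
  classical
  have key : ∀ s : Finset q, ρ.rk (fromRows P (Q.submatrix (fun i : s => (i : q)) id)) ≤ ρ.rk P := by
    intro s
    induction s using Finset.induction_on with
    | empty =>
      have := ρ.rk_fromRows_le P (Q.submatrix (fun i : (∅ : Finset q) => (i : q)) id)
      rwa [ρ.rk_eq_zero_of_isEmpty_left (Q.submatrix (fun i : (∅ : Finset q) => (i : q)) id),
        add_zero] at this
    | insert a s ha ih =>
      have h1 := ρ.rk_submod P (Q.submatrix (fun i : s => (i : q)) id)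
        (Q.submatrix (fun _ : Unit => a) id)
      have h2 := h a
      let f : (p ⊕ ((insert a s : Finset q) : Type)) → (p ⊕ ((s : Type) ⊕ Unit)) :=
        Sum.map id (fun i => if hi : (i : q) ∈ s then Sum.inl ⟨i, hi⟩ else Sum.inr ())
      have h3 := ρ.rk_submatrix_le (fromRows P (fromRows (Q.submatrix (fun i : s => (i : q)) id)
        (Q.submatrix (fun _ : Unit => a) id))) f id
      have e : (fromRows P (fromRows (Q.submatrix (fun i : s => (i : q)) id)
        (Q.submatrix (fun _ : Unit => a) id))).submatrix f id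
        = fromRows P (Q.submatrix (fun i : (insert a s : Finset q) => (i : q)) id) := by
        ext (i | i) j
        · simp [f]
        · by_cases hi : (i : q) ∈ s
          · simp [f, hi]
          · have : (i : q) = a := by
              have := i.2
              rw [Finset.mem_insert] at this
              tauto
            simp only [f, submatrix_apply, Sum.map_inr, hi, dite_false, fromRows_apply_inr, id]
            rw [this]
      rw [e] at h3
      omega
  have h1 := key Finset.univ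
  have h2 := ρ.rk_submatrix_le (fromRows P (Q.submatrix (fun i : (Finset.univ : Finset q) => (i : q)) id))
    (Sum.map id (fun i => ⟨i, Finset.mem_univ i⟩)) (id : n → n)
  have e : (fromRows P (Q.submatrix (fun i : (Finset.univ : Finset q) => (i : q)) id)).submatrix
    (Sum.map id (fun i => ⟨i, Finset.mem_univ i⟩)) (id : n → n) = fromRows P Q := by
    ext (i | i) j <;> simp
  rw [e] at h2
  omega

theorem rk_lower_block (L : Matrix l n R) (Y : Matrix q n R) (P : Matrix p q R) [DecidableEq q] :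
    ρ.rk (fromRows (fromBlocks L 0 (-Y) (1 : Matrix q q R)) (fromCols 0 P))
      = Fintype.card q + ρ.rk (fromRows L (P * Y)) := by
  classical
  let U : Matrix ((l ⊕ q) ⊕ p) ((l ⊕ q) ⊕ p) R := fromBlocks 1 0 (fromCols 0 (-P)) 1
  have hU : IsUnit U := isUnit_lower _
  have h1 : ρ.rk (U * fromRows (fromBlocks L 0 (-Y) (1 : Matrix q q R)) (fromCols 0 P))
    = ρ.rk (fromRows (fromBlocks L 0 (-Y) (1 : Matrix q q R)) (fromCols 0 P)) := ρ.rk_unit_mul hU _
  have e : U * fromRows (fromBlocks L 0 (-Y) (1 : Matrix q q R)) (fromCols 0 P)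
      = fromRows (fromBlocks L 0 (-Y) (1 : Matrix q q R)) (fromCols (P * Y) 0) := by
    simp only [U]
    rw [fromBlocks_mul_fromRows, fromCols_mul_fromBlocks]
    simp only [Matrix.one_mul, Matrix.zero_mul, add_zero, zero_add, Matrix.neg_mul, Matrix.mul_neg,
      neg_neg, Matrix.mul_one]
    congr 1
    ext i (j | j) <;> simp
  rw [← h1, e]
  have e2 : fromRows (fromBlocks L 0 (-Y) (1 : Matrix q q R)) (fromCols (P * Y) 0)
      = (fromBlocks (fromRows L (P * Y)) 0 (-Y) (1 : Matrix q q R)).submatrix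
        (((Equiv.sumAssoc l q p).trans ((Equiv.refl l).sumCongr (Equiv.sumComm q p))).trans
          (Equiv.sumAssoc l p q).symm) (Equiv.refl _) := by
    ext ((i | i) | i) (j | j) <;> simp
  rw [e2, ρ.rk_reindex]
  apply le_antisymm
  · rw [← fromRows_fromCols_eq_fromBlocks]
    refine (ρ.rk_fromRows_le _ _).trans ?_
    have h2 := ρ.rk_le_card_left (fromCols (-Y) (1 : Matrix q q R))
    have h3 := ρ.rk_fromCols_le (fromRows L (P * Y)) (0 : Matrix (l ⊕ p) q R)
    rw [ρ.rk_zero] at h3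
    omega
  · have := ρ.rk_tri (fromRows L (P * Y)) (-Y) (1 : Matrix q q R)
    rw [ρ.rk_one'] at this
    omega

/-- Frobenius type inequality: substituting `Y` in a row dependency. -/
theorem rk_frob (L : Matrix l n R) (Y : Matrix q n R) (P₁ : Matrix p q R) (P₂ : Matrix m q R) :
    ρ.rk (fromRows L (fromRows P₁ P₂ * Y)) + ρ.rk P₁
      ≤ ρ.rk (fromRows L (P₁ * Y)) + ρ.rk (fromRows P₁ P₂) := by
  classical
  have h := ρ.rk_submod (fromCols (0 : Matrix p n R) P₁)
    (fromBlocks L 0 (-Y) (1 : Matrix q q R)) (fromCols (0 : Matrix m n R) P₂)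
  have h1 := ρ.rk_lower_block L Y (fromRows P₁ P₂)
  have h2 := ρ.rk_lower_block L Y P₁
  rw [ρ.rk_fromRows_comm] at h2
  have h3 : ρ.rk (fromCols (0 : Matrix p n R) P₁) = ρ.rk P₁ := by
    apply le_antisymm
    · have := ρ.rk_fromCols_le (0 : Matrix p n R) P₁
      rw [ρ.rk_zero] at this; omega
    · exact ρ.rk_le_fromCols_right _ _
  have h4 : ρ.rk (fromRows (fromCols (0 : Matrix p n R) P₁) (fromCols (0 : Matrix m n R) P₂))
      ≤ ρ.rk (fromRows P₁ P₂) := by
    have e : fromRows (fromCols (0 : Matrix p n R) P₁) (fromCols (0 : Matrix m n R) P₂)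
      = fromCols 0 (fromRows P₁ P₂) := by
      ext (i | i) (j | j) <;> simp
    rw [e]
    have := ρ.rk_fromCols_le (0 : Matrix (p ⊕ m) n R) (fromRows P₁ P₂)
    rw [ρ.rk_zero] at this; omega
  have h5 : ρ.rk (fromRows (fromCols (0 : Matrix p n R) P₁)
      (fromRows (fromBlocks L 0 (-Y) (1 : Matrix q q R)) (fromCols (0 : Matrix m n R) P₂)))
      = ρ.rk (fromRows (fromBlocks L 0 (-Y) (1 : Matrix q q R)) (fromCols 0 (fromRows P₁ P₂))) := by
    have e : fromRows (fromCols (0 : Matrix p n R) P₁)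
      (fromRows (fromBlocks L 0 (-Y) (1 : Matrix q q R)) (fromCols (0 : Matrix m n R) P₂))
      = (fromRows (fromBlocks L 0 (-Y) (1 : Matrix q q R)) (fromCols 0 (fromRows P₁ P₂))).submatrix
        ((Equiv.sumAssoc p (l ⊕ q) m).symm.trans (((Equiv.sumComm p (l ⊕ q)).sumCongr (Equiv.refl m)).trans
          (Equiv.sumAssoc (l ⊕ q) p m))) (Equiv.refl _) := by
      ext (i | (i | i) | i) (j | j) <;> simp
    rw [e, ρ.rk_reindex]
  omega

end

end SylRank

end Crest.Agent.R181.MK
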