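import Crest.Agent.R181.MK1

/-! Rank of finite families in a free module, closure, and the universal torsion free quotient
on which all full matrices act bijectively. -/

set_option autoImplicit false
set_option linter.unusedSectionVars false
open Matrix

namespace Crest.Agent.R181.MK

namespace SylRank

variable {R : Type} [Ring R] (ρ : SylRank R) {ι α κ κ' μ : Type}

/-- coordinate matrix on the finite set of columns `t` -/
def mat (v : κ → ι →₀ R) (t : Finset ι) : Matrix κ t R := fun k i => v k i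

def Supp (v : κ → ι →₀ R) (t : Finset ι) : Prop := ∀ k, (v k).support ⊆ t

theorem Supp.mono {v : κ → ι →₀ R} {t t' : Finset ι} (h : Supp v t) (h' : t ⊆ t') : Supp v t' :=
  fun k => (h k).trans h'

theorem exists_supp [Fintype κ] (v : κ → ι →₀ R) : ∃ t, Supp v t := by
  classical
  exact ⟨Finset.univ.biUnion fun k => (v k).support,
    fun k => Finset.subset_biUnion_of_mem (fun k => (v k).support) (Finset.mem_univ k)⟩

theorem rk_mat_le [Fintype κ] (v : κ → ι →₀ R) (t t' : Finset ι) (h : Supp v t) :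
    ρ.rk (mat v t') ≤ ρ.rk (mat v t) := by
  classical
  have e : mat v t' = mat v t * (Matrix.of fun (i : t) (j : t') => if (i : ι) = j then (1 : R) else 0) := by
    ext k j
    rw [Matrix.mul_apply]
    by_cases hj : (j : ι) ∈ t
    · rw [Finset.sum_eq_single (⟨j, hj⟩ : t)]
      · simp [mat]
      · intro i _ hi
        have : (i : ι) ≠ j := fun h => hi (Subtype.ext h)
        simp [this]
      · simp
    · have h0 : v k j = 0 := by
        by_contra hne
        exact hj (h k (Finsupp.mem_support_iff.2 hne))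
      rw [Finset.sum_eq_zero]
      · exact h0
      · intro i _
        have : (i : ι) ≠ j := fun h => hj (h ▸ i.2)
        simp [this]
  rw [e]
  exact ρ.rk_mul_left _ _

/-- rank of a finite family of vectors -/
noncomputable def fr [Fintype κ] (v : κ → ι →₀ R) : ℕ := ρ.rk (mat v (exists_supp v).choose)

theorem fr_eq [Fintype κ] (v : κ → ι →₀ R) (t : Finset ι) (h : Supp v t) : ρ.fr v = ρ.rk (mat v t) :=
  le_antisymm (ρ.rk_mat_le v _ _ h) (ρ.rk_mat_le v _ _ (exists_supp v).choose_spec)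

theorem Supp.elim {v : κ → ι →₀ R} {w : κ' → ι →₀ R} {t : Finset ι} (h : Supp v t) (h' : Supp w t) :
    Supp (Sum.elim v w) t := by
  rintro (k | k)
  · exact h k
  · exact h' k

theorem mat_elim (v : κ → ι →₀ R) (w : κ' → ι →₀ R) (t : Finset ι) :
    mat (Sum.elim v w) t = fromRows (mat v t) (mat w t) := by
  ext (k | k) i <;> rfl

theorem exists_supp₂ [Fintype κ] [Fintype κ'] (v : κ → ι →₀ R) (w : κ' → ι →₀ R) :
    ∃ t, Supp v t ∧ Supp w t := by
  classical
  obtain ⟨t, ht⟩ := exists_supp v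
  obtain ⟨t', ht'⟩ := exists_supp w
  exact ⟨t ∪ t', ht.mono Finset.subset_union_left, ht'.mono Finset.subset_union_right⟩

theorem exists_supp₃ [Fintype κ] [Fintype κ'] [Fintype μ] (v : κ → ι →₀ R) (w : κ' → ι →₀ R)
    (x : μ → ι →₀ R) : ∃ t, Supp v t ∧ Supp w t ∧ Supp x t := by
  classical
  obtain ⟨t, ht, ht'⟩ := exists_supp₂ v w
  obtain ⟨t'', ht''⟩ := exists_supp x
  exact ⟨t ∪ t'', ht.mono Finset.subset_union_left, ht'.mono Finset.subset_union_left,
    ht''.mono Finset.subset_union_right⟩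

theorem fr_le_card [Fintype κ] (v : κ → ι →₀ R) : ρ.fr v ≤ Fintype.card κ := ρ.rk_le_card_left _

/-- matrix action on families -/
noncomputable def act [Fintype κ] (P : Matrix κ' κ R) (v : κ → ι →₀ R) : κ' → ι →₀ R :=
  fun k => ∑ l, P k l • v l

theorem Supp.act [Fintype κ] {v : κ → ι →₀ R} {t : Finset ι} (h : Supp v t) (P : Matrix κ' κ R) :
    Supp (act P v) t := by
  classical
  intro k
  refine (Finsupp.support_finsetSum).trans ?_
  intro i hi
  rw [Finset.mem_biUnion] at hi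
  obtain ⟨l, _, hl⟩ := hi
  exact h l (Finsupp.support_smul hl)

theorem mat_act [Fintype κ] (P : Matrix κ' κ R) (v : κ → ι →₀ R) (t : Finset ι) :
    mat (act P v) t = P * mat v t := by
  ext k i
  simp [mat, SylRank.act, Matrix.mul_apply, Finsupp.finsetSum_apply]

theorem fr_act_le [Fintype κ] [Fintype κ'] (P : Matrix κ' κ R) (v : κ → ι →₀ R) :
    ρ.fr (act P v) ≤ ρ.fr v := by
  obtain ⟨t, ht⟩ := exists_supp v
  rw [ρ.fr_eq _ t (ht.act P), ρ.fr_eq _ t ht, mat_act]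
  exact ρ.rk_mul_right _ _

theorem fr_comp_le [Fintype κ] [Fintype κ'] (v : κ → ι →₀ R) (f : κ' → κ) :
    ρ.fr (v ∘ f) ≤ ρ.fr v := by
  obtain ⟨t, ht⟩ := exists_supp v
  rw [ρ.fr_eq (v ∘ f) t (fun k => ht (f k)), ρ.fr_eq _ t ht]
  exact ρ.rk_submatrix_le (mat v t) f id

theorem fr_le_of_subfamily [Fintype κ] [Fintype κ'] (v : κ → ι →₀ R) (w : κ' → ι →₀ R)
    (h : ∀ k, ∃ l, w l = v k) : ρ.fr v ≤ ρ.fr w := by
  choose f hf using h
  have : v = w ∘ f := by ext1 k; exact (hf k).symm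
  rw [this]
  exact ρ.fr_comp_le _ _

theorem fr_eq_of_subfamily [Fintype κ] [Fintype κ'] (v : κ → ι →₀ R) (w : κ' → ι →₀ R)
    (h : ∀ k, ∃ l, w l = v k) (h' : ∀ l, ∃ k, v k = w l) : ρ.fr v = ρ.fr w :=
  le_antisymm (ρ.fr_le_of_subfamily v w h) (ρ.fr_le_of_subfamily w v h')

theorem fr_submod [Fintype κ] [Fintype κ'] [Fintype μ] (u : μ → ι →₀ R) (v : κ → ι →₀ R)
    (w : κ' → ι →₀ R) :
    ρ.fr (Sum.elim u (Sum.elim v w)) + ρ.fr u ≤ ρ.fr (Sum.elim u v) + ρ.fr (Sum.elim u w) := by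
  obtain ⟨t, h1, h2, h3⟩ := exists_supp₃ u v w
  rw [ρ.fr_eq _ t (h1.elim (h2.elim h3)), ρ.fr_eq _ t h1, ρ.fr_eq _ t (h1.elim h2),
    ρ.fr_eq _ t (h1.elim h3), mat_elim, mat_elim, mat_elim, mat_elim]
  exact ρ.rk_submod _ _ _

theorem fr_rows_of_forall [Fintype κ] [Fintype κ'] (v : κ → ι →₀ R) (w : κ' → ι →₀ R)
    (h : ∀ i, ρ.fr (Sum.elim v (fun _ : Unit => w i)) ≤ ρ.fr v) :
    ρ.fr (Sum.elim v w) ≤ ρ.fr v := by
  obtain ⟨t, h1, h2⟩ := exists_supp₂ v w
  rw [ρ.fr_eq _ t (h1.elim h2), ρ.fr_eq _ t h1, mat_elim]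
  apply ρ.rk_rows_of_forall
  intro i
  have := h i
  rw [ρ.fr_eq _ t h1, ρ.fr_eq _ t (h1.elim (fun _ => h2 i)), mat_elim] at this
  exact this

/-- triangular lower bound -/
theorem fr_tri [Fintype κ] [Fintype κ'] [Fintype μ] (v : κ → ι →₀ R) (w : κ' → ι →₀ R)
    (g : μ → ι) (h : ∀ k j, v k (g j) = 0) :
    ρ.fr v + ρ.rk (Matrix.of fun k j => w k (g j)) ≤ ρ.fr (Sum.elim v w) := by
  classical
  obtain ⟨t, h1, h2⟩ := exists_supp₂ v w
  set t' : Finset ι := t ∪ Finset.univ.image g with ht'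
  have h1' : Supp v t' := h1.mono Finset.subset_union_left
  have h2' : Supp w t' := h2.mono Finset.subset_union_left
  rw [ρ.fr_eq _ t' (h1'.elim h2'), mat_elim]
  set t'' : Finset ι := t \ Finset.univ.image g with ht''
  have h1'' : Supp v t'' := by
    intro k i hi
    rw [ht'', Finset.mem_sdiff]
    refine ⟨h1 k hi, ?_⟩
    intro hi'
    rw [Finset.mem_image] at hi'
    obtain ⟨j, _, rfl⟩ := hi'
    exact Finsupp.mem_support_iff.1 hi (h k j)
  rw [ρ.fr_eq v t'' h1'']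
  have h5 := ρ.rk_tri (mat v t'') (mat w t'') (Matrix.of fun k j => w k (g j))
  refine h5.trans ?_
  let f : (t'' : Type) ⊕ μ → (t' : Type) := Sum.elim
    (fun i => ⟨i.1, Finset.mem_union_left _ (Finset.mem_sdiff.1 i.2).1⟩)
    (fun j => ⟨g j, Finset.mem_union_right _ (Finset.mem_image_of_mem g (Finset.mem_univ j))⟩)
  have h6 := ρ.rk_submatrix_le (fromRows (mat v t') (mat w t')) id f
  refine le_trans (le_of_eq ?_) h6
  congr 1
  ext (k | k) (i | j)
  · rfl
  · exact (h k j).symm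
  · rfl
  · rfl

/-- `x` depends on the finite family `v` -/
def Dep [Fintype κ] (v : κ → ι →₀ R) (x : ι →₀ R) : Prop :=
  ρ.fr (Sum.elim v (fun _ : Unit => x)) ≤ ρ.fr v

theorem Dep.mono [Fintype κ] [Fintype κ'] {v : κ → ι →₀ R} {w : κ' → ι →₀ R} {x : ι →₀ R}
    (h : ρ.Dep v x) (hvw : ∀ k, ∃ l, w l = v k) : ρ.Dep w x := by
  unfold Dep at *
  have h1 := ρ.fr_submod v w (fun _ : Unit => x)
  have h2 : ρ.fr (Sum.elim v w) = ρ.fr w := by
    apply ρ.fr_eq_of_subfamily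
    · rintro (k | l)
      · exact hvw k
      · exact ⟨l, rfl⟩
    · intro l; exact ⟨Sum.inr l, rfl⟩
  have h3 : ρ.fr (Sum.elim w (fun _ : Unit => x))
      ≤ ρ.fr (Sum.elim v (Sum.elim w (fun _ : Unit => x))) := by
    apply ρ.fr_le_of_subfamily
    intro k; exact ⟨Sum.inr k, rfl⟩
  omega

theorem Dep.add [Fintype κ] {v : κ → ι →₀ R} {x y : ι →₀ R} (hx : ρ.Dep v x) (hy : ρ.Dep v y)
    (r s : R) : ρ.Dep v (r • x + s • y) := by
  classical
  have h1 : ρ.fr (Sum.elim v (fun b : Bool => if b then x else y)) ≤ ρ.fr v := by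
    apply ρ.fr_rows_of_forall
    intro b
    cases b
    · exact hy
    · exact hx
  unfold Dep
  refine le_trans ?_ h1
  have h2 := ρ.fr_act_le (fromBlocks (1 : Matrix κ κ R) 0 0
    (Matrix.of fun (_ : Unit) (b : Bool) => if b then r else s))
    (Sum.elim v (fun b : Bool => if b then x else y))
  refine le_trans (le_of_eq ?_) h2
  congr 1
  ext1 k
  rcases k with k | k
  · simp [SylRank.act, Matrix.one_apply, ite_smul, Finset.sum_ite_eq]
  · simp [SylRank.act]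

theorem dep_zero [Fintype κ] (v : κ → ι →₀ R) : ρ.Dep v 0 := by
  classical
  unfold Dep
  have h2 := ρ.fr_act_le (fromRows (1 : Matrix κ κ R) (0 : Matrix Unit κ R)) v
  refine le_trans (le_of_eq ?_) h2
  congr 1
  ext1 k
  rcases k with k | k
  · simp [SylRank.act, Matrix.one_apply, ite_smul, Finset.sum_ite_eq]
  · simp [SylRank.act]

theorem dep_self [Fintype κ] (v : κ → ι →₀ R) (k : κ) : ρ.Dep v (v k) := by
  unfold Dep
  apply ρ.fr_le_of_subfamily
  rintro (l | _)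
  · exact ⟨l, rfl⟩
  · exact ⟨k, rfl⟩

/-- closure of a family -/
def cl (a : α → ι →₀ R) : Submodule R (ι →₀ R) where
  carrier := {x | ∃ s : Finset α, ρ.Dep (fun i : s => a i) x}
  add_mem' := by
    classical
    rintro x y ⟨s, hs⟩ ⟨s', hs'⟩
    refine ⟨s ∪ s', ?_⟩
    have h1 := Dep.mono ρ (w := fun i : (s ∪ s' : Finset α) => a i) hs
      (fun k => ⟨⟨k.1, Finset.mem_union_left _ k.2⟩, rfl⟩)
    have h2 := Dep.mono ρ (w := fun i : (s ∪ s' : Finset α) => a i) hs'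
      (fun k => ⟨⟨k.1, Finset.mem_union_right _ k.2⟩, rfl⟩)
    have := Dep.add ρ h1 h2 1 1
    simpa using this
  zero_mem' := ⟨∅, ρ.dep_zero _⟩
  smul_mem' := by
    rintro r x ⟨s, hs⟩
    refine ⟨s, ?_⟩
    have := Dep.add ρ hs hs r 0
    simpa using this

theorem mem_cl {a : α → ι →₀ R} {x : ι →₀ R} :
    x ∈ ρ.cl a ↔ ∃ s : Finset α, ρ.Dep (fun i : s => a i) x := Iff.rfl

theorem subset_cl (a : α → ι →₀ R) (i : α) : a i ∈ ρ.cl a :=
  ⟨{i}, ρ.dep_self (fun j : ({i} : Finset α) => a j) ⟨i, Finset.mem_singleton_self i⟩⟩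

theorem cl_common [Fintype κ] {a : α → ι →₀ R} (x : κ → ι →₀ R) (h : ∀ k, x k ∈ ρ.cl a) :
    ∃ s : Finset α, ρ.fr (Sum.elim (fun i : s => a i) x) ≤ ρ.fr (fun i : s => a i) := by
  classical
  choose s hs using h
  refine ⟨Finset.univ.biUnion s, ?_⟩
  apply ρ.fr_rows_of_forall
  intro k
  exact Dep.mono ρ (hs k) (fun j => ⟨⟨j.1, Finset.mem_biUnion.2 ⟨k, Finset.mem_univ k, j.2⟩⟩, rfl⟩)

theorem mem_cl_of_fr [Fintype κ] {a : α → ι →₀ R} (x : κ → ι →₀ R) {s : Finset α}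
    (h : ρ.fr (Sum.elim (fun i : s => a i) x) ≤ ρ.fr (fun i : s => a i)) (k : κ) : x k ∈ ρ.cl a := by
  refine ⟨s, le_trans ?_ h⟩
  apply ρ.fr_le_of_subfamily
  rintro (i | _)
  · exact ⟨Sum.inl i, rfl⟩
  · exact ⟨Sum.inr k, rfl⟩

/-- torsion freeness of the closure -/
theorem cl_torsionfree [Fintype κ] {a : α → ι →₀ R} (B : Matrix κ κ R)
    (hB : ρ.rk B = Fintype.card κ) (d : κ → ι →₀ R) (h : ∀ l, act B d l ∈ ρ.cl a) (m : κ) :
    d m ∈ ρ.cl a := by
  classical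
  obtain ⟨s, hs⟩ := ρ.cl_common (act B d) h
  refine ρ.mem_cl_of_fr (s := s) d ?_ m
  refine le_trans ?_ hs
  obtain ⟨t, h1, h2⟩ := exists_supp₂ (fun i : s => a i) d
  rw [ρ.fr_eq _ t (h1.elim h2), ρ.fr_eq _ t (h1.elim (h2.act B)), mat_elim, mat_elim, mat_act]
  have h3 := ρ.rk_mul_ge (fromBlocks (1 : Matrix s s R) 0 0 B)
    (fromRows (mat (fun i : s => a i) t) (mat d t))
  rw [ρ.rk_diag, ρ.rk_one', hB, fromBlocks_mul_fromRows] at h3
  simp only [Matrix.one_mul, Matrix.zero_mul, add_zero, zero_add, Fintype.card_sum] at h3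
  omega

/-- substitution: if the rows of `P₂` depend on those of `P₁`, and `P₁ y` is in the closure then
so is `P₂ y`. -/
theorem cl_subst [Fintype κ] [Fintype κ'] [Fintype μ] {a : α → ι →₀ R} (P₁ : Matrix κ' κ R)
    (P₂ : Matrix μ κ R) (hP : ρ.rk (fromRows P₁ P₂) ≤ ρ.rk P₁) (y : κ → ι →₀ R)
    (h : ∀ l, act P₁ y l ∈ ρ.cl a) (m : μ) : act P₂ y m ∈ ρ.cl a := by
  classical
  obtain ⟨s, hs⟩ := ρ.cl_common (act P₁ y) h
  refine ρ.mem_cl_of_fr (s := s) (act P₂ y) ?_ m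
  refine le_trans ?_ hs
  obtain ⟨t, h1, h2⟩ := exists_supp₂ (fun i : s => a i) y
  rw [ρ.fr_eq _ t (h1.elim (h2.act P₂)), ρ.fr_eq _ t (h1.elim (h2.act P₁)), mat_elim, mat_elim,
    mat_act, mat_act]
  have h3 := ρ.rk_frob (mat (fun i : s => a i) t) (mat y t) P₁ P₂
  have h4 := ρ.rk_submatrix_le (fromRows (mat (fun i : s => a i) t) (fromRows P₁ P₂ * mat y t))
    (Sum.map id Sum.inr) id
  have e : (fromRows (mat (fun i : s => a i) t) (fromRows P₁ P₂ * mat y t)).submatrix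
    (Sum.map id Sum.inr) id = fromRows (mat (fun i : s => a i) t) (P₂ * mat y t) := by
    rw [fromRows_mul]
    ext (i | i) j <;> rfl
  rw [e] at h4
  omega

end SylRank

end Crest.Agent.R181.MK
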