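import Crest.Agent.R181.MK2

/-! The universal module `G`: every full matrix acts bijectively on `G^n`. -/

set_option autoImplicit false
set_option linter.unusedSectionVars false
open Matrix

namespace Crest.Agent.R181.MK

namespace SylRank

variable {R : Type} [Ring R] (ρ : SylRank R)

/-- a denominator: a full matrix together with a column -/
structure Den where
  n : ℕ
  A : Matrix (Fin n) (Fin n) R
  b : Fin n → R
  full : ρ.rk A = n

abbrev Blk : Type := Σ p : ρ.Den, Fin p.n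

abbrev Ix : Type := Option (ρ.Blk)

noncomputable def rel (x : ρ.Blk) : ρ.Ix →₀ R :=
  (∑ j, Finsupp.single (some ⟨x.1, j⟩) (x.1.A x.2 j)) - Finsupp.single none (x.1.b x.2)

theorem rel_some_self (p : ρ.Den) (i j : Fin p.n) : ρ.rel ⟨p, i⟩ (some ⟨p, j⟩) = p.A i j := by
  classical
  simp only [rel, Finsupp.sub_apply, Finsupp.finsetSum_apply]
  rw [Finset.sum_eq_single j]
  · simp
  · intro k _ hk
    rw [Finsupp.single_apply, if_neg]
    intro h
    simp only [Option.some.injEq, Sigma.mk.injEq, heq_eq_eq, true_and] at h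
    exact hk h
  · simp

theorem rel_some_ne (p q : ρ.Den) (hpq : p ≠ q) (i : Fin p.n) (j : Fin q.n) :
    ρ.rel ⟨p, i⟩ (some ⟨q, j⟩) = 0 := by
  classical
  simp only [rel, Finsupp.sub_apply, Finsupp.finsetSum_apply]
  rw [Finset.sum_eq_zero]
  · simp
  · intro k _
    rw [Finsupp.single_apply, if_neg]
    intro h
    simp only [Option.some.injEq, Sigma.mk.injEq] at h
    exact hpq h.1

/-- the universal module -/
abbrev Gm : Type := (ρ.Ix →₀ R) ⧸ ρ.cl ρ.rel

noncomputable def e0 : ρ.Gm := Submodule.Quotient.mk (Finsupp.single none 1)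

noncomputable def eb (p : ρ.Den) (j : Fin p.n) : ρ.Gm :=
  Submodule.Quotient.mk (Finsupp.single (some ⟨p, j⟩) 1)

theorem eb_rel (p : ρ.Den) (i : Fin p.n) : ∑ j, p.A i j • ρ.eb p j = p.b i • ρ.e0 := by
  have h : (Submodule.Quotient.mk (ρ.rel ⟨p, i⟩) : ρ.Gm) = 0 :=
    (Submodule.Quotient.mk_eq_zero _).2 (ρ.subset_cl ρ.rel ⟨p, i⟩)
  rw [rel, Submodule.Quotient.mk_sub, sub_eq_zero] at h
  have h1 : ∑ j, p.A i j • ρ.eb p j
      = Submodule.Quotient.mk (∑ j, Finsupp.single (some ⟨p, j⟩) (p.A i j)) := by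
    rw [← Submodule.mkQ_apply, map_sum]
    refine Finset.sum_congr rfl fun j _ => ?_
    rw [eb, ← Submodule.Quotient.mk_smul, Submodule.mkQ_apply]
    congr 1
    rw [Finsupp.smul_single, smul_eq_mul, mul_one]
  rw [h1, h, e0, ← Submodule.Quotient.mk_smul]
  congr 1
  rw [Finsupp.smul_single, smul_eq_mul, mul_one]

/-- lower bound for the rank of all relations of a finite set of blocks together with `e0` -/
theorem fr_blocks (S : Finset ρ.Den) :
    (∑ p ∈ S, p.n) + 1 ≤ ρ.fr (Sum.elim (fun x : (Σ p : S, Fin p.1.n) => ρ.rel ⟨x.1.1, x.2⟩)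
      (fun _ : Unit => (Finsupp.single none 1 : ρ.Ix →₀ R))) := by
  classical
  induction S using Finset.induction_on with
  | empty =>
    simp only [Finset.sum_empty, zero_add]
    have h := ρ.fr_tri (fun x : (Σ p : (∅ : Finset ρ.Den), Fin p.1.n) => ρ.rel ⟨x.1.1, x.2⟩)
      (fun _ : Unit => (Finsupp.single none 1 : ρ.Ix →₀ R)) (fun _ : Unit => (none : ρ.Ix))
      (fun x => (Finset.notMem_empty _ x.1.2).elim)
    refine le_trans ?_ h
    have e : (Matrix.of fun (_ : Unit) (_ : Unit) => (Finsupp.single none 1 : ρ.Ix →₀ R) none)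
      = (1 : Matrix Unit Unit R) := by
      ext i j; simp
    rw [e, ρ.rk_one']
    simp
  | insert p S hp ih =>
    rw [Finset.sum_insert hp]
    have h := ρ.fr_tri (Sum.elim (fun x : (Σ p : S, Fin p.1.n) => ρ.rel ⟨x.1.1, x.2⟩)
      (fun _ : Unit => (Finsupp.single none 1 : ρ.Ix →₀ R)))
      (fun i : Fin p.n => ρ.rel ⟨p, i⟩) (fun j : Fin p.n => (some ⟨p, j⟩ : ρ.Ix)) (by
        rintro (⟨⟨q, hq⟩, i⟩ | _) j
        · exact ρ.rel_some_ne q p (fun h => hp (h ▸ hq)) i j
        · simp)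
    have e : (Matrix.of fun (i : Fin p.n) (j : Fin p.n) => ρ.rel ⟨p, i⟩ (some ⟨p, j⟩)) = p.A := by
      ext i j; exact ρ.rel_some_self p i j
    rw [e, p.full] at h
    have h2 : ρ.fr (Sum.elim (Sum.elim (fun x : (Σ p : S, Fin p.1.n) => ρ.rel ⟨x.1.1, x.2⟩)
        (fun _ : Unit => (Finsupp.single none 1 : ρ.Ix →₀ R))) (fun i : Fin p.n => ρ.rel ⟨p, i⟩))
        ≤ ρ.fr (Sum.elim (fun x : (Σ p : (insert p S : Finset ρ.Den), Fin p.1.n) => ρ.rel ⟨x.1.1, x.2⟩)
          (fun _ : Unit => (Finsupp.single none 1 : ρ.Ix →₀ R))) := by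
      apply ρ.fr_le_of_subfamily
      rintro ((⟨⟨q, hq⟩, i⟩ | _) | i)
      · exact ⟨Sum.inl ⟨⟨q, Finset.mem_insert_of_mem hq⟩, i⟩, rfl⟩
      · exact ⟨Sum.inr (), rfl⟩
      · exact ⟨Sum.inl ⟨⟨p, Finset.mem_insert_self p S⟩, i⟩, rfl⟩
    omega

theorem e0_ne_zero : ρ.e0 ≠ 0 := by
  classical
  intro h
  rw [e0, Submodule.Quotient.mk_eq_zero] at h
  obtain ⟨s, hs⟩ := h
  set S : Finset ρ.Den := s.image Sigma.fst with hS
  have h1 := Dep.mono ρ (w := fun x : (Σ p : S, Fin p.1.n) => ρ.rel ⟨x.1.1, x.2⟩) hs (by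
    rintro ⟨⟨p, i⟩, hx⟩
    exact ⟨⟨⟨p, Finset.mem_image.2 ⟨⟨p, i⟩, hx, rfl⟩⟩, i⟩, rfl⟩)
  have h2 := ρ.fr_blocks S
  have h3 := ρ.fr_le_card (fun x : (Σ p : S, Fin p.1.n) => ρ.rel ⟨x.1.1, x.2⟩)
  have h4 : Fintype.card (Σ p : S, Fin p.1.n) = ∑ p ∈ S, p.n := by
    rw [Fintype.card_sigma]
    simp only [Fintype.card_fin]
    exact Finset.sum_coe_sort S (fun p => p.n)
  unfold Dep at h1
  omega

instance : Nontrivial ρ.Gm := ⟨⟨ρ.e0, 0, ρ.e0_ne_zero⟩⟩

section
variable {κ κ' μ : Type} [Fintype κ] [Fintype κ'] [Fintype μ]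

/-- injectivity of full matrices -/
theorem full_inj (B : Matrix κ κ R) (hB : ρ.rk B = Fintype.card κ) (g : κ → ρ.Gm)
    (h : ∀ l, ∑ m, B l m • g m = 0) (m : κ) : g m = 0 := by
  have hd : ∀ m, ∃ d : ρ.Ix →₀ R, (Submodule.Quotient.mk d : ρ.Gm) = g m :=
    fun m => Submodule.Quotient.mk_surjective _ (g m)
  choose d hd using hd
  rw [← hd m, Submodule.Quotient.mk_eq_zero]
  apply ρ.cl_torsionfree B hB d
  intro l
  rw [← Submodule.Quotient.mk_eq_zero, ← h l, act, ← Submodule.mkQ_apply, map_sum]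
  refine Finset.sum_congr rfl fun m _ => ?_
  rw [map_smul, Submodule.mkQ_apply, hd]

theorem full_inj' (B : Matrix κ κ R) (hB : ρ.rk B = Fintype.card κ) (g g' : κ → ρ.Gm)
    (h : ∀ l, ∑ m, B l m • g m = ∑ m, B l m • g' m) : g = g' := by
  funext m
  rw [← sub_eq_zero]
  refine ρ.full_inj B hB (fun m => g m - g' m) (fun l => ?_) m
  simp only [smul_sub, Finset.sum_sub_distrib, h l, sub_self]

/-- substitution in `G` -/
theorem subst (P₁ : Matrix κ' κ R) (P₂ : Matrix μ κ R) (hP : ρ.rk (fromRows P₁ P₂) ≤ ρ.rk P₁)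
    (g : κ → ρ.Gm) (h : ∀ l, ∑ m, P₁ l m • g m = 0) (l : μ) : ∑ m, P₂ l m • g m = 0 := by
  have hd : ∀ m, ∃ d : ρ.Ix →₀ R, (Submodule.Quotient.mk d : ρ.Gm) = g m :=
    fun m => Submodule.Quotient.mk_surjective _ (g m)
  choose d hd using hd
  have key : ∀ r : κ → R, ∑ m, r m • g m = Submodule.Quotient.mk (∑ m, r m • d m) := by
    intro r
    rw [← Submodule.mkQ_apply, map_sum]
    refine Finset.sum_congr rfl fun m _ => ?_
    rw [map_smul, Submodule.mkQ_apply, hd]
  rw [key, Submodule.Quotient.mk_eq_zero]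
  apply ρ.cl_subst P₁ P₂ hP d
  intro l
  rw [act, ← Submodule.Quotient.mk_eq_zero, ← key, h]

theorem exists_den [DecidableEq κ] (B : Matrix κ κ R) (hB : ρ.rk B = Fintype.card κ) (b : κ → R) :
    ∃ u : κ → ρ.Gm, ∀ l, ∑ m, B l m • u m = b l • ρ.e0 := by
  let e := Fintype.equivFin κ
  let p : ρ.Den := ⟨Fintype.card κ, B.submatrix e.symm e.symm, b ∘ e.symm, by
    rw [ρ.rk_reindex]; exact hB⟩
  refine ⟨fun m => ρ.eb p (e m), fun l => ?_⟩
  have h := ρ.eb_rel p (e l)
  have h1 : p.b (e l) = b l := by simp [p]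
  rw [h1] at h
  rw [← h]
  refine Fintype.sum_equiv e _ _ fun m => ?_
  simp [p]

theorem full_surj_single [DecidableEq κ] (B : Matrix κ κ R) (hB : ρ.rk B = Fintype.card κ) (i : κ)
    (g : ρ.Gm) : ∃ u : κ → ρ.Gm, ∀ l, ∑ m, B l m • u m = if l = i then g else 0 := by
  classical
  obtain ⟨v, rfl⟩ := Submodule.Quotient.mk_surjective _ g
  induction v using Finsupp.induction_linear with
  | zero => exact ⟨0, fun l => by simp⟩
  | add f g hf hg =>
    obtain ⟨u, hu⟩ := hf
    obtain ⟨u', hu'⟩ := hg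
    refine ⟨u + u', fun l => ?_⟩
    simp only [Pi.add_apply, smul_add, Finset.sum_add_distrib, hu, hu']
    split_ifs <;> simp
  | single x c =>
    rcases x with _ | ⟨q, j⟩
    · obtain ⟨u, hu⟩ := ρ.exists_den B hB (fun l => if l = i then c else 0)
      refine ⟨u, fun l => ?_⟩
      rw [hu]
      split_ifs
      · rw [e0, ← Submodule.Quotient.mk_smul, Finsupp.smul_single, smul_eq_mul, mul_one]
      · simp
    · let C : Matrix κ (Fin q.n) R := fun l m => if l = i ∧ m = j then -c else 0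
      have hF : ρ.rk (fromBlocks q.A 0 C B) = Fintype.card (Fin q.n ⊕ κ) := by
        apply le_antisymm (ρ.rk_le_card_left _)
        have := ρ.rk_tri q.A C B
        rw [q.full, hB] at this
        simpa using this
      obtain ⟨u, hu⟩ := ρ.exists_den (fromBlocks q.A 0 C B) hF (Sum.elim q.b 0)
      have h1 : (fun m => u (Sum.inl m)) = ρ.eb q := by
        apply ρ.full_inj' q.A (by rw [q.full]; simp)
        intro l
        rw [ρ.eb_rel]
        have := hu (Sum.inl l)
        simpa [Fintype.sum_sum_type] using this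
      refine ⟨fun m => u (Sum.inr m), fun l => ?_⟩
      have h2 := hu (Sum.inr l)
      simp only [Fintype.sum_sum_type, fromBlocks_apply₂₁, fromBlocks_apply₂₂, Sum.elim_inr,
        Pi.zero_apply, zero_smul] at h2
      have h3 : ∑ m, C l m • u (Sum.inl m) = if l = i then -(c • ρ.eb q j) else 0 := by
        by_cases hl : l = i
        · rw [if_pos hl, Finset.sum_eq_single j]
          · simp only [C, hl, and_self, if_true, neg_smul]
            rw [← h1]
          · intro m _ hm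
            simp [C, hm]
          · simp
        · rw [if_neg hl, Finset.sum_eq_zero]
          intro m _
          simp [C, hl]
      rw [h3] at h2
      rw [eq_neg_of_add_eq_zero_right h2]
      split_ifs
      · rw [neg_neg, eb, ← Submodule.Quotient.mk_smul, Finsupp.smul_single, smul_eq_mul, mul_one]
      · simp

/-- surjectivity of full matrices -/
theorem full_surj (B : Matrix κ κ R) (hB : ρ.rk B = Fintype.card κ) (x : κ → ρ.Gm) :
    ∃ u : κ → ρ.Gm, ∀ l, ∑ m, B l m • u m = x l := by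
  classical
  have h := fun i => ρ.full_surj_single B hB i (x i)
  choose u hu using h
  refine ⟨fun m => ∑ i, u i m, fun l => ?_⟩
  simp only [Finset.smul_sum]
  rw [Finset.sum_comm]
  simp only [hu]
  simp

end

end SylRank

end Crest.Agent.R181.MK
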