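import Crest.Agent.R181.MK3

/-! Rational closure of a ring homomorphism inverting all full matrices. -/

set_option autoImplicit false
set_option linter.unusedSectionVars false
open Matrix

namespace Crest.Agent.R181.MK

namespace SylRank

universe u

variable {R : Type} [Ring R] (ρ : SylRank R)

section
variable {E : Type u} [Ring E] (χ : R →+* E)

/-- `X = C * A⁻¹ * B` with a full matrix `A`; the matrix `A⁻¹ * B` is called `U`. -/
def Rat {p q : Type} (X : Matrix p q E) : Prop :=
  ∃ (n : ℕ) (A : Matrix (Fin n) (Fin n) R) (C : Matrix p (Fin n) R) (B : Matrix (Fin n) q R)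
    (U : Matrix (Fin n) q E), ρ.rk A = n ∧ A.map χ * U = B.map χ ∧ X = C.map χ * U

variable {χ}
variable {p q r κ κ' : Type} [Fintype p] [Fintype q] [Fintype r] [Fintype κ] [Fintype κ']

theorem Rat.mk' (A : Matrix κ κ R) (C : Matrix p κ R) (B : Matrix κ q R) (U : Matrix κ q E)
    (hA : ρ.rk A = Fintype.card κ) (h : A.map χ * U = B.map χ) : ρ.Rat χ (C.map χ * U) := by
  classical
  let e := Fintype.equivFin κ
  refine ⟨Fintype.card κ, A.submatrix e.symm e.symm, C.submatrix id e.symm, B.submatrix e.symm id,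
    U.submatrix e.symm id, ?_, ?_, ?_⟩
  · rw [ρ.rk_reindex]; exact hA
  · have : (A.submatrix e.symm e.symm).map χ = (A.map χ).submatrix e.symm e.symm := rfl
    rw [this, Matrix.submatrix_mul_equiv, h]; rfl
  · have : (C.submatrix id e.symm).map χ = (C.map χ).submatrix id e.symm := rfl
    rw [this, Matrix.submatrix_mul_equiv, Matrix.submatrix_id_id]

theorem Rat.solve (A : Matrix κ κ R) (B : Matrix κ q R) (U : Matrix κ q E)
    (hA : ρ.rk A = Fintype.card κ) (h : A.map χ * U = B.map χ) : ρ.Rat χ U := by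
  classical
  have := Rat.mk' ρ A (1 : Matrix κ κ R) B U hA h
  rwa [Matrix.map_one _ (map_zero χ) (map_one χ), Matrix.one_mul] at this

theorem Rat.of_map (M : Matrix p q R) : ρ.Rat χ (M.map χ) := by
  classical
  have := Rat.mk' ρ (χ := χ) (1 : Matrix q q R) M (1 : Matrix q q R) (1 : Matrix q q E)
    (ρ.rk_one') (by rw [Matrix.map_one _ (map_zero χ) (map_one χ), Matrix.one_mul])
  rwa [Matrix.mul_one] at this

variable {ρ}

theorem Rat.add {X Y : Matrix p q E} (hX : ρ.Rat χ X) (hY : ρ.Rat χ Y) : ρ.Rat χ (X + Y) := by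
  obtain ⟨n, A, C, B, U, hA, hU, rfl⟩ := hX
  obtain ⟨n', A', C', B', U', hA', hU', rfl⟩ := hY
  have h := Rat.mk' ρ (χ := χ) (fromBlocks A 0 0 A') (fromCols C C') (fromRows B B') (fromRows U U')
    (by rw [ρ.rk_diag, hA, hA']; simp) (by
      rw [fromBlocks_map, fromBlocks_mul_fromRows, fromRows_map, hU, hU',
        Matrix.map_zero _ (map_zero χ), Matrix.map_zero _ (map_zero χ)]
      simp)
  rwa [fromCols_map, fromCols_mul_fromRows] at h

theorem Rat.mul_map {X : Matrix p q E} (hX : ρ.Rat χ X) (M : Matrix q r R) :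
    ρ.Rat χ (X * M.map χ) := by
  obtain ⟨n, A, C, B, U, hA, hU, rfl⟩ := hX
  have h := Rat.mk' ρ (χ := χ) A C (B * M) (U * M.map χ) (by simpa using hA) (by
    rw [← Matrix.mul_assoc, hU, Matrix.map_mul])
  rwa [← Matrix.mul_assoc] at h

theorem Rat.map_mul {X : Matrix p q E} (hX : ρ.Rat χ X) (M : Matrix r p R) :
    ρ.Rat χ (M.map χ * X) := by
  obtain ⟨n, A, C, B, U, hA, hU, rfl⟩ := hX
  have h := Rat.mk' ρ (χ := χ) A (M * C) B U (by simpa using hA) hU
  rwa [Matrix.map_mul, Matrix.mul_assoc] at h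

theorem Rat.mul {X : Matrix p q E} {Y : Matrix q r E} (hX : ρ.Rat χ X) (hY : ρ.Rat χ Y) :
    ρ.Rat χ (X * Y) := by
  obtain ⟨n, A, C, B, U, hA, hU, rfl⟩ := hX
  obtain ⟨n', A', C', B', U', hA', hU', rfl⟩ := hY
  have h := Rat.mk' ρ (χ := χ) (fromBlocks A (-(B * C')) 0 A') (fromCols C 0) (fromRows 0 B')
    (fromRows (U * (C'.map χ * U')) U') (by
      apply le_antisymm (ρ.rk_le_card_left _)
      have := ρ.rk_tri' A (-(B * C')) A'
      rw [hA, hA'] at this
      simpa using this) (by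
      rw [fromBlocks_map, fromBlocks_mul_fromRows, fromRows_map, hU', ← Matrix.mul_assoc, hU,
        Matrix.map_zero _ (map_zero χ), Matrix.map_zero _ (map_zero χ)]
      have : (-(B * C')).map χ = - (B.map χ * C'.map χ) := by
        rw [← Matrix.map_mul]; ext i j; rw [Matrix.map_apply, Matrix.neg_apply, map_neg]; rfl
      rw [this]
      simp [Matrix.mul_assoc])
  rw [fromCols_map, fromCols_mul_fromRows, Matrix.map_zero _ (map_zero χ), Matrix.zero_mul,
    add_zero] at h
  rwa [Matrix.mul_assoc]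

theorem Rat.neg {X : Matrix p q E} (hX : ρ.Rat χ X) : ρ.Rat χ (-X) := by
  classical
  have := hX.map_mul (-1 : Matrix p p R)
  have e : (-1 : Matrix p p R).map χ = (-1 : Matrix p p E) := by
    ext i j; simp [Matrix.one_apply, apply_ite χ]
  rwa [e, Matrix.neg_mul, Matrix.one_mul] at this

theorem Rat.zero : ρ.Rat χ (0 : Matrix p q E) := by
  have := Rat.of_map ρ (χ := χ) (0 : Matrix p q R)
  rwa [Matrix.map_zero _ (map_zero χ)] at this

theorem Rat.one [DecidableEq p] : ρ.Rat χ (1 : Matrix p p E) := by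
  have := Rat.of_map ρ (χ := χ) (1 : Matrix p p R)
  rwa [Matrix.map_one _ (map_zero χ) (map_one χ)] at this

theorem Rat.sum {α : Type} (s : Finset α) (f : α → Matrix p q E) (h : ∀ a ∈ s, ρ.Rat χ (f a)) :
    ρ.Rat χ (∑ a ∈ s, f a) := by
  classical
  induction s using Finset.induction_on with
  | empty => simpa using Rat.zero
  | insert a s ha ih =>
    rw [Finset.sum_insert ha]
    exact (h a (Finset.mem_insert_self a s)).add
      (ih fun b hb => h b (Finset.mem_insert_of_mem hb))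

theorem Rat.submatrix {p' q' : Type} [Fintype p'] [Fintype q'] {X : Matrix p q E} (hX : ρ.Rat χ X)
    (f : p' → p) (g : q' → q) : ρ.Rat χ (X.submatrix f g) := by
  obtain ⟨n, A, C, B, U, hA, hU, rfl⟩ := hX
  refine ⟨n, A, C.submatrix f id, B.submatrix id g, U.submatrix id g, hA, ?_, ?_⟩
  · ext i j
    have := congrFun (congrFun hU i) (g j)
    simpa [Matrix.mul_apply] using this
  · ext i j
    simp [Matrix.mul_apply]

theorem Rat.of_entries {X : Matrix p q E}
    (h : ∀ i j, ρ.Rat χ (X.submatrix (fun _ : Unit => i) (fun _ : Unit => j))) : ρ.Rat χ X := by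
  classical
  have e : X = ∑ i : p, ∑ j : q, (Matrix.of fun (a : p) (_ : Unit) => if a = i then (1 : R) else 0).map χ
      * (X.submatrix (fun _ : Unit => i) (fun _ : Unit => j))
      * (Matrix.of fun (_ : Unit) (b : q) => if b = j then (1 : R) else 0).map χ := by
    ext a b
    simp only [Matrix.sum_apply, Matrix.mul_apply, Matrix.map_apply, Matrix.of_apply,
      Matrix.submatrix_apply, Finset.univ_unique, Finset.sum_singleton]
    rw [Finset.sum_eq_single a, Finset.sum_eq_single b]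
    · simp
    · intro j _ hj
      rw [if_neg (Ne.symm hj)]; simp
    · simp
    · intro i _ hi
      rw [Finset.sum_eq_zero]
      intro j _
      rw [if_neg (Ne.symm hi)]; simp
    · simp
  rw [e]
  exact Rat.sum _ _ fun i _ => Rat.sum _ _ fun j _ => ((h i j).map_mul _).mul_map _

variable (ρ χ)

/-- the rational closure -/
def RC : Subring E where
  carrier := {x | ρ.Rat χ (Matrix.of fun (_ : Unit) (_ : Unit) => x)}
  zero_mem' := Rat.zero
  one_mem' := by
    have := Rat.one (ρ := ρ) (χ := χ) (p := Unit)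
    have e : (1 : Matrix Unit Unit E) = Matrix.of fun (_ : Unit) (_ : Unit) => (1 : E) := by
      ext i j; simp
    rwa [e] at this
  add_mem' := fun {x y} hx hy => Rat.add hx hy
  neg_mem' := fun {x} hx => Rat.neg hx
  mul_mem' := fun {x y} hx hy => by
    have := Rat.mul hx hy
    have e : (Matrix.of fun (_ : Unit) (_ : Unit) => x) * (Matrix.of fun (_ : Unit) (_ : Unit) => y)
      = Matrix.of fun (_ : Unit) (_ : Unit) => x * y := by
      ext i j; simp [Matrix.mul_apply]
    rwa [e] at this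

theorem mem_RC {x : E} : x ∈ ρ.RC χ ↔ ρ.Rat χ (Matrix.of fun (_ : Unit) (_ : Unit) => x) := Iff.rfl

variable {ρ χ}

theorem Rat.mem {X : Matrix p q E} (hX : ρ.Rat χ X) (i : p) (j : q) : X i j ∈ ρ.RC χ := by
  rw [mem_RC]
  exact hX.submatrix (fun _ : Unit => i) (fun _ : Unit => j)

theorem rat_iff {X : Matrix p q E} : ρ.Rat χ X ↔ ∀ i j, X i j ∈ ρ.RC χ :=
  ⟨fun h i j => h.mem i j, fun h => Rat.of_entries fun i j => h i j⟩

theorem map_mem_RC (r : R) : χ r ∈ ρ.RC χ := by
  rw [mem_RC]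
  exact Rat.of_map ρ (Matrix.of fun (_ : Unit) (_ : Unit) => r)

/-- every full matrix becomes invertible over `E` -/
def Inv (ρ : SylRank R) (χ : R →+* E) : Prop :=
  ∀ (n : ℕ) (A : Matrix (Fin n) (Fin n) R), ρ.rk A = n → IsUnit (A.map χ)

theorem Inv.unit (h : Inv ρ χ) [DecidableEq κ] (A : Matrix κ κ R) (hA : ρ.rk A = Fintype.card κ) :
    IsUnit (A.map χ) := by
  let e := Fintype.equivFin κ
  have h1 := h (Fintype.card κ) (A.submatrix e.symm e.symm) (by rw [ρ.rk_reindex]; exact hA)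
  obtain ⟨u, hu⟩ := h1
  have e1 : (A.submatrix e.symm e.symm).map χ = (A.map χ).submatrix e.symm e.symm := rfl
  rw [e1] at hu
  refine ⟨⟨A.map χ, (u⁻¹ : (Matrix (Fin (Fintype.card κ)) (Fin (Fintype.card κ)) E)ˣ).1.submatrix e e,
    ?_, ?_⟩, rfl⟩
  · have h2 := u.mul_inv
    rw [hu] at h2
    have h3 := congrArg (fun M => Matrix.submatrix M e e) h2
    beta_reduce at h3
    rw [← Matrix.submatrix_mul_equiv _ _ e e e] at h3
    simpa using h3
  · have h2 := u.inv_mul
    rw [hu] at h2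
    have h3 := congrArg (fun M => Matrix.submatrix M e e) h2
    beta_reduce at h3
    rw [← Matrix.submatrix_mul_equiv _ _ e e e] at h3
    simpa using h3

/-- the inverse of a full matrix is rational -/
theorem Inv.exists_inv (h : Inv ρ χ) [DecidableEq κ] (A : Matrix κ κ R)
    (hA : ρ.rk A = Fintype.card κ) :
    ∃ V : Matrix κ κ E, ρ.Rat χ V ∧ A.map χ * V = 1 ∧ V * A.map χ = 1 := by
  obtain ⟨u, hu⟩ := h.unit A hA
  refine ⟨(u⁻¹ : (Matrix κ κ E)ˣ).1, ?_, ?_, ?_⟩
  · apply Rat.solve ρ A (1 : Matrix κ κ R) _ hA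
    rw [← hu, Units.mul_inv, Matrix.map_one _ (map_zero χ) (map_one χ)]
  · rw [← hu, Units.mul_inv]
  · rw [← hu, Units.inv_mul]

/-- Cramer's rule: if the display of a square rational matrix is full, then the matrix is
invertible with rational inverse. -/
theorem Inv.cramer (h : Inv ρ χ) [DecidableEq κ] [DecidableEq p] (A : Matrix κ κ R) (C : Matrix p κ R)
    (B : Matrix κ p R) (U : Matrix κ p E) (hA : ρ.rk A = Fintype.card κ) (hU : A.map χ * U = B.map χ)
    (hF : ρ.rk (fromBlocks A B C 0) = Fintype.card κ + Fintype.card p) :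
    ∃ Y : Matrix p p E, ρ.Rat χ Y ∧ (C.map χ * U) * Y = 1 ∧ Y * (C.map χ * U) = 1 := by
  obtain ⟨V, hV, hV1, hV2⟩ := h.exists_inv A hA
  obtain ⟨N, hN, hN1, hN2⟩ := h.exists_inv (fromBlocks A B C 0) (by simpa using hF)
  have eN : N = fromBlocks N.toBlocks₁₁ N.toBlocks₁₂ N.toBlocks₂₁ N.toBlocks₂₂ :=
    (fromBlocks_toBlocks N).symm
  set N11 := N.toBlocks₁₁
  set N12 := N.toBlocks₁₂
  set N21 := N.toBlocks₂₁
  set N22 := N.toBlocks₂₂ with hN22
  have hN22r : ρ.Rat χ N22 := hN.submatrix Sum.inr Sum.inr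
  rw [eN, fromBlocks_map, fromBlocks_multiply, ← fromBlocks_one, fromBlocks_inj,
    Matrix.map_zero _ (map_zero χ)] at hN1 hN2
  obtain ⟨-, a12, -, a22⟩ := hN1
  obtain ⟨-, -, b21, b22⟩ := hN2
  rw [Matrix.zero_mul, add_zero] at a22
  rw [Matrix.mul_zero, add_zero] at b22
  have c1 : N12 = -(U * N22) := by
    have : A.map χ * (N12 + U * N22) = 0 := by
      rw [Matrix.mul_add, ← Matrix.mul_assoc, hU, a12]
    have h2 := congrArg (fun M => V * M) this
    beta_reduce at h2
    rw [← Matrix.mul_assoc, hV2, Matrix.one_mul, Matrix.mul_zero] at h2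
    exact eq_neg_of_add_eq_zero_left h2
  refine ⟨-N22, hN22r.neg, ?_, ?_⟩
  · rw [Matrix.mul_neg, Matrix.mul_assoc, ← Matrix.mul_neg, ← c1, a22]
  · have c2 : N21 * A.map χ = -(N22 * C.map χ) := eq_neg_of_add_eq_zero_left b21
    rw [Matrix.neg_mul, ← Matrix.mul_assoc, ← Matrix.neg_mul, ← c2, Matrix.mul_assoc, hU, b22]

end

end SylRank

end Crest.Agent.R181.MK
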