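import Crest.Agent.R181.MK4

/-! The skew field of an integer valued Sylvester rank function. -/

set_option autoImplicit false
set_option linter.unusedSectionVars false
open Matrix

namespace Crest.Agent.R181.MK

namespace SylRank

variable {R : Type} [Ring R] (ρ : SylRank R)

/-- the action of `R` on the universal module -/
noncomputable abbrev tau : R →+* AddMonoid.End ρ.Gm := Module.toAddMonoidEnd R ρ.Gm

section
variable {κ : Type} [Fintype κ]

/-- matrices acting on columns of `G` -/
noncomputable def actG {p : Type} (A : Matrix p κ R) : (κ → ρ.Gm) →+ (p → ρ.Gm) where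
  toFun u l := ∑ m, A l m • u m
  map_zero' := by ext l; simp
  map_add' u v := by ext l; simp [smul_add, Finset.sum_add_distrib]

theorem actG_apply {p : Type} (A : Matrix p κ R) (u : κ → ρ.Gm) (l : p) :
    ρ.actG A u l = ∑ m, A l m • u m := rfl

noncomputable def equivG (A : Matrix κ κ R) (hA : ρ.rk A = Fintype.card κ) :
    (κ → ρ.Gm) ≃+ (κ → ρ.Gm) :=
  AddEquiv.ofBijective (ρ.actG A) ⟨fun u v h => ρ.full_inj' A hA u v (fun l => congrFun h l),
    fun x => (ρ.full_surj A hA x).imp fun _ hu => funext hu⟩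

theorem equivG_apply (A : Matrix κ κ R) (hA : ρ.rk A = Fintype.card κ) (u : κ → ρ.Gm) :
    ρ.equivG A hA u = ρ.actG A u := rfl

noncomputable def invG [DecidableEq κ] (A : Matrix κ κ R) (hA : ρ.rk A = Fintype.card κ) :
    Matrix κ κ (AddMonoid.End ρ.Gm) :=
  fun i j => ((Pi.evalAddMonoidHom (fun _ => ρ.Gm) i).comp
    ((ρ.equivG A hA).symm.toAddMonoidHom.comp (AddMonoidHom.single (fun _ => ρ.Gm) j)) : ρ.Gm →+ ρ.Gm)

theorem invG_apply [DecidableEq κ] (A : Matrix κ κ R) (hA : ρ.rk A = Fintype.card κ) (i j : κ)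
    (g : ρ.Gm) : (ρ.invG A hA i j) g = (ρ.equivG A hA).symm (Pi.single j g) i := rfl

theorem end_sum_apply {α : Type} (s : Finset α) (f : α → AddMonoid.End ρ.Gm) (g : ρ.Gm) :
    (∑ a ∈ s, f a) g = ∑ a ∈ s, f a g := by
  exact AddMonoidHom.finsetSum_apply f s g

theorem tau_inv : ρ.Inv ρ.tau := by
  classical
  intro n A hA
  have hA' : ρ.rk A = Fintype.card (Fin n) := by simpa using hA
  refine ⟨⟨A.map ρ.tau, ρ.invG A hA', ?_, ?_⟩, rfl⟩
  · ext i j g
    rw [Matrix.mul_apply, end_sum_apply]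
    have h1 : ∀ k, ((A.map ρ.tau) i k * ρ.invG A hA' k j) g
        = A i k • ((ρ.equivG A hA').symm (Pi.single j g) k) := fun k => rfl
    rw [Finset.sum_congr rfl fun k _ => h1 k, ← actG_apply ρ A ((ρ.equivG A hA').symm (Pi.single j g)) i,
      ← equivG_apply ρ A hA', AddEquiv.apply_symm_apply]
    by_cases h : i = j
    · subst h; simp
    · rw [Pi.single_eq_of_ne h, Matrix.one_apply_ne h]; rfl
  · ext i j g
    rw [Matrix.mul_apply, end_sum_apply]
    have h1 : ∀ k, (ρ.invG A hA' i k * (A.map ρ.tau) k j) g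
        = (ρ.equivG A hA').symm (Pi.single k (A k j • g)) i := fun k => rfl
    have h2 : ∑ k, (ρ.equivG A hA').symm (Pi.single k (A k j • g)) i
        = (ρ.equivG A hA').symm (∑ k, Pi.single k (A k j • g)) i := by
      rw [map_sum, Finset.sum_apply]
    have h3 : ∑ k, Pi.single k (A k j • g) = ρ.equivG A hA' (Pi.single j g) := by
      rw [equivG_apply]
      ext l
      rw [actG_apply, Finset.sum_apply, Finset.sum_eq_single l, Finset.sum_eq_single j]
      · simp
      · intro k _ hk; rw [Pi.single_eq_of_ne hk, smul_zero]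
      · simp
      · intro k _ hk; rw [Pi.single_eq_of_ne (Ne.symm hk)]
      · simp
    rw [Finset.sum_congr rfl fun k _ => h1 k, h2, h3, AddEquiv.symm_apply_apply]
    by_cases h : i = j
    · subst h; simp
    · rw [Pi.single_eq_of_ne h, Matrix.one_apply_ne h]; rfl

variable {p q : Type} [Fintype p] [Fintype q]

/-- a matrix equation over `End G`, evaluated -/
theorem mul_map_apply (X : Matrix κ q (AddMonoid.End ρ.Gm)) (A : Matrix p κ R) (i : p) (j : q) (g : ρ.Gm) :
    ((A.map ρ.tau) * X) i j g = ∑ m, A i m • X m j g := by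
  rw [Matrix.mul_apply, end_sum_apply]; rfl

/-- displays of small rank: the Schur complement vanishes -/
theorem schur_eq_zero (A : Matrix κ κ R) (B : Matrix κ q R) (C : Matrix p κ R) (c : Matrix p q R)
    (hA : ρ.rk A = Fintype.card κ) (h : ρ.rk (fromBlocks A B C c) ≤ Fintype.card κ)
    (U : Matrix κ q (AddMonoid.End ρ.Gm)) (hU : A.map ρ.tau * U = B.map ρ.tau) :
    C.map ρ.tau * U = c.map ρ.tau := by
  classical
  ext i j g
  let v : κ ⊕ q → ρ.Gm := Sum.elim (fun m => U m j g) (fun b => -(if b = j then g else 0))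
  have h1 : ρ.rk (fromRows (fromCols A B) (fromCols C c)) ≤ ρ.rk (fromCols A B) := by
    rw [fromRows_fromCols_eq_fromBlocks]
    refine h.trans ?_
    rw [← hA]
    exact ρ.rk_le_fromCols_left A B
  have h2 : ∀ l, ∑ m, (fromCols A B) l m • v m = 0 := by
    intro l
    have h3 : ((A.map ρ.tau) * U) l j g = (B.map ρ.tau) l j g := by rw [hU]
    rw [mul_map_apply] at h3
    rw [Fintype.sum_sum_type]
    simp only [fromCols_apply_inl, fromCols_apply_inr, v, Sum.elim_inl, Sum.elim_inr, h3]
    rw [Finset.sum_eq_single j]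
    · rw [if_pos rfl, smul_neg]; exact add_neg_cancel _
    · intro b _ hb; rw [if_neg hb]; simp
    · simp
  have h4 := ρ.subst (fromCols A B) (fromCols C c) h1 v h2 i
  rw [mul_map_apply]
  rw [Fintype.sum_sum_type] at h4
  simp only [fromCols_apply_inl, fromCols_apply_inr, v, Sum.elim_inl, Sum.elim_inr] at h4
  rw [Finset.sum_eq_single (f := fun x => c i x • -(if x = j then g else (0 : ρ.Gm))) j] at h4
  · simp only [if_true, smul_neg] at h4
    rw [← sub_eq_add_neg, sub_eq_zero] at h4
    rw [h4]; rfl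
  · intro b _ hb; rw [if_neg hb]; simp
  · simp

end

/-- The skew field. -/
noncomputable abbrev DS : Subring (AddMonoid.End ρ.Gm) := ρ.RC ρ.tau

theorem unit_or_zero (x : ρ.DS) : IsUnit x ∨ x = 0 := by
  classical
  obtain ⟨x, hx⟩ := x
  obtain ⟨n, A, C, B, U, hA, hU, hX⟩ := (ρ.mem_RC ρ.tau).1 hx
  have hA' : ρ.rk A = Fintype.card (Fin n) := by simpa using hA
  by_cases hF : ρ.rk (fromBlocks A B C 0) = Fintype.card (Fin n) + Fintype.card Unit
  · left
    obtain ⟨Y, hY, h1, h2⟩ := ρ.tau_inv.cramer A C B U hA' hU hF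
    rw [← hX] at h1 h2
    have e1 := congrFun (congrFun h1 ()) ()
    have e2 := congrFun (congrFun h2 ()) ()
    simp only [Matrix.mul_apply, Finset.univ_unique, Finset.sum_singleton, Matrix.of_apply,
      Matrix.one_apply_eq] at e1 e2
    exact ⟨⟨⟨x, hx⟩, ⟨Y () (), hY.mem () ()⟩, Subtype.ext e1, Subtype.ext e2⟩, rfl⟩
  · right
    have h1 := ρ.rk_le_card_left (fromBlocks A B C 0)
    rw [Fintype.card_sum] at h1
    have h2 : ρ.rk (fromBlocks A B C 0) ≤ Fintype.card (Fin n) := by
      rw [Fintype.card_unit] at h1 hF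
      omega
    have h3 := ρ.schur_eq_zero A B C 0 hA' h2 U hU
    rw [← hX] at h3
    have := congrFun (congrFun h3 ()) ()
    apply Subtype.ext
    simpa using this

instance : Nontrivial (AddMonoid.End ρ.Gm) := by
  obtain ⟨g, hg⟩ := exists_ne (0 : ρ.Gm)
  exact ⟨⟨1, 0, fun h => hg (by simpa using congrArg (fun f : AddMonoid.End ρ.Gm => f g) h)⟩⟩

noncomputable instance : DivisionRing ρ.DS :=
  DivisionRing.ofIsUnitOrEqZero ρ.unit_or_zero

/-- the map to the skew field -/
noncomputable def phi : R →+* ρ.DS := ρ.tau.codRestrict ρ.DS (fun r => map_mem_RC r)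

end SylRank

end Crest.Agent.R181.MK
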