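import Crest.Agent.R181.MK5

/-! Ranks over the skew field. -/

set_option autoImplicit false
set_option linter.unusedSectionVars false
open Matrix

namespace Crest.Agent.R181.MK

namespace SylRank

variable {R : Type} [Ring R] (ρ : SylRank R)

section
variable {l m n m' n' p q : Type} [Fintype l] [Fintype m] [Fintype n] [Fintype m'] [Fintype n']
  [Fintype p] [Fintype q]

theorem op_mul_aux (A : Matrix l m Rᵐᵒᵖ) (B : Matrix m n Rᵐᵒᵖ) :
    (A * B)ᵀ.map MulOpposite.unop = (Bᵀ.map MulOpposite.unop) * (Aᵀ.map MulOpposite.unop) := by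
  ext i j
  simp [Matrix.mul_apply, Finset.unop_sum]

/-- the opposite rank function -/
def op : SylRank Rᵐᵒᵖ where
  rk A := ρ.rk (Aᵀ.map MulOpposite.unop)
  rk_one := by
    have e : ((1 : Matrix (Fin 1) (Fin 1) Rᵐᵒᵖ)ᵀ.map MulOpposite.unop) = (1 : Matrix (Fin 1) (Fin 1) R) := by
      ext i j
      have : i = j := Subsingleton.elim _ _
      subst this
      simp
    rw [e, ρ.rk_one]
  rk_mul_left A B := by
    rw [op_mul_aux]; exact ρ.rk_mul_right _ _
  rk_mul_right A B := by
    rw [op_mul_aux]; exact ρ.rk_mul_left _ _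
  rk_diag_le A B := by
    have e : (fromBlocks A 0 0 B)ᵀ.map MulOpposite.unop
      = fromBlocks (Aᵀ.map MulOpposite.unop) 0 0 (Bᵀ.map MulOpposite.unop) := by
      ext (i | i) (j | j) <;> simp
    rw [e]; exact ρ.rk_diag_le _ _
  rk_tri A C B := by
    have e : (fromBlocks A 0 C B)ᵀ.map MulOpposite.unop
      = fromBlocks (Aᵀ.map MulOpposite.unop) (Cᵀ.map MulOpposite.unop) 0 (Bᵀ.map MulOpposite.unop) := by
      ext (i | i) (j | j) <;> simp
    rw [e]; exact ρ.rk_tri' _ _ _

theorem op_rk (A : Matrix m n R) : ρ.op.rk (Aᵀ.map MulOpposite.op) = ρ.rk A := rfl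

/-- If every column of `Q` depends on `P`, then all of `Q` does. -/
theorem rk_cols_of_forall (P : Matrix n p R) (Q : Matrix n q R)
    (h : ∀ j, ρ.rk (fromCols P (Q.submatrix id (fun _ : Unit => j))) ≤ ρ.rk P) :
    ρ.rk (fromCols P Q) ≤ ρ.rk P := by
  have h1 := ρ.op.rk_rows_of_forall (Pᵀ.map MulOpposite.op) (Qᵀ.map MulOpposite.op) (by
    intro i
    have := h i
    rw [← op_rk ρ P, ← op_rk ρ] at this
    refine le_trans (le_of_eq ?_) this
    congr 1
    ext (a | a) b <;> simp)
  rw [op_rk] at h1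
  refine le_trans (le_of_eq ?_) h1
  rw [← op_rk ρ]
  congr 1
  ext (a | a) b <;> simp

theorem exists_rows (A : Matrix m n R) :
    ∃ f : Fin (ρ.rk A) → m, ρ.rk (A.submatrix f id) = ρ.rk A := by
  classical
  let P : Finset m → Prop := fun s => ρ.rk (A.submatrix (fun i : s => (i : m)) id) = s.card
  have hne : (Finset.univ.filter P).Nonempty := by
    refine ⟨∅, ?_⟩
    rw [Finset.mem_filter]
    refine ⟨Finset.mem_univ _, ?_⟩
    simp only [P, Finset.card_empty]
    exact ρ.rk_eq_zero_of_isEmpty_left _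
  obtain ⟨s, hs, hmax⟩ := Finset.exists_max_image (Finset.univ.filter P) Finset.card hne
  rw [Finset.mem_filter] at hs
  have hs' : ρ.rk (A.submatrix (fun i : s => (i : m)) id) = s.card := hs.2
  have h1 : ρ.rk (fromRows (A.submatrix (fun i : s => (i : m)) id) A)
      ≤ ρ.rk (A.submatrix (fun i : s => (i : m)) id) := by
    apply ρ.rk_rows_of_forall
    intro i
    by_cases hi : i ∈ s
    · have e : fromRows (A.submatrix (fun i : s => (i : m)) id) (A.submatrix (fun _ : Unit => i) id)
        = (A.submatrix (fun i : s => (i : m)) id).submatrix (Sum.elim id (fun _ => ⟨i, hi⟩)) id := by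
        ext (a | a) b <;> simp
      rw [e]
      exact ρ.rk_submatrix_le _ _ _
    · by_contra hcon
      push Not at hcon
      have hP : P (insert i s) := by
        simp only [P]
        apply le_antisymm
        · refine (ρ.rk_le_card_left _).trans ?_
          rw [Fintype.card_coe]
        · rw [Finset.card_insert_of_notMem hi, ← hs']
          refine hcon.trans_le ?_
          have e : fromRows (A.submatrix (fun i : s => (i : m)) id) (A.submatrix (fun _ : Unit => i) id)
            = (A.submatrix (fun j : (insert i s : Finset m) => (j : m)) id).submatrix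
              (Sum.elim (fun j : s => ⟨j.1, Finset.mem_insert_of_mem j.2⟩)
                (fun _ => ⟨i, Finset.mem_insert_self i s⟩)) id := by
            ext (a | a) b <;> simp
          rw [e]
          exact ρ.rk_submatrix_le _ _ _
      have := hmax (insert i s) (Finset.mem_filter.2 ⟨Finset.mem_univ _, hP⟩)
      rw [Finset.card_insert_of_notMem hi] at this
      omega
  have h2 : ρ.rk A = s.card := by
    apply le_antisymm
    · rw [← hs']
      exact (ρ.rk_le_fromRows_right _ _).trans h1
    · rw [← hs']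
      exact ρ.rk_submatrix_le _ _ _
  have e : Fin (ρ.rk A) ≃ s := (finCongr h2).trans s.equivFin.symm
  refine ⟨fun i => (e i : m), ?_⟩
  have e2 : A.submatrix (fun i => (e i : m)) id
    = (A.submatrix (fun i : s => (i : m)) id).submatrix e (Equiv.refl n) := by
    ext; simp
  rw [e2, ρ.rk_reindex, hs', h2]

theorem exists_cols (A : Matrix m n R) :
    ∃ g : Fin (ρ.rk A) → n, ρ.rk (A.submatrix id g) = ρ.rk A := by
  obtain ⟨g, hg⟩ := ρ.op.exists_rows (Aᵀ.map MulOpposite.op)
  exact ⟨g, hg⟩

theorem exists_full_minor (A : Matrix m n R) :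
    ∃ (f : Fin (ρ.rk A) → m) (g : Fin (ρ.rk A) → n), ρ.rk (A.submatrix f g) = ρ.rk A := by
  obtain ⟨f, hf⟩ := ρ.exists_rows A
  obtain ⟨g, hg⟩ := ρ.exists_cols (A.submatrix f id)
  refine ⟨f, fun i => g (finCongr hf.symm i), ?_⟩
  have e : A.submatrix f (fun i => g (finCongr hf.symm i))
    = ((A.submatrix f id).submatrix id g).submatrix (Equiv.refl _) (finCongr hf.symm) := by
    ext; simp
  rw [e, ρ.rk_reindex, hg, hf]

end

section
variable {E : Type*} [Ring E] {χ : R →+* E} {ρ}
variable {p q κ : Type} [Fintype p] [Fintype q] [Fintype κ]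

/-- a rational matrix as a matrix over the rational closure -/
noncomputable def Rat.lift {X : Matrix p q E} (hX : ρ.Rat χ X) : Matrix p q (ρ.RC χ) :=
  fun i j => ⟨X i j, hX.mem i j⟩

theorem Rat.lift_map {X : Matrix p q E} (hX : ρ.Rat χ X) : hX.lift.map (ρ.RC χ).subtype = X := rfl

theorem map_subtype_inj {X Y : Matrix p q (ρ.RC χ)} (h : X.map (ρ.RC χ).subtype = Y.map (ρ.RC χ).subtype) :
    X = Y := by
  ext i j
  exact congrFun (congrFun h i) j

end

section
variable {m n κ : Type} [Fintype m] [Fintype n] [Fintype κ]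

theorem phi_map (A : Matrix m n R) : (A.map ρ.phi).map ρ.DS.subtype = A.map ρ.tau := rfl

theorem isUnit_phi [DecidableEq n] (A : Matrix n n R) (hA : ρ.rk A = Fintype.card n) :
    IsUnit (A.map ρ.phi) := by
  obtain ⟨V, hV, h1, h2⟩ := ρ.tau_inv.exists_inv A hA
  refine ⟨⟨A.map ρ.phi, hV.lift, ?_, ?_⟩, rfl⟩
  · apply map_subtype_inj
    rw [Matrix.map_mul, hV.lift_map, phi_map, h1, Matrix.map_one _ (map_zero _) (map_one _)]
  · apply map_subtype_inj
    rw [Matrix.map_mul, hV.lift_map, phi_map, h2, Matrix.map_one _ (map_zero _) (map_one _)]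

/-- The rank over the skew field (dimension of the left row space) is the given rank. -/
theorem finrank_rows (A : Matrix m n R) :
    Module.finrank ρ.DS (Submodule.span ρ.DS (Set.range fun i j => ρ.phi (A i j))) = ρ.rk A := by
  classical
  obtain ⟨f, g, hfg⟩ := ρ.exists_full_minor A
  have hfg' : ρ.rk (A.submatrix f g) = Fintype.card (Fin (ρ.rk A)) := by rw [hfg]; simp
  obtain ⟨V, hV, h1, h2⟩ := ρ.tau_inv.exists_inv (A.submatrix f g) hfg'
  have hb : ρ.rk (fromBlocks (A.submatrix f g) (A.submatrix f id) (A.submatrix id g) A)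
      ≤ Fintype.card (Fin (ρ.rk A)) := by
    have e : fromBlocks (A.submatrix f g) (A.submatrix f id) (A.submatrix id g) A
      = A.submatrix (Sum.elim f id) (Sum.elim g id) := by
      ext (i | i) (j | j) <;> simp
    rw [e]
    refine (ρ.rk_submatrix_le _ _ _).trans ?_
    simp
  have h3 := ρ.schur_eq_zero (A.submatrix f g) (A.submatrix f id) (A.submatrix id g) A hfg' hb
    (V * (A.submatrix f id).map ρ.tau) (by rw [← Matrix.mul_assoc, h1, Matrix.one_mul])
  -- over `D`
  have hW := hV.map_mul (A.submatrix id g)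
  have h4 : A.map ρ.phi = hW.lift * (A.submatrix f id).map ρ.phi := by
    apply map_subtype_inj
    rw [Matrix.map_mul, hW.lift_map, phi_map, phi_map, Matrix.mul_assoc, h3]
  have hspan : Submodule.span ρ.DS (Set.range fun i j => ρ.phi (A i j))
      = Submodule.span ρ.DS (Set.range fun i j => ρ.phi (A (f i) j)) := by
    apply le_antisymm
    · rw [Submodule.span_le]
      rintro _ ⟨i, rfl⟩
      have : (fun j => ρ.phi (A i j)) = ∑ k, hW.lift i k • (fun j => ρ.phi (A (f k) j)) := by
        funext j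
        have := congrFun (congrFun h4 i) j
        rw [Matrix.map_apply] at this
        rw [this, Matrix.mul_apply, Finset.sum_apply]
        rfl
      beta_reduce
      rw [this]
      exact Submodule.sum_mem _ fun k _ => Submodule.smul_mem _ _ (Submodule.subset_span ⟨k, rfl⟩)
    · apply Submodule.span_mono
      rintro _ ⟨i, rfl⟩
      exact ⟨f i, rfl⟩
  have hli : LinearIndependent ρ.DS (fun i j => ρ.phi (A (f i) j)) := by
    rw [Fintype.linearIndependent_iff]
    intro c hc i
    obtain ⟨u, hu⟩ := ρ.isUnit_phi (A.submatrix f g) hfg'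
    have h5 : c ᵥ* u.val = 0 := by
      funext j
      have := congrFun hc (g j)
      rw [Finset.sum_apply] at this
      rw [hu]
      simpa [Matrix.vecMul, dotProduct] using this
    have h6 : c = (c ᵥ* u.val) ᵥ* (u⁻¹).val := by
      rw [Matrix.vecMul_vecMul, Units.mul_inv, Matrix.vecMul_one]
    rw [h5, Matrix.zero_vecMul] at h6
    rw [h6]; rfl
  rw [hspan, finrank_span_eq_card hli]
  simp

theorem isUnit_phi_iff [DecidableEq n] (A : Matrix n n R) :
    IsUnit (A.map ρ.phi) ↔ ρ.rk A = Fintype.card n := by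
  refine ⟨fun h => ?_, ρ.isUnit_phi A⟩
  rw [← ρ.finrank_rows A]
  have hli : LinearIndependent ρ.DS (fun i j => ρ.phi (A i j)) := by
    rw [Fintype.linearIndependent_iff]
    intro c hc i
    obtain ⟨u, hu⟩ := h
    have h5 : c ᵥ* u.val = 0 := by
      funext j
      have := congrFun hc j
      rw [Finset.sum_apply] at this
      rw [hu]
      simpa [Matrix.vecMul, dotProduct] using this
    have h6 : c = (c ᵥ* u.val) ᵥ* (u⁻¹).val := by
      rw [Matrix.vecMul_vecMul, Units.mul_inv, Matrix.vecMul_one]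
    rw [h5, Matrix.zero_vecMul] at h6
    rw [h6]; rfl
  rw [finrank_span_eq_card hli]

/-- every element of the skew field has the form `c A⁻¹ b` with `A` full -/
theorem exists_repr (x : ρ.DS) : ∃ (n : ℕ) (A : Matrix (Fin n) (Fin n) R) (c : Matrix Unit (Fin n) R)
    (b : Matrix (Fin n) Unit R) (u : Matrix (Fin n) Unit ρ.DS), ρ.rk A = n ∧
    A.map ρ.phi * u = b.map ρ.phi ∧ (Matrix.of fun (_ _ : Unit) => x) = c.map ρ.phi * u := by
  obtain ⟨n, A, C, B, U, hA, hU, hX⟩ := (ρ.mem_RC ρ.tau).1 x.2
  have hU' : ρ.Rat ρ.tau U := Rat.solve ρ A B U (by simpa using hA) hU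
  refine ⟨n, A, C, B, hU'.lift, hA, ?_, ?_⟩
  · apply map_subtype_inj
    rw [Matrix.map_mul, hU'.lift_map, phi_map, phi_map, hU]
  · apply map_subtype_inj
    rw [Matrix.map_mul, hU'.lift_map, phi_map, ← hX]
    rfl

end

/-- **Cohn, Malcolmson**: an integer valued Sylvester rank function comes from a skew field. -/
theorem exists_skewField {R : Type} [Ring R] (ρ : SylRank R) :
    ∃ (D : Type) (_ : DivisionRing D) (φ : R →+* D),
      (∀ {m n : Type} [Fintype m] [Fintype n] (A : Matrix m n R),
        Module.finrank D (Submodule.span D (Set.range fun i j => φ (A i j))) = ρ.rk A) ∧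
      (∀ {n : Type} [Fintype n] [DecidableEq n] (A : Matrix n n R),
        IsUnit (A.map φ) ↔ ρ.rk A = Fintype.card n) ∧
      (∀ x : D, ∃ (n : ℕ) (A : Matrix (Fin n) (Fin n) R) (c : Matrix Unit (Fin n) R)
        (b : Matrix (Fin n) Unit R) (u : Matrix (Fin n) Unit D), ρ.rk A = n ∧
        A.map φ * u = b.map φ ∧ (Matrix.of fun (_ _ : Unit) => x) = c.map φ * u) :=
  ⟨ρ.DS, inferInstance, ρ.phi, fun A => ρ.finrank_rows A, fun A => ρ.isUnit_phi_iff A, ρ.exists_repr⟩

end SylRank

end Crest.Agent.R181.MK
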