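import Crest.Agent.R181.MK6

/-! The inner rank of a semihereditary ring with an additive rank function on idempotents. -/

set_option autoImplicit false
set_option linter.unusedSectionVars false
open Matrix

namespace Crest.Agent.R181.MK

/-- (left) semihereditary, in matrix form: kernels of row maps are generated by idempotents -/
def SH (T : Type) [Ring T] : Prop :=
  ∀ (n k : ℕ) (B : Matrix (Fin n) (Fin k) T), ∃ f : Matrix (Fin n) (Fin n) T,
    f * f = f ∧ f * B = 0 ∧ ∀ v : Fin n → T, v ᵥ* B = 0 → v ᵥ* f = v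

theorem SH.of_projective {T : Type} [Ring T]
    (h : ∀ (k : ℕ) (N : Submodule T (Fin k → T)), N.FG → Module.Projective T N) : SH T := by
  classical
  intro n k B
  let L : (Fin n → T) →ₗ[T] (Fin k → T) := Matrix.vecMulLinear B
  have hL : ∀ v, L v = v ᵥ* B := fun v => rfl
  have hfg : (LinearMap.range L).FG := by
    rw [LinearMap.range_eq_map]
    exact Submodule.FG.map _ Module.Finite.fg_top
  have := h k (LinearMap.range L) hfg
  obtain ⟨s, hs⟩ := Module.projective_lifting_property L.rangeRestrict LinearMap.id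
    L.surjective_rangeRestrict
  let g : (Fin n → T) →ₗ[T] (Fin n → T) := LinearMap.id - s.comp L.rangeRestrict
  have hLg : ∀ v, L (g v) = 0 := by
    intro v
    have h1 : L.rangeRestrict (s (L.rangeRestrict v)) = L.rangeRestrict v := by
      exact LinearMap.congr_fun hs (L.rangeRestrict v)
    have h2 := congrArg Subtype.val h1
    simp only [g, LinearMap.sub_apply, LinearMap.id_apply, LinearMap.comp_apply, map_sub]
    rw [sub_eq_zero]
    simpa using h2.symm
  have hg : ∀ v, L v = 0 → g v = v := by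
    intro v hv
    have : L.rangeRestrict v = 0 := Subtype.ext (by simpa using hv)
    simp only [g, LinearMap.sub_apply, LinearMap.id_apply, LinearMap.comp_apply, this, map_zero,
      sub_zero]
  let f : Matrix (Fin n) (Fin n) T := Matrix.of fun i => g (Pi.single i 1)
  have hf : ∀ v : Fin n → T, v ᵥ* f = g v := by
    intro v
    have hv : v = ∑ i, v i • (Pi.single i (1 : T) : Fin n → T) := by
      funext j
      rw [Finset.sum_apply, Finset.sum_eq_single j]
      · simp
      · intro b _ hb; simp [Pi.single_eq_of_ne (Ne.symm hb)]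
      · simp
    conv_rhs => rw [hv, map_sum]
    funext j
    rw [Finset.sum_apply]
    simp only [map_smul, Pi.smul_apply, smul_eq_mul]
    rfl
  have hrow : ∀ {l : ℕ} (X Y : Matrix (Fin n) (Fin l) T), (∀ v : Fin n → T, v ᵥ* X = v ᵥ* Y) → X = Y := by
    intro l X Y hXY
    funext i
    have := hXY (Pi.single i 1)
    rw [Matrix.single_one_vecMul, Matrix.single_one_vecMul] at this
    exact this
  refine ⟨f, ?_, ?_, ?_⟩
  · apply hrow
    intro v
    rw [← Matrix.vecMul_vecMul, hf, hf, hg _ (hLg v)]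
  · apply hrow
    intro v
    rw [← Matrix.vecMul_vecMul, hf, ← hL, hLg, Matrix.vecMul_zero]
  · intro v hv
    rw [hf, hg v hv]

/-- an additive `ℕ`-valued rank on idempotent matrices -/
structure ProjRank (T : Type) [Ring T] where
  rk : ∀ {n : Type}, Matrix n n T → ℕ
  rk_one : rk (1 : Matrix (Fin 1) (Fin 1) T) = 1
  rk_comm : ∀ {m n : Type} [Fintype m] [Fintype n] (X : Matrix m n T) (Y : Matrix n m T),
    (X * Y) * (X * Y) = X * Y → (Y * X) * (Y * X) = Y * X → rk (X * Y) = rk (Y * X)
  rk_diag : ∀ {m n : Type} [Fintype m] [Fintype n] (e : Matrix m m T) (f : Matrix n n T),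
    e * e = e → f * f = f → rk (fromBlocks e 0 0 f) = rk e + rk f

namespace ProjRank

variable {T : Type} [Ring T] (σ : ProjRank T)

section
variable {l m n m' n' p q k : Type} [Fintype l] [Fintype m] [Fintype n] [Fintype m'] [Fintype n']
  [Fintype p] [Fintype q] [Fintype k]

theorem rk_add (e f : Matrix n n T) (he : e * e = e) (hf : f * f = f) (hef : e * f = 0)
    (hfe : f * e = 0) : σ.rk (e + f) = σ.rk e + σ.rk f := by
  rw [← σ.rk_diag e f he hf]
  have h1 : fromCols e f * fromRows e f = e + f := by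
    rw [fromCols_mul_fromRows, he, hf]
  have h2 : fromRows e f * fromCols e f = fromBlocks e 0 0 f := by
    rw [fromRows_mul_fromCols, he, hf, hef, hfe]
  have h3 := σ.rk_comm (fromCols e f) (fromRows e f) (by
    rw [h1, Matrix.add_mul, Matrix.mul_add, Matrix.mul_add, he, hf, hef, hfe]; simp) (by
    rw [h2, fromBlocks_multiply]; simp [he, hf])
  rw [h1, h2] at h3
  exact h3

/-- ranks of subidempotents -/
theorem rk_le_of_le (e g : Matrix n n T) (he : e * e = e) (hg : g * g = g) (h1 : e * g = g)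
    (h2 : g * e = g) : σ.rk e = σ.rk g + σ.rk (e - g) := by
  have h := σ.rk_add g (e - g) hg (by
    rw [Matrix.sub_mul, Matrix.mul_sub, Matrix.mul_sub, he, hg, h1, h2]; simp) (by
    rw [Matrix.mul_sub, h2, hg, sub_self]) (by rw [Matrix.sub_mul, h1, hg, sub_self])
  rwa [add_sub_cancel] at h

theorem rk_reindex [DecidableEq m] [DecidableEq n] (e : Matrix n n T) (he : e * e = e) (f : m ≃ n) :
    σ.rk (e.submatrix f f) = σ.rk e := by
  have h1 : e.submatrix f id * e.submatrix id f = e.submatrix f f := by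
    rw [← Matrix.submatrix_mul e e f id f Function.bijective_id, he]
  have h2 : e.submatrix id f * e.submatrix f id = e := by
    rw [Matrix.submatrix_mul_equiv, he, Matrix.submatrix_id_id]
  have h3 := σ.rk_comm (e.submatrix f id) (e.submatrix id f) (by
    rw [h1, Matrix.submatrix_mul_equiv, he]) (by rw [h2, he])
  rwa [h1, h2] at h3

/-- `A` factors through an idempotent of rank `r` -/
def Fac {m n : Type} (A : Matrix m n T) (r : ℕ) : Prop :=
  ∃ (k : ℕ) (X : Matrix m (Fin k) T) (e : Matrix (Fin k) (Fin k) T) (Y : Matrix (Fin k) n T),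
    e * e = e ∧ A = X * e * Y ∧ σ.rk e = r

/-- the inner rank -/
noncomputable def ir {m n : Type} (A : Matrix m n T) : ℕ := sInf {r | σ.Fac A r}

theorem ir_le_of_fac (A : Matrix m n T) (X : Matrix m k T) (e : Matrix k k T) (Y : Matrix k n T)
    (he : e * e = e) (hA : A = X * e * Y) : σ.ir A ≤ σ.rk e := by
  classical
  let f := Fintype.equivFin k
  refine Nat.sInf_le ⟨Fintype.card k, X.submatrix id f.symm, e.submatrix f.symm f.symm,
    Y.submatrix f.symm id, ?_, ?_, ?_⟩
  · rw [Matrix.submatrix_mul_equiv, he]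
  · rw [Matrix.submatrix_mul_equiv, Matrix.submatrix_mul_equiv, Matrix.submatrix_id_id, hA]
  · rw [σ.rk_reindex e he]

theorem exists_fac (A : Matrix m n T) : σ.Fac A (σ.ir A) := by
  classical
  apply Nat.sInf_mem (s := {r | σ.Fac A r})
  let f := Fintype.equivFin m
  refine ⟨_, Fintype.card m, (1 : Matrix m m T).submatrix id f.symm, 1, A.submatrix f.symm id, ?_, ?_,
    rfl⟩
  · rw [Matrix.one_mul]
  · rw [Matrix.mul_one, Matrix.submatrix_mul_equiv, Matrix.submatrix_id_id, Matrix.one_mul]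

/-- normalised factorisation -/
theorem exists_fac' (A : Matrix m n T) : ∃ (k : ℕ) (X : Matrix m (Fin k) T)
    (e : Matrix (Fin k) (Fin k) T) (Y : Matrix (Fin k) n T),
    e * e = e ∧ X * e = X ∧ e * Y = Y ∧ A = X * Y ∧ σ.rk e = σ.ir A := by
  obtain ⟨k, X, e, Y, he, hA, hr⟩ := σ.exists_fac A
  refine ⟨k, X * e, e, e * Y, he, ?_, ?_, ?_, hr⟩
  · rw [Matrix.mul_assoc, he]
  · rw [← Matrix.mul_assoc, he]
  · rw [hA, Matrix.mul_assoc X e (e * Y), ← Matrix.mul_assoc e e Y, he, ← Matrix.mul_assoc]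

theorem ir_mul_left (A : Matrix l m T) (B : Matrix m n T) : σ.ir (A * B) ≤ σ.ir A := by
  obtain ⟨k, X, e, Y, he, h1, h2, hA, hr⟩ := σ.exists_fac' A
  rw [← hr]
  apply σ.ir_le_of_fac (A * B) X e (Y * B) he
  rw [h1, hA, Matrix.mul_assoc]

theorem ir_mul_right (A : Matrix l m T) (B : Matrix m n T) : σ.ir (A * B) ≤ σ.ir B := by
  obtain ⟨k, X, e, Y, he, h1, h2, hB, hr⟩ := σ.exists_fac' B
  rw [← hr]
  apply σ.ir_le_of_fac (A * B) (A * X) e Y he
  rw [Matrix.mul_assoc A X e, h1, hB, Matrix.mul_assoc]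

theorem ir_diag_le (A : Matrix m n T) (B : Matrix m' n' T) :
    σ.ir (fromBlocks A 0 0 B) ≤ σ.ir A + σ.ir B := by
  obtain ⟨k, X, e, Y, he, h1, h2, hA, hr⟩ := σ.exists_fac' A
  obtain ⟨k', X', e', Y', he', h1', h2', hB, hr'⟩ := σ.exists_fac' B
  rw [← hr, ← hr', ← σ.rk_diag e e' he he']
  apply σ.ir_le_of_fac _ (fromBlocks X 0 0 X') _ (fromBlocks Y 0 0 Y')
  · rw [fromBlocks_multiply]; simp [he, he']
  · rw [fromBlocks_multiply, fromBlocks_multiply]
    simp [h1, h1', hA, hB]

theorem ir_idem (e : Matrix n n T) (he : e * e = e) : σ.ir e = σ.rk e := by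
  classical
  apply le_antisymm
  · apply σ.ir_le_of_fac e e e e he
    rw [he, he]
  · obtain ⟨k, X, f, Y, hf, h1, h2, hA, hr⟩ := σ.exists_fac' e
    rw [← hr]
    have hab : (e * X) * (Y * e) = e := by
      rw [Matrix.mul_assoc, ← Matrix.mul_assoc X Y e, ← hA, he, he]
    set g := (Y * e) * (e * X) with hg
    have hgg : g * g = g := by
      rw [hg, Matrix.mul_assoc (Y * e) (e * X) ((Y * e) * (e * X)), ← Matrix.mul_assoc (e * X) (Y * e) (e * X),
        hab, ← Matrix.mul_assoc e e X, he]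
    have hfg : f * g = g := by
      rw [hg, ← Matrix.mul_assoc f (Y * e) (e * X), ← Matrix.mul_assoc f Y e, h2]
    have hgf : g * f = g := by
      rw [hg, Matrix.mul_assoc, Matrix.mul_assoc e X f, h1]
    have h3 : σ.rk e = σ.rk g := by
      have := σ.rk_comm (e * X) (Y * e) (by rw [hab, he]) hgg
      rw [hab] at this
      exact this
    have h4 := σ.rk_le_of_le f g hf hgg hfg hgf
    omega

theorem ir_tri (hT : SH T) (A : Matrix m n T) (C : Matrix m' n T) (B : Matrix m' n' T) :
    σ.ir A + σ.ir B ≤ σ.ir (fromBlocks A 0 C B) := by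
  classical
  obtain ⟨k, X, e, Y, he, h1, h2, hA, hr⟩ := σ.exists_fac' (fromBlocks A 0 C B)
  rw [← hr]
  obtain ⟨X1, X2, rfl⟩ : ∃ X1 X2, X = fromRows X1 X2 := ⟨_, _, (fromRows_toRows X).symm⟩
  obtain ⟨Y1, Y2, rfl⟩ : ∃ Y1 Y2, Y = fromCols Y1 Y2 := ⟨_, _, (fromCols_toCols Y).symm⟩
  rw [fromRows_mul_fromCols, fromBlocks_inj] at hA
  obtain ⟨hA11, hA12, hA21, hA22⟩ := hA
  rw [fromRows_mul, fromRows_ext_iff] at h1
  obtain ⟨h11, h12⟩ := h1
  rw [mul_fromCols, fromCols_ext_iff] at h2
  obtain ⟨h21, h22⟩ := h2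
  obtain ⟨f, hf, hfY, hfv⟩ := hT k (Fintype.card n') (Y2.submatrix id (Fintype.equivFin n').symm)
  have hfY' : f * Y2 = 0 := by
    ext i j
    have := congrFun (congrFun hfY i) (Fintype.equivFin n' j)
    simpa [Matrix.mul_apply] using this
  have hfv' : ∀ {s : Type} (Z : Matrix s (Fin k) T), Z * Y2 = 0 → Z * f = Z := by
    intro s Z hZ
    ext i j
    have h := hfv (Z i) (by
      funext a
      have := congrFun (congrFun hZ i) ((Fintype.equivFin n').symm a)
      simpa [Matrix.mul_apply, Matrix.vecMul, dotProduct] using this)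
    exact congrFun h j
  have hX1 : X1 * f = X1 := hfv' X1 hA12.symm
  have h1e : (1 - e) * f = 1 - e := hfv' (1 - e) (by rw [Matrix.sub_mul, Matrix.one_mul, h22, sub_self])
  have hef : e * f = f + e - 1 := by
    have : f - e * f = 1 - e := by rw [← h1e, Matrix.sub_mul, Matrix.one_mul]
    rw [sub_eq_iff_eq_add] at this
    have h2 : e * f = f - (1 - e) := by rw [eq_sub_iff_add_eq, add_comm]; exact this.symm
    rw [h2]; abel
  have hfef : f * e * f = f * e := by
    rw [Matrix.mul_assoc, hef, Matrix.mul_sub, Matrix.mul_add, hf, Matrix.mul_one]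
    abel
  have hefe : e * (f * e) = f * e := by
    rw [← Matrix.mul_assoc, hef, Matrix.sub_mul, Matrix.add_mul, he, Matrix.one_mul]
    abel
  have he1 : (f * e) * (f * e) = f * e := by
    rw [← Matrix.mul_assoc, hfef, Matrix.mul_assoc, he]
  have hsplit := σ.rk_le_of_le e (f * e) he he1 hefe (by rw [Matrix.mul_assoc, he])
  have hA' : σ.ir A ≤ σ.rk (f * e) := by
    apply σ.ir_le_of_fac A X1 (f * e) Y1 he1
    rw [← Matrix.mul_assoc, hX1, Matrix.mul_assoc, h21, hA11]
  have hB' : σ.ir B ≤ σ.rk (e - f * e) := by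
    apply σ.ir_le_of_fac B X2 (e - f * e) Y2
    · rw [Matrix.sub_mul, Matrix.mul_sub, Matrix.mul_sub, he, he1, hefe, Matrix.mul_assoc, he]
      abel
    · rw [Matrix.mul_assoc, Matrix.sub_mul, h22, Matrix.mul_assoc, h22, hfY', sub_zero, hA22]
  omega

/-- the Sylvester rank function given by the inner rank -/
noncomputable def toSyl (hT : SH T) : SylRank T where
  rk A := σ.ir A
  rk_one := by rw [σ.ir_idem _ (Matrix.one_mul _), σ.rk_one]
  rk_mul_left A B := σ.ir_mul_left A B
  rk_mul_right A B := σ.ir_mul_right A B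
  rk_diag_le A B := σ.ir_diag_le A B
  rk_tri A C B := σ.ir_tri hT A C B

theorem toSyl_rk (hT : SH T) (A : Matrix m n T) : (σ.toSyl hT).rk A = σ.ir A := rfl

theorem toSyl_idem (hT : SH T) (e : Matrix n n T) (he : e * e = e) : (σ.toSyl hT).rk e = σ.rk e :=
  σ.ir_idem e he

end

end ProjRank

end Crest.Agent.R181.MK
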