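import Crest.Agent.R181.MK7

/-! The universal property of the skew field of the inner rank. -/

set_option autoImplicit false
set_option linter.unusedSectionVars false
open Matrix

namespace Crest.Agent.R181.MK

universe u

/-- A matrix of full column rank can be cancelled on the left over every ring inverting the full
matrices. -/
theorem SylRank.Inv.cancel {T : Type} [Ring T] {ρ : SylRank T} {E : Type u} [Ring E] {χ : T →+* E}
    (hχ : SylRank.Inv ρ χ) {p k s : Type} [Fintype p] [Fintype k] (M : Matrix p k T)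
    (hM : ρ.rk M = Fintype.card k) (f : Matrix k s E) (h : M.map χ * f = 0) : f = 0 := by
  classical
  obtain ⟨g, hg⟩ := ρ.exists_rows M
  let e : k ≃ Fin (ρ.rk M) := (Fintype.equivFin k).trans (finCongr hM.symm)
  have hF : ρ.rk (M.submatrix (g ∘ e) id) = Fintype.card k := by
    have e1 : M.submatrix (g ∘ e) id = (M.submatrix g id).submatrix e (Equiv.refl k) := by ext; simp
    rw [e1, ρ.rk_reindex, hg, hM]
  obtain ⟨u, hu⟩ := hχ.unit (M.submatrix (g ∘ e) id) hF
  have h1 : (M.submatrix (g ∘ e) id).map χ * f = 0 := by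
    ext i j
    exact congrFun (congrFun h (g (e i))) j
  rw [← hu] at h1
  calc f = ((u⁻¹).val * u.val) * f := by rw [Units.inv_mul, Matrix.one_mul]
    _ = 0 := by rw [Matrix.mul_assoc, h1, Matrix.mul_zero]

namespace ProjRank

variable {T : Type} [Ring T] (σ : ProjRank T) (hT : SH T)

section
variable {E : Type u} [Ring E] {χ : T →+* E}
variable {κ p q : Type} [Fintype κ] [Fintype p] [Fintype q]

/-- displays of small inner rank: the Schur complement vanishes over every ring which inverts the full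
matrices. -/
theorem schur_eq (hχ : SylRank.Inv (σ.toSyl hT) χ) (A : Matrix κ κ T) (B : Matrix κ q T)
    (C : Matrix p κ T) (c : Matrix p q T) (hA : (σ.toSyl hT).rk A = Fintype.card κ)
    (h : (σ.toSyl hT).rk (fromBlocks A B C c) ≤ Fintype.card κ)
    (U : Matrix κ q E) (hU : A.map χ * U = B.map χ) : C.map χ * U = c.map χ := by
  classical
  obtain ⟨V, hV, hV1, hV2⟩ := hχ.exists_inv A hA
  obtain ⟨k, X, e, Y, he, h1, h2, hD, hr⟩ := σ.exists_fac' (fromBlocks A B C c)
  rw [toSyl_rk] at h hA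
  have hr' : σ.rk e = Fintype.card κ := by
    rw [hr]
    refine le_antisymm h ?_
    rw [← hA]
    exact (σ.toSyl hT).rk_submatrix_le (fromBlocks A B C c) Sum.inl Sum.inl
  obtain ⟨X1, X2, rfl⟩ : ∃ X1 X2, X = fromRows X1 X2 := ⟨_, _, (fromRows_toRows X).symm⟩
  obtain ⟨Y1, Y2, rfl⟩ : ∃ Y1 Y2, Y = fromCols Y1 Y2 := ⟨_, _, (fromCols_toCols Y).symm⟩
  rw [fromRows_mul_fromCols, fromBlocks_inj] at hD
  obtain ⟨hD11, hD12, hD21, hD22⟩ := hD
  rw [fromRows_mul, fromRows_ext_iff] at h1
  obtain ⟨h11, h12⟩ := h1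
  rw [mul_fromCols, fromCols_ext_iff] at h2
  obtain ⟨h21, h22⟩ := h2
  -- the matrix `[X1; 1 - e]` has rank `k`
  have hM : (σ.toSyl hT).rk (fromRows X1 (1 - e)) = Fintype.card (Fin k) := by
    apply le_antisymm ((σ.toSyl hT).rk_le_card_right _)
    have hs := σ.rk_le_of_le 1 e (Matrix.one_mul 1) he (Matrix.one_mul e) (Matrix.mul_one e)
    have h1 := (σ.toSyl hT).rk_one' (n := Fin k)
    rw [σ.toSyl_idem hT _ (Matrix.one_mul 1)] at h1
    have h3 : Fintype.card κ ≤ (σ.toSyl hT).rk X1 := by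
      rw [← hA, ← toSyl_rk σ hT, hD11]
      exact (σ.toSyl hT).rk_mul_left X1 Y1
    have h4 : (σ.toSyl hT).rk (1 - e) = σ.rk (1 - e) := by
      apply σ.toSyl_idem hT
      rw [Matrix.sub_mul, Matrix.mul_sub, Matrix.mul_sub, he]
      simp
    have h5 : fromRows X1 (1 - e) * fromCols e (1 - e) = fromBlocks X1 0 0 (1 - e) := by
      rw [fromRows_mul_fromCols, h11]
      simp only [Matrix.mul_sub, Matrix.sub_mul, Matrix.mul_one, Matrix.one_mul, h11, he, sub_self,
        sub_zero]
    have h6 := (σ.toSyl hT).rk_mul_left (fromRows X1 (1 - e)) (fromCols e (1 - e))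
    rw [h5, (σ.toSyl hT).rk_diag, h4] at h6
    omega
  -- the idempotent `g` and `f = e - g`
  set eE := e.map χ with heE
  set x1 := X1.map χ with hx1
  set x2 := X2.map χ
  set y1 := Y1.map χ
  set y2 := Y2.map χ
  have a1 : A.map χ = x1 * y1 := by rw [hD11, Matrix.map_mul]
  have a2 : B.map χ = x1 * y2 := by rw [hD12, Matrix.map_mul]
  have a3 : C.map χ = x2 * y1 := by rw [hD21, Matrix.map_mul]
  have a4 : c.map χ = x2 * y2 := by rw [hD22, Matrix.map_mul]
  have b1 : x1 * eE = x1 := by rw [← Matrix.map_mul, h11]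
  have b2 : eE * y1 = y1 := by rw [← Matrix.map_mul, h21]
  have b3 : x2 * eE = x2 := by rw [← Matrix.map_mul, h12]
  have b4 : eE * y2 = y2 := by rw [← Matrix.map_mul, h22]
  have b5 : eE * eE = eE := by rw [← Matrix.map_mul, he]
  have hf : eE - y1 * V * x1 = 0 := by
    apply hχ.cancel (fromRows X1 (1 - e)) hM
    have m1 : (1 - e).map χ = 1 - eE := by
      ext i j
      simp [Matrix.one_apply, eE, apply_ite χ]
    rw [fromRows_map, m1, fromRows_mul]
    have c1 : x1 * (eE - y1 * V * x1) = 0 := by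
      rw [Matrix.mul_sub, b1, ← Matrix.mul_assoc x1, ← Matrix.mul_assoc x1, ← a1, hV1,
        Matrix.one_mul, sub_self]
    have c2 : (1 - eE) * (eE - y1 * V * x1) = 0 := by
      rw [Matrix.sub_mul, Matrix.one_mul, Matrix.mul_sub, b5, ← Matrix.mul_assoc eE,
        ← Matrix.mul_assoc eE, b2, sub_self]
    rw [← hx1, c1, c2]
    ext (i | i) j <;> rfl
  have hg : eE = y1 * V * x1 := sub_eq_zero.1 hf
  have hU' : U = V * B.map χ := by rw [← hU, ← Matrix.mul_assoc, hV2, Matrix.one_mul]
  rw [hU', a2, a3, a4]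
  calc x2 * y1 * (V * (x1 * y2)) = x2 * (y1 * V * x1) * y2 := by simp only [Matrix.mul_assoc]
    _ = x2 * y2 := by rw [← hg, b3]

end

section
variable {S : Type u} [Ring S]

/-- inverting the full matrices in a product -/
theorem inv_prod {T : Type} [Ring T] {ρ : SylRank T} {E : Type*} [Ring E] {φ : T →+* E} {ψ : T →+* S}
    (hφ : SylRank.Inv ρ φ) (hψ : SylRank.Inv ρ ψ) : SylRank.Inv ρ (φ.prod ψ) := by
  intro n A hA
  obtain ⟨v, hv⟩ := hφ n A hA
  obtain ⟨w, hw⟩ := hψ n A hA
  have v1 := v.mul_inv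
  have v2 := v.inv_mul
  have w1 := w.mul_inv
  have w2 := w.inv_mul
  rw [hv] at v1 v2
  rw [hw] at w1 w2
  refine ⟨⟨A.map (φ.prod ψ), Matrix.of fun i j => ((v⁻¹).val i j, (w⁻¹).val i j), ?_, ?_⟩, rfl⟩
  · ext i j
    · have := congrFun (congrFun v1 i) j
      rw [Matrix.mul_apply] at this ⊢
      rw [Prod.fst_sum]
      by_cases hij : i = j
      · subst hij; simpa using this
      · simpa [Matrix.one_apply_ne hij] using this
    · have := congrFun (congrFun w1 i) j
      rw [Matrix.mul_apply] at this ⊢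
      rw [Prod.snd_sum]
      by_cases hij : i = j
      · subst hij; simpa using this
      · simpa [Matrix.one_apply_ne hij] using this
  · ext i j
    · have := congrFun (congrFun v2 i) j
      rw [Matrix.mul_apply] at this ⊢
      rw [Prod.fst_sum]
      by_cases hij : i = j
      · subst hij; simpa using this
      · simpa [Matrix.one_apply_ne hij] using this
    · have := congrFun (congrFun w2 i) j
      rw [Matrix.mul_apply] at this ⊢
      rw [Prod.snd_sum]
      by_cases hij : i = j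
      · subst hij; simpa using this
      · simpa [Matrix.one_apply_ne hij] using this

end

/-- `phi` inverts the full matrices -/
theorem _root_.Crest.Agent.R181.MK.SylRank.phi_inv {T : Type} [Ring T] (ρ : SylRank T) :
    SylRank.Inv ρ ρ.phi := fun n A hA => ρ.isUnit_phi A (by simpa using hA)

/-- ring homomorphisms out of the skew field are determined on `T` -/
theorem _root_.Crest.Agent.R181.MK.SylRank.hom_ext {T : Type} [Ring T] (ρ : SylRank T) {S : Type u}
    [Ring S] (f g : ρ.DS →+* S) (h : ∀ t, f (ρ.phi t) = g (ρ.phi t)) : f = g := by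
  ext x
  obtain ⟨n, A, c, b, v, hA, hv, hx⟩ := ρ.exists_repr x
  have hA' : ρ.rk A = Fintype.card (Fin n) := by simpa using hA
  obtain ⟨w, hw⟩ := ρ.isUnit_phi A hA'
  have key : ∀ (l m : Type) (M : Matrix l m T), (M.map ρ.phi).map f = (M.map ρ.phi).map g := by
    intro l m M; ext i j; exact h _
  have h1 : (A.map ρ.phi).map f * v.map f = (A.map ρ.phi).map f * v.map g := by
    rw [← Matrix.map_mul, hv, key _ _ b, ← hv, Matrix.map_mul, ← key _ _ A]
  have h2 : v.map f = v.map g := by
    have h3 : (w⁻¹).val.map f * (A.map ρ.phi).map f = 1 := by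
      rw [← Matrix.map_mul, ← hw, Units.inv_mul, Matrix.map_one _ (map_zero f) (map_one f)]
    calc v.map f = ((w⁻¹).val.map f * (A.map ρ.phi).map f) * v.map f := by rw [h3, Matrix.one_mul]
      _ = ((w⁻¹).val.map f * (A.map ρ.phi).map f) * v.map g := by
        rw [Matrix.mul_assoc, h1, ← Matrix.mul_assoc]
      _ = v.map g := by rw [h3, Matrix.one_mul]
  have h4 : ((Matrix.of fun (_ _ : Unit) => x).map f) = ((Matrix.of fun (_ _ : Unit) => x).map g) := by
    rw [hx, Matrix.map_mul, Matrix.map_mul, h2, key]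
  exact congrFun (congrFun h4 ()) ()

section
variable {S : Type u} [Ring S] (ψ : T →+* S)

local notation "ρT" => σ.toSyl hT

/-- the projection from the rational closure in `D × S` to `D` -/
noncomputable def projD : (ρT).RC ((ρT).phi.prod ψ) →+* (ρT).DS :=
  (RingHom.fst _ _).comp (Subring.subtype _)

theorem projD_injective (hψ : SylRank.Inv (σ.toSyl hT) ψ) : Function.Injective (projD σ hT ψ) := by
  classical
  rw [injective_iff_map_eq_zero]
  rintro ⟨x, hx⟩ h0
  have hχ := inv_prod (ρT).phi_inv hψ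
  obtain ⟨n, A, C, B, U, hA, hU, hX⟩ := ((ρT).mem_RC ((ρT).phi.prod ψ)).1 hx
  have hA' : (ρT).rk A = Fintype.card (Fin n) := by simpa using hA
  have h0' : x.1 = 0 := h0
  by_cases hF : (ρT).rk (fromBlocks A B C 0) = Fintype.card (Fin n) + Fintype.card Unit
  · exfalso
    obtain ⟨Y, hY, h1, h2⟩ := hχ.cramer A C B U hA' hU hF
    rw [← hX] at h1
    have e1 := congrFun (congrFun h1 ()) ()
    simp only [Matrix.mul_apply, Finset.univ_unique, Finset.sum_singleton, Matrix.of_apply,
      Matrix.one_apply_eq] at e1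
    have e2 := congrArg Prod.fst e1
    rw [Prod.fst_mul, h0', zero_mul] at e2
    exact zero_ne_one e2
  · have h1 := (ρT).rk_le_card_left (fromBlocks A B C 0)
    rw [Fintype.card_sum] at h1
    have h2 : (ρT).rk (fromBlocks A B C 0) ≤ Fintype.card (Fin n) := by
      rw [Fintype.card_unit] at h1 hF
      omega
    have h3 := σ.schur_eq hT hχ A B C 0 hA' h2 U hU
    rw [← hX, Matrix.map_zero _ (map_zero _)] at h3
    exact Subtype.ext (congrFun (congrFun h3 ()) ())

theorem projD_surjective (hψ : SylRank.Inv (σ.toSyl hT) ψ) : Function.Surjective (projD σ hT ψ) := by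
  classical
  intro y
  have hχ := inv_prod (ρT).phi_inv hψ
  obtain ⟨n, A, c, b, v, hA, hv, hy⟩ := (ρT).exists_repr y
  have hA' : (ρT).rk A = Fintype.card (Fin n) := by simpa using hA
  obtain ⟨V, hV, hV1, hV2⟩ := hχ.exists_inv A hA'
  have hx := (hV.map_mul c).mul_map b
  refine ⟨hx.lift () (), ?_⟩
  have key : ∀ (l m : Type) (M : Matrix l m T),
      (M.map ((ρT).phi.prod ψ)).map (RingHom.fst _ _) = M.map (ρT).phi := fun l m M => rfl
  have h1 : V.map (RingHom.fst _ _) * b.map (ρT).phi = v := by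
    have h2 : V.map (RingHom.fst _ _) * A.map (ρT).phi = 1 := by
      rw [← key _ _ A, ← Matrix.map_mul, hV2, Matrix.map_one _ (map_zero _) (map_one _)]
    rw [← hv, ← Matrix.mul_assoc, h2, Matrix.one_mul]
  have h3 : (c.map ((ρT).phi.prod ψ) * V * b.map ((ρT).phi.prod ψ)).map (RingHom.fst _ _)
      = (Matrix.of fun (_ _ : Unit) => y) := by
    rw [Matrix.map_mul, Matrix.map_mul, key, key, Matrix.mul_assoc, h1, hy]
  exact congrFun (congrFun h3 ()) ()

/-- **universal localisation**: a ring homomorphism inverting all full matrices factors through the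
skew field. -/
noncomputable def liftD (hψ : SylRank.Inv (σ.toSyl hT) ψ) : (σ.toSyl hT).DS →+* S :=
  ((RingHom.snd _ _).comp (Subring.subtype _)).comp
    (RingEquiv.ofBijective (projD σ hT ψ)
      ⟨projD_injective σ hT ψ hψ, projD_surjective σ hT ψ hψ⟩).symm.toRingHom

theorem liftD_phi (hψ : SylRank.Inv (σ.toSyl hT) ψ) (t : T) :
    σ.liftD hT ψ hψ ((σ.toSyl hT).phi t) = ψ t := by
  have h : (RingEquiv.ofBijective (projD σ hT ψ)
      ⟨projD_injective σ hT ψ hψ, projD_surjective σ hT ψ hψ⟩).symm ((ρT).phi t)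
      = ⟨((ρT).phi.prod ψ) t, SylRank.map_mem_RC t⟩ := by
    rw [RingEquiv.symm_apply_eq]
    rfl
  have h2 : σ.liftD hT ψ hψ ((σ.toSyl hT).phi t) = (((RingEquiv.ofBijective (projD σ hT ψ)
      ⟨projD_injective σ hT ψ hψ, projD_surjective σ hT ψ hψ⟩).symm ((ρT).phi t)).1).2 := rfl
  rw [h2, h]
  rfl

theorem existsUnique_lift (hψ : SylRank.Inv (σ.toSyl hT) ψ) :
    ∃! f : (σ.toSyl hT).DS →+* S, f.comp (σ.toSyl hT).phi = ψ :=
  ⟨σ.liftD hT ψ hψ, RingHom.ext fun t => σ.liftD_phi hT ψ hψ t, fun g hg =>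
    (ρT).hom_ext _ _ fun t => by
      rw [liftD_phi]; exact RingHom.congr_fun hg t⟩

end

end ProjRank

end Crest.Agent.R181.MK
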