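import Crest.Agent.R181.FR459a
import Crest.Agent.R181.MK10

/-!
# The rank function of a weakly finite ring over which projectives are stably free

`T` is a nontrivial stably finite ring.  If all finitely generated projective left modules are
stably free then there is a faithful integer rank on idempotent matrices.
-/

set_option autoImplicit false
set_option linter.unusedSectionVars false

open Matrix

namespace Crest.Agent.R181.MKS

open Crest.Agent.R181.FR Crest.Agent.R181.MK

variable {T : Type} [Ring T]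

/-- `P ⊕ T^m ≃ T^(m+r)` -/
def HasRk (P : Type) [AddCommGroup P] [Module T P] (r : ℕ) : Prop :=
  ∃ m : ℕ, Nonempty ((P × (Fin m → T)) ≃ₗ[T] (Fin (m + r) → T))

section

variable {P Q : Type} [AddCommGroup P] [Module T P] [AddCommGroup Q] [Module T Q]

theorem HasRk.of_equiv (e : P ≃ₗ[T] Q) {r : ℕ} (h : HasRk (T := T) P r) : HasRk (T := T) Q r := by
  obtain ⟨m, ⟨f⟩⟩ := h
  exact ⟨m, ⟨(LinearEquiv.prodCongr e.symm (LinearEquiv.refl T _)).trans f⟩⟩

theorem HasRk.free (k : ℕ) : HasRk (T := T) (Fin k → T) k := by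
  refine ⟨0, ⟨?_⟩⟩
  exact (LinearEquiv.prodComm T _ _).trans (powProd T 0 k)

theorem HasRk.prod {r s : ℕ} (h : HasRk (T := T) P r) (h' : HasRk (T := T) Q s) :
    HasRk (T := T) (P × Q) (r + s) := by
  obtain ⟨m, ⟨f⟩⟩ := h
  obtain ⟨m', ⟨f'⟩⟩ := h'
  refine ⟨m + m', ⟨?_⟩⟩
  have e1 : ((P × Q) × (Fin (m + m') → T)) ≃ₗ[T] ((P × Q) × ((Fin m → T) × (Fin m' → T))) :=
    LinearEquiv.prodCongr (LinearEquiv.refl T _) (powProd T m m').symm
  have e2 : ((P × Q) × ((Fin m → T) × (Fin m' → T))) ≃ₗ[T]
      ((P × (Fin m → T)) × (Q × (Fin m' → T))) := LinearEquiv.prodProdProdComm T _ _ _ _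
  have e3 : ((P × (Fin m → T)) × (Q × (Fin m' → T))) ≃ₗ[T]
      ((Fin (m + r) → T) × (Fin (m' + s) → T)) := LinearEquiv.prodCongr f f'
  have e4 : (Fin (m + r + (m' + s)) → T) ≃ₗ[T] (Fin (m + m' + (r + s)) → T) :=
    LinearEquiv.funCongrLeft T T (finCongr (by omega))
  exact e1.trans (e2.trans (e3.trans ((powProd T _ _).trans e4)))

theorem HasRk.unique [Nontrivial T] [IsStablyFiniteRing T] {r s : ℕ} (h : HasRk (T := T) P r)
    (h' : HasRk (T := T) P s) : r = s := by
  obtain ⟨m, ⟨f⟩⟩ := h
  obtain ⟨m', ⟨f'⟩⟩ := h'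
  have e1 : ((Fin (m + r) → T) × (Fin m' → T)) ≃ₗ[T] ((P × (Fin m → T)) × (Fin m' → T)) :=
    LinearEquiv.prodCongr f.symm (LinearEquiv.refl T _)
  have e2 : ((P × (Fin m → T)) × (Fin m' → T)) ≃ₗ[T] ((P × (Fin m' → T)) × (Fin m → T)) :=
    (LinearEquiv.prodAssoc T _ _ _).trans
      ((LinearEquiv.prodCongr (LinearEquiv.refl T _) (LinearEquiv.prodComm T _ _)).trans
        (LinearEquiv.prodAssoc T _ _ _).symm)
  have e3 : ((P × (Fin m' → T)) × (Fin m → T)) ≃ₗ[T] ((Fin (m' + s) → T) × (Fin m → T)) :=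
    LinearEquiv.prodCongr f' (LinearEquiv.refl T _)
  have e : (Fin (m + r + m') → T) ≃ₗ[T] (Fin (m' + s + m) → T) :=
    (powProd T _ _).symm.trans (e1.trans (e2.trans (e3.trans (powProd T _ _))))
  have := eq_of_fin_equiv T e
  omega

theorem HasRk.subsingleton [IsStablyFiniteRing T] (h : HasRk (T := T) P 0) : Subsingleton P := by
  obtain ⟨m, ⟨f⟩⟩ := h
  let g : (Fin (m + 0) → T) →ₗ[T] (Fin m → T) := (LinearMap.snd T P (Fin m → T)).comp f.symm.toLinearMap
  have hg : Function.Surjective g := fun y => ⟨f (0, y), by simp [g]⟩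
  have hinj : Function.Injective g := Module.End.injective_of_surjective_fin (n := m) hg
  refine ⟨fun x y => ?_⟩
  have h1 : g (f (x, 0)) = g (f (y, 0)) := by
    simp [g]
  have h2 := f.injective (hinj h1)
  exact congrArg Prod.fst h2

theorem StFree.exists_hasRk [Nontrivial T] [IsStablyFiniteRing T] (h : StFree T P) :
    ∃ r, HasRk (T := T) P r := by
  obtain ⟨m, n, ⟨f⟩⟩ := h
  have h1 : m ≤ n := by
    exact le_of_fin_surjective T ((LinearMap.snd T P (Fin m → T)).comp f.symm.toLinearMap)
      (fun y => ⟨f (0, y), by simp⟩)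
  exact ⟨n - m, m, ⟨f.trans (LinearEquiv.funCongrLeft T T (finCongr (by omega)))⟩⟩

end

section Row

variable {m n : Type} [Fintype m] [Fintype n]

/-- the span of the rows -/
def rowS {n : Type} (e : Matrix n n T) : Submodule T (n → T) := Submodule.span T (Set.range fun i => e i)

theorem vecMul_mem_rowS (e : Matrix n n T) (v : n → T) : v ᵥ* e ∈ rowS e := by
  have : v ᵥ* e = ∑ i, v i • e i := by
    funext j
    rw [Finset.sum_apply]
    rfl
  rw [this]
  exact Submodule.sum_mem _ fun i _ => Submodule.smul_mem _ _ (Submodule.subset_span ⟨i, rfl⟩)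

theorem mem_rowS (e : Matrix n n T) (he : e * e = e) (v : n → T) : v ∈ rowS e ↔ v ᵥ* e = v := by
  constructor
  · intro hv
    unfold rowS at hv
    induction hv using Submodule.span_induction with
    | mem x hx =>
      obtain ⟨i, rfl⟩ := hx
      have := congrFun he i
      exact this
    | zero => simp
    | add x y _ _ hx hy => rw [Matrix.add_vecMul, hx, hy]
    | smul a x _ hx => rw [Matrix.smul_vecMul, hx]
  · intro hv
    rw [← hv]
    exact vecMul_mem_rowS e v

theorem rowS_finite (e : Matrix n n T) : Module.Finite T (rowS e) := by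
  rw [Module.Finite.iff_fg]
  exact Submodule.fg_span (Set.finite_range _)

theorem rowS_projective (e : Matrix n n T) (he : e * e = e) : Module.Projective T (rowS e) := by
  let p : (n → T) →ₗ[T] rowS e :=
    (Matrix.vecMulLinear e).codRestrict (rowS e) (fun v => vecMul_mem_rowS e v)
  refine Module.Projective.of_split (rowS e).subtype p ?_
  ext1 x
  apply Subtype.ext
  change (x : n → T) ᵥ* e = x
  exact (mem_rowS e he x).1 x.2

/-- conjugate idempotents have isomorphic row spaces -/
noncomputable def rowEquiv (X : Matrix m n T) (Y : Matrix n m T) (h1 : (X * Y) * (X * Y) = X * Y)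
    (h2 : (Y * X) * (Y * X) = Y * X) : rowS (X * Y) ≃ₗ[T] rowS (Y * X) :=
  LinearEquiv.ofLinearMap
    (((Matrix.vecMulLinear X).comp (rowS (X * Y)).subtype).codRestrict (rowS (Y * X)) (by
      intro v
      rw [mem_rowS _ h2]
      change ((v : m → T) ᵥ* X) ᵥ* (Y * X) = (v : m → T) ᵥ* X
      rw [Matrix.vecMul_vecMul, ← Matrix.mul_assoc, ← Matrix.vecMul_vecMul, (mem_rowS _ h1 _).1 v.2]))
    (((Matrix.vecMulLinear Y).comp (rowS (Y * X)).subtype).codRestrict (rowS (X * Y)) (by
      intro v
      rw [mem_rowS _ h1]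
      change ((v : n → T) ᵥ* Y) ᵥ* (X * Y) = (v : n → T) ᵥ* Y
      rw [Matrix.vecMul_vecMul, ← Matrix.mul_assoc, ← Matrix.vecMul_vecMul, (mem_rowS _ h2 _).1 v.2]))
    (by
      ext1 v
      apply Subtype.ext
      change ((v : n → T) ᵥ* Y) ᵥ* X = v
      rw [Matrix.vecMul_vecMul, (mem_rowS _ h2 _).1 v.2])
    (by
      ext1 v
      apply Subtype.ext
      change ((v : m → T) ᵥ* X) ᵥ* Y = v
      rw [Matrix.vecMul_vecMul, (mem_rowS _ h1 _).1 v.2])

/-- row space of a block diagonal idempotent -/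
noncomputable def rowDiag (e : Matrix m m T) (f : Matrix n n T) (he : e * e = e) (hf : f * f = f) :
    (rowS e × rowS f) ≃ₗ[T] rowS (fromBlocks e 0 0 f) := by
  have hg : fromBlocks e 0 0 f * fromBlocks e 0 0 f = fromBlocks e 0 0 f := by
    rw [fromBlocks_multiply]; simp [he, hf]
  have hv : ∀ v : m ⊕ n → T, v ᵥ* fromBlocks e 0 0 f =
      Sum.elim ((v ∘ Sum.inl) ᵥ* e) ((v ∘ Sum.inr) ᵥ* f) := by
    intro v
    rw [Matrix.vecMul_fromBlocks]
    simp
  refine LinearEquiv.ofLinearMap
    (((LinearEquiv.sumArrowLequivProdArrow m n T T).symm.toLinearMap.comp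
      (LinearMap.prodMap (rowS e).subtype (rowS f).subtype)).codRestrict _ ?_)
    (LinearMap.prod
      (((LinearMap.funLeft T T (Sum.inl : m → m ⊕ n)).comp
        (rowS (fromBlocks e 0 0 f)).subtype).codRestrict (rowS e) ?_)
      (((LinearMap.funLeft T T (Sum.inr : n → m ⊕ n)).comp
        (rowS (fromBlocks e 0 0 f)).subtype).codRestrict (rowS f) ?_)) ?_ ?_
  · rintro ⟨x, y⟩
    rw [mem_rowS _ hg, hv]
    funext i
    rcases i with i | i
    · exact congrFun ((mem_rowS _ he _).1 x.2) i
    · exact congrFun ((mem_rowS _ hf _).1 y.2) i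
  · intro v
    rw [mem_rowS _ he]
    have := (mem_rowS _ hg _).1 v.2
    rw [hv] at this
    funext i
    exact congrFun this (Sum.inl i)
  · intro v
    rw [mem_rowS _ hf]
    have := (mem_rowS _ hg _).1 v.2
    rw [hv] at this
    funext i
    exact congrFun this (Sum.inr i)
  · ext1 v
    apply Subtype.ext
    funext i
    rcases i with i | i <;> rfl
  · apply LinearMap.ext
    rintro ⟨x, y⟩
    apply Prod.ext <;> rfl

end Row

/-- All finitely generated projective left modules are stably free. -/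
def AllStFree (T : Type) [Ring T] : Prop :=
  ∀ (P : Type) [AddCommGroup P] [Module T P], Module.Finite T P → Module.Projective T P → StFree T P

variable [Nontrivial T] [IsStablyFiniteRing T]

open Classical in
/-- the rank of an idempotent matrix -/
noncomputable def rk {n : Type} (e : Matrix n n T) : ℕ :=
  if h : ∃ r, HasRk (T := T) (rowS e) r then h.choose else 0

theorem rk_eq {n : Type} (e : Matrix n n T) {r : ℕ} (h : HasRk (T := T) (rowS e) r) : rk e = r := by
  have h1 : ∃ r, HasRk (T := T) (rowS e) r := ⟨r, h⟩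
  unfold rk
  rw [dif_pos h1]
  exact h1.choose_spec.unique h

theorem hasRk_rk (hs : AllStFree T) {n : Type} [Fintype n] (e : Matrix n n T) (he : e * e = e) :
    HasRk (T := T) (rowS e) (rk e) := by
  obtain ⟨r, hr⟩ := StFree.exists_hasRk (hs (rowS e) (rowS_finite e) (rowS_projective e he))
  rw [rk_eq e hr]
  exact hr

/-- the rank function -/
noncomputable def projRank (hs : AllStFree T) : ProjRank T where
  rk e := rk e
  rk_one := by
    apply rk_eq
    refine HasRk.of_equiv ?_ (HasRk.free 1)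
    refine LinearEquiv.symm (LinearEquiv.trans (LinearEquiv.ofEq _ _ ?_) Submodule.topEquiv)
    rw [eq_top_iff]
    intro v _
    rw [mem_rowS _ (Matrix.one_mul _), Matrix.vecMul_one]
  rk_comm X Y h1 h2 := by
    apply rk_eq
    exact (hasRk_rk hs _ h2).of_equiv (rowEquiv X Y h1 h2).symm
  rk_diag e f he hf := by
    apply rk_eq
    exact ((hasRk_rk hs e he).prod (hasRk_rk hs f hf)).of_equiv (rowDiag e f he hf)

theorem projRank_rk (hs : AllStFree T) {n : Type} (e : Matrix n n T) :
    (projRank hs).rk e = rk e := rfl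

/-- faithfulness -/
theorem eq_zero_of_rk (hs : AllStFree T) {n : Type} [Fintype n] (e : Matrix n n T) (he : e * e = e)
    (h : (projRank hs).rk e = 0) : e = 0 := by
  have h1 := hasRk_rk hs e he
  rw [← projRank_rk hs, h] at h1
  have h2 := h1.subsingleton
  ext i j
  have h3 : (⟨e i, Submodule.subset_span ⟨i, rfl⟩⟩ : rowS e) = 0 := Subsingleton.elim _ _
  exact congrFun (congrArg Subtype.val h3) j

end Crest.Agent.R181.MKS
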