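import Crest.Agent.R181.MonSemi

/-!
# Graded Betti numbers in terms of the numbers `zd`
-/

namespace Crest.Agent.R181.Mon

open MvPolynomial Module Finset Crest.AlgebraR.LPP

variable {n : ℕ}

theorem finrank_map_add_finrank_inf_ker {K V W : Type*} [DivisionRing K] [AddCommGroup V]
    [Module K V] [AddCommGroup W] [Module K W] (f : V →ₗ[K] W) (Z : Submodule K V)
    [FiniteDimensional K Z] :
    finrank K (Z.map f) + finrank K ↥(Z ⊓ LinearMap.ker f) = finrank K Z := by
  have hrn := LinearMap.finrank_range_add_finrank_ker (f.domRestrict Z)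
  have hr : LinearMap.range (f.domRestrict Z) = Z.map f := by
    rw [LinearMap.range_domRestrict]
  have hk : finrank K (LinearMap.ker (f.domRestrict Z)) = finrank K ↥(Z ⊓ LinearMap.ker f) := by
    have : LinearMap.ker (f.domRestrict Z) = Submodule.comap Z.subtype (LinearMap.ker f) := by
      ext x; simp [LinearMap.mem_ker]
    rw [this]
    have h2 : Z ⊓ LinearMap.ker f = (Submodule.comap Z.subtype (LinearMap.ker f)).map Z.subtype := by
      rw [Submodule.map_comap_subtype]
    rw [h2]
    exact (LinearEquiv.finrank_eq (Submodule.equivMapOfInjective Z.subtype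
      Z.injective_subtype _)).trans rfl
  rw [hr, hk] at hrn
  exact hrn

theorem sg_swap_aux {U : Finset (Fin n)} {s t : Fin n} (hs : s ∉ U) (hst : s < t) :
    sg U t * sg (insert t U) s = -(sg U s * sg (insert s U) t) := by
  have h1 : sg (insert t U) s = sg U s := by
    unfold sg
    rw [Finset.filter_insert, if_neg (not_lt.2 hst.le)]
  have h2 : sg (insert s U) t = - sg U t := by
    unfold sg
    rw [Finset.filter_insert, if_pos hst, Finset.card_insert_of_notMem, pow_succ]
    · ring
    · simp [hs]
  rw [h1, h2]; ring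

theorem sg_swap {U : Finset (Fin n)} {s t : Fin n} (hs : s ∉ U) (ht : t ∉ U) (hst : s ≠ t) :
    sg U t * sg (insert t U) s = -(sg U s * sg (insert s U) t) := by
  rcases lt_or_gt_of_ne hst with h | h
  · exact sg_swap_aux hs h
  · rw [sg_swap_aux ht h, neg_neg]

theorem KD_KD (f : Ch n) : KD (KD f) = 0 := by
  funext U
  rw [KD_apply]
  simp only [KD_apply, Pi.zero_apply]
  have h1 : ∀ t ∈ Uᶜ, sg U t • (X t * ∑ s ∈ (insert t U)ᶜ, sg (insert t U) s •
      (X s * f (insert s (insert t U)))) =
      ∑ s ∈ (insert t U)ᶜ, (sg U t * sg (insert t U) s) •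
        (X t * X s * f (insert s (insert t U))) := by
    intro t _
    rw [Finset.mul_sum, Finset.smul_sum]
    refine Finset.sum_congr rfl fun s _ => ?_
    rw [mul_smul_comm, smul_smul, mul_assoc]
  rw [Finset.sum_congr rfl h1, Finset.sum_sigma']
  refine Finset.sum_involution (fun x _ => ⟨x.2, x.1⟩) ?_ ?_ ?_ ?_
  · rintro ⟨t, s⟩ hx
    rw [Finset.mem_sigma] at hx
    obtain ⟨h2, h3⟩ := hx
    simp only [Finset.mem_compl, Finset.mem_insert, not_or] at h2 h3
    rw [sg_swap h3.2 h2 h3.1, Finset.insert_comm, mul_comm (X t) (X s), neg_smul]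
    exact neg_add_cancel _
  · rintro ⟨t, s⟩ hx _ h
    rw [Finset.mem_sigma] at hx
    obtain ⟨h2, h3⟩ := hx
    simp only [Finset.mem_compl, Finset.mem_insert, not_or] at h2 h3
    simp only [Sigma.mk.injEq] at h
    exact h3.1 h.1
  · rintro ⟨t, s⟩ hx
    rw [Finset.mem_sigma] at hx ⊢
    obtain ⟨h2, h3⟩ := hx
    simp only [Finset.mem_compl, Finset.mem_insert, not_or] at h2 h3 ⊢
    exact ⟨h3.2, fun h => h3.1 h.symm, h2⟩
  · rintro ⟨t, s⟩ _
    rfl

/-- Reduction of chains modulo the ideal. -/
noncomputable def piI (I : Ideal (MvPolynomial (Fin n) ℂ)) :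
    Ch n →ₗ[ℂ] (Finset (Fin n) → MvPolynomial (Fin n) ℂ ⧸ I) :=
  LinearMap.pi fun T => (Ideal.Quotient.mkₐ ℂ I).toLinearMap ∘ₗ LinearMap.proj T

theorem piI_apply (I : Ideal (MvPolynomial (Fin n) ℂ)) (f : Ch n) (T : Finset (Fin n)) :
    piI I f T = Ideal.Quotient.mk I (f T) := rfl

theorem ker_piI (I : Ideal (MvPolynomial (Fin n) ℂ)) :
    LinearMap.ker (piI I) = valued (Submodule.restrictScalars ℂ I) := by
  ext f
  rw [LinearMap.mem_ker, mem_valued]
  constructor
  · intro h T
    have := congrFun h T
    rw [piI_apply] at this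
    exact Ideal.Quotient.eq_zero_iff_mem.1 this
  · intro h
    funext T
    rw [piI_apply]
    exact Ideal.Quotient.eq_zero_iff_mem.2 (h T)

theorem koszulD_piI (I : Ideal (MvPolynomial (Fin n) ℂ)) (f : Ch n) :
    koszulD I (piI I f) = piI I (KD f) := by
  funext U
  rw [piI_apply, KD_apply, map_sum]
  unfold koszulD
  rw [LinearMap.pi_apply, LinearMap.sum_apply]
  refine Finset.sum_congr rfl fun t _ => ?_
  rw [LinearMap.smul_apply, LinearMap.comp_apply, LinearMap.proj_apply, LinearMap.mulLeft_apply,
    piI_apply, ← map_mul]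
  exact ((Ideal.Quotient.mkₐ ℂ I).toLinearMap.map_smul (sg U t) (X t * f (insert t U))).symm

theorem strandChains_eq (I : Ideal (MvPolynomial (Fin n) ℂ)) (p j : ℕ) :
    strandChains I p j = (chains n p j).map (piI I) := by
  ext g
  unfold strandChains
  rw [Submodule.mem_iInf]
  constructor
  · intro h
    have h' : ∀ T : Finset (Fin n), ∃ q : MvPolynomial (Fin n) ℂ,
        (∀ m, coeff m q ≠ 0 → T.card = p ∧ m.degree + p = j) ∧ Ideal.Quotient.mk I q = g T := by
      intro T
      have hT := h T
      rw [Submodule.mem_comap, LinearMap.proj_apply] at hT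
      split_ifs at hT with h1
      · obtain ⟨q, hq, hq2⟩ := hT
        refine ⟨q, fun m hm => ?_, hq2⟩
        have := isHomogeneous_iff'.1 ((mem_homogeneousSubmodule _ _).1 hq) m hm
        omega
      · rw [Submodule.mem_bot] at hT
        exact ⟨0, fun m hm => absurd (coeff_zero m) hm, by rw [map_zero, hT]⟩
    choose q hq hq2 using h'
    exact ⟨q, fun T m hm => hq T m hm, funext fun T => hq2 T⟩
  · rintro ⟨f, hf, rfl⟩ T
    rw [Submodule.mem_comap, LinearMap.proj_apply]
    split_ifs with h1
    · refine ⟨f T, ?_, rfl⟩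
      change f T ∈ homogeneousSubmodule (Fin n) ℂ (j - p)
      rw [mem_homogeneousSubmodule, isHomogeneous_iff']
      intro m hm
      have := hf T m hm
      omega
    · rw [Submodule.mem_bot, piI_apply]
      have : f T = 0 := by
        ext m
        by_contra hne
        have := hf T m (by simpa using hne)
        omega
      rw [this, map_zero]

/-- Dimension of the space of `I`-valued chains. -/
noncomputable def ud (I : Submodule ℂ (MvPolynomial (Fin n) ℂ)) (p j : ℕ) : ℕ :=
  finrank ℂ ↥(chains n p j ⊓ valued I)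

theorem KD_valued (I : Ideal (MvPolynomial (Fin n) ℂ)) {f : Ch n}
    (hf : f ∈ valued (Submodule.restrictScalars ℂ I)) (U : Finset (Fin n)) : KD f U ∈ I := by
  rw [KD_apply]
  refine Submodule.sum_mem _ fun t _ => ?_
  rw [Algebra.smul_def]
  exact I.mul_mem_left _ (I.mul_mem_left _ (hf _))

theorem gb_aux (I : Ideal (MvPolynomial (Fin n) ℂ)) (p j : ℕ)
    (hBA : Submodule.map (koszulD I) (strandChains I (p + 1) j) ≤
      LinearMap.ker (koszulD I) ⊓ strandChains I p j)
    (hfd : FiniteDimensional ℂ ↥(LinearMap.ker (koszulD I) ⊓ strandChains I p j)) :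
    gradedBetti I p j + finrank ℂ ↥(Submodule.map (koszulD I) (strandChains I (p + 1) j)) =
      finrank ℂ ↥(LinearMap.ker (koszulD I) ⊓ strandChains I p j) := by
  unfold gradedBetti
  rw [← (Submodule.comapSubtypeEquivOfLe hBA).finrank_eq]
  exact Submodule.finrank_quotient_add_finrank _

theorem cycles_eq (I : Ideal (MvPolynomial (Fin n) ℂ)) (p j : ℕ) :
    LinearMap.ker (koszulD I) ⊓ strandChains I p j =
      (zsp (Submodule.restrictScalars ℂ I) p j).map (piI I) := by
  rw [strandChains_eq]
  ext g
  constructor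
  · rintro ⟨h1, f, hf, rfl⟩
    refine ⟨f, ⟨hf, ?_⟩, rfl⟩
    have h1' : koszulD I (piI I f) = 0 := h1
    rw [koszulD_piI] at h1'
    have : KD f ∈ LinearMap.ker (piI I) := h1'
    rw [ker_piI] at this
    exact this
  · rintro ⟨f, hf, rfl⟩
    refine ⟨?_, f, hf.1, rfl⟩
    change koszulD I (piI I f) = 0
    rw [koszulD_piI]
    have : KD f ∈ LinearMap.ker (piI I) := by rw [ker_piI]; exact hf.2
    exact this

theorem boundaries_eq (I : Ideal (MvPolynomial (Fin n) ℂ)) (p j : ℕ) :
    Submodule.map (koszulD I) (strandChains I (p + 1) j) =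
      (chains n (p + 1) j).map (piI I ∘ₗ KD) := by
  have hcomp : koszulD I ∘ₗ piI I = piI I ∘ₗ KD := LinearMap.ext fun f => koszulD_piI I f
  rw [strandChains_eq, ← Submodule.map_comp, hcomp]

theorem finrank_cycles (I : Ideal (MvPolynomial (Fin n) ℂ)) (p j : ℕ) :
    finrank ℂ ↥((zsp (Submodule.restrictScalars ℂ I) p j).map (piI I)) +
      ud (Submodule.restrictScalars ℂ I) p j = zd (Submodule.restrictScalars ℂ I) p j := by
  have h3 := finrank_map_add_finrank_inf_ker (piI I) (zsp (Submodule.restrictScalars ℂ I) p j)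
  have h4 : zsp (Submodule.restrictScalars ℂ I) p j ⊓ LinearMap.ker (piI I) =
      chains n p j ⊓ valued (Submodule.restrictScalars ℂ I) := by
    rw [ker_piI]
    ext f
    constructor
    · rintro ⟨h5, h6⟩
      exact ⟨h5.1, h6⟩
    · rintro ⟨h5, h6⟩
      exact ⟨⟨h5, fun U => KD_valued I h6 U⟩, h6⟩
  rw [h4] at h3
  exact h3

theorem finrank_boundaries (I : Ideal (MvPolynomial (Fin n) ℂ)) (p j : ℕ) :
    finrank ℂ ↥((chains n (p + 1) j).map (piI I ∘ₗ KD)) +
      zd (Submodule.restrictScalars ℂ I) (p + 1) j = finrank ℂ (chains n (p + 1) j) := by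
  have h5 := finrank_map_add_finrank_inf_ker (piI I ∘ₗ KD) (chains n (p + 1) j)
  have h6 : chains n (p + 1) j ⊓ LinearMap.ker (piI I ∘ₗ KD) =
      zsp (Submodule.restrictScalars ℂ I) (p + 1) j := by
    rw [LinearMap.ker_comp, ker_piI]
    rfl
  rw [h6] at h5
  exact h5

theorem bd_le_aux (I : Ideal (MvPolynomial (Fin n) ℂ)) (p j : ℕ) :
    (chains n (p + 1) j).map (piI I ∘ₗ KD) ≤
      (zsp (Submodule.restrictScalars ℂ I) p j).map (piI I) := by
  rw [Submodule.map_comp]
  apply Submodule.map_mono
  rintro _ ⟨f, hf, rfl⟩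
  rw [mem_zsp]
  refine ⟨KD_mem_chains hf, fun U => ?_⟩
  rw [KD_KD]
  exact Submodule.zero_mem _

theorem bd_le (I : Ideal (MvPolynomial (Fin n) ℂ)) (p j : ℕ) :
    Submodule.map (koszulD I) (strandChains I (p + 1) j) ≤
      LinearMap.ker (koszulD I) ⊓ strandChains I p j := by
  rw [boundaries_eq, cycles_eq]
  exact bd_le_aux I p j

theorem gb_aux2 (I : Ideal (MvPolynomial (Fin n) ℂ)) (p j : ℕ) :
    gradedBetti I p j + finrank ℂ ↥((chains n (p + 1) j).map (piI I ∘ₗ KD)) =
      finrank ℂ ↥((zsp (Submodule.restrictScalars ℂ I) p j).map (piI I)) := by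
  have hfd : FiniteDimensional ℂ ↥(LinearMap.ker (koszulD I) ⊓ strandChains I p j) := by
    rw [cycles_eq]; infer_instance
  have h1 := gb_aux I p j (bd_le I p j) hfd
  rw [boundaries_eq, cycles_eq] at h1
  exact h1

theorem arith_aux {b u k z z' A B : ℕ} (h1 : b + B = A) (h2 : A + u = z) (h3 : B + z' = k) :
    b + u + k = z + z' := by omega

theorem gradedBetti_formula (I : Ideal (MvPolynomial (Fin n) ℂ)) (p j : ℕ) :
    gradedBetti I p j + ud (Submodule.restrictScalars ℂ I) p j + finrank ℂ (chains n (p + 1) j) =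
      zd (Submodule.restrictScalars ℂ I) p j + zd (Submodule.restrictScalars ℂ I) (p + 1) j :=
  arith_aux (gb_aux2 I p j) (finrank_cycles I p j) (finrank_boundaries I p j)

/-- `ud` only depends on the Hilbert function. -/
theorem ud_eq (I : Submodule ℂ (MvPolynomial (Fin n) ℂ)) (p j : ℕ) :
    ud I p j = if p ≤ j then Fintype.card {T : Finset (Fin n) // T.card = p} *
      finrank ℂ (pc I (j - p)) else 0 := by
  split_ifs with h
  · unfold ud
    have e : ↥(chains n p j ⊓ valued I) ≃ₗ[ℂ]
        ({T : Finset (Fin n) // T.card = p} → pc I (j - p)) :=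
      { toFun := fun f T => ⟨f.1 T.1, mem_pc.2 ⟨fun m hm => by
            have := f.2.1 T.1 m hm; omega, f.2.2 T.1⟩⟩
        map_add' := fun f g => rfl
        map_smul' := fun a f => rfl
        invFun := fun g => ⟨fun T => if hT : T.card = p then (g ⟨T, hT⟩).1 else 0, by
          constructor
          · intro T m hm
            by_cases hT : T.card = p
            · simp only [dif_pos hT] at hm
              have := (mem_pc.1 (g ⟨T, hT⟩).2).1 m hm
              omega
            · simp only [dif_neg hT, coeff_zero, ne_eq, not_true_eq_false] at hm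
          · intro T
            by_cases hT : T.card = p
            · simp only [dif_pos hT]
              exact (mem_pc.1 (g ⟨T, hT⟩).2).2
            · simp only [dif_neg hT]
              exact Submodule.zero_mem _⟩
        left_inv := by
          intro f
          apply Subtype.ext
          funext T
          by_cases hT : T.card = p
          · simp only [dif_pos hT]
          · simp only [dif_neg hT]
            symm
            ext m
            by_contra hne
            exact hT (f.2.1 T m (by simpa using hne)).1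
        right_inv := by
          intro g
          funext T
          apply Subtype.ext
          simp only [dif_pos T.2] }
    rw [e.finrank_eq, Module.finrank_pi_fintype]
    simp
  · unfold ud
    have : chains n p j ⊓ valued I = ⊥ := by
      rw [Submodule.eq_bot_iff]
      rintro f ⟨hf, -⟩
      funext T
      ext m
      by_contra hne
      have := hf T m (by simpa using hne)
      omega
    rw [this, finrank_bot]

/-- Comparison of graded Betti numbers. -/
theorem gradedBetti_le_of_zd_le (I J : Ideal (MvPolynomial (Fin n) ℂ))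
    (hHF : ∀ d, finrank ℂ (pc (Submodule.restrictScalars ℂ I) d) =
      finrank ℂ (pc (Submodule.restrictScalars ℂ J) d))
    (hz : ∀ p j, zd (Submodule.restrictScalars ℂ I) p j ≤ zd (Submodule.restrictScalars ℂ J) p j)
    (p j : ℕ) : gradedBetti I p j ≤ gradedBetti J p j := by
  have h1 := gradedBetti_formula I p j
  have h2 := gradedBetti_formula J p j
  have h3 : ud (Submodule.restrictScalars ℂ I) p j = ud (Submodule.restrictScalars ℂ J) p j := by
    rw [ud_eq, ud_eq, hHF]
  have h4 := hz p j
  have h5 := hz (p + 1) j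
  omega

end Crest.Agent.R181.Mon
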