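import Crest.Agent.R181.MonComb

/-!
# Clements-Lindström step and slices
-/

namespace Crest.Agent.R181.Mon

open Finset

variable {n : ℕ}

/-- append a last exponent -/
def sn (u : Fin n → ℕ) (i : ℕ) : Fin (n + 1) → ℕ := Fin.snoc (α := fun _ => ℕ) u i

theorem sn_castSucc (u : Fin n → ℕ) (i : ℕ) (t : Fin n) : sn u i t.castSucc = u t :=
  Fin.snoc_castSucc (α := fun _ => ℕ) i u t

theorem sn_last (u : Fin n → ℕ) (i : ℕ) : sn u i (Fin.last n) = i :=
  Fin.snoc_last (α := fun _ => ℕ) i u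

theorem exists_sn (m : Fin (n + 1) → ℕ) : ∃ u i, m = sn u i :=
  ⟨Fin.init m, m (Fin.last n), (Fin.snoc_init_self (α := fun _ => ℕ) m).symm⟩

theorem sn_inj {u w : Fin n → ℕ} {i j : ℕ} (h : sn u i = sn w j) : u = w ∧ i = j := by
  constructor
  · funext t
    rw [← sn_castSucc u i, h, sn_castSucc]
  · rw [← sn_last u i, h, sn_last]

theorem dg_sn (u : Fin n → ℕ) (i : ℕ) : dg (sn u i) = dg u + i := by
  unfold dg
  rw [Fin.sum_univ_castSucc, sn_last]
  simp only [sn_castSucc]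

theorem inc_sn_castSucc (u : Fin n → ℕ) (i : ℕ) (t : Fin n) :
    inc (sn u i) t.castSucc = sn (inc u t) i := by
  unfold inc sn
  rw [Fin.snoc_update, Fin.snoc_castSucc]

theorem inc_sn_last (u : Fin n → ℕ) (i : ℕ) : inc (sn u i) (Fin.last n) = sn u (i + 1) := by
  unfold inc sn
  rw [Fin.update_snoc_last, Fin.snoc_last]

theorem dec_sn_castSucc (u : Fin n → ℕ) (i : ℕ) (t : Fin n) :
    dec (sn u i) t.castSucc = sn (dec u t) i := by
  unfold dec sn
  rw [Fin.snoc_update, Fin.snoc_castSucc]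

theorem dec_sn_last (u : Fin n → ℕ) (i : ℕ) : dec (sn u i) (Fin.last n) = sn u (i - 1) := by
  unfold dec sn
  rw [Fin.update_snoc_last, Fin.snoc_last]

theorem sn_forall_lt {a : Fin (n + 1) → ℕ} {u : Fin n → ℕ} {i : ℕ} :
    (∀ k, sn u i k < a k) ↔ (∀ k : Fin n, u k < a k.castSucc) ∧ i < a (Fin.last n) := by
  constructor
  · intro h
    exact ⟨fun k => by have := h k.castSucc; rwa [sn_castSucc] at this,
      by have := h (Fin.last n); rwa [sn_last] at this⟩
  · rintro ⟨h1, h2⟩ k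
    refine Fin.lastCases ?_ (fun k => ?_) k
    · rw [sn_last]; exact h2
    · rw [sn_castSucc]; exact h1 k

theorem lex_sn_of_lt {u w : Fin n → ℕ} {i j : ℕ} (h : toLex u < toLex w) :
    toLex (sn u i) < toLex (sn w j) := by
  obtain ⟨k, hk1, hk2⟩ := lex_lt_iff.1 h
  refine lex_lt_iff.2 ⟨k.castSucc, ?_, ?_⟩
  · intro l hl
    have hl' : l ≠ Fin.last n := by
      rintro rfl
      exact absurd hl (not_lt.2 (Fin.le_last _))
    obtain ⟨l', rfl⟩ := Fin.exists_castSucc_eq.2 hl'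
    rw [sn_castSucc, sn_castSucc]
    exact hk1 l' (Fin.castSucc_lt_castSucc_iff.1 hl)
  · rw [sn_castSucc, sn_castSucc]; exact hk2

theorem lex_of_sn {u w : Fin n → ℕ} {i j : ℕ} (h : toLex (sn u i) < toLex (sn w j)) :
    toLex u ≤ toLex w := by
  by_contra hne
  exact absurd (lex_sn_of_lt (i := j) (j := i) (not_le.1 hne)) (not_lt.2 h.le)

/-- slices -/
def sl (K : Set (Fin (n + 1) → ℕ)) (i : ℕ) : Set (Fin n → ℕ) := {u | sn u i ∈ K}

theorem mem_sl {K : Set (Fin (n + 1) → ℕ)} {i : ℕ} {u : Fin n → ℕ} : u ∈ sl K i ↔ sn u i ∈ K :=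
  Iff.rfl

theorem UpC.sl {K : Set (Fin (n + 1) → ℕ)} (h : UpC K) (i : ℕ) : UpC (sl K i) := by
  intro u hu t
  rw [mem_sl, ← inc_sn_castSucc]
  exact h _ hu _

theorem UpC.sl_succ {K : Set (Fin (n + 1) → ℕ)} (h : UpC K) (i : ℕ) :
    ∀ u, u ∈ Mon.sl K i → u ∈ Mon.sl K (i + 1) := by
  intro u hu
  rw [mem_sl, ← inc_sn_last]
  exact h _ hu _

theorem PP.sl {a : Fin (n + 1) → ℕ} {K : Set (Fin (n + 1) → ℕ)} (h : PP a K) (i : ℕ) :
    PP (fun k : Fin n => a k.castSucc) (sl K i) := by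
  rintro u ⟨k, hk⟩
  exact h _ ⟨k.castSucc, by rw [sn_castSucc]; exact hk⟩

theorem PP.sl_eq {a : Fin (n + 1) → ℕ} {K : Set (Fin (n + 1) → ℕ)} (h : PP a K) {i : ℕ}
    (hi : a (Fin.last n) ≤ i) (u : Fin n → ℕ) : u ∈ Mon.sl K i :=
  h _ ⟨Fin.last n, by rw [sn_last]; exact hi⟩

/-- stability in the box -/
def Stb (A : ℕ) (J : Set (Fin (n + 1) → ℕ)) : Prop :=
  ∀ i u t, u ∈ sl J (i + 1) → i + 1 < A → inc u t ∈ sl J i

theorem cH_add (K P : Set (Fin n → ℕ)) (d : ℕ) : cH (K ∩ P) d + cH (K ∩ Pᶜ) d = cH K d := by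
  classical
  unfold cH
  rw [← Finset.card_filter_add_card_filter_not (s := cF K d) (· ∈ P)]
  congr 2 <;>
    · ext m
      simp only [Finset.mem_filter, mem_cF, Set.mem_inter_iff, Set.mem_compl_iff]
      tauto

theorem cH_congr {K K' : Set (Fin n → ℕ)} {d : ℕ} (h : ∀ m, dg m = d → (m ∈ K ↔ m ∈ K')) :
    cH K d = cH K' d :=
  le_antisymm (cH_le fun m hd hm => (h m hd).1 hm) (cH_le fun m hd hm => (h m hd).2 hm)

theorem cH_split (K : Set (Fin (n + 1) → ℕ)) (d A : ℕ) :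
    cH K d = ∑ i ∈ Finset.range A, cH (K ∩ {m | m (Fin.last n) = i}) d +
      cH (K ∩ {m | A ≤ m (Fin.last n)}) d := by
  induction A with
  | zero =>
    rw [Finset.range_zero, Finset.sum_empty, zero_add]
    apply cH_congr
    intro m _
    simp
  | succ A ih =>
    rw [ih, Finset.sum_range_succ, add_assoc]
    congr 1
    rw [← cH_add _ {m | m (Fin.last n) = A}]
    congr 1
    · apply cH_congr
      intro m _
      simp only [Set.mem_inter_iff, Set.mem_ofPred_eq]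
      constructor
      · rintro ⟨⟨h1, h2⟩, h3⟩; exact ⟨h1, h3⟩
      · rintro ⟨h1, h3⟩; exact ⟨⟨h1, h3.ge⟩, h3⟩
    · apply cH_congr
      intro m _
      simp only [Set.mem_inter_iff, Set.mem_ofPred_eq, Set.mem_compl_iff]
      constructor
      · rintro ⟨⟨h1, h2⟩, h3⟩; exact ⟨h1, by omega⟩
      · rintro ⟨h1, h3⟩; exact ⟨⟨h1, by omega⟩, by omega⟩

theorem cH_slice (K : Set (Fin (n + 1) → ℕ)) (d i : ℕ) :
    cH (K ∩ {m | m (Fin.last n) = i}) (d + i) = cH (sl K i) d := by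
  symm
  unfold cH
  apply Finset.card_bij (fun u _ => sn u i)
  · intro u hu
    rw [mem_cF] at hu ⊢
    exact ⟨by rw [dg_sn, hu.1], hu.2, sn_last u i⟩
  · intro u _ w _ h
    exact (sn_inj h).1
  · intro m hm
    rw [mem_cF] at hm
    obtain ⟨u, j, rfl⟩ := exists_sn m
    have hj : j = i := by have := hm.2.2; rwa [Set.mem_ofPred_eq, sn_last] at this
    subst hj
    refine ⟨u, ?_, rfl⟩
    rw [mem_cF]
    refine ⟨?_, hm.2.1⟩
    have := hm.1
    rw [dg_sn] at this
    omega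

theorem cH_slice_zero (K : Set (Fin (n + 1) → ℕ)) {d i : ℕ} (h : d < i) :
    cH (K ∩ {m | m (Fin.last n) = i}) d = 0 := by
  unfold cH
  rw [Finset.card_eq_zero, Finset.eq_empty_iff_forall_notMem]
  intro m hm0
  obtain ⟨hm, hm'⟩ := mem_cF.1 hm0
  obtain ⟨u, j, rfl⟩ := exists_sn m
  have hj : j = i := by have := hm'.2; rwa [Set.mem_ofPred_eq, sn_last] at this
  rw [dg_sn] at hm
  omega

theorem cH_slice_congr {K K' : Set (Fin (n + 1) → ℕ)} {i : ℕ}
    (h : ∀ d, cH (sl K i) d = cH (sl K' i) d) (d : ℕ) :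
    cH (K ∩ {m | m (Fin.last n) = i}) d = cH (K' ∩ {m | m (Fin.last n) = i}) d := by
  rcases lt_or_ge d i with hd | hd
  · rw [cH_slice_zero K hd, cH_slice_zero K' hd]
  · obtain ⟨e, rfl⟩ : ∃ e, d = e + i := ⟨d - i, by omega⟩
    rw [cH_slice, cH_slice, h]

theorem cH_slice_mono {K K' : Set (Fin (n + 1) → ℕ)} {i : ℕ} {d : ℕ}
    (h : ∀ u, dg u + i = d → u ∈ sl K i → u ∈ sl K' i) :
    cH (K ∩ {m | m (Fin.last n) = i}) d ≤ cH (K' ∩ {m | m (Fin.last n) = i}) d := by
  apply cH_le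
  rintro m hd ⟨h1, h2⟩
  obtain ⟨u, j, rfl⟩ := exists_sn m
  have hj : j = i := by rwa [Set.mem_ofPred_eq, sn_last] at h2
  subst hj
  rw [dg_sn] at hd
  exact ⟨h u hd h1, h2⟩

theorem rest_congr {a : Fin (n + 1) → ℕ} {K K' : Set (Fin (n + 1) → ℕ)} (hK : PP a K)
    (hK' : PP a K') (d : ℕ) :
    cH (K ∩ {m | a (Fin.last n) ≤ m (Fin.last n)}) d =
      cH (K' ∩ {m | a (Fin.last n) ≤ m (Fin.last n)}) d := by
  apply cH_congr
  intro m _
  constructor
  · rintro ⟨_, h2⟩; exact ⟨hK' m ⟨_, h2⟩, h2⟩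
  · rintro ⟨_, h2⟩; exact ⟨hK m ⟨_, h2⟩, h2⟩

/-- Claim A for sets. -/
theorem claimA' {a : Fin (n + 1) → ℕ} (hA : 0 < a (Fin.last n)) {L J : Set (Fin (n + 1) → ℕ)}
    (hLP : PP a L) (hJP : PP a J) (hL : IsL a L)
    (hJ0 : IsL (fun k : Fin n => a k.castSucc) (sl J 0)) (hst : Stb (a (Fin.last n)) J) {d : ℕ}
    (hc : cH L d ≤ cH J d) (w : Fin n → ℕ) (hd : dg w = d) (hw : w ∈ sl L 0) : w ∈ sl J 0 := by
  by_contra hne
  have hwa : ∀ i, w i < a i.castSucc := (sn_forall_lt.1 (hJP.not_mem hne)).1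
  have hsub : ∀ m, dg m = d → m ∈ J → m ∈ L := by
    intro m hm hmJ
    by_contra hmL
    obtain ⟨u, i, rfl⟩ := exists_sn m
    have hua := sn_forall_lt.1 (hLP.not_mem hmL)
    have hlt : toLex (sn u i) < toLex (sn w 0) := by
      by_contra h
      rcases lt_or_eq_of_le (not_lt.1 h) with h | h
      · exact hmL (hL _ _ hw (sn_forall_lt.2 ⟨hwa, hA⟩) (by rw [hm, dg_sn]; omega) h)
      · have h' : sn w 0 = sn u i := toLex_inj.1 h
        exact hmL (h' ▸ hw)
    apply hne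
    refine claimA (K := sl J) hJ0 hst hwa i u hmJ hua.2 hua.1 ?_ (lex_of_sn hlt)
    rw [dg_sn] at hm; omega
  exact absurd (cH_lt hsub (sn w 0) (by rw [dg_sn]; omega) hw hne) (not_lt.2 hc)

/-- Claim B for sets. -/
theorem claimB' {a : Fin (n + 1) → ℕ} (hA : 0 < a (Fin.last n)) {L J : Set (Fin (n + 1) → ℕ)}
    (hLP : PP a L) (hJP : PP a J) (hL : IsL a L)
    (hJ1 : IsL (fun k : Fin n => a k.castSucc) (sl J (a (Fin.last n) - 1)))
    (hst : Stb (a (Fin.last n)) J) {d : ℕ}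
    (hc : cH J d ≤ cH L d) (w : Fin n → ℕ) (hd : dg w + (a (Fin.last n) - 1) = d)
    (hw : w ∈ sl J (a (Fin.last n) - 1)) : w ∈ sl L (a (Fin.last n) - 1) := by
  by_contra hne
  have hwa : ∀ i, w i < a i.castSucc := (sn_forall_lt.1 (hLP.not_mem hne)).1
  have hsub : ∀ m, dg m = d → m ∈ L → m ∈ J := by
    intro m hm hmL
    by_contra hmJ
    obtain ⟨u, i, rfl⟩ := exists_sn m
    have hua := sn_forall_lt.1 (hJP.not_mem hmJ)
    have hlt : toLex (sn w (a (Fin.last n) - 1)) < toLex (sn u i) := by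
      by_contra h
      rcases lt_or_eq_of_le (not_lt.1 h) with h | h
      · exact hne (hL _ _ hmL (sn_forall_lt.2 hua) (by rw [hm, dg_sn]; omega) h)
      · have h' : sn u i = sn w (a (Fin.last n) - 1) := toLex_inj.1 h
        exact hne (show sn w (a (Fin.last n) - 1) ∈ L from h' ▸ hmL)
    apply hmJ
    refine claimB (K := sl J) hJ1 hst hw hwa (a (Fin.last n) - 1 - i) u i (by omega) hua.1 ?_
      (lex_of_sn hlt)
    rw [dg_sn] at hm; omega
  exact absurd (cH_lt hsub (sn w (a (Fin.last n) - 1)) (by rw [dg_sn]; omega) hw hne)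
    (not_lt.2 hc)

/-- Lex plus powers sets are stable. -/
theorem IsL.stb {a : Fin (n + 1) → ℕ} {L : Set (Fin (n + 1) → ℕ)} (hLP : PP a L) (hL : IsL a L) :
    Stb (a (Fin.last n)) L := by
  intro i u t hu hi
  by_contra hne
  have h1 := sn_forall_lt.1 (hLP.not_mem hne)
  apply hne
  refine hL (sn u (i + 1)) _ hu (sn_forall_lt.2 ⟨fun k => lt_of_le_of_lt (le_inc u t k) (h1.1 k),
    hi⟩) ?_ ?_
  · rw [dg_sn, dg_sn, dg_inc]; omega
  · apply lex_sn_of_lt
    refine lex_lt_iff.2 ⟨t, fun j hj => ?_, ?_⟩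
    · rw [inc_ne _ (ne_of_lt hj)]
    · rw [inc_self]; omega

theorem arithC {X Y Z : ℕ → ℕ} {B cD cD1 hL hJ hM hJ1 m0 j0 lB jB : ℕ}
    (h1 : hL = ∑ i ∈ Finset.range (B + 1), X i + cD)
    (h2 : hJ = ∑ i ∈ Finset.range (B + 1), Y i + cD) (h3 : hL = hJ)
    (hlB : X B = lB) (hjB : Y B = jB) (h4 : jB ≤ lB)
    (h5 : hM ≤ m0 + ∑ i ∈ Finset.range B, X i + cD1)
    (h6 : hJ1 = j0 + ∑ i ∈ Finset.range B, Z i + cD1) (h7 : m0 ≤ j0)
    (h8 : ∀ i ∈ Finset.range B, Y i ≤ Z i) : hM ≤ hJ1 := by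
  have h9 := Finset.sum_le_sum h8
  rw [Finset.sum_range_succ] at h1 h2
  omega

/-- The combinatorial core of the Clements-Lindström theorem: induction step. -/
theorem cl_step (a : Fin (n + 1) → ℕ) (hA : 0 < a (Fin.last n))
    (IH : ∀ K : Set (Fin n → ℕ), UpC K → PP (fun k : Fin n => a k.castSucc) K →
      ∃ L, UpC L ∧ PP (fun k : Fin n => a k.castSucc) L ∧
        IsL (fun k : Fin n => a k.castSucc) L ∧ ∀ d, cH L d = cH K d)
    (J : Set (Fin (n + 1) → ℕ)) (hJ : UpC J) (hP : PP a J) (hst : Stb (a (Fin.last n)) J) :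
    ∃ L : Set (Fin (n + 1) → ℕ), UpC L ∧ PP a L ∧ IsL a L ∧ (∀ d, cH L d = cH J d) ∧
      (∀ d, cH (sl L 0) d ≤ cH (sl J 0) d) ∧
      (∀ d, cH (sl J (a (Fin.last n) - 1)) d ≤ cH (sl L (a (Fin.last n) - 1)) d) := by
  set A := a (Fin.last n) with hAdef
  set a' : Fin n → ℕ := fun k : Fin n => a k.castSucc with ha'
  have hK : ∀ i, ∃ K : Set (Fin n → ℕ), UpC K ∧ PP a' K ∧ IsL a' K ∧
      (∀ d, cH K d = cH (sl J i) d) ∧ (A ≤ i → ∀ u, u ∈ K) := by
    intro i
    by_cases hi : A ≤ i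
    · refine ⟨Set.univ, fun _ _ _ => Set.mem_univ _, fun _ _ => Set.mem_univ _,
        fun _ _ _ _ _ _ => Set.mem_univ _, fun d => ?_, fun _ _ => Set.mem_univ _⟩
      apply cH_congr
      intro m _
      simp only [Set.mem_univ, true_iff]
      exact hP.sl_eq hi m
    · obtain ⟨L, h1, h2, h3, h4⟩ := IH (sl J i) (hJ.sl i) (hP.sl i)
      exact ⟨L, h1, h2, h3, h4, fun h => absurd h hi⟩
  choose K hKU hKP hKL hKc hKA using hK
  -- nestedness of the lex slices
  have hKn : ∀ i u, u ∈ K i → u ∈ K (i + 1) := by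
    intro i u hu
    refine nested (d := dg u) (hKP i) (hKP (i + 1)) ((hKL i).at _) ((hKL (i + 1)).at _) ?_ u rfl hu
    rw [hKc, hKc]
    exact cH_le fun m _ hm => hJ.sl_succ i m hm
  -- stability of the lex slices
  have hKs : ∀ i u t, u ∈ K (i + 1) → i + 1 < A → inc u t ∈ K i := by
    intro i u t hu hi
    set d := dg u with hd
    obtain ⟨L, hL1, hL2, hL3, hL4⟩ := IH {v | if dg v ≤ d then v ∈ sl J (i + 1) else v ∈ sl J i}
      (by
        intro v hv s
        change (if dg (inc v s) ≤ d then inc v s ∈ sl J (i + 1) else inc v s ∈ sl J i)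
        have hv' : (if dg v ≤ d then v ∈ sl J (i + 1) else v ∈ sl J i) := hv
        rw [dg_inc]
        by_cases h1 : dg v ≤ d
        · rw [if_pos h1] at hv'
          by_cases h2 : dg v + 1 ≤ d
          · rw [if_pos h2]; exact (hJ.sl (i + 1)) v hv' s
          · rw [if_neg h2]; exact hst i v s hv' hi
        · rw [if_neg h1] at hv'
          rw [if_neg (by omega)]
          exact (hJ.sl i) v hv' s)
      (by
        intro v hv
        change (if dg v ≤ d then v ∈ sl J (i + 1) else v ∈ sl J i)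
        split_ifs
        · exact (hP.sl (i + 1)) v hv
        · exact (hP.sl i) v hv)
    have h1 : u ∈ L := by
      refine nested (d := d) (hKP (i + 1)) hL2 ((hKL (i + 1)).at _) (hL3.at _) ?_ u rfl hu
      rw [hKc, hL4]
      apply cH_le
      intro m hm hmJ
      change (if dg m ≤ d then m ∈ sl J (i + 1) else m ∈ sl J i)
      rw [if_pos hm.le]; exact hmJ
    have h2 := hL1 u h1 t
    refine nested (d := d + 1) hL2 (hKP i) (hL3.at _) ((hKL i).at _) ?_ _ (dg_inc u t) h2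
    rw [hKc, hL4]
    apply cH_le
    intro m hm hmJ
    have hmJ' : (if dg m ≤ d then m ∈ sl J (i + 1) else m ∈ sl J i) := hmJ
    rwa [if_neg (by omega)] at hmJ'
  -- the set J'
  let J' : Set (Fin (n + 1) → ℕ) := {m | Fin.init m ∈ K (m (Fin.last n))}
  have hJ'sl : ∀ i, sl J' i = K i := by
    intro i
    ext u
    rw [mem_sl]
    change Fin.init (sn u i) ∈ K (sn u i (Fin.last n)) ↔ _
    rw [sn_last]
    unfold sn
    rw [Fin.init_snoc]
  have hJ'mem : ∀ u i, sn u i ∈ J' ↔ u ∈ K i := fun u i => by rw [← hJ'sl i]; rfl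
  have hJ'U : UpC J' := by
    intro m hm t
    obtain ⟨u, i, rfl⟩ := exists_sn m
    rw [hJ'mem] at hm
    refine Fin.lastCases ?_ (fun t => ?_) t
    · rw [inc_sn_last, hJ'mem]; exact hKn i u hm
    · rw [inc_sn_castSucc, hJ'mem]; exact hKU i u hm t
  have hJ'P : PP a J' := by
    rintro m ⟨k, hk⟩
    obtain ⟨u, i, rfl⟩ := exists_sn m
    rw [hJ'mem]
    by_cases hi : A ≤ i
    · exact hKA i hi u
    · apply hKP i
      by_cases hkl : k = Fin.last n
      · subst hkl; rw [sn_last] at hk; exact absurd hk hi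
      · obtain ⟨k', rfl⟩ := Fin.exists_castSucc_eq.2 hkl
        rw [sn_castSucc] at hk
        exact ⟨k', hk⟩
  have hJ's : Stb A J' := by
    intro i u t hu hi
    rw [hJ'sl] at hu ⊢
    exact hKs i u t hu hi
  have hJ'c : ∀ d, cH J' d = cH J d := by
    intro d
    rw [cH_split J' d A, cH_split J d A, rest_congr hJ'P hP d]
    congr 1
    exact Finset.sum_congr rfl fun i _ => cH_slice_congr (fun e => by rw [hJ'sl, hKc]) d
  -- the lex plus powers set
  obtain ⟨L, hLP, hLL, hLc⟩ := exists_lpp a (cH J')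
    (fun d => cH_le fun m _ hm => hJ'P m hm)
    (fun d => cH_le_card _ _)
  have hclA : ∀ w, w ∈ sl L 0 → w ∈ sl J' 0 := fun w hw =>
    claimA' hA hLP hJ'P hLL (by rw [hJ'sl]; exact hKL 0) hJ's (hLc _).le w rfl hw
  have hclB : ∀ w, w ∈ sl J' (A - 1) → w ∈ sl L (A - 1) := fun w hw =>
    claimB' hA hLP hJ'P hLL (by rw [hJ'sl]; exact hKL _) hJ's (hLc _).ge w rfl hw
  have hLs : Stb A L := hLL.stb hLP
  refine ⟨L, ?_, hLP, hLL, fun d => by rw [hLc, hJ'c], ?_, ?_⟩
  · -- upward closed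
    intro m hm t
    set D := dg m with hD
    have hMP : PP a (mulSet a L) := fun y hy => Or.inl hy
    refine nested (d := D + 1) hMP hLP ((mulSet_lpp hLL).at _) (hLL.at _) ?_ _ (dg_inc m t)
      (Or.inr ⟨t, by rw [inc_self]; omega, by rw [dec_inc]; exact hm⟩)
    obtain ⟨B, hB⟩ : ∃ B, A = B + 1 := ⟨A - 1, by omega⟩
    have hr1 : cH (mulSet a L ∩ {m | A ≤ m (Fin.last n)}) (D + 1) =
        cH (L ∩ {m | A ≤ m (Fin.last n)}) (D + 1) := rest_congr hMP hLP (D + 1)
    have hr2 : cH (J' ∩ {m | A ≤ m (Fin.last n)}) (D + 1) =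
        cH (L ∩ {m | A ≤ m (Fin.last n)}) (D + 1) := rest_congr hJ'P hLP (D + 1)
    have hr3 : cH (J' ∩ {m | A ≤ m (Fin.last n)}) D =
        cH (L ∩ {m | A ≤ m (Fin.last n)}) D := rest_congr hJ'P hLP D
    refine arithC (X := fun i => cH (L ∩ {m | m (Fin.last n) = i}) D)
      (Y := fun i => cH (J' ∩ {m | m (Fin.last n) = i}) D)
      (Z := fun i => cH (J' ∩ {m | m (Fin.last n) = i + 1}) (D + 1)) (B := B)
      (cD := cH (L ∩ {m | A ≤ m (Fin.last n)}) D)
      (cD1 := cH (L ∩ {m | A ≤ m (Fin.last n)}) (D + 1))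
      (m0 := cH (mulSet a L ∩ {m | m (Fin.last n) = 0}) (D + 1))
      (j0 := cH (J' ∩ {m | m (Fin.last n) = 0}) (D + 1)) ?_ ?_ (hLc D) rfl rfl ?_ ?_ ?_ ?_ ?_
    · rw [← hB]; exact cH_split L D A
    · rw [← hB, ← hr3]; exact cH_split J' D A
    · apply cH_slice_mono
      intro u _ hu
      have hB' : B = A - 1 := by omega
      rw [hB'] at hu ⊢
      exact hclB u hu
    · rw [cH_split (mulSet a L) (D + 1) A, hr1, hB, Finset.sum_range_succ', ← hB]
      have : ∑ i ∈ Finset.range B, cH (mulSet a L ∩ {m | m (Fin.last n) = i + 1}) (D + 1) ≤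
          ∑ i ∈ Finset.range B, cH (L ∩ {m | m (Fin.last n) = i}) D := by
        apply Finset.sum_le_sum
        intro i hi
        rw [Finset.mem_range] at hi
        rcases lt_or_ge D i with hDi | hDi
        · rw [cH_slice_zero _ (by omega)]; exact Nat.zero_le _
        · obtain ⟨e, he⟩ : ∃ e, D = e + i := ⟨D - i, by omega⟩
          have h1 := cH_slice (mulSet a L) e (i + 1)
          have h2 := cH_slice L e i
          rw [← add_assoc, ← he] at h1
          rw [← he] at h2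
          rw [h1, h2]
          apply cH_le
          rintro u hu (⟨k, hk⟩ | ⟨k, hk1, hk2⟩)
          · by_cases hkl : k = Fin.last n
            · subst hkl; rw [sn_last] at hk; omega
            · obtain ⟨k', rfl⟩ := Fin.exists_castSucc_eq.2 hkl
              rw [sn_castSucc] at hk
              exact (hLP.sl i) u ⟨k', hk⟩
          · by_cases hkl : k = Fin.last n
            · subst hkl
              rw [dec_sn_last] at hk2
              exact hk2
            · obtain ⟨k', rfl⟩ := Fin.exists_castSucc_eq.2 hkl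
              rw [dec_sn_castSucc] at hk2
              rw [sn_castSucc] at hk1
              have := hLs i _ k' hk2 (by omega)
              rwa [inc_dec u k' hk1] at this
      omega
    · rw [hLc, cH_split J' (D + 1) A, hr2, hB, Finset.sum_range_succ', ← hB]
      omega
    · apply cH_slice_mono
      rintro u _ (⟨k, hk⟩ | ⟨k, hk1, hk2⟩)
      · exact hJ'P _ ⟨k, hk⟩
      · by_cases hkl : k = Fin.last n
        · subst hkl; rw [sn_last] at hk1; exact absurd hk1 (lt_irrefl _)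
        · obtain ⟨k', rfl⟩ := Fin.exists_castSucc_eq.2 hkl
          rw [dec_sn_castSucc] at hk2
          rw [sn_castSucc] at hk1
          have := (hJ'U.sl 0) _ (hclA _ hk2) k'
          rwa [inc_dec u k' hk1] at this
    · intro i _
      rcases lt_or_ge D i with hDi | hDi
      · rw [cH_slice_zero _ hDi]; exact Nat.zero_le _
      · obtain ⟨e, he⟩ : ∃ e, D = e + i := ⟨D - i, by omega⟩
        have h1 := cH_slice J' e (i + 1)
        have h2 := cH_slice J' e i
        rw [← add_assoc, ← he] at h1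
        rw [← he] at h2
        change cH (J' ∩ {m | m (Fin.last n) = i}) D ≤
          cH (J' ∩ {m | m (Fin.last n) = i + 1}) (D + 1)
        rw [h1, h2]
        exact cH_le fun u _ hu => hJ'U.sl_succ i u hu
  · intro d
    rw [← hKc 0, ← hJ'sl]
    exact cH_le fun u _ hu => hclA u hu
  · intro d
    rw [← hKc (A - 1), ← hJ'sl]
    exact cH_le fun u _ hu => hclB u hu

end Crest.Agent.R181.Mon
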