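import Mathlib

/-!
# Lexicographic combinatorics of exponent vectors (Clements-Lindström)
-/

namespace Crest.Agent.R181.Mon

open Finset

variable {n : ℕ}

/-- degree -/
def dg (m : Fin n → ℕ) : ℕ := ∑ i, m i

/-- increase a coordinate -/
def inc (m : Fin n → ℕ) (t : Fin n) : Fin n → ℕ := Function.update m t (m t + 1)

/-- decrease a coordinate -/
def dec (m : Fin n → ℕ) (t : Fin n) : Fin n → ℕ := Function.update m t (m t - 1)

theorem inc_self (m : Fin n → ℕ) (t : Fin n) : inc m t t = m t + 1 := Function.update_self _ _ _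
theorem inc_ne (m : Fin n → ℕ) {s t : Fin n} (h : s ≠ t) : inc m t s = m s :=
  Function.update_of_ne h _ _
theorem dec_self (m : Fin n → ℕ) (t : Fin n) : dec m t t = m t - 1 := Function.update_self _ _ _
theorem dec_ne (m : Fin n → ℕ) {s t : Fin n} (h : s ≠ t) : dec m t s = m s :=
  Function.update_of_ne h _ _

theorem le_inc (m : Fin n → ℕ) (t s : Fin n) : m s ≤ inc m t s := by
  by_cases h : s = t
  · subst h; rw [inc_self]; omega
  · rw [inc_ne m h]

theorem dec_le (m : Fin n → ℕ) (t s : Fin n) : dec m t s ≤ m s := by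
  by_cases h : s = t
  · subst h; rw [dec_self]; omega
  · rw [dec_ne m h]

theorem dg_inc (m : Fin n → ℕ) (t : Fin n) : dg (inc m t) = dg m + 1 := by
  unfold dg
  rw [← Finset.add_sum_erase _ _ (Finset.mem_univ t), ← Finset.add_sum_erase _ m (Finset.mem_univ t),
    inc_self]
  have : ∑ x ∈ Finset.univ.erase t, inc m t x = ∑ x ∈ Finset.univ.erase t, m x :=
    Finset.sum_congr rfl fun x hx => inc_ne m (Finset.ne_of_mem_erase hx)
  rw [this]; omega

theorem inc_dec (m : Fin n → ℕ) (t : Fin n) (h : 0 < m t) : inc (dec m t) t = m := by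
  funext s
  by_cases hs : s = t
  · subst hs; rw [inc_self, dec_self]; omega
  · rw [inc_ne _ hs, dec_ne _ hs]

theorem dec_inc (m : Fin n → ℕ) (t : Fin n) : dec (inc m t) t = m := by
  funext s
  by_cases hs : s = t
  · subst hs; rw [dec_self, inc_self]; omega
  · rw [dec_ne _ hs, inc_ne _ hs]

theorem dg_dec (m : Fin n → ℕ) (t : Fin n) (h : 0 < m t) : dg (dec m t) + 1 = dg m := by
  rw [← dg_inc, inc_dec m t h]

/-- exponents of degree `d` -/
def fD (n d : ℕ) : Finset (Fin n → ℕ) := Finset.Nat.antidiagonalTuple n d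

theorem mem_fD {d : ℕ} {m : Fin n → ℕ} : m ∈ fD n d ↔ dg m = d :=
  Finset.Nat.mem_antidiagonalTuple

theorem lex_lt_iff {m m' : Fin n → ℕ} :
    toLex m < toLex m' ↔ ∃ k, (∀ j, j < k → m j = m' j) ∧ m k < m' k := Iff.rfl

/-- pointwise comparison and degree -/
theorem eq_of_le_of_dg_le {m m' : Fin n → ℕ} (h : ∀ i, m i ≤ m' i) (hd : dg m' ≤ dg m) :
    m = m' := by
  have h1 : dg m = dg m' := le_antisymm (Finset.sum_le_sum fun i _ => h i) hd
  have h2 := (Finset.sum_eq_sum_iff_of_le (fun i _ => h i)).1 h1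
  funext i
  exact h2 i (Finset.mem_univ i)

/-- upward closed -/
def UpC (K : Set (Fin n → ℕ)) : Prop := ∀ m ∈ K, ∀ t, inc m t ∈ K

/-- contains the pure powers -/
def PP (a : Fin n → ℕ) (K : Set (Fin n → ℕ)) : Prop := ∀ m, (∃ i, a i ≤ m i) → m ∈ K

/-- lex plus powers in each degree -/
def IsL (a : Fin n → ℕ) (K : Set (Fin n → ℕ)) : Prop :=
  ∀ m m', m ∈ K → (∀ i, m i < a i) → dg m = dg m' → toLex m < toLex m' → m' ∈ K

open Classical in
/-- elements of degree `d` -/
noncomputable def cF (K : Set (Fin n → ℕ)) (d : ℕ) : Finset (Fin n → ℕ) :=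
  (fD n d).filter (· ∈ K)

theorem mem_cF {K : Set (Fin n → ℕ)} {d : ℕ} {m : Fin n → ℕ} :
    m ∈ cF K d ↔ dg m = d ∧ m ∈ K := by
  classical
  unfold cF
  rw [Finset.mem_filter, mem_fD]

/-- Hilbert function -/
noncomputable def cH (K : Set (Fin n → ℕ)) (d : ℕ) : ℕ := (cF K d).card

theorem cH_le_card (K : Set (Fin n → ℕ)) (d : ℕ) : cH K d ≤ (fD n d).card :=
  Finset.card_le_card fun _ hm => mem_fD.2 (mem_cF.1 hm).1

theorem cH_eq_card {K : Set (Fin n → ℕ)} {d : ℕ} {B : Finset (Fin n → ℕ)}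
    (h : ∀ m, m ∈ B ↔ dg m = d ∧ m ∈ K) : cH K d = B.card := by
  unfold cH
  congr 1
  ext m
  rw [mem_cF, h]

theorem cH_le {K K' : Set (Fin n → ℕ)} {d : ℕ} (h : ∀ m, dg m = d → m ∈ K → m ∈ K') :
    cH K d ≤ cH K' d := by
  unfold cH
  apply Finset.card_le_card
  intro m hm
  rw [mem_cF] at hm ⊢
  exact ⟨hm.1, h m hm.1 hm.2⟩

theorem cH_lt {K K' : Set (Fin n → ℕ)} {d : ℕ} (h : ∀ m, dg m = d → m ∈ K → m ∈ K')
    (m : Fin n → ℕ) (hd : dg m = d) (hm : m ∈ K') (hm' : m ∉ K) : cH K d < cH K' d := by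
  unfold cH
  apply Finset.card_lt_card
  rw [Finset.ssubset_iff_of_subset]
  · exact ⟨m, by rw [mem_cF]; exact ⟨hd, hm⟩,
      by rw [mem_cF]; exact fun h => hm' h.2⟩
  · intro m hm
    rw [mem_cF] at hm ⊢
    exact ⟨hm.1, h m hm.1 hm.2⟩

theorem PP.not_mem {a : Fin n → ℕ} {K : Set (Fin n → ℕ)} (hK : PP a K) {m : Fin n → ℕ}
    (h : m ∉ K) : ∀ i, m i < a i := by
  intro i
  by_contra h1
  exact h (hK m ⟨i, not_lt.1 h1⟩)

/-- Lex plus powers sets are nested. -/
theorem nested {a : Fin n → ℕ} {K K' : Set (Fin n → ℕ)} {d : ℕ} (hP : PP a K) (hP' : PP a K')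
    (hL : ∀ m m', m ∈ K → (∀ i, m i < a i) → dg m = d → dg m' = d → toLex m < toLex m' → m' ∈ K)
    (hL' : ∀ m m', m ∈ K' → (∀ i, m i < a i) → dg m = d → dg m' = d →
      toLex m < toLex m' → m' ∈ K') (hc : cH K d ≤ cH K' d) :
    ∀ m, dg m = d → m ∈ K → m ∈ K' := by
  intro m hd hm
  by_contra hne
  have h1 : ∀ m', dg m' = d → m' ∈ K' → m' ∈ K := by
    intro m' hd' hm'
    by_contra hne'
    rcases lt_trichotomy (toLex m) (toLex m') with h | h | h
    · exact hne' (hL m m' hm (hP'.not_mem hne) hd hd' h)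
    · have : m = m' := toLex_inj.1 h
      exact hne (this ▸ hm')
    · exact hne (hL' m' m hm' (hP.not_mem hne') hd' hd h)
  exact absurd (cH_lt h1 m hd hm hne) (not_lt.2 hc)

theorem IsL.at {a : Fin n → ℕ} {K : Set (Fin n → ℕ)} (h : IsL a K) (d : ℕ) :
    ∀ m m', m ∈ K → (∀ i, m i < a i) → dg m = d → dg m' = d → toLex m < toLex m' → m' ∈ K :=
  fun m m' h1 h2 h3 h4 h5 => h m m' h1 h2 (h3.trans h4.symm) h5

/-- Existence of lex plus powers sets of given size in degree `d`. -/
theorem exists_lpp_degree (a : Fin n → ℕ) (d h : ℕ)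
    (h1 : cH {m : Fin n → ℕ | ∃ i, a i ≤ m i} d ≤ h) (h2 : h ≤ (fD n d).card) :
    ∃ B : Finset (Fin n → ℕ), B ⊆ fD n d ∧ (∀ m ∈ fD n d, (∃ i, a i ≤ m i) → m ∈ B) ∧
      B.card = h ∧ ∀ m m', m ∈ B → (∀ i, m i < a i) → dg m' = d → toLex m < toLex m' → m' ∈ B := by
  classical
  induction h, h1 using Nat.le_induction with
  | base =>
    refine ⟨(fD n d).filter (fun m => ∃ i, a i ≤ m i), Finset.filter_subset _ _,
      fun m hm h => Finset.mem_filter.2 ⟨hm, h⟩, (cH_eq_card fun m => by
        rw [Finset.mem_filter, mem_fD]; rfl).symm, ?_⟩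
    intro m m' hm hlt
    rw [Finset.mem_filter] at hm
    obtain ⟨i, hi⟩ := hm.2
    exact absurd (hlt i) (not_lt.2 hi)
  | succ h _ ih =>
    obtain ⟨B, hB1, hB2, hB3, hB4⟩ := ih (by omega)
    have hne : (fD n d \ B).Nonempty := by
      rw [← Finset.card_pos, Finset.card_sdiff_of_subset hB1]
      omega
    obtain ⟨x, hx, hmax⟩ := Finset.exists_max_image (fD n d \ B) (fun m => toLex m) hne
    rw [Finset.mem_sdiff] at hx
    refine ⟨insert x B, Finset.insert_subset hx.1 hB1, fun m hm h => Finset.mem_insert_of_mem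
      (hB2 m hm h), by rw [Finset.card_insert_of_notMem hx.2, hB3], ?_⟩
    intro m m' hm hlt hd' hlex
    rw [Finset.mem_insert] at hm ⊢
    rcases hm with rfl | hm
    · by_contra hcon
      rw [not_or] at hcon
      have := hmax m' (Finset.mem_sdiff.2 ⟨mem_fD.2 hd', hcon.2⟩)
      exact absurd hlex (not_lt.2 this)
    · exact Or.inr (hB4 m m' hm hlt hd' hlex)

/-- The lex plus powers set with a given Hilbert function. -/
theorem exists_lpp (a : Fin n → ℕ) (h : ℕ → ℕ)
    (h1 : ∀ d, cH {m : Fin n → ℕ | ∃ i, a i ≤ m i} d ≤ h d) (h2 : ∀ d, h d ≤ (fD n d).card) :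
    ∃ L : Set (Fin n → ℕ), PP a L ∧ IsL a L ∧ ∀ d, cH L d = h d := by
  classical
  choose B hB1 hB2 hB3 hB4 using fun d => exists_lpp_degree a d (h d) (h1 d) (h2 d)
  refine ⟨{m | m ∈ B (dg m)}, ?_, ?_, ?_⟩
  · intro m hm
    exact hB2 (dg m) m (mem_fD.2 rfl) hm
  · intro m m' hm hlt hd hlex
    have hm' : m ∈ B (dg m) := hm
    change m' ∈ B (dg m')
    rw [hd] at hm'
    exact hB4 (dg m') m m' hm' hlt rfl hlex
  · intro d
    rw [← hB3 d]
    apply cH_eq_card
    intro m
    constructor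
    · intro h3
      have h4 := mem_fD.1 (hB1 d h3)
      refine ⟨h4, ?_⟩
      change m ∈ B (dg m)
      rw [h4]; exact h3
    · rintro ⟨h3, h4⟩
      have : m ∈ B (dg m) := h4
      rwa [h3] at this

theorem stepA {a u w : Fin n → ℕ} (hu : ∀ i, u i < a i) (hw : ∀ i, w i < a i)
    (hlt : toLex u < toLex w) (hd : dg u + 1 ≤ dg w) :
    ∃ t, (∀ i, inc u t i < a i) ∧ toLex (inc u t) ≤ toLex w := by
  obtain ⟨k, hk1, hk2⟩ := lex_lt_iff.1 hlt
  by_cases h : ∃ l, k < l ∧ u l + 1 < a l
  · obtain ⟨l, hl1, hl2⟩ := h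
    refine ⟨l, ?_, le_of_lt ?_⟩
    · intro i
      by_cases hi : i = l
      · subst hi; rw [inc_self]; exact hl2
      · rw [inc_ne _ hi]; exact hu i
    · refine ⟨k, fun j hj => ?_, ?_⟩
      · change inc u l j = w j
        rw [inc_ne _ (ne_of_lt (hj.trans hl1))]; exact hk1 j hj
      · change inc u l k < w k
        rw [inc_ne _ (ne_of_lt hl1)]; exact hk2
  · push Not at h
    refine ⟨k, ?_, ?_⟩
    · intro i
      by_cases hi : i = k
      · subst hi; rw [inc_self]; exact lt_of_le_of_lt hk2 (hw i)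
      · rw [inc_ne _ hi]; exact hu i
    · by_cases h2 : u k + 1 < w k
      · apply le_of_lt
        refine ⟨k, fun j hj => ?_, ?_⟩
        · change inc u k j = w j
          rw [inc_ne _ (ne_of_lt hj)]; exact hk1 j hj
        · change inc u k k < w k
          rw [inc_self]; exact h2
      · apply le_of_eq
        congr 1
        symm
        apply eq_of_le_of_dg_le
        · intro i
          rcases lt_trichotomy i k with hi | hi | hi
          · rw [inc_ne _ (ne_of_lt hi), hk1 i hi]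
          · subst hi; rw [inc_self]; omega
          · rw [inc_ne _ (ne_of_gt hi)]
            have := h i hi
            have := hw i
            omega
        · rw [dg_inc]; exact hd

theorem stepB {u w : Fin n → ℕ}
    (hlt : toLex w < toLex u) (hd : dg w + 1 ≤ dg u) :
    ∃ t, 0 < u t ∧ toLex w ≤ toLex (dec u t) := by
  obtain ⟨k, hk1, hk2⟩ := lex_lt_iff.1 hlt
  by_cases h : ∃ l, k < l ∧ 0 < u l
  · obtain ⟨l, hl1, hl2⟩ := h
    refine ⟨l, hl2, le_of_lt ?_⟩
    refine ⟨k, fun j hj => ?_, ?_⟩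
    · change w j = dec u l j
      rw [dec_ne _ (ne_of_lt (hj.trans hl1))]; exact hk1 j hj
    · change w k < dec u l k
      rw [dec_ne _ (ne_of_lt hl1)]; exact hk2
  · push Not at h
    refine ⟨k, by omega, ?_⟩
    by_cases h2 : w k < u k - 1
    · apply le_of_lt
      refine ⟨k, fun j hj => ?_, ?_⟩
      · change w j = dec u k j
        rw [dec_ne _ (ne_of_lt hj)]; exact hk1 j hj
      · change w k < dec u k k
        rw [dec_self]; exact h2
    · apply le_of_eq
      congr 1
      symm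
      have hdd := dg_dec u k (by omega)
      apply eq_of_le_of_dg_le
      · intro i
        rcases lt_trichotomy i k with hi | hi | hi
        · rw [dec_ne _ (ne_of_lt hi), hk1 i hi]
        · subst hi; rw [dec_self]; omega
        · rw [dec_ne _ (ne_of_gt hi)]
          have := h i hi
          omega
      · omega

/-- Claim A. -/
theorem claimA {a : Fin n → ℕ} {A : ℕ} {K : ℕ → Set (Fin n → ℕ)} (hL0 : IsL a (K 0))
    (hst : ∀ i u t, u ∈ K (i + 1) → i + 1 < A → inc u t ∈ K i) {w : Fin n → ℕ}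
    (hw : ∀ i, w i < a i) : ∀ i u, u ∈ K i → i < A → (∀ k, u k < a k) → dg u + i = dg w →
      toLex u ≤ toLex w → w ∈ K 0 := by
  intro i
  induction i with
  | zero =>
    intro u hu _ hua hd hle
    rcases lt_or_eq_of_le hle with h | h
    · exact hL0 u w hu hua hd h
    · have : u = w := toLex_inj.1 h
      exact this ▸ hu
  | succ i ih =>
    intro u hu hi hua hd hle
    have hne : toLex u ≠ toLex w := by
      intro h
      have : u = w := toLex_inj.1 h
      subst this
      omega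
    obtain ⟨t, ht1, ht2⟩ := stepA hua hw (lt_of_le_of_ne hle hne) (by omega)
    exact ih (inc u t) (hst i u t hu hi) (by omega) ht1 (by rw [dg_inc]; omega) ht2

/-- Claim B. -/
theorem claimB {a : Fin n → ℕ} {A : ℕ} {K : ℕ → Set (Fin n → ℕ)} (hL : IsL a (K (A - 1)))
    (hst : ∀ i u t, u ∈ K (i + 1) → i + 1 < A → inc u t ∈ K i) {w : Fin n → ℕ}
    (hwK : w ∈ K (A - 1)) (hw : ∀ i, w i < a i) :
    ∀ r u i, i + r = A - 1 → (∀ k, u k < a k) → dg u + i = dg w + (A - 1) →
      toLex w ≤ toLex u → u ∈ K i := by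
  intro r
  induction r with
  | zero =>
    intro u i hi hua hd hle
    have hi' : i = A - 1 := by omega
    subst hi'
    rcases lt_or_eq_of_le hle with h | h
    · exact hL w u hwK hw (by omega) h
    · have : w = u := toLex_inj.1 h
      exact this ▸ hwK
  | succ r ih =>
    intro u i hi hua hd hle
    have hne : toLex w ≠ toLex u := by
      intro h
      have : w = u := toLex_inj.1 h
      subst this
      omega
    obtain ⟨t, ht1, ht2⟩ := stepB (lt_of_le_of_ne hle hne) (by omega)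
    have hdd := dg_dec u t ht1
    have := ih (dec u t) (i + 1) (by omega) (fun k => lt_of_le_of_lt (dec_le u t k) (hua k))
      (by omega) ht2
    have := hst i _ t this (by omega)
    rwa [inc_dec u t ht1] at this

/-- multiples of a lex plus powers set -/
def mulSet (a : Fin n → ℕ) (K : Set (Fin n → ℕ)) : Set (Fin n → ℕ) :=
  {y | (∃ i, a i ≤ y i) ∨ ∃ t, 0 < y t ∧ dec y t ∈ K}

theorem mulSet_lpp {a : Fin n → ℕ} {K : Set (Fin n → ℕ)} (hL : IsL a K) :
    IsL a (mulSet a K) := by
  rintro y y' hy hya hd hlex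
  rcases hy with ⟨i, hi⟩ | ⟨t, ht, hy⟩
  · exact absurd (hya i) (not_lt.2 hi)
  obtain ⟨k, hk1, hk2⟩ := lex_lt_iff.1 hlex
  -- the last index in the support of y'
  have hne : (Finset.univ.filter (fun i => 0 < y' i)).Nonempty :=
    ⟨k, Finset.mem_filter.2 ⟨Finset.mem_univ _, by omega⟩⟩
  obtain ⟨s, hs, hmax⟩ := Finset.exists_max_image _ (fun i => i) hne
  rw [Finset.mem_filter] at hs
  have hsk : k ≤ s := hmax k (Finset.mem_filter.2 ⟨Finset.mem_univ _, by omega⟩)
  have hzero : ∀ l, s < l → y' l = 0 := by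
    intro l hl
    by_contra h
    exact absurd (hmax l (Finset.mem_filter.2 ⟨Finset.mem_univ _, Nat.pos_of_ne_zero h⟩))
      (not_le.2 hl)
  refine Or.inr ⟨s, hs.2, ?_⟩
  have hd1 := dg_dec y t ht
  have hd2 := dg_dec y' s hs.2
  have hma : ∀ i, dec y t i < a i := fun i => lt_of_le_of_lt (dec_le y t i) (hya i)
  have hdd : dg (dec y t) = dg (dec y' s) := by omega
  -- comparison
  rcases lt_trichotomy (toLex (dec y t)) (toLex (dec y' s)) with h | h | h
  · exact hL _ _ hy hma hdd h
  · have : dec y t = dec y' s := toLex_inj.1 h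
    exact this ▸ hy
  · exfalso
    obtain ⟨i, hi1, hi2⟩ := lex_lt_iff.1 h
    rcases lt_or_eq_of_le hsk with hks | hks
    · -- s > k
      rcases le_or_gt i k with hik | hik
      · have h1 : dec y' s i = y' i := dec_ne _ (ne_of_lt (lt_of_le_of_lt hik hks))
        have h2 := dec_le y t i
        rcases lt_or_eq_of_le hik with hik | hik
        · rw [h1, ← hk1 i hik] at hi2; omega
        · subst hik; omega
      · have h1 := hi1 k hik
        rw [dec_ne _ (ne_of_lt hks)] at h1
        have h2 := dec_le y t k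
        omega
    · subst hks
      rcases le_or_gt i k with hik | hik
      · have h2 := dec_le y t i
        rcases lt_or_eq_of_le hik with hik | hik
        · rw [dec_ne _ (ne_of_lt hik), ← hk1 i hik] at hi2; omega
        · subst hik
          rw [dec_self] at hi2
          omega
      · have h3 : dec y' k = dec y t := by
          apply eq_of_le_of_dg_le
          · intro l
            rcases le_or_gt l k with hl | hl
            · exact (hi1 l (lt_of_le_of_lt hl hik)).le
            · rw [dec_ne _ (ne_of_gt hl), hzero l hl]; omega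
          · omega
        rw [h3] at hi2
        exact lt_irrefl _ hi2

end Crest.Agent.R181.Mon
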