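import Crest.Agent.R181.MonSemi

/-!
# Two variable distraction with roots of unity
-/

namespace Crest.Agent.R181.Mon

open MvPolynomial Module Finset

variable {n : ℕ}

/-- multiplication by `ζ ^ (exponent of the last variable)`. -/
noncomputable def tau (ζ : ℂ) :
    MvPolynomial (Fin (n + 1)) ℂ →ₗ[ℂ] MvPolynomial (Fin (n + 1)) ℂ :=
  (basisMonomials (Fin (n + 1)) ℂ).constr ℂ
    (fun m => monomial m (ζ ^ (m (Fin.last n))))

theorem tau_monomial (ζ : ℂ) (m : Fin (n + 1) →₀ ℕ) :
    tau ζ (monomial m (1 : ℂ)) = monomial m (ζ ^ (m (Fin.last n))) := by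
  have := (basisMonomials (Fin (n + 1)) ℂ).constr_basis ℂ
    (fun m => (monomial m (ζ ^ (m (Fin.last n))) : MvPolynomial (Fin (n + 1)) ℂ)) m
  rwa [coe_basisMonomials] at this

/-- `coeff m` as a linear map. -/
noncomputable def coeffL (m : Fin n →₀ ℕ) : MvPolynomial (Fin n) ℂ →ₗ[ℂ] ℂ where
  toFun f := coeff m f
  map_add' f g := coeff_add _ _ _
  map_smul' a f := by rw [coeff_smul, RingHom.id_apply]

theorem linearMap_ext_monomial {W : Type*} [AddCommGroup W] [Module ℂ W]
    {f g : MvPolynomial (Fin n) ℂ →ₗ[ℂ] W} (h : ∀ m, f (monomial m 1) = g (monomial m 1)) :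
    f = g :=
  (basisMonomials (Fin n) ℂ).ext (fun m => by rw [coe_basisMonomials]; exact h m)

theorem coeff_tau (ζ : ℂ) (m : Fin (n + 1) →₀ ℕ) (f : MvPolynomial (Fin (n + 1)) ℂ) :
    coeff m (tau ζ f) = ζ ^ (m (Fin.last n)) * coeff m f := by
  have : coeffL m ∘ₗ tau ζ = (ζ ^ (m (Fin.last n))) • coeffL m := by
    apply linearMap_ext_monomial
    intro m'
    rw [LinearMap.comp_apply, tau_monomial, LinearMap.smul_apply]
    change coeff m (monomial m' _) = _ • coeff m (monomial m' 1)
    rw [coeff_monomial, coeff_monomial]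
    split_ifs with h
    · rw [h, smul_eq_mul, mul_one]
    · rw [smul_zero]
  exact LinearMap.congr_fun this f

theorem tau_X_mul (ζ : ℂ) {k : Fin (n + 1)} (hk : k ≠ Fin.last n)
    (f : MvPolynomial (Fin (n + 1)) ℂ) : tau ζ (X k * f) = X k * tau ζ f := by
  ext m
  rw [coeff_tau, coeff_X_mul', coeff_X_mul']
  split_ifs with h
  · rw [coeff_tau, Finsupp.tsub_apply, Finsupp.single_eq_of_ne (Ne.symm hk), Nat.sub_zero]
  · rw [mul_zero]

/-- The distraction. -/
noncomputable def phi (ζ : ℂ) (j : Fin (n + 1)) :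
    MvPolynomial (Fin (n + 1)) ℂ →ₗ[ℂ] MvPolynomial (Fin (n + 1)) ℂ :=
  (basisMonomials (Fin (n + 1)) ℂ).constr ℂ
    (fun m => monomial (m.erase (Fin.last n)) 1 *
      ∏ k ∈ Finset.range (m (Fin.last n)), (X (Fin.last n) - C (ζ ^ k) * X j))

theorem phi_monomial (ζ : ℂ) (j : Fin (n + 1)) (m : Fin (n + 1) →₀ ℕ) :
    phi ζ j (monomial m (1 : ℂ)) = monomial (m.erase (Fin.last n)) 1 *
      ∏ k ∈ Finset.range (m (Fin.last n)), (X (Fin.last n) - C (ζ ^ k) * X j) := by
  have := (basisMonomials (Fin (n + 1)) ℂ).constr_basis ℂ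
    (fun m => (monomial (m.erase (Fin.last n)) 1 *
      ∏ k ∈ Finset.range (m (Fin.last n)), (X (Fin.last n) - C (ζ ^ k) * X j) :
        MvPolynomial (Fin (n + 1)) ℂ)) m
  rwa [coe_basisMonomials] at this

theorem phi_mono_succ (ζ : ℂ) (j : Fin (n + 1)) (m : Fin (n + 1) →₀ ℕ) :
    phi ζ j (monomial (m + Finsupp.single (Fin.last n) 1) (1 : ℂ)) =
      (X (Fin.last n) - C (ζ ^ (m (Fin.last n))) * X j) * phi ζ j (monomial m 1) := by
  rw [phi_monomial, phi_monomial]
  have h1 : (m + Finsupp.single (Fin.last n) 1).erase (Fin.last n) = m.erase (Fin.last n) := by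
    ext i
    by_cases hi : i = Fin.last n
    · subst hi; simp
    · rw [Finsupp.erase_ne hi, Finsupp.erase_ne hi, Finsupp.add_apply,
        Finsupp.single_eq_of_ne hi, add_zero]
  have h2 : (m + Finsupp.single (Fin.last n) 1 : Fin (n + 1) →₀ ℕ) (Fin.last n) =
      m (Fin.last n) + 1 := by simp
  rw [h1, h2, Finset.prod_range_succ]
  ring

theorem phi_mono_zero (ζ : ℂ) (j : Fin (n + 1)) (m : Fin (n + 1) →₀ ℕ)
    (h : m (Fin.last n) = 0) : phi ζ j (monomial m (1 : ℂ)) = monomial m 1 := by
  have h1 : m.erase (Fin.last n) = m := by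
    ext i
    by_cases hi : i = Fin.last n
    · subst hi; simp [h]
    · rw [Finsupp.erase_ne hi]
  rw [phi_monomial, h, Finset.range_zero, Finset.prod_empty, mul_one, h1]

theorem monomial_add_single' (m : Fin n →₀ ℕ) (k : Fin n) :
    (monomial (m + Finsupp.single k 1) (1 : ℂ)) = X k * monomial m 1 := by
  rw [monomial_add_single, pow_one, mul_comm]

theorem phi_X_mul (ζ : ℂ) (j : Fin (n + 1)) {k : Fin (n + 1)} (hk : k ≠ Fin.last n)
    (f : MvPolynomial (Fin (n + 1)) ℂ) : phi ζ j (X k * f) = X k * phi ζ j f := by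
  have : phi ζ j ∘ₗ LinearMap.mulLeft ℂ (X k) = LinearMap.mulLeft ℂ (X k) ∘ₗ phi ζ j := by
    apply linearMap_ext_monomial
    intro m
    rw [LinearMap.comp_apply, LinearMap.comp_apply, LinearMap.mulLeft_apply,
      LinearMap.mulLeft_apply, ← monomial_add_single', phi_monomial, phi_monomial]
    have h1 : (m + Finsupp.single k 1).erase (Fin.last n) =
        m.erase (Fin.last n) + Finsupp.single k 1 := by
      ext i
      by_cases hi : i = Fin.last n
      · subst hi
        rw [Finsupp.erase_same, Finsupp.add_apply, Finsupp.erase_same,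
          Finsupp.single_eq_of_ne (Ne.symm hk), add_zero]
      · rw [Finsupp.erase_ne hi, Finsupp.add_apply, Finsupp.add_apply, Finsupp.erase_ne hi]
    have h2 : (m + Finsupp.single k 1 : Fin (n + 1) →₀ ℕ) (Fin.last n) = m (Fin.last n) := by
      rw [Finsupp.add_apply, Finsupp.single_eq_of_ne (Ne.symm hk), add_zero]
    rw [h1, h2, monomial_add_single', mul_assoc]
  exact LinearMap.congr_fun this f

theorem phi_Xlast_mul (ζ : ℂ) (j : Fin (n + 1))
    (f : MvPolynomial (Fin (n + 1)) ℂ) :
    phi ζ j (X (Fin.last n) * f) = X (Fin.last n) * phi ζ j f - X j * phi ζ j (tau ζ f) := by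
  have : phi ζ j ∘ₗ LinearMap.mulLeft ℂ (X (Fin.last n)) =
      LinearMap.mulLeft ℂ (X (Fin.last n)) ∘ₗ phi ζ j -
        LinearMap.mulLeft ℂ (X j) ∘ₗ phi ζ j ∘ₗ tau ζ := by
    apply linearMap_ext_monomial
    intro m
    rw [LinearMap.sub_apply]
    simp only [LinearMap.comp_apply, LinearMap.mulLeft_apply]
    rw [← monomial_add_single', phi_mono_succ, tau_monomial]
    have : (monomial m (ζ ^ (m (Fin.last n))) : MvPolynomial (Fin (n + 1)) ℂ) =
        (ζ ^ (m (Fin.last n))) • monomial m 1 := by
      rw [smul_monomial, smul_eq_mul, mul_one]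
    rw [this, map_smul, smul_eq_C_mul]
    ring
  exact LinearMap.congr_fun this f

/-- Unitriangularity of the distraction. -/
theorem phi_tri (ζ : ℂ) {j : Fin (n + 1)} (hj : j ≠ Fin.last n) (β : ℕ) :
    ∀ m : Fin (n + 1) →₀ ℕ, m (Fin.last n) = β → ∀ m' : Fin (n + 1) →₀ ℕ,
      (coeff m' (phi ζ j (monomial m 1)) ≠ 0 → m' (Fin.last n) ≤ β ∧ m'.degree = m.degree) ∧
      (m' (Fin.last n) = β → coeff m' (phi ζ j (monomial m 1)) = if m' = m then 1 else 0) ∧
      (m' (Fin.last n) + 1 = β → coeff m' (phi ζ j (monomial m 1)) =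
        if m' + Finsupp.single (Fin.last n) 1 = m + Finsupp.single j 1 then
          - ∑ k ∈ Finset.range β, ζ ^ k else 0) := by
  induction β with
  | zero =>
    intro m hm m'
    rw [phi_mono_zero ζ j m hm, coeff_monomial]
    refine ⟨?_, ?_, ?_⟩
    · intro h
      split_ifs at h with h1
      · rw [← h1]; exact ⟨hm.le, rfl⟩
      · exact absurd rfl h
    · intro _
      by_cases h : m' = m
      · rw [if_pos h, if_pos h.symm]
      · rw [if_neg h, if_neg (fun h' => h h'.symm)]
    · intro h; omega
  | succ β ih =>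
    intro m hm m'
    have hle : Finsupp.single (Fin.last n) 1 ≤ m := by
      rw [Finsupp.single_le_iff]; omega
    obtain ⟨m0, rfl⟩ : ∃ m0, m = m0 + Finsupp.single (Fin.last n) 1 :=
      ⟨m - Finsupp.single (Fin.last n) 1, (tsub_add_cancel_of_le hle).symm⟩
    have hm0 : m0 (Fin.last n) = β := by
      rw [Finsupp.add_apply, Finsupp.single_eq_same] at hm; omega
    have hc : coeff m' (phi ζ j (monomial (m0 + Finsupp.single (Fin.last n) 1) 1)) =
        (if Fin.last n ∈ m'.support then
          coeff (m' - Finsupp.single (Fin.last n) 1) (phi ζ j (monomial m0 1)) else 0) -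
        ζ ^ β * (if j ∈ m'.support then
          coeff (m' - Finsupp.single j 1) (phi ζ j (monomial m0 1)) else 0) := by
      rw [phi_mono_succ, sub_mul, coeff_sub, coeff_X_mul', mul_assoc, coeff_C_mul, coeff_X_mul', hm0]
    have hsub : ∀ k : Fin (n + 1), k ∈ m'.support →
        m' = (m' - Finsupp.single k 1) + Finsupp.single k 1 := by
      intro k hk
      rw [tsub_add_cancel_of_le]
      rw [Finsupp.single_le_iff]
      have := Finsupp.mem_support_iff.1 hk
      omega
    have hl : (m' - Finsupp.single j 1 : Fin (n + 1) →₀ ℕ) (Fin.last n) = m' (Fin.last n) := by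
      rw [Finsupp.tsub_apply, Finsupp.single_eq_of_ne (Ne.symm hj), Nat.sub_zero]
    have hl2 : (m' - Finsupp.single (Fin.last n) 1 : Fin (n + 1) →₀ ℕ) (Fin.last n) =
        m' (Fin.last n) - 1 := by
      rw [Finsupp.tsub_apply, Finsupp.single_eq_same]
    refine ⟨?_, ?_, ?_⟩
    · intro h
      rw [hc] at h
      by_cases h1 : (if Fin.last n ∈ m'.support then
          coeff (m' - Finsupp.single (Fin.last n) 1) (phi ζ j (monomial m0 1)) else 0) ≠ 0
      · split_ifs at h1 with h2
        · obtain ⟨h3, h4⟩ := (ih m0 hm0 _).1 h1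
          rw [hl2] at h3
          constructor
          · omega
          · have h5 := hsub _ h2
            rw [h5, map_add, map_add, h4]
        · exact absurd rfl h1
      · have h1' : (if Fin.last n ∈ m'.support then
          coeff (m' - Finsupp.single (Fin.last n) 1) (phi ζ j (monomial m0 1)) else 0) = 0 := by
          by_contra h0; exact h1 h0
        rw [h1', zero_sub] at h
        have h6 := right_ne_zero_of_mul (neg_ne_zero.1 h)
        split_ifs at h6 with h2
        · obtain ⟨h3, h4⟩ := (ih m0 hm0 _).1 h6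
          rw [hl] at h3
          constructor
          · omega
          · have h5 := hsub _ h2
            rw [h5, map_add, map_add, h4, Finsupp.degree_single, Finsupp.degree_single]
        · exact absurd rfl h6
    · intro h
      rw [hc]
      have hlast : Fin.last n ∈ m'.support := by rw [Finsupp.mem_support_iff]; omega
      have h2 : (if j ∈ m'.support then
          coeff (m' - Finsupp.single j 1) (phi ζ j (monomial m0 1)) else 0) = 0 := by
        split_ifs
        · by_contra hne
          have := ((ih m0 hm0 _).1 hne).1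
          rw [hl] at this
          omega
        · rfl
      rw [h2, mul_zero, sub_zero, if_pos hlast, (ih m0 hm0 _).2.1 (by rw [hl2]; omega)]
      by_cases h3 : m' = m0 + Finsupp.single (Fin.last n) 1
      · rw [if_pos h3, if_pos]
        rw [h3]; exact add_tsub_cancel_right _ _
      · rw [if_neg h3, if_neg]
        intro h4
        apply h3
        rw [← h4]
        exact hsub _ hlast
    · intro h
      rw [hc]
      have hb : m' (Fin.last n) = β := by omega
      have h2 : (if j ∈ m'.support then
          coeff (m' - Finsupp.single j 1) (phi ζ j (monomial m0 1)) else 0) =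
          if m' = m0 + Finsupp.single j 1 then 1 else 0 := by
        by_cases hjs : j ∈ m'.support
        · rw [if_pos hjs, (ih m0 hm0 _).2.1 (by rw [hl]; exact hb)]
          by_cases h3 : m' = m0 + Finsupp.single j 1
          · rw [if_pos h3, if_pos]
            rw [h3]; exact add_tsub_cancel_right _ _
          · rw [if_neg h3, if_neg]
            intro h4
            apply h3
            rw [← h4]
            exact hsub _ hjs
        · rw [if_neg hjs, if_neg]
          intro h3
          apply hjs
          rw [h3, Finsupp.mem_support_iff, Finsupp.add_apply, Finsupp.single_eq_same]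
          omega
      have h1 : (if Fin.last n ∈ m'.support then
          coeff (m' - Finsupp.single (Fin.last n) 1) (phi ζ j (monomial m0 1)) else 0) =
          if m' = m0 + Finsupp.single j 1 then - ∑ k ∈ Finset.range β, ζ ^ k else 0 := by
        by_cases hls : Fin.last n ∈ m'.support
        · have hpos : 0 < m' (Fin.last n) := Nat.pos_of_ne_zero (Finsupp.mem_support_iff.1 hls)
          rw [if_pos hls, (ih m0 hm0 _).2.2 (by rw [hl2]; omega)]
          rw [← hsub _ hls]
        · rw [if_neg hls]
          have h0 : m' (Fin.last n) = 0 := by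
            by_contra h0
            exact hls (Finsupp.mem_support_iff.2 h0)
          have : β = 0 := by omega
          subst this
          simp
      rw [h1, h2]
      have hiff : (m' + Finsupp.single (Fin.last n) 1 =
          m0 + Finsupp.single (Fin.last n) 1 + Finsupp.single j 1) ↔
          m' = m0 + Finsupp.single j 1 := by
        rw [add_right_comm m0]
        exact add_left_inj _
      by_cases h3 : m' = m0 + Finsupp.single j 1
      · rw [if_pos h3, if_pos h3, if_pos (hiff.2 h3), Finset.sum_range_succ]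
        ring
      · rw [if_neg h3, if_neg h3, if_neg (fun h4 => h3 (hiff.1 h4))]
        ring

theorem phi_coeff_sum (ζ : ℂ) (j : Fin (n + 1)) (f : MvPolynomial (Fin (n + 1)) ℂ)
    (m' : Fin (n + 1) →₀ ℕ) :
    coeff m' (phi ζ j f) = ∑ m ∈ f.support, coeff m f * coeff m' (phi ζ j (monomial m 1)) := by
  conv_lhs => rw [f.as_sum]
  rw [map_sum, coeff_sum]
  refine Finset.sum_congr rfl fun m _ => ?_
  have : (monomial m (coeff m f) : MvPolynomial (Fin (n + 1)) ℂ) = coeff m f • monomial m 1 := by
    rw [smul_monomial, smul_eq_mul, mul_one]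
  rw [this, map_smul, coeff_smul, smul_eq_mul]

/-- The top part of the distraction. -/
theorem phi_coeff_top (ζ : ℂ) {j : Fin (n + 1)} (hj : j ≠ Fin.last n)
    (f : MvPolynomial (Fin (n + 1)) ℂ) (m' : Fin (n + 1) →₀ ℕ)
    (h : ∀ m, coeff m f ≠ 0 → m (Fin.last n) ≤ m' (Fin.last n)) :
    coeff m' (phi ζ j f) = coeff m' f := by
  rw [phi_coeff_sum]
  have h1 : ∀ m ∈ f.support, coeff m f * coeff m' (phi ζ j (monomial m 1)) =
      if m' = m then coeff m' f else 0 := by
    intro m hm
    have h2 := h m (mem_support_iff.1 hm)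
    rcases lt_or_eq_of_le h2 with h3 | h3
    · have h4 : coeff m' (phi ζ j (monomial m 1)) = 0 := by
        by_contra hne
        have := ((phi_tri ζ hj _ m rfl m').1 hne).1
        omega
      rw [h4, mul_zero, if_neg]
      intro h5
      rw [h5] at h3
      exact lt_irrefl _ h3
    · rw [(phi_tri ζ hj _ m rfl m').2.1 h3.symm]
      by_cases h5 : m' = m
      · rw [if_pos h5, if_pos h5, mul_one, h5]
      · rw [if_neg h5, if_neg h5, mul_zero]
  rw [Finset.sum_congr rfl h1, Finset.sum_ite_eq]
  split_ifs with h2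
  · rfl
  · symm
    by_contra hne
    exact h2 (mem_support_iff.2 hne)

theorem phi_coeff_ne_zero (ζ : ℂ) {j : Fin (n + 1)} (hj : j ≠ Fin.last n)
    (f : MvPolynomial (Fin (n + 1)) ℂ) (m' : Fin (n + 1) →₀ ℕ) (h : coeff m' (phi ζ j f) ≠ 0) :
    ∃ m, coeff m f ≠ 0 ∧ m' (Fin.last n) ≤ m (Fin.last n) ∧ m'.degree = m.degree := by
  rw [phi_coeff_sum] at h
  obtain ⟨m, hm, h2⟩ := Finset.exists_ne_zero_of_sum_ne_zero h
  have h3 := (phi_tri ζ hj _ m rfl m').1 (right_ne_zero_of_mul h2)
  exact ⟨m, mem_support_iff.1 hm, h3.1, h3.2⟩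

theorem phi_injective (ζ : ℂ) {j : Fin (n + 1)} (hj : j ≠ Fin.last n) :
    Function.Injective (phi ζ j) := by
  rw [injective_iff_map_eq_zero]
  intro f hf
  by_contra hne
  have hne' : f.support.Nonempty := by
    rwa [Finset.nonempty_iff_ne_empty, ne_eq, MvPolynomial.support_eq_empty]
  obtain ⟨m, hm, hmax⟩ := Finset.exists_max_image f.support (fun m => m (Fin.last n)) hne'
  have := phi_coeff_top ζ hj f m (fun m' hm' => hmax m' (mem_support_iff.2 hm'))
  rw [hf, coeff_zero] at this
  exact (mem_support_iff.1 hm) this.symm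

end Crest.Agent.R181.Mon
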