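import Crest.Agent.R181.MonDist

/-!
# The Koszul complex of the distraction
-/

namespace Crest.Agent.R181.Mon

open MvPolynomial Module Finset

variable {n : ℕ}

/-- sign counting the bigger elements -/
noncomputable def ep (U : Finset (Fin n)) (j : Fin n) : ℂ := (-1) ^ (U.filter (j < ·)).card

theorem card_lt_add_card_gt (U : Finset (Fin n)) (j : Fin n) (h : j ∉ U) :
    (U.filter (· < j)).card + (U.filter (j < ·)).card = U.card := by
  have h1 := Finset.card_filter_add_card_filter_not (s := U) (· < j)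
  have h2 : U.filter (fun a => ¬ a < j) = U.filter (j < ·) := by
    apply Finset.filter_congr
    intro x hx
    rw [not_lt]
    constructor
    · intro h3
      exact lt_of_le_of_ne h3 (fun h4 => h (h4 ▸ hx))
    · exact le_of_lt
  rw [h2] at h1
  exact h1

theorem sg_last (U : Finset (Fin (n + 1))) (h : Fin.last n ∉ U) :
    sg U (Fin.last n) = (-1) ^ U.card := by
  unfold sg
  congr 2
  apply Finset.filter_true_of_mem
  intro x hx
  exact lt_of_le_of_ne (Fin.le_last x) (fun h4 => h (h4 ▸ hx))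

theorem sign1 (U : Finset (Fin (n + 1))) (j : Fin (n + 1)) (hj : j ∉ U) (hl : Fin.last n ∉ U) :
    sg U j * ep (insert j U) j = sg U (Fin.last n) := by
  rw [sg_last U hl]
  unfold sg ep
  rw [Finset.filter_insert, if_neg (lt_irrefl j), ← pow_add, card_lt_add_card_gt U j hj]

theorem sign2 (U : Finset (Fin (n + 1))) (j : Fin (n + 1)) (hj : j ∈ U) (hl : Fin.last n ∉ U) :
    ep U j * sg (insert (Fin.last n) (U.erase j)) j = - sg U (Fin.last n) := by
  rw [sg_last U hl]
  unfold sg ep
  rw [Finset.filter_insert, if_neg (not_lt.2 (Fin.le_last j)), ← pow_add]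
  have h1 := card_lt_add_card_gt (U.erase j) j (Finset.notMem_erase j U)
  have h2 : (U.erase j).filter (j < ·) = U.filter (j < ·) := by
    rw [Finset.filter_erase, Finset.erase_eq_of_notMem]
    simp
  have h3 := Finset.card_erase_add_one hj
  rw [h2] at h1
  have h4 : U.card = (U.filter (j < ·)).card + ((U.erase j).filter (· < j)).card + 1 := by omega
  rw [h4, pow_succ]
  ring

theorem sign3 (U : Finset (Fin (n + 1))) (j t : Fin (n + 1)) (hj : j ∈ U)
    (ht : t ∉ U) :
    sg U t * ep (insert t U) j = ep U j * sg (insert (Fin.last n) (U.erase j)) t := by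
  have htj : t ≠ j := fun h => ht (h ▸ hj)
  unfold sg ep
  rw [Finset.filter_insert, Finset.filter_insert, if_neg (not_lt.2 (Fin.le_last t)),
    Finset.filter_erase]
  rcases lt_or_gt_of_ne htj with h | h
  · rw [if_neg (not_lt.2 h.le), Finset.erase_eq_of_notMem, mul_comm]
    simp [h.le]
  · rw [if_pos h, Finset.card_insert_of_notMem (by simp [ht])]
    have h1 : j ∈ U.filter (· < t) := by simp [hj, h]
    rw [← Finset.card_erase_add_one h1, pow_succ, pow_succ]
    ring

/-- The nilpotent part of the change of the Koszul basis. -/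
noncomputable def Wop (ζ : ℂ) (j : Fin (n + 1)) : Ch (n + 1) →ₗ[ℂ] Ch (n + 1) where
  toFun f B := if j ∈ B ∧ Fin.last n ∉ B then
    ep B j • tau ζ (f (insert (Fin.last n) (B.erase j))) else 0
  map_add' f g := by
    funext B
    simp only [Pi.add_apply, map_add, smul_add]
    split_ifs <;> simp
  map_smul' a f := by
    funext B
    simp only [Pi.smul_apply, map_smul, RingHom.id_apply]
    split_ifs
    · exact smul_comm _ _ _
    · simp

theorem Wop_apply (ζ : ℂ) (j : Fin (n + 1)) (f : Ch (n + 1)) (B : Finset (Fin (n + 1))) :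
    Wop ζ j f B = if j ∈ B ∧ Fin.last n ∉ B then
      ep B j • tau ζ (f (insert (Fin.last n) (B.erase j))) else 0 := rfl

/-- The correction of the Koszul differential. -/
noncomputable def Eop (ζ : ℂ) (j : Fin (n + 1)) : Ch (n + 1) →ₗ[ℂ] Ch (n + 1) where
  toFun f U := if Fin.last n ∉ U then
    sg U (Fin.last n) • (X j * tau ζ (f (insert (Fin.last n) U))) else 0
  map_add' f g := by
    funext B
    simp only [Pi.add_apply, map_add, mul_add, smul_add]
    split_ifs <;> simp
  map_smul' a f := by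
    funext B
    simp only [Pi.smul_apply, map_smul, RingHom.id_apply, mul_smul_comm]
    split_ifs
    · simp
    · exact smul_comm _ _ _

theorem Eop_apply (ζ : ℂ) (j : Fin (n + 1)) (f : Ch (n + 1)) (U : Finset (Fin (n + 1))) :
    Eop ζ j f U = if Fin.last n ∉ U then
      sg U (Fin.last n) • (X j * tau ζ (f (insert (Fin.last n) U))) else 0 := rfl

theorem Eop_Wop (ζ : ℂ) (j : Fin (n + 1)) (f : Ch (n + 1)) : Eop ζ j (Wop ζ j f) = 0 := by
  funext U
  rw [Eop_apply, Wop_apply]
  simp

theorem Wop_Wop (ζ : ℂ) (j : Fin (n + 1)) (f : Ch (n + 1)) : Wop ζ j (Wop ζ j f) = 0 := by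
  funext U
  rw [Wop_apply, Wop_apply]
  simp

theorem KD_Wop (ζ : ℂ) {j : Fin (n + 1)} (hj : j ≠ Fin.last n) (f : Ch (n + 1)) :
    KD (Wop ζ j f) = Eop ζ j f + Wop ζ j (KD f) := by
  funext U
  rw [Pi.add_apply, KD_apply]
  by_cases hl : Fin.last n ∈ U
  · rw [Eop_apply, if_neg (by simpa using hl), Wop_apply, if_neg (by simp [hl]), add_zero]
    apply Finset.sum_eq_zero
    intro t _
    rw [Wop_apply, if_neg (by simp [hl]), mul_zero, smul_zero]
  · by_cases hjU : j ∈ U
    · -- main case
      have hlU : Fin.last n ∈ Uᶜ := by simpa using hl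
      have h0 : sg U (Fin.last n) • (X (Fin.last n) * Wop ζ j f (insert (Fin.last n) U)) = 0 := by
        rw [Wop_apply, if_neg (by simp), mul_zero, smul_zero]
      have h00 : ∑ t ∈ Uᶜ, sg U t • (X t * Wop ζ j f (insert t U)) =
          ∑ t ∈ Uᶜ.erase (Fin.last n), sg U t • (X t * Wop ζ j f (insert t U)) :=
        (Finset.sum_erase (f := fun t => sg U t • (X t * Wop ζ j f (insert t U))) Uᶜ h0).symm
      rw [h00, Eop_apply, if_pos hl, Wop_apply, if_pos ⟨hjU, hl⟩, KD_apply]
      have hset : (insert (Fin.last n) (U.erase j))ᶜ = insert j (Uᶜ.erase (Fin.last n)) := by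
        ext x
        simp only [Finset.mem_compl, Finset.mem_insert, Finset.mem_erase, not_or, not_and, ne_eq]
        constructor
        · rintro ⟨h1, h2⟩
          by_cases hx : x = j
          · exact Or.inl hx
          · exact Or.inr ⟨h1, h2 hx⟩
        · rintro (rfl | ⟨h1, h2⟩)
          · exact ⟨hj, fun h => absurd rfl h⟩
          · exact ⟨h1, fun _ => h2⟩
      have hjn : j ∉ Uᶜ.erase (Fin.last n) := by simp [hjU]
      rw [hset, Finset.sum_insert hjn, map_add, smul_add]
      have h1 : ep U j • tau ζ (sg (insert (Fin.last n) (U.erase j)) j •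
          (X j * f (insert j (insert (Fin.last n) (U.erase j))))) =
          - (sg U (Fin.last n) • (X j * tau ζ (f (insert (Fin.last n) U)))) := by
        rw [map_smul, smul_smul, sign2 U j hjU hl, tau_X_mul ζ hj, neg_smul, Finset.insert_comm,
          Finset.insert_erase hjU]
      rw [h1, ← add_assoc, add_neg_cancel, zero_add, map_sum, Finset.smul_sum]
      refine Finset.sum_congr rfl fun t ht => ?_
      rw [Finset.mem_erase, Finset.mem_compl] at ht
      obtain ⟨htl, htU⟩ := ht
      have htj : t ≠ j := fun h => htU (h ▸ hjU)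
      rw [Wop_apply, if_pos ⟨Finset.mem_insert_of_mem hjU, by
        simp only [Finset.mem_insert, not_or]; exact ⟨fun h => htl h.symm, hl⟩⟩,
        map_smul, tau_X_mul ζ htl, smul_smul, mul_smul_comm, smul_smul, sign3 U j t hjU htU,
        Finset.erase_insert_of_ne htj, Finset.insert_comm]
    · rw [Eop_apply, if_pos hl, Wop_apply, if_neg (by simp [hjU]), add_zero]
      rw [Finset.sum_eq_single j]
      · rw [Wop_apply, if_pos ⟨Finset.mem_insert_self _ _, by
          simp only [Finset.mem_insert, not_or]; exact ⟨fun h => hj h.symm, hl⟩⟩,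
          Finset.erase_insert hjU, mul_smul_comm, smul_smul, sign1 U j hjU hl]
      · intro t ht htj
        rw [Wop_apply, if_neg, mul_zero, smul_zero]
        rintro ⟨h1, -⟩
        rw [Finset.mem_insert] at h1
        rcases h1 with h1 | h1
        · exact htj h1.symm
        · exact hjU h1
      · intro h
        exact absurd (by simpa using hjU) h

/-- Distraction of chains. -/
noncomputable def phiC (ζ : ℂ) (j : Fin (n + 1)) : Ch (n + 1) →ₗ[ℂ] Ch (n + 1) :=
  LinearMap.pi fun T => phi ζ j ∘ₗ LinearMap.proj T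

theorem phiC_apply (ζ : ℂ) (j : Fin (n + 1)) (f : Ch (n + 1)) (T : Finset (Fin (n + 1))) :
    phiC ζ j f T = phi ζ j (f T) := rfl

theorem KD_phiC (ζ : ℂ) {j : Fin (n + 1)} (hj : j ≠ Fin.last n) (f : Ch (n + 1)) :
    KD (phiC ζ j f) = phiC ζ j (KD f + Eop ζ j f) := by
  funext U
  rw [phiC_apply, Pi.add_apply, map_add, KD_apply, KD_apply, map_sum, Eop_apply]
  by_cases hl : Fin.last n ∈ U
  · rw [if_neg (by simpa using hl), map_zero, add_zero]
    refine Finset.sum_congr rfl fun t ht => ?_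
    have htl : t ≠ Fin.last n := by
      rintro rfl
      rw [Finset.mem_compl] at ht
      exact ht hl
    rw [map_smul, phiC_apply, phi_X_mul ζ j htl]
  · rw [if_pos hl]
    have hlU : Fin.last n ∈ Uᶜ := by simpa using hl
    rw [← Finset.add_sum_erase _ _ hlU, ← Finset.add_sum_erase _ _ hlU]
    have h1 : ∑ t ∈ Uᶜ.erase (Fin.last n), sg U t • (X t * phiC ζ j f (insert t U)) =
        ∑ t ∈ Uᶜ.erase (Fin.last n), phi ζ j (sg U t • (X t * f (insert t U))) := by
      refine Finset.sum_congr rfl fun t ht => ?_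
      rw [map_smul, phiC_apply, phi_X_mul ζ j (Finset.ne_of_mem_erase ht)]
    rw [h1, phiC_apply, map_smul, phi_Xlast_mul, map_smul, phi_X_mul ζ j hj, smul_sub]
    ring

/-- The isomorphism of Koszul complexes. -/
noncomputable def Phi (ζ : ℂ) (j : Fin (n + 1)) : Ch (n + 1) →ₗ[ℂ] Ch (n + 1) :=
  phiC ζ j ∘ₗ (LinearMap.id - Wop ζ j)

theorem Phi_apply (ζ : ℂ) (j : Fin (n + 1)) (f : Ch (n + 1)) :
    Phi ζ j f = phiC ζ j (f - Wop ζ j f) := rfl

theorem KD_Phi (ζ : ℂ) {j : Fin (n + 1)} (hj : j ≠ Fin.last n) (f : Ch (n + 1)) :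
    KD (Phi ζ j f) = Phi ζ j (KD f) := by
  rw [Phi_apply, Phi_apply, KD_phiC ζ hj, map_sub, map_sub, Eop_Wop, KD_Wop ζ hj]
  congr 1
  abel

theorem Phi_injective (ζ : ℂ) {j : Fin (n + 1)} (hj : j ≠ Fin.last n) :
    Function.Injective (Phi ζ j) := by
  rw [injective_iff_map_eq_zero]
  intro f hf
  rw [Phi_apply] at hf
  have h1 : f - Wop ζ j f = 0 := by
    funext T
    have := congrFun hf T
    rw [phiC_apply] at this
    exact phi_injective ζ hj (by rw [this, Pi.zero_apply, map_zero])
  have h2 : f = Wop ζ j f := sub_eq_zero.1 h1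
  rw [h2, h2]
  exact Wop_Wop ζ j f

theorem Wop_mem_chains (ζ : ℂ) {j : Fin (n + 1)} {p q : ℕ} {f : Ch (n + 1)}
    (hf : f ∈ chains (n + 1) p q) : Wop ζ j f ∈ chains (n + 1) p q := by
  intro B m hm
  rw [Wop_apply] at hm
  split_ifs at hm with h
  · rw [coeff_smul, smul_eq_mul, coeff_tau] at hm
    have := hf _ m (right_ne_zero_of_mul (right_ne_zero_of_mul hm))
    rw [Finset.card_insert_of_notMem (fun h2 => h.2 (Finset.mem_of_mem_erase h2)),
      Finset.card_erase_add_one h.1] at this
    exact this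
  · simp at hm

theorem phiC_mem_chains (ζ : ℂ) {j : Fin (n + 1)} (hj : j ≠ Fin.last n) {p q : ℕ}
    {f : Ch (n + 1)} (hf : f ∈ chains (n + 1) p q) : phiC ζ j f ∈ chains (n + 1) p q := by
  intro B m hm
  rw [phiC_apply] at hm
  obtain ⟨m', h1, -, h2⟩ := phi_coeff_ne_zero ζ hj _ _ hm
  have := hf _ _ h1
  rw [h2]
  exact this

/-- The distraction of a monomial space. -/
noncomputable def dist (ζ : ℂ) (j : Fin (n + 1)) (J : Set (Fin (n + 1) →₀ ℕ)) :
    Submodule ℂ (MvPolynomial (Fin (n + 1)) ℂ) := (monId J).map (phi ζ j)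

theorem tau_mem_monId (ζ : ℂ) {J : Set (Fin (n + 1) →₀ ℕ)} {f : MvPolynomial (Fin (n + 1)) ℂ}
    (hf : f ∈ monId J) : tau ζ f ∈ monId J := by
  intro m hm
  rw [coeff_tau] at hm
  exact hf m (right_ne_zero_of_mul hm)

theorem zd_le_zd_dist (ζ : ℂ) {j : Fin (n + 1)} (hj : j ≠ Fin.last n)
    (J : Set (Fin (n + 1) →₀ ℕ)) (p q : ℕ) :
    zd (monId J) p q ≤ zd (dist ζ j J) p q := by
  unfold zd
  have h1 : finrank ℂ ((zsp (monId J) p q).map (Phi ζ j)) = finrank ℂ (zsp (monId J) p q) :=
    (LinearEquiv.finrank_eq (Submodule.equivMapOfInjective _ (Phi_injective ζ hj) _)).symm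
  rw [← h1]
  apply Submodule.finrank_mono
  rintro _ ⟨f, hf, rfl⟩
  rw [mem_zsp]
  constructor
  · rw [Phi_apply]
    exact phiC_mem_chains ζ hj (Submodule.sub_mem _ hf.1 (Wop_mem_chains ζ hf.1))
  · intro U
    rw [KD_Phi ζ hj, Phi_apply, phiC_apply]
    refine ⟨_, ?_, rfl⟩
    rw [Pi.sub_apply]
    refine Submodule.sub_mem _ (hf.2 U) ?_
    rw [Wop_apply]
    split_ifs
    · exact Submodule.smul_mem _ _ (tau_mem_monId ζ (hf.2 _))
    · exact Submodule.zero_mem _

end Crest.Agent.R181.Mon
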