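import Mathlib

/-!
# Dimension of the space of initial forms

`finrank_eq_sum_initial` and `finrank_le_of_initial`: for a finite dimensional subspace `Z` of a
space with a family of orthogonal idempotents `c i` (components), ordered by an injective `key`.
Works over any division ring.
-/

namespace Crest.Agent.R181.Mon

open Module

variable {K V ι Λ : Type*} [DivisionRing K] [AddCommGroup V] [Module K V]
  [LinearOrder Λ]

/-- Elements of `Z` whose components of key bigger than `key i` vanish (for indices in `s`). -/
def lowPart (key : ι → Λ) (c : ι → V →ₗ[K] V) (s : Finset ι) (Z : Submodule K V) (i : ι) :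
    Submodule K V where
  carrier := {f | f ∈ Z ∧ ∀ j ∈ s, key i < key j → c j f = 0}
  add_mem' := by
    rintro f g ⟨hf, hf'⟩ ⟨hg, hg'⟩
    exact ⟨Z.add_mem hf hg, fun j hj hij => by rw [map_add, hf' j hj hij, hg' j hj hij, add_zero]⟩
  zero_mem' := ⟨Z.zero_mem, fun j _ _ => map_zero _⟩
  smul_mem' := by
    rintro a f ⟨hf, hf'⟩
    exact ⟨Z.smul_mem a hf, fun j hj hij => by rw [map_smul, hf' j hj hij, smul_zero]⟩

theorem mem_lowPart {key : ι → Λ} {c : ι → V →ₗ[K] V} {s : Finset ι} {Z : Submodule K V} {i : ι}
    {f : V} : f ∈ lowPart key c s Z i ↔ f ∈ Z ∧ ∀ j ∈ s, key i < key j → c j f = 0 := Iff.rfl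

theorem finrank_eq_sum_initial [DecidableEq ι] (key : ι → Λ) (hkey : Function.Injective key)
    (c : ι → V →ₗ[K] V) (s : Finset ι) (Z : Submodule K V) [FiniteDimensional K Z]
    (hZ : ∀ f ∈ Z, (∀ i ∈ s, c i f = 0) → f = 0) :
    finrank K Z = ∑ i ∈ s, finrank K ((lowPart key c s Z i).map (c i)) := by
  induction s using Finset.induction_on_max_value key generalizing Z with
  | empty =>
    have : Z = ⊥ := by
      rw [Submodule.eq_bot_iff]
      intro f hf
      exact hZ f hf (by simp)
    subst this
    simp
  | insert a s has hmax ih =>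
    have hlt : ∀ x ∈ s, key x < key a := fun x hx =>
      lt_of_le_of_ne (hmax x hx) (fun h => has (hkey h ▸ hx))
    set Z₁ : Submodule K V := Z ⊓ LinearMap.ker (c a) with hZ₁
    have : FiniteDimensional K Z₁ :=
      Submodule.finiteDimensional_of_le (inf_le_left : Z₁ ≤ Z)
    have h1 := ih Z₁ (by
      intro f hf h
      refine hZ f hf.1 ?_
      intro i hi
      rcases Finset.mem_insert.1 hi with rfl | hi
      · exact hf.2
      · exact h i hi)
    rw [Finset.sum_insert has]
    -- the top component
    have htop : (lowPart key c (insert a s) Z a) = Z := by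
      ext f
      rw [mem_lowPart]
      constructor
      · exact fun h => h.1
      · intro h
        refine ⟨h, fun j hj hij => ?_⟩
        rcases Finset.mem_insert.1 hj with rfl | hj
        · exact absurd hij (lt_irrefl _)
        · exact absurd (hlt j hj) (not_lt.2 hij.le)
    have hlow : ∀ i ∈ s, lowPart key c (insert a s) Z i = lowPart key c s Z₁ i := by
      intro i hi
      ext f
      rw [mem_lowPart, mem_lowPart]
      constructor
      · rintro ⟨hf, h⟩
        refine ⟨⟨hf, ?_⟩, fun j hj hij => h j (Finset.mem_insert_of_mem hj) hij⟩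
        exact h a (Finset.mem_insert_self _ _) (hlt i hi)
      · rintro ⟨⟨hf, ha⟩, h⟩
        refine ⟨hf, fun j hj hij => ?_⟩
        rcases Finset.mem_insert.1 hj with rfl | hj
        · exact ha
        · exact h j hj hij
    rw [htop, Finset.sum_congr rfl (fun i hi => by rw [hlow i hi]), ← h1]
    -- rank nullity for `c a` restricted to `Z`
    have hrn := LinearMap.finrank_range_add_finrank_ker ((c a).domRestrict Z)
    have hr : LinearMap.range ((c a).domRestrict Z) = Z.map (c a) := by
      rw [LinearMap.range_domRestrict]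
    have hk : finrank K (LinearMap.ker ((c a).domRestrict Z)) = finrank K Z₁ := by
      have : LinearMap.ker ((c a).domRestrict Z) = Submodule.comap Z.subtype (LinearMap.ker (c a)) := by
        ext x; simp [LinearMap.mem_ker]
      rw [this]
      have h2 : Z₁ = (Submodule.comap Z.subtype (LinearMap.ker (c a))).map Z.subtype := by
        rw [Submodule.map_comap_subtype]
      rw [h2]
      exact (LinearEquiv.finrank_eq (Submodule.equivMapOfInjective Z.subtype
        Z.injective_subtype _)).trans rfl
    rw [hr, hk] at hrn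
    omega

theorem sum_finrank_le [DecidableEq ι] (c : ι → V →ₗ[K] V)
    (hc2 : ∀ i j, i ≠ j → ∀ f, c j (c i f) = 0)
    (s : Finset ι) (Z' : Submodule K V) [FiniteDimensional K Z'] (N : ι → Submodule K V)
    (hN : ∀ i ∈ s, N i ≤ Z') (hN' : ∀ i ∈ s, ∀ f ∈ N i, c i f = f) :
    ∑ i ∈ s, finrank K (N i) ≤ finrank K Z' := by
  induction s using Finset.induction_on generalizing Z' with
  | empty => simp
  | insert a s has ih =>
    rw [Finset.sum_insert has]
    set Z₁ : Submodule K V := Z' ⊓ LinearMap.ker (c a) with hZ₁
    have : FiniteDimensional K Z₁ :=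
      Submodule.finiteDimensional_of_le (inf_le_left : Z₁ ≤ Z')
    have h1 := ih Z₁ (by
        intro i hi f hf
        refine ⟨hN i (Finset.mem_insert_of_mem hi) hf, ?_⟩
        have h3 := hN' i (Finset.mem_insert_of_mem hi) f hf
        have h4 : c a (c i f) = 0 := hc2 i a (fun h => has (h ▸ hi)) f
        rw [h3] at h4
        exact h4)
      (fun i hi => hN' i (Finset.mem_insert_of_mem hi))
    have hNa := hN a (Finset.mem_insert_self _ _)
    have : FiniteDimensional K (N a) := Submodule.finiteDimensional_of_le hNa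
    have hdisj : Disjoint (N a) Z₁ := by
      rw [Submodule.disjoint_def]
      intro f hf hf1
      have := hN' a (Finset.mem_insert_self _ _) f hf
      rw [← this]
      exact hf1.2
    have h2 : finrank K (N a) + finrank K Z₁ = finrank K ↥(N a ⊔ Z₁) := by
      have := Submodule.finrank_sup_add_finrank_inf_eq (N a) Z₁
      rw [hdisj.eq_bot, finrank_bot, add_zero] at this
      exact this.symm
    have h3 : finrank K ↥(N a ⊔ Z₁) ≤ finrank K Z' :=
      Submodule.finrank_mono (sup_le hNa inf_le_left)
    omega

/-- If all initial forms of elements of `Z` lie in `Z'`, then `dim Z ≤ dim Z'`. -/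
theorem finrank_le_of_initial [DecidableEq ι] (key : ι → Λ) (hkey : Function.Injective key)
    (c : ι → V →ₗ[K] V) (hc1 : ∀ i f, c i (c i f) = c i f)
    (hc2 : ∀ i j, i ≠ j → ∀ f, c j (c i f) = 0) (s : Finset ι)
    (Z Z' : Submodule K V) [FiniteDimensional K Z] [FiniteDimensional K Z']
    (hZ : ∀ f ∈ Z, (∀ i ∈ s, c i f = 0) → f = 0)
    (hin : ∀ i ∈ s, ∀ f ∈ Z, (∀ j ∈ s, key i < key j → c j f = 0) → c i f ∈ Z') :
    finrank K Z ≤ finrank K Z' := by
  rw [finrank_eq_sum_initial key hkey c s Z hZ]
  refine sum_finrank_le c hc2 s Z' _ ?_ ?_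
  · rintro i hi _ ⟨f, hf, rfl⟩
    exact hin i hi f hf.1 hf.2
  · rintro i hi _ ⟨f, hf, rfl⟩
    exact hc1 i f

end Crest.Agent.R181.Mon
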