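import Crest.Prelude.Def_LexPlusPowers
import Crest.Agent.R181.MonLin

/-!
# Koszul chains with polynomial values

`Ch n` are the functions from finite sets of variables to polynomials, `KD` the Koszul
differential, `chains n p j` the chains of bidegree `(p, j)`, `zsp I p j` the chains whose
differential is `I`-valued and `zd I p j` its dimension.
-/

namespace Crest.Agent.R181.Mon

open MvPolynomial Module Finset

variable {n : ℕ}

/-- Koszul chains with values in the polynomial ring. -/
abbrev Ch (n : ℕ) := Finset (Fin n) → MvPolynomial (Fin n) ℂ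

/-- The Koszul sign. -/
noncomputable def sg (U : Finset (Fin n)) (t : Fin n) : ℂ := (-1) ^ (U.filter (· < t)).card

theorem sg_ne_zero (U : Finset (Fin n)) (t : Fin n) : sg U t ≠ 0 := by
  unfold sg; exact pow_ne_zero _ (by norm_num)

/-- The Koszul differential on polynomial chains. -/
noncomputable def KD : Ch n →ₗ[ℂ] Ch n where
  toFun f U := ∑ t ∈ Uᶜ, sg U t • (X t * f (insert t U))
  map_add' f g := by
    funext U
    simp only [Pi.add_apply, mul_add, smul_add, Finset.sum_add_distrib]
  map_smul' a f := by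
    funext U
    simp only [Pi.smul_apply, RingHom.id_apply, Finset.smul_sum, mul_smul_comm]
    exact Finset.sum_congr rfl fun t _ => smul_comm _ _ _

theorem KD_apply (f : Ch n) (U : Finset (Fin n)) :
    KD f U = ∑ t ∈ Uᶜ, sg U t • (X t * f (insert t U)) := rfl

theorem coeff_KD (f : Ch n) (U : Finset (Fin n)) (m : Fin n →₀ ℕ) :
    coeff m (KD f U) = ∑ t ∈ Uᶜ, sg U t *
      (if t ∈ m.support then coeff (m - Finsupp.single t 1) (f (insert t U)) else 0) := by
  rw [KD_apply, coeff_sum]
  refine Finset.sum_congr rfl fun t _ => ?_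
  rw [coeff_smul, coeff_X_mul', smul_eq_mul]

/-- Chains of bidegree `(p, j)`. -/
def chains (n p j : ℕ) : Submodule ℂ (Ch n) where
  carrier := {f | ∀ T m, coeff m (f T) ≠ 0 → T.card = p ∧ m.degree + p = j}
  add_mem' := by
    intro f g hf hg T m h
    rw [Pi.add_apply, coeff_add] at h
    by_cases h1 : coeff m (f T) = 0
    · exact hg T m (by rwa [h1, zero_add] at h)
    · exact hf T m h1
  zero_mem' := by
    intro T m h
    simp at h
  smul_mem' := by
    intro a f hf T m h
    rw [Pi.smul_apply, coeff_smul, smul_eq_mul] at h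
    exact hf T m (right_ne_zero_of_mul h)

theorem mem_chains {p j : ℕ} {f : Ch n} :
    f ∈ chains n p j ↔ ∀ T m, coeff m (f T) ≠ 0 → T.card = p ∧ m.degree + p = j := Iff.rfl

/-- Chains whose values have all exponents in `s`. -/
def suppIn (n : ℕ) (s : Finset (Fin n →₀ ℕ)) : Submodule ℂ (Ch n) where
  carrier := {f | ∀ T m, coeff m (f T) ≠ 0 → m ∈ s}
  add_mem' := by
    intro f g hf hg T m h
    rw [Pi.add_apply, coeff_add] at h
    by_cases h1 : coeff m (f T) = 0
    · exact hg T m (by rwa [h1, zero_add] at h)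
    · exact hf T m h1
  zero_mem' := by
    intro T m h
    simp at h
  smul_mem' := by
    intro a f hf T m h
    rw [Pi.smul_apply, coeff_smul, smul_eq_mul] at h
    exact hf T m (right_ne_zero_of_mul h)

instance (s : Finset (Fin n →₀ ℕ)) : FiniteDimensional ℂ (suppIn n s) := by
  let φ : suppIn n s →ₗ[ℂ] (Finset (Fin n) × s → ℂ) :=
    { toFun := fun f x => coeff x.2.1 (f.1 x.1)
      map_add' := fun f g => by funext x; simp
      map_smul' := fun a f => by funext x; simp }
  refine FiniteDimensional.of_injective φ ?_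
  rw [injective_iff_map_eq_zero]
  intro f hf
  ext T m
  by_contra h
  have hm : m ∈ s := f.2 T m (by simpa using h)
  have := congrFun hf (T, ⟨m, hm⟩)
  exact h (by simpa [φ] using this)

/-- The exponents of degree `d`. -/
noncomputable def degS (n d : ℕ) : Finset (Fin n →₀ ℕ) := Finset.finsuppAntidiag Finset.univ d

theorem mem_degS {d : ℕ} {m : Fin n →₀ ℕ} : m ∈ degS n d ↔ m.degree = d := by
  unfold degS
  rw [Finset.mem_finsuppAntidiag, Finsupp.degree_eq_sum]
  simp

theorem chains_le_suppIn (p j : ℕ) : chains n p j ≤ suppIn n (degS n (j - p)) := by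
  intro f hf T m h
  have := hf T m h
  rw [mem_degS]
  omega

instance (p j : ℕ) : FiniteDimensional ℂ (chains n p j) :=
  Submodule.finiteDimensional_of_le (chains_le_suppIn p j)

/-- Chains with values in a subspace `I`. -/
def valued (I : Submodule ℂ (MvPolynomial (Fin n) ℂ)) : Submodule ℂ (Ch n) where
  carrier := {f | ∀ T, f T ∈ I}
  add_mem' := fun hf hg T => I.add_mem (hf T) (hg T)
  zero_mem' := fun _ => I.zero_mem
  smul_mem' := fun a _ hf T => I.smul_mem a (hf T)

theorem mem_valued {I : Submodule ℂ (MvPolynomial (Fin n) ℂ)} {f : Ch n} :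
    f ∈ valued I ↔ ∀ T, f T ∈ I := Iff.rfl

/-- Chains of bidegree `(p, j)` whose differential is `I`-valued. -/
noncomputable def zsp (I : Submodule ℂ (MvPolynomial (Fin n) ℂ)) (p j : ℕ) :
    Submodule ℂ (Ch n) := chains n p j ⊓ (valued I).comap KD

theorem mem_zsp {I : Submodule ℂ (MvPolynomial (Fin n) ℂ)} {p j : ℕ} {f : Ch n} :
    f ∈ zsp I p j ↔ f ∈ chains n p j ∧ ∀ U, KD f U ∈ I := Iff.rfl

instance (I : Submodule ℂ (MvPolynomial (Fin n) ℂ)) (p j : ℕ) :
    FiniteDimensional ℂ (zsp I p j) :=
  Submodule.finiteDimensional_of_le (inf_le_left : zsp I p j ≤ chains n p j)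

/-- Dimension of the space of chains of bidegree `(p, j)` with `I`-valued differential. -/
noncomputable def zd (I : Submodule ℂ (MvPolynomial (Fin n) ℂ)) (p j : ℕ) : ℕ :=
  finrank ℂ (zsp I p j)

theorem zd_mono {I J : Submodule ℂ (MvPolynomial (Fin n) ℂ)} (h : I ≤ J) (p j : ℕ) :
    zd I p j ≤ zd J p j :=
  Submodule.finrank_mono (fun _ hf => ⟨hf.1, fun U => h (hf.2 U)⟩)

theorem KD_mem_chains {p j : ℕ} {f : Ch n} (hf : f ∈ chains n (p + 1) j) :
    KD f ∈ chains n p j := by
  intro U m h
  rw [coeff_KD] at h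
  obtain ⟨t, ht, h2⟩ := Finset.exists_ne_zero_of_sum_ne_zero h
  have h3 := right_ne_zero_of_mul h2
  split_ifs at h3 with h4
  · obtain ⟨h5, h6⟩ := hf _ _ h3
    have htU : t ∉ U := by simpa using ht
    rw [Finset.card_insert_of_notMem htU] at h5
    have h7 : m = (m - Finsupp.single t 1) + Finsupp.single t 1 := by
      rw [tsub_add_cancel_of_le]
      rw [Finsupp.single_le_iff]
      have := Finsupp.mem_support_iff.1 h4
      omega
    have h8 : m.degree = (m - Finsupp.single t 1).degree + 1 := by
      conv_lhs => rw [h7]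
      rw [map_add, Finsupp.degree_single]
    omega
  · exact absurd rfl h3

end Crest.Agent.R181.Mon
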