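import Crest.Agent.R181.MonStable
import Crest.Agent.R181.MonBetti
import Crest.Agent.R181.MonCL

/-!
# Chains in coefficient form
-/

namespace Crest.Agent.R181.Mon

open MvPolynomial Module Finset

variable {n : ℕ}

/-- chains in coefficient form -/
abbrev Fn (n : ℕ) := Finset (Fin n) → (Fin n → ℕ) → ℂ

/-- the differential in coefficient form -/
noncomputable def cD : Fn n →ₗ[ℂ] Fn n where
  toFun f U m := ∑ t, if t ∈ U ∨ m t = 0 then 0 else sg U t * f (insert t U) (dec m t)
  map_add' f g := by
    funext U m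
    simp only [Pi.add_apply]
    rw [← Finset.sum_add_distrib]
    refine Finset.sum_congr rfl fun t _ => ?_
    split_ifs
    · rw [add_zero]
    · ring
  map_smul' a f := by
    funext U m
    simp only [Pi.smul_apply, RingHom.id_apply, smul_eq_mul]
    rw [Finset.mul_sum]
    refine Finset.sum_congr rfl fun t _ => ?_
    split_ifs
    · rw [mul_zero]
    · ring

theorem cD_apply (f : Fn n) (U : Finset (Fin n)) (m : Fin n → ℕ) :
    cD f U m = ∑ t, if t ∈ U ∨ m t = 0 then 0 else sg U t * f (insert t U) (dec m t) := rfl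

theorem cD_ne_zero {f : Fn n} {U : Finset (Fin n)} {m : Fin n → ℕ} (h : cD f U m ≠ 0) :
    ∃ t, t ∉ U ∧ 0 < m t ∧ f (insert t U) (dec m t) ≠ 0 := by
  rw [cD_apply] at h
  obtain ⟨t, -, ht⟩ := Finset.exists_ne_zero_of_sum_ne_zero h
  split_ifs at ht with h1
  · exact absurd rfl ht
  · rw [not_or] at h1
    exact ⟨t, h1.1, Nat.pos_of_ne_zero h1.2, right_ne_zero_of_mul ht⟩

/-- chains of bidegree `(p, j)` in coefficient form -/
def cch (n p j : ℕ) : Submodule ℂ (Fn n) where
  carrier := {f | ∀ T m, f T m ≠ 0 → T.card = p ∧ dg m + p = j}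
  add_mem' := by
    intro f g hf hg T m h
    rw [Pi.add_apply, Pi.add_apply] at h
    by_cases h1 : f T m = 0
    · exact hg T m (by rwa [h1, zero_add] at h)
    · exact hf T m h1
  zero_mem' := by
    intro T m h
    exact absurd rfl h
  smul_mem' := by
    intro a f hf T m h
    rw [Pi.smul_apply, Pi.smul_apply, smul_eq_mul] at h
    exact hf T m (right_ne_zero_of_mul h)

/-- functions vanishing outside a set -/
def vanOut (K : Set (Fin n → ℕ)) : Submodule ℂ (Fn n) where
  carrier := {f | ∀ U m, m ∉ K → f U m = 0}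
  add_mem' := by
    intro f g hf hg T m h
    rw [Pi.add_apply, Pi.add_apply, hf T m h, hg T m h, add_zero]
  zero_mem' := fun _ _ _ => rfl
  smul_mem' := by
    intro a f hf T m h
    rw [Pi.smul_apply, Pi.smul_apply, hf T m h, smul_zero]

/-- chains with differential supported in `K` -/
noncomputable def czs (K : Set (Fin n → ℕ)) (p j : ℕ) : Submodule ℂ (Fn n) :=
  cch n p j ⊓ (vanOut K).comap cD

theorem mem_czs {K : Set (Fin n → ℕ)} {p j : ℕ} {f : Fn n} :
    f ∈ czs K p j ↔ (∀ T m, f T m ≠ 0 → T.card = p ∧ dg m + p = j) ∧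
      ∀ U m, m ∉ K → cD f U m = 0 := Iff.rfl

/-- chains supported in a finite set -/
def SX (X : Finset (Finset (Fin n) × (Fin n → ℕ))) : Submodule ℂ (Fn n) where
  carrier := {f | ∀ T m, f T m ≠ 0 → (T, m) ∈ X}
  add_mem' := by
    intro f g hf hg T m h
    rw [Pi.add_apply, Pi.add_apply] at h
    by_cases h1 : f T m = 0
    · exact hg T m (by rwa [h1, zero_add] at h)
    · exact hf T m h1
  zero_mem' := by
    intro T m h
    exact absurd rfl h
  smul_mem' := by
    intro a f hf T m h
    rw [Pi.smul_apply, Pi.smul_apply, smul_eq_mul] at h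
    exact hf T m (right_ne_zero_of_mul h)

/-- coordinates of `SX` -/
noncomputable def SXequiv (X : Finset (Finset (Fin n) × (Fin n → ℕ))) : SX X ≃ₗ[ℂ] (X → ℂ) where
  toFun f x := f.1 x.1.1 x.1.2
  map_add' f g := rfl
  map_smul' a f := rfl
  invFun g := by
    classical
    exact ⟨fun T m => if h : (T, m) ∈ X then g ⟨(T, m), h⟩ else 0, by
      intro T m hne
      by_contra h
      exact hne (dif_neg h)⟩
  left_inv f := by
    classical
    apply Subtype.ext
    funext T m
    by_cases h : (T, m) ∈ X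
    · simp only [dif_pos h]
    · simp only [dif_neg h]
      by_contra hne
      exact h (f.2 T m (fun h0 => hne h0.symm))
  right_inv g := by
    classical
    funext x
    simp only [Prod.mk.eta, Subtype.coe_eta]
    exact dif_pos x.2

instance (X : Finset (Finset (Fin n) × (Fin n → ℕ))) : FiniteDimensional ℂ (SX X) :=
  Module.Finite.equiv (SXequiv X).symm

theorem finrank_SX (X : Finset (Finset (Fin n) × (Fin n → ℕ))) : finrank ℂ (SX X) = X.card := by
  rw [(SXequiv X).finrank_eq, Module.finrank_fintype_fun_eq_card, Fintype.card_coe]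

theorem cch_le_SX (p j : ℕ) : cch n p j ≤ SX (Finset.univ ×ˢ fD n (j - p)) := by
  intro f hf T m h
  have := hf T m h
  rw [Finset.mem_product, mem_fD]
  refine ⟨Finset.mem_univ _, ?_⟩
  change dg m = j - p
  omega

instance (p j : ℕ) : FiniteDimensional ℂ (cch n p j) :=
  Submodule.finiteDimensional_of_le (cch_le_SX p j)

instance (K : Set (Fin n → ℕ)) (p j : ℕ) : FiniteDimensional ℂ (czs K p j) :=
  Submodule.finiteDimensional_of_le (inf_le_left : czs K p j ≤ cch n p j)

/-- dimension of `czs` -/
noncomputable def cz (K : Set (Fin n → ℕ)) (p j : ℕ) : ℕ := finrank ℂ (czs K p j)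

theorem cz_mono {K K' : Set (Fin n → ℕ)} (h : K ⊆ K') (p j : ℕ) : cz K p j ≤ cz K' p j :=
  Submodule.finrank_mono (fun _ hf => ⟨hf.1, fun U m hm => hf.2 U m (fun h' => hm (h h'))⟩)

/-- `Fin n → ℕ` as finitely supported functions -/
noncomputable def toF (m : Fin n → ℕ) : Fin n →₀ ℕ := Finsupp.equivFunOnFinite.symm m

theorem toF_apply (m : Fin n → ℕ) (i : Fin n) : toF m i = m i := rfl

theorem toF_injective : Function.Injective (toF : (Fin n → ℕ) → _) :=
  Finsupp.equivFunOnFinite.symm.injective

theorem toF_coe (m : Fin n →₀ ℕ) : toF (m : Fin n → ℕ) = m := by ext i; rfl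

theorem degree_toF (m : Fin n → ℕ) : (toF m).degree = dg m := by
  rw [Finsupp.degree_eq_sum]; rfl

theorem toF_dec (m : Fin n → ℕ) (t : Fin n) : toF (dec m t) = toF m - Finsupp.single t 1 := by
  ext s
  rw [Finsupp.tsub_apply, toF_apply, toF_apply]
  by_cases h : s = t
  · subst h; rw [dec_self, Finsupp.single_eq_same]
  · rw [dec_ne _ h, Finsupp.single_eq_of_ne h, Nat.sub_zero]

theorem toF_inc (m : Fin n → ℕ) (t : Fin n) : toF (inc m t) = toF m + Finsupp.single t 1 := by
  ext s
  rw [Finsupp.add_apply, toF_apply, toF_apply]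
  by_cases h : s = t
  · subst h; rw [inc_self, Finsupp.single_eq_same]
  · rw [inc_ne _ h, Finsupp.single_eq_of_ne h, Nat.add_zero]

/-- coefficient form of chains -/
noncomputable def ev : Ch n →ₗ[ℂ] Fn n where
  toFun f T m := coeff (toF m) (f T)
  map_add' f g := by funext T m; simp only [Pi.add_apply, coeff_add]
  map_smul' a f := by funext T m; simp only [Pi.smul_apply, coeff_smul, RingHom.id_apply]

theorem ev_apply (f : Ch n) (T : Finset (Fin n)) (m : Fin n → ℕ) :
    ev f T m = coeff (toF m) (f T) := rfl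

theorem ev_injective : Function.Injective (ev : Ch n →ₗ[ℂ] Fn n) := by
  rw [injective_iff_map_eq_zero]
  intro f hf
  funext T
  ext m
  have := congrFun (congrFun hf T) m
  rwa [ev_apply, toF_coe] at this

theorem ev_KD (f : Ch n) : ev (KD f) = cD (ev f) := by
  funext U m
  rw [ev_apply, coeff_KD, cD_apply, ← Finset.sum_subset (Finset.subset_univ Uᶜ)]
  · refine Finset.sum_congr rfl fun t ht => ?_
    have htU : t ∉ U := by simpa using ht
    by_cases h : m t = 0
    · rw [if_pos (Or.inr h), if_neg, mul_zero]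
      rw [Finsupp.mem_support_iff, toF_apply]
      exact fun h' => h' h
    · rw [if_neg (not_or.2 ⟨htU, h⟩), if_pos (Finsupp.mem_support_iff.2 h), ev_apply, toF_dec]
  · intro t _ ht
    rw [if_pos (Or.inl (by simpa using ht))]

theorem exists_ev {f : Fn n} {p j : ℕ} (hf : f ∈ cch n p j) : ∃ g ∈ chains n p j, ev g = f := by
  classical
  have hc : ∀ T m, coeff (toF m) (∑ x ∈ fD n (j - p), monomial (toF x) (f T x)) = f T m := by
    intro T m
    rw [coeff_sum]
    simp only [coeff_monomial]
    by_cases h : m ∈ fD n (j - p)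
    · rw [Finset.sum_eq_single m]
      · rw [if_pos rfl]
      · intro x _ hx
        rw [if_neg (fun h' => hx (toF_injective h'))]
      · exact fun h' => absurd h h'
    · rw [Finset.sum_eq_zero]
      · by_contra hne
        have := hf T m (fun h0 => hne h0.symm)
        rw [mem_fD] at h
        omega
      · intro x hx
        rw [if_neg]
        intro h'
        rw [toF_injective h'] at hx
        exact h hx
  refine ⟨fun T => ∑ x ∈ fD n (j - p), monomial (toF x) (f T x), ?_, ?_⟩
  · intro T m hm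
    rw [← toF_coe m, hc] at hm
    have := hf T _ hm
    rwa [← degree_toF, toF_coe] at this
  · funext T m
    rw [ev_apply]
    exact hc T m

theorem map_ev_zsp (J : Set (Fin n →₀ ℕ)) (p j : ℕ) :
    (zsp (monId J) p j).map ev = czs {m | toF m ∈ J} p j := by
  apply le_antisymm
  · rintro _ ⟨f, hf, rfl⟩
    rw [mem_czs]
    constructor
    · intro T m hm
      have := hf.1 T _ hm
      rwa [degree_toF] at this
    · intro U m hm
      rw [← ev_KD, ev_apply]
      by_contra hne
      exact hm (hf.2 U _ hne)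
  · intro f hf
    obtain ⟨g, hg, rfl⟩ := exists_ev hf.1
    refine ⟨g, ⟨hg, ?_⟩, rfl⟩
    intro U m hm
    by_contra hmJ
    have h1 := hf.2 U (m : Fin n → ℕ) (by
      change ¬ (toF (m : Fin n → ℕ) ∈ J)
      rwa [toF_coe])
    rw [← ev_KD, ev_apply, toF_coe] at h1
    exact hm h1

theorem zd_eq_cz (J : Set (Fin n →₀ ℕ)) (p j : ℕ) :
    zd (monId J) p j = cz {m | toF m ∈ J} p j := by
  unfold zd cz
  rw [← map_ev_zsp]
  exact LinearEquiv.finrank_eq (Submodule.equivMapOfInjective _ ev_injective _)

theorem cD_cD {p j : ℕ} {f : Fn n} (hf : f ∈ cch n p j) : cD (cD f) = 0 := by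
  obtain ⟨g, -, rfl⟩ := exists_ev hf
  rw [← ev_KD, ← ev_KD, KD_KD, map_zero]

theorem hf_eq_cH (J : Set (Fin n →₀ ℕ)) (d : ℕ) : hf J d = cH {m | toF m ∈ J} d := by
  classical
  unfold hf cH
  symm
  apply Finset.card_bij (fun m _ => toF m)
  · intro m hm
    rw [mem_cF] at hm
    rw [Finset.mem_filter, mem_degS, degree_toF]
    exact hm
  · intro m _ m' _ h
    exact toF_injective h
  · intro m hm
    rw [Finset.mem_filter, mem_degS] at hm
    refine ⟨(m : Fin n → ℕ), ?_, toF_coe m⟩
    rw [mem_cF, ← degree_toF, toF_coe]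
    refine ⟨hm.1, ?_⟩
    change toF (m : Fin n → ℕ) ∈ J
    rw [toF_coe]; exact hm.2

end Crest.Agent.R181.Mon
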