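import Crest.Agent.R181.MonSlice

/-!
# Lex-plus-powers theorem for ideals containing pure powers

Main results: `lpp_of_monomial` (reduction of the statement to a monomial ideal containing the
pure powers, with the same Hilbert function and bigger Betti numbers) and `lpp_of_purePowers`.
-/

namespace Crest.Agent.R181.Mon

open MvPolynomial Module Finset Crest.AlgebraR.LPP

theorem IsL.sl {n : ℕ} {a : Fin (n + 1) → ℕ} {L : Set (Fin (n + 1) → ℕ)} (hL : IsL a L) {i : ℕ}
    (hi : i < a (Fin.last n)) : IsL (fun k : Fin n => a k.castSucc) (sl L i) := by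
  intro u u' hu hlt hd hlex
  exact hL (sn u i) (sn u' i) hu (sn_forall_lt.2 ⟨hlt, hi⟩) (by rw [dg_sn, dg_sn, hd])
    (lex_sn_of_lt hlex)

theorem stable_reduction {n : ℕ} (a : Fin (n + 1) → ℕ) (ha : ∀ i, a i ≤ a (Fin.last n))
    (hpos : 0 < a (Fin.last n)) (J : Set (Fin (n + 1) → ℕ)) (hJ : UpC J) (hP : PP a J) :
    ∃ J' : Set (Fin (n + 1) → ℕ), UpC J' ∧ PP a J' ∧ Stb (a (Fin.last n)) J' ∧
      (∀ d, cH J' d = cH J d) ∧ ∀ p j, cz J p j ≤ cz J' p j := by
  set J1 : Set (Fin (n + 1) →₀ ℕ) := {m | (m : Fin (n + 1) → ℕ) ∈ J} with hJ1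
  have hback : {m | toF m ∈ J1} = J := by
    ext m
    rfl
  have hU1 : UpClosed J1 := by
    intro m hm t
    have h1 := hJ _ hm t
    have h2 : ((m + Finsupp.single t 1 : Fin (n + 1) →₀ ℕ) : Fin (n + 1) → ℕ) = inc m t := by
      have := toF_inc (m : Fin (n + 1) → ℕ) t
      rw [toF_coe] at this
      rw [← this]; rfl
    change ((m + Finsupp.single t 1 : Fin (n + 1) →₀ ℕ) : Fin (n + 1) → ℕ) ∈ J
    rw [h2]; exact h1
  have hP1 : HasP a J1 := by
    intro i
    exact hP _ ⟨i, by rw [Finsupp.single_eq_same]⟩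
  obtain ⟨J2, hU2, hP2, hc2, hz2, hs2⟩ := exists_stable a ha hpos J1 hU1 hP1
  refine ⟨{m | toF m ∈ J2}, ?_, ?_, ?_, ?_, ?_⟩
  · intro m hm t
    change toF (inc m t) ∈ J2
    rw [toF_inc]
    exact hU2 _ hm t
  · rintro m ⟨i, hi⟩
    exact hU2.mem_of_exists hP2 ⟨i, hi⟩
  · intro i u t hu hi
    change toF (sn (inc u t) i) ∈ J2
    rw [← inc_sn_castSucc, toF_inc]
    refine hs2 (toF (sn u i)) t.castSucc (ne_of_lt (Fin.castSucc_lt_last t)) ?_ ?_
    · rw [← toF_inc, inc_sn_last]
      exact hu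
    · rw [toF_apply, sn_last]; exact hi
  · intro d
    rw [← hf_eq_cH, hc2, hf_eq_cH, hback]
  · intro p j
    have := hz2 p j
    rwa [zd_eq_cz, zd_eq_cz, hback] at this

theorem cz_eq_zero {n : ℕ} (K : Set (Fin n → ℕ)) {p j : ℕ} (h : j < p) : cz K p j = 0 := by
  unfold cz
  have : czs K p j = ⊥ := by
    rw [Submodule.eq_bot_iff]
    intro f hf
    funext T m
    by_contra hne
    have := hf.1 T m hne
    omega
  rw [this, finrank_bot]

/-- The lex-plus-powers theorem for monomial sets. -/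
theorem lpp_sets : ∀ (n : ℕ) (a : Fin n → ℕ), Monotone a → (∀ i, 0 < a i) →
    ∀ K : Set (Fin n → ℕ), UpC K → PP a K →
    ∃ L : Set (Fin n → ℕ), UpC L ∧ PP a L ∧ IsL a L ∧ (∀ d, cH L d = cH K d) ∧
      ∀ p j, cz K p j ≤ cz L p j := by
  intro n
  induction n with
  | zero =>
    intro a _ _ K hU hP
    refine ⟨K, hU, hP, ?_, fun _ => rfl, fun _ _ => le_rfl⟩
    intro m m' hm _ _ _
    rwa [Subsingleton.elim m' m]
  | succ n ih =>
    intro a ha hpos K hU hP
    have ha' : Monotone (fun k : Fin n => a k.castSucc) := fun i j hij =>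
      ha (Fin.castSucc_le_castSucc_iff.2 hij)
    obtain ⟨J, hJU, hJP, hJs, hJc, hJz⟩ := stable_reduction a (fun i => ha (Fin.le_last i))
      (hpos _) K hU hP
    obtain ⟨L, hLU, hLP, hLL, hLc, hL0, hL1⟩ := cl_step a (hpos _)
      (fun K hK hPK => by
        obtain ⟨L, h1, h2, h3, h4, _⟩ := ih _ ha' (fun i => hpos _) K hK hPK
        exact ⟨L, h1, h2, h3, h4⟩) J hJU hJP hJs
    refine ⟨L, hLU, hLP, hLL, fun d => by rw [hLc, hJc], fun p j => (hJz p j).trans ?_⟩
    rcases Nat.eq_zero_or_pos p with rfl | hp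
    · unfold cz
      rw [cz_zero_homological, cz_zero_homological]
    obtain ⟨p, rfl⟩ : ∃ p', p = p' + 1 := ⟨p - 1, by omega⟩
    rcases lt_or_ge j p with hpj | hpj
    · rw [cz_eq_zero J (by omega)]; exact Nat.zero_le _
    have hLs : Stb (a (Fin.last n)) L := hLL.stb hLP
    refine cz_compare (hpos _) hJP hLP hLs (fun d => (hLc d).symm) p j hpj ?_ ?_
    · obtain ⟨K0, h1, h2, h3, h4, h5⟩ := ih _ ha' (fun i => hpos _) (sl J 0) (hJU.sl 0) (hJP.sl 0)
      have hsub : ∀ d u, dg u = d → u ∈ sl L 0 → u ∈ K0 := fun d =>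
        nested (hLP.sl 0) h2 ((hLL.sl (hpos _)).at d) (h3.at d) (by rw [h4]; exact hL0 d)
      have h6 := cz_add_le (K := K0) (M := sl L 0) p j (fun u hu => hsub _ u hu)
      have h7 := h5 (p + 1) j
      rw [h4] at h6
      omega
    · obtain ⟨K1, h1, h2, h3, h4, h5⟩ := ih _ ha' (fun i => hpos _)
        (sl J (a (Fin.last n) - 1)) (hJU.sl _) (hJP.sl _)
      have hlt : a (Fin.last n) - 1 < a (Fin.last n) := by have := hpos (Fin.last n); omega
      have hsub : ∀ u, u ∈ K1 → u ∈ sl L (a (Fin.last n) - 1) := fun u =>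
        nested h2 (hLP.sl _) (h3.at (dg u)) ((hLL.sl hlt).at (dg u))
          (by rw [h4]; exact hL1 _) u rfl
      exact (h5 _ _).trans (cz_mono hsub _ _)

variable {n : ℕ}

/-- the monomial ideal of an upward closed set -/
def monIdeal (J : Set (Fin n →₀ ℕ)) (hJ : UpClosed J) : Ideal (MvPolynomial (Fin n) ℂ) where
  carrier := {f | f ∈ monId J}
  add_mem' := fun h1 h2 => (monId J).add_mem h1 h2
  zero_mem' := (monId J).zero_mem
  smul_mem' := by
    intro c f hf
    change c * f ∈ monId J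
    induction c using MvPolynomial.induction_on generalizing f with
    | C r =>
      rw [← smul_eq_C_mul]
      exact (monId J).smul_mem r hf
    | add p q hp hq =>
      rw [add_mul]
      exact (monId J).add_mem (hp hf) (hq hf)
    | mul_X p i hp =>
      rw [mul_assoc]
      exact hp (X_mul_mem_monId hJ i hf)

theorem restrictScalars_monIdeal (J : Set (Fin n →₀ ℕ)) (hJ : UpClosed J) :
    Submodule.restrictScalars ℂ (monIdeal J hJ) = monId J := by
  ext f; rfl

theorem degreePiece_eq (I : Ideal (MvPolynomial (Fin n) ℂ)) (d : ℕ) :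
    degreePiece I d = pc (Submodule.restrictScalars ℂ I) d := rfl

theorem monIdeal_homogeneous (J : Set (Fin n →₀ ℕ)) (hJ : UpClosed J) :
    ∀ g ∈ monIdeal J hJ, ∀ d : ℕ, homogeneousComponent d g ∈ monIdeal J hJ := by
  intro g hg d m hm
  rw [coeff_homogeneousComponent] at hm
  split_ifs at hm
  · exact hg m hm
  · exact absurd rfl hm

theorem monomial_mem_purePowers {a : Fin n → ℕ} {m : Fin n →₀ ℕ} (h : ∃ i, a i ≤ m i) (c : ℂ) :
    monomial m c ∈ purePowers a := by
  obtain ⟨i, hi⟩ := h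
  have h1 : (monomial m c : MvPolynomial (Fin n) ℂ) =
      monomial (m - Finsupp.single i (a i)) c * X i ^ a i := by
    rw [X_pow_eq_monomial, monomial_mul, mul_one, tsub_add_cancel_of_le]
    exact Finsupp.single_le_iff.2 hi
  rw [h1]
  unfold purePowers
  exact Ideal.mul_mem_left _ _ (Ideal.subset_span ⟨i, rfl⟩)

theorem lex_toF {m m' : Fin n →₀ ℕ} :
    toLex (m : Fin n → ℕ) < toLex (m' : Fin n → ℕ) ↔ toLex m < toLex m' := Iff.rfl

/-- the pieces of a lex-plus-powers set -/
theorem lppPiece_eq (a : Fin n → ℕ) (L : Set (Fin n → ℕ)) (hP : PP a L) (hL : IsL a L)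
    (hU : UpClosed {m : Fin n →₀ ℕ | (m : Fin n → ℕ) ∈ L}) (d : ℕ) :
    degreePiece (monIdeal {m : Fin n →₀ ℕ | (m : Fin n → ℕ) ∈ L} hU) d =
      lppPiece a {m | m.degree = d ∧ ∃ m0 : Fin n →₀ ℕ, (m0 : Fin n → ℕ) ∈ L ∧ m0.degree = d ∧
        (∀ i, m0 i < a i) ∧ toLex m0 ≤ toLex m} d := by
  apply le_antisymm
  · intro f hf
    rw [degreePiece_eq, restrictScalars_monIdeal, mem_pc] at hf
    rw [f.as_sum]
    refine Submodule.sum_mem _ fun m hm => ?_
    have hm' := mem_support_iff.1 hm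
    have h1 := hf.1 m hm'
    have h2 : (m : Fin n → ℕ) ∈ L := hf.2 m hm'
    unfold lppPiece
    by_cases h3 : ∃ i, a i ≤ m i
    · apply Submodule.mem_sup_right
      rw [degreePiece_eq]
      refine ⟨?_, monomial_mem_purePowers h3 _⟩
      change monomial m (coeff m f) ∈ homogeneousSubmodule (Fin n) ℂ d
      rw [mem_homogeneousSubmodule]
      exact isHomogeneous_monomial _ h1
    · push Not at h3
      apply Submodule.mem_sup_left
      have h4 : (monomial m (coeff m f) : MvPolynomial (Fin n) ℂ) = coeff m f • monomial m 1 := by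
        rw [smul_monomial, smul_eq_mul, mul_one]
      rw [h4]
      apply Submodule.smul_mem
      apply Submodule.subset_span
      exact ⟨m, ⟨h1, m, h2, h1, h3, le_rfl⟩, rfl⟩
  · unfold lppPiece
    apply sup_le
    · rw [Submodule.span_le]
      rintro _ ⟨m, ⟨h1, m0, h2, h3, h4, h5⟩, rfl⟩
      have hmL : (m : Fin n → ℕ) ∈ L := by
        rcases lt_or_eq_of_le h5 with h6 | h6
        · refine hL _ _ h2 h4 ?_ (lex_toF.2 h6)
          rw [← degree_toF, ← degree_toF, toF_coe, toF_coe, h1, h3]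
        · have : m0 = m := toLex_inj.1 h6
          rw [← this]; exact h2
      change monomial m 1 ∈ degreePiece _ d
      rw [degreePiece_eq, restrictScalars_monIdeal, mem_pc]
      constructor
      · intro m' hm'
        rw [coeff_monomial] at hm'
        split_ifs at hm' with h7
        · rw [← h7]; exact h1
        · exact absurd rfl hm'
      · intro m' hm'
        rw [coeff_monomial] at hm'
        split_ifs at hm' with h7
        · rw [← h7]; exact hmL
        · exact absurd rfl hm'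
    · have h1 : purePowers a ≤ monIdeal {m : Fin n →₀ ℕ | (m : Fin n → ℕ) ∈ L} hU := by
        unfold purePowers
        rw [Ideal.span_le]
        rintro _ ⟨i, rfl⟩
        intro m hm
        simp only [X_pow_eq_monomial] at hm
        rw [coeff_monomial] at hm
        split_ifs at hm with h2
        · rw [← h2]
          exact hP _ ⟨i, by rw [Finsupp.single_eq_same]⟩
        · exact absurd rfl hm
      exact inf_le_inf_left _ (fun x hx => h1 hx)

/-- Reduction of the lex-plus-powers statement to a monomial ideal containing the pure powers. -/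
theorem lpp_of_monomial (a : Fin n → ℕ) (ha : Monotone a) (hpos : ∀ i, 0 < a i)
    (I : Ideal (MvPolynomial (Fin n) ℂ)) (J0 : Set (Fin n →₀ ℕ)) (hJ0 : UpClosed J0)
    (hP0 : HasP a J0) (hHF : ∀ d, finrank ℂ (degreePiece I d) = hf J0 d)
    (hB : ∀ p j, gradedBetti I p j ≤ gradedBetti (monIdeal J0 hJ0) p j) :
    ∃ U : ℕ → Set (Fin n →₀ ℕ), (∀ d, IsLexSegment n d (U d)) ∧
      (∀ d, Module.finrank ℂ (lppPiece a (U d) d) = Module.finrank ℂ (degreePiece I d)) ∧
      ∃ J : Ideal (MvPolynomial (Fin n) ℂ), (∀ g ∈ J, ∀ d : ℕ, homogeneousComponent d g ∈ J) ∧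
        (∀ d, degreePiece J d = lppPiece a (U d) d) ∧
        ∀ p j : ℕ, gradedBetti I p j ≤ gradedBetti J p j := by
  have hUC : UpC {m : Fin n → ℕ | toF m ∈ J0} := by
    intro m hm t
    change toF (inc m t) ∈ J0
    rw [toF_inc]
    exact hJ0 _ hm t
  have hPP : PP a {m : Fin n → ℕ | toF m ∈ J0} := by
    rintro m ⟨i, hi⟩
    exact hJ0.mem_of_exists hP0 ⟨i, hi⟩
  obtain ⟨L, hLU, hLP, hLL, hLc, hLz⟩ := lpp_sets n a ha hpos _ hUC hPP
  have hU : UpClosed {m : Fin n →₀ ℕ | (m : Fin n → ℕ) ∈ L} := by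
    intro m hm t
    have h2 : ((m + Finsupp.single t 1 : Fin n →₀ ℕ) : Fin n → ℕ) = inc m t := by
      have := toF_inc (m : Fin n → ℕ) t
      rw [toF_coe] at this
      rw [← this]; rfl
    change ((m + Finsupp.single t 1 : Fin n →₀ ℕ) : Fin n → ℕ) ∈ L
    rw [h2]
    exact hLU _ hm t
  have hback : {m : Fin n → ℕ | toF m ∈ {m : Fin n →₀ ℕ | (m : Fin n → ℕ) ∈ L}} = L := by
    ext m; rfl
  have hhf : ∀ d, hf {m : Fin n →₀ ℕ | (m : Fin n → ℕ) ∈ L} d = hf J0 d := by
    intro d
    rw [hf_eq_cH, hback, hLc, hf_eq_cH]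
  refine ⟨fun d => {m | m.degree = d ∧ ∃ m0 : Fin n →₀ ℕ, (m0 : Fin n → ℕ) ∈ L ∧ m0.degree = d ∧
        (∀ i, m0 i < a i) ∧ toLex m0 ≤ toLex m}, ?_, ?_,
    monIdeal {m : Fin n →₀ ℕ | (m : Fin n → ℕ) ∈ L} hU, monIdeal_homogeneous _ hU,
    fun d => lppPiece_eq a L hLP hLL hU d, ?_⟩
  · intro d
    refine ⟨fun m hm => hm.1, ?_⟩
    rintro m ⟨_, m0, h2, h3, h4, h5⟩ m' hm' hle
    exact ⟨hm', m0, h2, h3, h4, h5.trans hle⟩
  · intro d
    rw [← lppPiece_eq a L hLP hLL hU d, hHF, degreePiece_eq, restrictScalars_monIdeal,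
      finrank_pc_monId, hhf]
  · intro p j
    refine (hB p j).trans (gradedBetti_le_of_zd_le _ _ ?_ ?_ p j)
    · intro d
      rw [restrictScalars_monIdeal, restrictScalars_monIdeal, finrank_pc_monId, finrank_pc_monId,
        hhf]
    · intro p j
      rw [restrictScalars_monIdeal, restrictScalars_monIdeal, zd_eq_cz, zd_eq_cz, hback]
      exact hLz p j

/-- The lex-plus-powers theorem for homogeneous ideals containing the pure powers. -/
theorem lpp_of_purePowers (a : Fin n → ℕ) (ha : Monotone a) (hpos : ∀ i, 0 < a i)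
    (I : Ideal (MvPolynomial (Fin n) ℂ)) (hP : ∀ i, (X i : MvPolynomial (Fin n) ℂ) ^ a i ∈ I) :
    ∃ U : ℕ → Set (Fin n →₀ ℕ), (∀ d, IsLexSegment n d (U d)) ∧
      (∀ d, Module.finrank ℂ (lppPiece a (U d) d) = Module.finrank ℂ (degreePiece I d)) ∧
      ∃ J : Ideal (MvPolynomial (Fin n) ℂ), (∀ g ∈ J, ∀ d : ℕ, homogeneousComponent d g ∈ J) ∧
        (∀ d, degreePiece J d = lppPiece a (U d) d) ∧
        ∀ p j : ℕ, gradedBetti I p j ≤ gradedBetti J p j := by
  have hJ0 : UpClosed (lead (Submodule.restrictScalars ℂ I)) := by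
    intro m hm t
    exact lead_upClosed _ (fun t f hf => I.mul_mem_left _ hf) m hm t
  refine lpp_of_monomial a ha hpos I (lead (Submodule.restrictScalars ℂ I)) hJ0 ?_ ?_ ?_
  · intro i
    apply monomial_mem_lead
    have := hP i
    rw [X_pow_eq_monomial] at this
    exact this
  · intro d
    rw [degreePiece_eq, hf_lead]
  · intro p j
    refine gradedBetti_le_of_zd_le _ _ ?_ ?_ p j
    · intro d
      rw [restrictScalars_monIdeal, finrank_pc_monId, hf_lead]
    · intro p j
      rw [restrictScalars_monIdeal]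
      exact zd_le_zd_lead _ p j

end Crest.Agent.R181.Mon
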