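import Crest.Agent.R181.MonKos

/-!
# Semicontinuity: passing to the leading monomials (reverse lexicographic order)
-/

namespace Crest.Agent.R181.Mon

open MvPolynomial Module Finset

variable {n : ℕ}

/-- The reverse lexicographic key: a smaller exponent of the last variable is bigger. -/
def key (m : Fin n →₀ ℕ) : (Colex (Fin n →₀ ℕ))ᵒᵈ := OrderDual.toDual (toColex m)

theorem key_injective : Function.Injective (key : (Fin n →₀ ℕ) → _) := fun a b h => by
  simpa [key] using h

theorem key_add_lt {a b : Fin n →₀ ℕ} (c : Fin n →₀ ℕ) : key (a + c) < key (b + c) ↔ key a < key b := by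
  unfold key
  rw [OrderDual.toDual_lt_toDual, OrderDual.toDual_lt_toDual]
  rw [show toColex (a + c) = toColex a + toColex c from rfl,
    show toColex (b + c) = toColex b + toColex c from rfl]
  exact add_lt_add_iff_right _

theorem key_lt_of_last {a b : Fin (n + 1) →₀ ℕ} (h : a (Fin.last n) < b (Fin.last n)) :
    key b < key a := by
  unfold key
  rw [OrderDual.toDual_lt_toDual, Finsupp.Colex.lt_iff]
  refine ⟨Fin.last n, fun j hj => absurd hj (not_lt.2 (Fin.le_last j)), h⟩

/-- Indicator exponent of a set of variables. -/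
noncomputable def e1 (T : Finset (Fin n)) : Fin n →₀ ℕ := ∑ t ∈ T, Finsupp.single t 1

theorem e1_insert {T : Finset (Fin n)} {t : Fin n} (h : t ∉ T) :
    e1 (insert t T) = Finsupp.single t 1 + e1 T := by
  unfold e1; rw [Finset.sum_insert h]

theorem degree_e1 (T : Finset (Fin n)) : (e1 T).degree = T.card := by
  unfold e1; rw [map_sum]; simp [Finsupp.degree_single]

/-- Component of multidegree `μ` of a chain. -/
noncomputable def cmp (μ : Fin n →₀ ℕ) : Ch n →ₗ[ℂ] Ch n where
  toFun f T := if e1 T ≤ μ then monomial (μ - e1 T) (coeff (μ - e1 T) (f T)) else 0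
  map_add' f g := by
    funext T
    simp only [Pi.add_apply, coeff_add, map_add]
    split_ifs <;> simp
  map_smul' a f := by
    funext T
    simp only [Pi.smul_apply, coeff_smul, RingHom.id_apply]
    split_ifs
    · rw [smul_monomial]
    · simp

theorem coeff_cmp (μ : Fin n →₀ ℕ) (f : Ch n) (T : Finset (Fin n)) (m : Fin n →₀ ℕ) :
    coeff m (cmp μ f T) = if m + e1 T = μ then coeff m (f T) else 0 := by
  change coeff m (if e1 T ≤ μ then monomial (μ - e1 T) (coeff (μ - e1 T) (f T)) else 0) = _
  by_cases h1 : e1 T ≤ μ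
  · rw [if_pos h1, coeff_monomial]
    by_cases h2 : m + e1 T = μ
    · have : μ - e1 T = m := by rw [← h2]; exact add_tsub_cancel_right _ _
      rw [if_pos this, if_pos h2, this]
    · rw [if_neg h2, if_neg]
      intro h3
      apply h2
      rw [← h3, tsub_add_cancel_of_le h1]
  · rw [if_neg h1, coeff_zero, if_neg]
    intro h2
    apply h1
    rw [← h2]
    exact le_add_self

theorem cmp_cmp_self (μ : Fin n →₀ ℕ) (f : Ch n) : cmp μ (cmp μ f) = cmp μ f := by
  funext T
  ext m
  rw [coeff_cmp, coeff_cmp]
  split_ifs <;> rfl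

theorem cmp_cmp_ne {μ ν : Fin n →₀ ℕ} (h : μ ≠ ν) (f : Ch n) : cmp ν (cmp μ f) = 0 := by
  funext T
  ext m
  rw [coeff_cmp, coeff_cmp]
  simp only [Pi.zero_apply, coeff_zero]
  split_ifs with h1 h2
  · exact absurd (h2.symm.trans h1) h
  · rfl
  · rfl

theorem KD_cmp (μ : Fin n →₀ ℕ) (f : Ch n) : KD (cmp μ f) = cmp μ (KD f) := by
  funext U
  ext m
  rw [coeff_cmp, coeff_KD, coeff_KD]
  have key1 : ∀ t ∈ Uᶜ, sg U t * (if t ∈ m.support then
        coeff (m - Finsupp.single t 1) (cmp μ f (insert t U)) else 0) =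
      if m + e1 U = μ then sg U t * (if t ∈ m.support then
        coeff (m - Finsupp.single t 1) (f (insert t U)) else 0) else 0 := by
    intro t ht
    have htU : t ∉ U := by simpa using ht
    by_cases h4 : t ∈ m.support
    · rw [if_pos h4, if_pos h4, coeff_cmp, e1_insert htU, ← add_assoc, tsub_add_cancel_of_le]
      · split_ifs <;> simp
      · rw [Finsupp.single_le_iff]
        have := Finsupp.mem_support_iff.1 h4
        omega
    · rw [if_neg h4, if_neg h4]
      split_ifs <;> simp
  rw [Finset.sum_congr rfl key1]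
  split_ifs
  · rfl
  · simp

/-- The leading exponents of the homogeneous elements of `I`. -/
def lead (I : Submodule ℂ (MvPolynomial (Fin n) ℂ)) : Set (Fin n →₀ ℕ) :=
  {m | ∃ f ∈ I, coeff m f ≠ 0 ∧ ∀ m', coeff m' f ≠ 0 → m'.degree = m.degree ∧ key m' ≤ key m}

/-- The span of the monomials in `J`. -/
def monId (J : Set (Fin n →₀ ℕ)) : Submodule ℂ (MvPolynomial (Fin n) ℂ) where
  carrier := {f | ∀ m, coeff m f ≠ 0 → m ∈ J}
  add_mem' := by
    intro f g hf hg m h
    rw [coeff_add] at h
    by_cases h1 : coeff m f = 0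
    · exact hg m (by rwa [h1, zero_add] at h)
    · exact hf m h1
  zero_mem' := by
    intro m h
    simp at h
  smul_mem' := by
    intro a f hf m h
    rw [coeff_smul, smul_eq_mul] at h
    exact hf m (right_ne_zero_of_mul h)

theorem mem_monId {J : Set (Fin n →₀ ℕ)} {f : MvPolynomial (Fin n) ℂ} :
    f ∈ monId J ↔ ∀ m, coeff m f ≠ 0 → m ∈ J := Iff.rfl

/-- Degree piece of a subspace. -/
noncomputable def pc (I : Submodule ℂ (MvPolynomial (Fin n) ℂ)) (d : ℕ) :
    Submodule ℂ (MvPolynomial (Fin n) ℂ) :=
  homogeneousSubmodule (Fin n) ℂ d ⊓ I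

theorem isHomogeneous_iff' {f : MvPolynomial (Fin n) ℂ} {d : ℕ} :
    f.IsHomogeneous d ↔ ∀ m, coeff m f ≠ 0 → m.degree = d := by
  constructor
  · intro h m hm
    by_contra h2
    exact hm (h.coeff_eq_zero h2)
  · intro h m hm
    have := h m hm
    rw [← this, Finsupp.degree_eq_weight_one]
    rfl

theorem mem_pc {I : Submodule ℂ (MvPolynomial (Fin n) ℂ)} {d : ℕ} {f : MvPolynomial (Fin n) ℂ} :
    f ∈ pc I d ↔ (∀ m, coeff m f ≠ 0 → m.degree = d) ∧ f ∈ I := by
  unfold pc
  rw [Submodule.mem_inf, mem_homogeneousSubmodule, isHomogeneous_iff']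

theorem finiteDimensional_of_supp (Z : Submodule ℂ (MvPolynomial (Fin n) ℂ))
    (s : Finset (Fin n →₀ ℕ)) (h : ∀ f ∈ Z, ∀ m, coeff m f ≠ 0 → m ∈ s) :
    FiniteDimensional ℂ Z := by
  let φ : Z →ₗ[ℂ] (s → ℂ) :=
    { toFun := fun f x => coeff x.1 f.1
      map_add' := fun f g => by funext x; simp
      map_smul' := fun a f => by funext x; simp }
  refine FiniteDimensional.of_injective φ ?_
  rw [injective_iff_map_eq_zero]
  intro f hf
  ext m
  by_contra h2
  have hm : m ∈ s := h f.1 f.2 m (by simpa using h2)
  have := congrFun hf ⟨m, hm⟩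
  exact h2 (by simpa [φ] using this)

instance (I : Submodule ℂ (MvPolynomial (Fin n) ℂ)) (d : ℕ) : FiniteDimensional ℂ (pc I d) :=
  finiteDimensional_of_supp _ (degS n d) (fun f hf m hm => mem_degS.2 ((mem_pc.1 hf).1 m hm))

open Classical in
/-- Hilbert function of a set of exponents. -/
noncomputable def hf (J : Set (Fin n →₀ ℕ)) (d : ℕ) : ℕ := ((degS n d).filter (· ∈ J)).card

/-- The monomial component. -/
noncomputable def mc (m : Fin n →₀ ℕ) :
    MvPolynomial (Fin n) ℂ →ₗ[ℂ] MvPolynomial (Fin n) ℂ where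
  toFun f := monomial m (coeff m f)
  map_add' f g := by rw [coeff_add, map_add]
  map_smul' a f := by rw [coeff_smul, RingHom.id_apply, smul_monomial]

theorem mc_apply (m : Fin n →₀ ℕ) (f : MvPolynomial (Fin n) ℂ) :
    mc m f = monomial m (coeff m f) := rfl

/-- General count: for a space `Z` of polynomials of degree `d`, the dimension is the number of
leading exponents. -/
theorem finrank_eq_card_lead (Z : Submodule ℂ (MvPolynomial (Fin n) ℂ)) [FiniteDimensional ℂ Z]
    (d : ℕ) (hZ : ∀ f ∈ Z, ∀ m, coeff m f ≠ 0 → m.degree = d) (S : Finset (Fin n →₀ ℕ))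
    (hS : ∀ m, m ∈ S ↔ m.degree = d ∧ ∃ f ∈ Z, coeff m f ≠ 0 ∧
      ∀ m', coeff m' f ≠ 0 → key m' ≤ key m) :
    finrank ℂ Z = S.card := by
  classical
  rw [finrank_eq_sum_initial key key_injective mc (degS n d) Z]
  · have h1 : ∀ m ∈ degS n d, finrank ℂ ((lowPart key mc (degS n d) Z m).map (mc m)) =
        if m ∈ S then 1 else 0 := by
      intro m hm
      split_ifs with h
      · obtain ⟨-, f, hf, hfm, hf2⟩ := (hS m).1 h
        have : (lowPart key mc (degS n d) Z m).map (mc m) = ℂ ∙ (monomial m (1 : ℂ)) := by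
          apply le_antisymm
          · rintro _ ⟨g, -, rfl⟩
            rw [mc_apply, Submodule.mem_span_singleton]
            exact ⟨coeff m g, by rw [smul_monomial, smul_eq_mul, mul_one]⟩
          · rw [Submodule.span_singleton_le_iff_mem]
            refine ⟨(coeff m f)⁻¹ • f, ?_, ?_⟩
            · refine ⟨Z.smul_mem _ hf, fun j hj hij => ?_⟩
              rw [mc_apply, coeff_smul]
              have : coeff j f = 0 := by
                by_contra hne
                exact absurd hij (not_lt.2 (hf2 j hne))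
              rw [this, smul_zero, map_zero]
            · rw [mc_apply, coeff_smul, smul_eq_mul, inv_mul_cancel₀ hfm]
        rw [this]
        exact finrank_span_singleton (by simp [monomial_eq_zero])
      · have : (lowPart key mc (degS n d) Z m).map (mc m) = ⊥ := by
          rw [Submodule.eq_bot_iff]
          rintro _ ⟨f, ⟨hf, hf2⟩, rfl⟩
          rw [mc_apply]
          by_contra hne
          apply h
          rw [hS]
          refine ⟨mem_degS.1 hm, f, hf, fun h0 => hne (by rw [h0, map_zero]), fun m' hm' => ?_⟩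
          by_contra hlt
          have := hf2 m' (mem_degS.2 (hZ f hf m' hm')) (not_le.1 hlt)
          rw [mc_apply, monomial_eq_zero] at this
          exact hm' this
        rw [this, finrank_bot]
    rw [Finset.sum_congr rfl h1, Finset.sum_ite_mem, Finset.sum_const, smul_eq_mul, mul_one]
    congr 1
    rw [Finset.inter_eq_right]
    intro m hm
    exact mem_degS.2 ((hS m).1 hm).1
  · intro f hf h
    ext m
    by_contra hne
    rw [coeff_zero] at hne
    have := h m (mem_degS.2 (hZ f hf m hne))
    rw [mc_apply, monomial_eq_zero] at this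
    exact hne this

theorem hf_lead (I : Submodule ℂ (MvPolynomial (Fin n) ℂ)) (d : ℕ) :
    finrank ℂ (pc I d) = hf (lead I) d := by
  classical
  unfold hf
  apply finrank_eq_card_lead (pc I d) d (fun _ hf => (mem_pc.1 hf).1)
  intro m
  rw [Finset.mem_filter, mem_degS]
  constructor
  · rintro ⟨h1, f, hf, h2, h3⟩
    exact ⟨h1, f, mem_pc.2 ⟨fun m' hm' => by rw [(h3 m' hm').1, h1], hf⟩, h2,
      fun m' hm' => (h3 m' hm').2⟩
  · rintro ⟨h1, f, hf, h2, h3⟩
    have := mem_pc.1 hf
    exact ⟨h1, f, this.2, h2, fun m' hm' => ⟨by rw [this.1 m' hm', h1], h3 m' hm'⟩⟩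

theorem lead_upClosed (I : Submodule ℂ (MvPolynomial (Fin n) ℂ))
    (hX : ∀ t, ∀ f ∈ I, X t * f ∈ I) (m : Fin n →₀ ℕ) (hm : m ∈ lead I) (t : Fin n) :
    m + Finsupp.single t 1 ∈ lead I := by
  obtain ⟨f, hf, h1, h2⟩ := hm
  refine ⟨X t * f, hX t f hf, ?_, ?_⟩
  · rw [add_comm, coeff_X_mul]; exact h1
  · intro m' hm'
    rw [coeff_X_mul'] at hm'
    split_ifs at hm' with h3
    · obtain ⟨h4, h5⟩ := h2 _ hm'
      have h6 : m' = (m' - Finsupp.single t 1) + Finsupp.single t 1 := by
        rw [tsub_add_cancel_of_le]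
        rw [Finsupp.single_le_iff]
        have := Finsupp.mem_support_iff.1 h3
        omega
      constructor
      · rw [h6, map_add, map_add, h4]
      · rw [h6]
        rw [← not_lt, key_add_lt, not_lt]
        exact h5
    · exact absurd rfl hm'

theorem monomial_mem_lead (I : Submodule ℂ (MvPolynomial (Fin n) ℂ)) (m : Fin n →₀ ℕ)
    (h : monomial m (1 : ℂ) ∈ I) : m ∈ lead I := by
  refine ⟨_, h, by simp, fun m' hm' => ?_⟩
  rw [coeff_monomial] at hm'
  split_ifs at hm' with h1
  · subst h1; exact ⟨rfl, le_rfl⟩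
  · exact absurd rfl hm'

/-- Semicontinuity. -/
theorem zd_le_zd_lead (I : Submodule ℂ (MvPolynomial (Fin n) ℂ)) (p j : ℕ) :
    zd I p j ≤ zd (monId (lead I)) p j := by
  classical
  unfold zd
  refine finrank_le_of_initial key key_injective cmp cmp_cmp_self
    (fun i j hij f => cmp_cmp_ne hij f) (degS n j) _ _ ?_ ?_
  · intro f hf h
    funext T
    ext m
    by_contra hne
    rw [Pi.zero_apply, coeff_zero] at hne
    have h1 := hf.1 T m hne
    have h2 := h (m + e1 T) (by rw [mem_degS, map_add, degree_e1]; omega)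
    have h3 := coeff_cmp (m + e1 T) f T m
    rw [h2, if_pos rfl] at h3
    exact hne (by simpa using h3.symm)
  · intro μ hμ f hf h
    rw [mem_zsp]
    constructor
    · intro T m hm
      rw [coeff_cmp] at hm
      split_ifs at hm with h1
      · exact hf.1 T m hm
      · exact absurd rfl hm
    · intro U
      rw [KD_cmp, mem_monId]
      intro m hm
      rw [coeff_cmp] at hm
      split_ifs at hm with h1
      · refine ⟨KD f U, hf.2 U, hm, fun m' hm' => ?_⟩
        have hdeg : ∀ m'', coeff m'' (KD f U) ≠ 0 → (m'' + e1 U).degree = j := by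
          intro m'' hm''
          rw [coeff_KD] at hm''
          obtain ⟨t, ht, h2⟩ := Finset.exists_ne_zero_of_sum_ne_zero hm''
          have h3 := right_ne_zero_of_mul h2
          have htU : t ∉ U := by simpa using ht
          split_ifs at h3 with h4
          · have h5 := hf.1 _ _ h3
            have h7 : m'' = (m'' - Finsupp.single t 1) + Finsupp.single t 1 := by
              rw [tsub_add_cancel_of_le]
              rw [Finsupp.single_le_iff]
              have := Finsupp.mem_support_iff.1 h4
              omega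
            have h8 : m''.degree = (m'' - Finsupp.single t 1).degree + 1 := by
              conv_lhs => rw [h7]
              rw [map_add, Finsupp.degree_single]
            rw [Finset.card_insert_of_notMem htU] at h5
            rw [map_add, degree_e1]
            omega
          · exact absurd rfl h3
        constructor
        · have h2 := hdeg m' hm'
          have h3 := hdeg m hm
          rw [map_add] at h2 h3
          omega
        · by_contra hlt
          rw [not_le, ← key_add_lt (e1 U), h1] at hlt
          have h4 := h (m' + e1 U) (mem_degS.2 (hdeg m' hm')) hlt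
          have h5 := coeff_cmp (m' + e1 U) (KD f) U m'
          rw [if_pos rfl, ← KD_cmp, h4, map_zero, Pi.zero_apply, coeff_zero] at h5
          exact hm' h5.symm
      · exact absurd rfl hm

end Crest.Agent.R181.Mon
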