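import Crest.Agent.R181.MonLink

/-!
# Slicing the Koszul complex by the last variable
-/

namespace Crest.Agent.R181.Mon

open Module Finset

variable {n : ℕ}

/-- embed a set of variables -/
def emb (T : Finset (Fin n)) : Finset (Fin (n + 1)) := T.map Fin.castSuccEmb

/-- embed a set of variables and add the last one -/
def embL (T : Finset (Fin n)) : Finset (Fin (n + 1)) := insert (Fin.last n) (emb T)

theorem castSucc_mem_emb {T : Finset (Fin n)} {t : Fin n} : t.castSucc ∈ emb T ↔ t ∈ T := by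
  unfold emb
  rw [Finset.mem_map]
  constructor
  · rintro ⟨s, hs, h⟩
    rw [Fin.castSuccEmb_apply] at h
    rwa [← Fin.castSucc_injective n h]
  · intro h
    exact ⟨t, h, rfl⟩

theorem last_notMem_emb (T : Finset (Fin n)) : Fin.last n ∉ emb T := by
  unfold emb
  rw [Finset.mem_map]
  rintro ⟨s, _, h⟩
  rw [Fin.castSuccEmb_apply] at h
  exact absurd h (ne_of_lt (Fin.castSucc_lt_last s))

theorem last_mem_embL (T : Finset (Fin n)) : Fin.last n ∈ embL T := Finset.mem_insert_self _ _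

theorem castSucc_mem_embL {T : Finset (Fin n)} {t : Fin n} : t.castSucc ∈ embL T ↔ t ∈ T := by
  unfold embL
  rw [Finset.mem_insert, castSucc_mem_emb]
  constructor
  · rintro (h | h)
    · exact absurd h (ne_of_lt (Fin.castSucc_lt_last t))
    · exact h
  · exact Or.inr

theorem insert_emb (T : Finset (Fin n)) (t : Fin n) :
    insert t.castSucc (emb T) = emb (insert t T) := by
  unfold emb
  rw [Finset.map_insert]; rfl

theorem insert_embL (T : Finset (Fin n)) (t : Fin n) :
    insert t.castSucc (embL T) = embL (insert t T) := by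
  unfold embL
  rw [Finset.insert_comm, insert_emb]

theorem card_emb (T : Finset (Fin n)) : (emb T).card = T.card := Finset.card_map _

theorem card_embL (T : Finset (Fin n)) : (embL T).card = T.card + 1 := by
  unfold embL
  rw [Finset.card_insert_of_notMem (last_notMem_emb T), card_emb]

theorem sg_emb (U : Finset (Fin n)) (t : Fin n) : sg (emb U) t.castSucc = sg U t := by
  unfold sg emb
  rw [Finset.filter_map, Finset.card_map]
  rfl

theorem sg_embL (U : Finset (Fin n)) (t : Fin n) : sg (embL U) t.castSucc = sg U t := by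
  have h := sg_emb U t
  unfold sg at h ⊢
  unfold embL
  rw [Finset.filter_insert, if_neg (not_lt.2 (Fin.castSucc_lt_last t).le)]
  exact h

theorem sg_emb_last (U : Finset (Fin n)) : sg (emb U) (Fin.last n) = (-1) ^ U.card := by
  rw [sg_last _ (last_notMem_emb U), card_emb]

/-- restrict a set of variables -/
def res (T : Finset (Fin (n + 1))) : Finset (Fin n) := Finset.univ.filter (fun t => t.castSucc ∈ T)

theorem res_emb (T : Finset (Fin n)) : res (emb T) = T := by
  ext t
  unfold res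
  rw [Finset.mem_filter, castSucc_mem_emb]
  simp

theorem res_embL (T : Finset (Fin n)) : res (embL T) = T := by
  ext t
  unfold res
  rw [Finset.mem_filter, castSucc_mem_embL]
  simp

theorem eq_emb {T : Finset (Fin (n + 1))} (h : Fin.last n ∉ T) : T = emb (res T) := by
  ext t
  refine Fin.lastCases ?_ (fun t => ?_) t
  · exact ⟨fun h' => absurd h' h, fun h' => absurd h' (last_notMem_emb _)⟩
  · rw [castSucc_mem_emb]
    unfold res
    rw [Finset.mem_filter]
    simp

theorem eq_embL {T : Finset (Fin (n + 1))} (h : Fin.last n ∈ T) : T = embL (res T) := by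
  ext t
  refine Fin.lastCases ?_ (fun t => ?_) t
  · exact ⟨fun _ => last_mem_embL _, fun _ => h⟩
  · rw [castSucc_mem_embL]
    unfold res
    rw [Finset.mem_filter]
    simp

/-- slice of a chain without the last variable -/
def s0 (g : ℕ) : Fn (n + 1) →ₗ[ℂ] Fn n where
  toFun f T u := f (emb T) (sn u g)
  map_add' _ _ := rfl
  map_smul' _ _ := rfl

/-- slice of a chain with the last variable -/
def s1 (g : ℕ) : Fn (n + 1) →ₗ[ℂ] Fn n where
  toFun f T u := f (embL T) (sn u g)
  map_add' _ _ := rfl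
  map_smul' _ _ := rfl

/-- sign twist -/
noncomputable def tw : Fn n →ₗ[ℂ] Fn n where
  toFun f T u := (-1) ^ T.card * f T u
  map_add' f g := by funext T u; simp only [Pi.add_apply, mul_add]
  map_smul' a f := by
    funext T u
    simp only [Pi.smul_apply, smul_eq_mul, RingHom.id_apply]; ring

theorem s0_apply (g : ℕ) (f : Fn (n + 1)) (T : Finset (Fin n)) (u : Fin n → ℕ) :
    s0 g f T u = f (emb T) (sn u g) := rfl
theorem s1_apply (g : ℕ) (f : Fn (n + 1)) (T : Finset (Fin n)) (u : Fin n → ℕ) :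
    s1 g f T u = f (embL T) (sn u g) := rfl
theorem tw_apply (f : Fn n) (T : Finset (Fin n)) (u : Fin n → ℕ) :
    tw f T u = (-1) ^ T.card * f T u := rfl

theorem tw_tw (f : Fn n) : tw (tw f) = f := by
  funext T u
  rw [tw_apply, tw_apply, ← mul_assoc, ← mul_pow]
  norm_num

theorem cD_tw (f : Fn n) : cD (tw f) = - tw (cD f) := by
  funext U m
  rw [Pi.neg_apply, Pi.neg_apply, tw_apply, cD_apply, cD_apply, Finset.mul_sum,
    ← Finset.sum_neg_distrib]
  refine Finset.sum_congr rfl fun t _ => ?_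
  split_ifs with h
  · ring
  · rw [not_or] at h
    rw [tw_apply, Finset.card_insert_of_notMem h.1, pow_succ]
    ring

theorem s0_cD (g : ℕ) (f : Fn (n + 1)) (U : Finset (Fin n)) (u : Fin n → ℕ) :
    cD f (emb U) (sn u g) = cD (s0 g f) U u +
      (if g = 0 then 0 else (-1) ^ U.card * s1 (g - 1) f U u) := by
  rw [cD_apply, Fin.sum_univ_castSucc, cD_apply]
  congr 1
  · refine Finset.sum_congr rfl fun t _ => ?_
    rw [sn_castSucc, sg_emb, insert_emb, dec_sn_castSucc, s0_apply]
    simp only [castSucc_mem_emb]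
  · rw [sn_last, sg_emb_last, dec_sn_last, s1_apply]
    by_cases h : g = 0
    · rw [if_pos h, if_pos (Or.inr h)]
    · rw [if_neg h, if_neg (not_or.2 ⟨last_notMem_emb U, h⟩)]
      rfl

theorem s1_cD (g : ℕ) (f : Fn (n + 1)) (U : Finset (Fin n)) (u : Fin n → ℕ) :
    cD f (embL U) (sn u g) = cD (s1 g f) U u := by
  rw [cD_apply, Fin.sum_univ_castSucc, cD_apply, if_pos (Or.inl (last_mem_embL U)), add_zero]
  refine Finset.sum_congr rfl fun t _ => ?_
  rw [sn_castSucc, sg_embL, insert_embL, dec_sn_castSucc, s1_apply]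
  simp only [castSucc_mem_embL]

/-- the first part of a slice -/
def As (J : Set (Fin (n + 1) → ℕ)) (p j g : ℕ) : Submodule ℂ (Fn n) where
  carrier := {F | (∀ T u, F T u ≠ 0 → T.card = p + 1 ∧ dg u + g + (p + 1) = j) ∧
    (g = 0 → ∀ U u, sn u 0 ∉ J → cD F U u = 0)}
  add_mem' := by
    rintro f h ⟨hf1, hf2⟩ ⟨hh1, hh2⟩
    refine ⟨?_, ?_⟩
    · intro T m hne
      rw [Pi.add_apply, Pi.add_apply] at hne
      by_cases h1 : f T m = 0
      · exact hh1 T m (by rwa [h1, zero_add] at hne)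
      · exact hf1 T m h1
    · intro hg U u hu
      rw [map_add, Pi.add_apply, Pi.add_apply, hf2 hg U u hu, hh2 hg U u hu, add_zero]
  zero_mem' := by
    refine ⟨fun T m h => absurd rfl h, ?_⟩
    intro _ U u _
    rw [map_zero]; rfl
  smul_mem' := by
    rintro a f ⟨hf1, hf2⟩
    refine ⟨?_, ?_⟩
    · intro T m hne
      rw [Pi.smul_apply, Pi.smul_apply, smul_eq_mul] at hne
      exact hf1 T m (right_ne_zero_of_mul hne)
    · intro hg U u hu
      rw [map_smul, Pi.smul_apply, Pi.smul_apply, hf2 hg U u hu, smul_zero]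

/-- the second part of a slice -/
def Bs (J : Set (Fin (n + 1) → ℕ)) (p j g : ℕ) : Submodule ℂ (Fn n) where
  carrier := {F | (∀ T u, F T u ≠ 0 → (T.card = p ∧ dg u + g + p = j) ∧ 0 < g ∧ sn u g ∈ J) ∧
    (∀ U u, sn u (g - 1) ∉ J → cD F U u = 0)}
  add_mem' := by
    rintro f h ⟨hf1, hf2⟩ ⟨hh1, hh2⟩
    refine ⟨?_, ?_⟩
    · intro T m hne
      rw [Pi.add_apply, Pi.add_apply] at hne
      by_cases h1 : f T m = 0
      · exact hh1 T m (by rwa [h1, zero_add] at hne)
      · exact hf1 T m h1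
    · intro U u hu
      rw [map_add, Pi.add_apply, Pi.add_apply, hf2 U u hu, hh2 U u hu, add_zero]
  zero_mem' := by
    refine ⟨fun T m h => absurd rfl h, ?_⟩
    intro U u _
    rw [map_zero]; rfl
  smul_mem' := by
    rintro a f ⟨hf1, hf2⟩
    refine ⟨?_, ?_⟩
    · intro T m hne
      rw [Pi.smul_apply, Pi.smul_apply, smul_eq_mul] at hne
      exact hf1 T m (right_ne_zero_of_mul hne)
    · intro U u hu
      rw [map_smul, Pi.smul_apply, Pi.smul_apply, hf2 U u hu, smul_zero]

theorem As_le (J : Set (Fin (n + 1) → ℕ)) (p j g : ℕ) : As J p j g ≤ cch n (p + 1) (j - g) := by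
  intro f hf T m h
  have := hf.1 T m h
  omega

theorem Bs_le (J : Set (Fin (n + 1) → ℕ)) (p j g : ℕ) : Bs J p j g ≤ cch n p (j - g) := by
  intro f hf T m h
  have := (hf.1 T m h).1
  omega

instance (J : Set (Fin (n + 1) → ℕ)) (p j g : ℕ) : FiniteDimensional ℂ (As J p j g) :=
  Submodule.finiteDimensional_of_le (As_le J p j g)

instance (J : Set (Fin (n + 1) → ℕ)) (p j g : ℕ) : FiniteDimensional ℂ (Bs J p j g) :=
  Submodule.finiteDimensional_of_le (Bs_le J p j g)

theorem s0_mem_As {J : Set (Fin (n + 1) → ℕ)} {p j : ℕ} {f : Fn (n + 1)}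
    (hf : f ∈ czs J (p + 1) j) (g : ℕ) : s0 g f ∈ As J p j g := by
  refine ⟨?_, ?_⟩
  · intro T u h
    have := hf.1 _ _ h
    rw [card_emb, dg_sn] at this
    exact this
  · rintro rfl U u hu
    have h1 := s0_cD 0 f U u
    rw [if_pos rfl, add_zero] at h1
    rw [← h1]
    exact hf.2 _ _ hu

/-- the twisted second slice -/
noncomputable def hh (g : ℕ) : Fn (n + 1) →ₗ[ℂ] Fn n :=
  if g = 0 then 0 else s1 (g - 1) + tw ∘ₗ cD ∘ₗ s0 g

theorem hh_zero : hh 0 = (0 : Fn (n + 1) →ₗ[ℂ] Fn n) := by unfold hh; rw [if_pos rfl]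

theorem hh_succ (g : ℕ) (f : Fn (n + 1)) : hh (g + 1) f = s1 g f + tw (cD (s0 (g + 1) f)) := by
  unfold hh
  rw [if_neg (Nat.succ_ne_zero g)]
  rfl

theorem cD_hh_succ {J : Set (Fin (n + 1) → ℕ)} {p j : ℕ} {f : Fn (n + 1)}
    (hf : f ∈ czs J (p + 1) j) (g : ℕ) : cD (hh (g + 1) f) = cD (s1 g f) := by
  rw [hh_succ, map_add, cD_tw, cD_cD (As_le J p j _ (s0_mem_As hf (g + 1))), map_zero, neg_zero,
    add_zero]

theorem hh_mem_Bs {J : Set (Fin (n + 1) → ℕ)} {p j : ℕ} {f : Fn (n + 1)}
    (hf : f ∈ czs J (p + 1) j) (g : ℕ) : hh g f ∈ Bs J p j g := by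
  rcases Nat.eq_zero_or_pos g with rfl | hg
  · rw [hh_zero]; exact Submodule.zero_mem _
  obtain ⟨g, rfl⟩ : ∃ g', g = g' + 1 := ⟨g - 1, by omega⟩
  refine ⟨?_, ?_⟩
  · intro T u h
    rw [hh_succ, Pi.add_apply, Pi.add_apply, tw_apply] at h
    refine ⟨?_, Nat.succ_pos g, ?_⟩
    · by_cases h1 : s1 g f T u = 0
      · rw [h1, zero_add] at h
        obtain ⟨t, ht1, ht2, ht3⟩ := cD_ne_zero (right_ne_zero_of_mul h)
        have h2 := (s0_mem_As hf (g + 1)).1 _ _ ht3
        rw [Finset.card_insert_of_notMem ht1] at h2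
        have h3 := dg_dec u t ht2
        omega
      · have h2 := hf.1 _ _ h1
        rw [card_embL, dg_sn] at h2
        omega
    · by_contra hJ
      apply h
      have h1 := s0_cD (g + 1) f T u
      rw [if_neg (Nat.succ_ne_zero g), hf.2 _ _ hJ, Nat.add_sub_cancel] at h1
      have h2 : cD (s0 (g + 1) f) T u = - ((-1) ^ T.card * s1 g f T u) :=
        eq_neg_of_add_eq_zero_left h1.symm
      rw [h2, mul_neg, ← mul_assoc, ← mul_pow]
      norm_num
  · intro U u hu
    rw [Nat.add_sub_cancel] at hu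
    rw [cD_hh_succ hf, ← s1_cD]
    exact hf.2 _ _ hu

/-- assemble a chain from its slices -/
def mk (F0 F1 : ℕ → Fn n) : Fn (n + 1) := fun T m =>
  if Fin.last n ∈ T then F1 (m (Fin.last n)) (res T) (Fin.init m)
  else F0 (m (Fin.last n)) (res T) (Fin.init m)

theorem init_sn (u : Fin n → ℕ) (g : ℕ) : Fin.init (sn u g) = u := by
  unfold sn; rw [Fin.init_snoc]

theorem s0_mk (F0 F1 : ℕ → Fn n) (g : ℕ) : s0 g (mk F0 F1) = F0 g := by
  funext T u
  rw [s0_apply]
  unfold mk
  rw [if_neg (last_notMem_emb T), sn_last, res_emb, init_sn]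

theorem s1_mk (F0 F1 : ℕ → Fn n) (g : ℕ) : s1 g (mk F0 F1) = F1 g := by
  funext T u
  rw [s1_apply]
  unfold mk
  rw [if_pos (last_mem_embL T), sn_last, res_embL, init_sn]

theorem eq_of_slices {f f' : Fn (n + 1)} (h0 : ∀ g, s0 g f = s0 g f') (h1 : ∀ g, s1 g f = s1 g f') :
    f = f' := by
  funext T m
  obtain ⟨u, g, rfl⟩ := exists_sn m
  by_cases h : Fin.last n ∈ T
  · rw [eq_embL h]
    exact congrFun (congrFun (h1 g) (res T)) u
  · rw [eq_emb h]
    exact congrFun (congrFun (h0 g) (res T)) u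

/-- the slicing map -/
noncomputable def slicing (J : Set (Fin (n + 1) → ℕ)) (p j N : ℕ) :
    czs J (p + 1) j →ₗ[ℂ] ((g : Fin N) → As J p j g × Bs J p j g) where
  toFun f g := (⟨s0 g f.1, s0_mem_As f.2 g⟩, ⟨hh g f.1, hh_mem_Bs f.2 g⟩)
  map_add' f f' := by
    funext g
    apply Prod.ext
    · apply Subtype.ext; exact map_add (s0 (g : ℕ)) f.1 f'.1
    · apply Subtype.ext; exact map_add (hh (g : ℕ)) f.1 f'.1
  map_smul' a f := by
    funext g
    apply Prod.ext
    · apply Subtype.ext; exact map_smul (s0 (g : ℕ)) a f.1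
    · apply Subtype.ext; exact map_smul (hh (g : ℕ)) a f.1

theorem slicing_injective (J : Set (Fin (n + 1) → ℕ)) (p j N : ℕ) (hN : j < N) :
    Function.Injective (slicing J p j N) := by
  rw [injective_iff_map_eq_zero]
  intro f hf
  apply Subtype.ext
  have h0 : ∀ g, s0 g f.1 = 0 := by
    intro g
    by_cases hg : g < N
    · exact congrArg (fun x => x.1.1) (congrFun hf ⟨g, hg⟩)
    · funext T u
      by_contra hne
      have := (s0_mem_As f.2 g).1 T u hne
      omega
  refine eq_of_slices (fun g => ?_) (fun g => ?_)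
  · rw [h0]; exact (map_zero (s0 g)).symm
  · have h1 : s1 g f.1 = 0 := by
      by_cases hg : g + 1 < N
      · have h2 : hh (g + 1) f.1 = 0 := congrArg (fun x => x.2.1) (congrFun hf ⟨g + 1, hg⟩)
        rw [hh_succ, h0, map_zero, map_zero, add_zero] at h2
        exact h2
      · funext T u
        by_contra hne
        have h2 := f.2.1 _ _ hne
        rw [card_embL, dg_sn] at h2
        omega
    rw [h1]; exact (map_zero (s1 g)).symm

theorem slicing_surjective (J : Set (Fin (n + 1) → ℕ)) (p j N : ℕ) :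
    Function.Surjective (slicing J p j N) := by
  intro F
  let F0 : ℕ → Fn n := fun g => if h : g < N then (F ⟨g, h⟩).1.1 else 0
  let H : ℕ → Fn n := fun g => if h : g < N then (F ⟨g, h⟩).2.1 else 0
  have hF0 : ∀ g, F0 g ∈ As J p j g := by
    intro g
    by_cases h : g < N
    · simp only [F0, dif_pos h]; exact (F ⟨g, h⟩).1.2
    · simp only [F0, dif_neg h]; exact Submodule.zero_mem _
  have hH : ∀ g, H g ∈ Bs J p j g := by
    intro g
    by_cases h : g < N
    · simp only [H, dif_pos h]; exact (F ⟨g, h⟩).2.2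
    · simp only [H, dif_neg h]; exact Submodule.zero_mem _
  let F1 : ℕ → Fn n := fun g => H (g + 1) - tw (cD (F0 (g + 1)))
  have hF1D : ∀ g, cD (F1 g) = cD (H (g + 1)) := by
    intro g
    simp only [F1]
    rw [map_sub, cD_tw, cD_cD (As_le J p j _ (hF0 (g + 1))), map_zero, neg_zero, sub_zero]
  have hmem : mk F0 F1 ∈ czs J (p + 1) j := by
    rw [mem_czs]
    constructor
    · intro T m hne
      obtain ⟨u, g, rfl⟩ := exists_sn m
      by_cases h : Fin.last n ∈ T
      · rw [eq_embL h] at hne ⊢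
        have h1 : F1 g (res T) u ≠ 0 := by rw [← s1_mk F0 F1]; exact hne
        rw [card_embL, dg_sn]
        by_cases h2 : H (g + 1) (res T) u = 0
        · simp only [F1, Pi.sub_apply, h2, zero_sub, ne_eq, neg_eq_zero] at h1
          rw [tw_apply] at h1
          obtain ⟨t, ht1, ht2, ht3⟩ := cD_ne_zero (right_ne_zero_of_mul h1)
          have h2 := (hF0 (g + 1)).1 _ _ ht3
          rw [Finset.card_insert_of_notMem ht1] at h2
          have h3 := dg_dec u t ht2
          omega
        · have h3 := ((hH (g + 1)).1 _ _ h2).1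
          omega
      · rw [eq_emb h] at hne ⊢
        have h1 : F0 g (res T) u ≠ 0 := by rw [← s0_mk F0 F1]; exact hne
        rw [card_emb, dg_sn]
        exact (hF0 g).1 _ _ h1
    · intro U m hm
      obtain ⟨u, g, rfl⟩ := exists_sn m
      by_cases h : Fin.last n ∈ U
      · rw [eq_embL h, s1_cD, s1_mk, hF1D]
        exact (hH (g + 1)).2 _ _ (by rwa [Nat.add_sub_cancel])
      · rw [eq_emb h, s0_cD, s0_mk]
        rcases Nat.eq_zero_or_pos g with rfl | hg
        · rw [if_pos rfl, add_zero]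
          exact (hF0 0).2 rfl _ _ hm
        · obtain ⟨g, rfl⟩ : ∃ g', g = g' + 1 := ⟨g - 1, by omega⟩
          rw [if_neg (Nat.succ_ne_zero g), Nat.add_sub_cancel, s1_mk]
          have h1 : H (g + 1) (res U) u = 0 := by
            by_contra hne
            exact hm ((hH (g + 1)).1 _ _ hne).2.2
          simp only [F1, Pi.sub_apply, h1, zero_sub]
          rw [tw_apply, mul_neg, ← mul_assoc, ← mul_pow]
          norm_num
  refine ⟨⟨mk F0 F1, hmem⟩, ?_⟩
  funext g
  apply Prod.ext
  · apply Subtype.ext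
    change s0 (g : ℕ) (mk F0 F1) = _
    rw [s0_mk]
    simp only [F0, dif_pos g.2]
  · apply Subtype.ext
    change hh (g : ℕ) (mk F0 F1) = _
    have hgen : ∀ g : ℕ, hh g (mk F0 F1) = H g := by
      intro g
      rcases Nat.eq_zero_or_pos g with rfl | hg
      · rw [hh_zero]
        funext T u
        symm
        by_contra hne
        exact absurd ((hH 0).1 T u hne).2.1 (lt_irrefl _)
      · obtain ⟨g', rfl⟩ : ∃ g', g = g' + 1 := ⟨g - 1, by omega⟩
        rw [hh_succ, s1_mk, s0_mk]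
        simp only [F1]
        rw [sub_add_cancel]
    rw [hgen]
    simp only [H, dif_pos g.2]

theorem cz_slices (J : Set (Fin (n + 1) → ℕ)) (p j N : ℕ) (hN : j < N) :
    cz J (p + 1) j = ∑ g ∈ Finset.range N,
      (finrank ℂ (As J p j g) + finrank ℂ (Bs J p j g)) := by
  unfold cz
  rw [(LinearEquiv.ofBijective (slicing J p j N) ⟨slicing_injective J p j N hN,
    slicing_surjective J p j N⟩).finrank_eq, Module.finrank_pi_fintype,
    ← Fin.sum_univ_eq_sum_range (fun g => finrank ℂ (As J p j g) + finrank ℂ (Bs J p j g))]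
  refine Finset.sum_congr rfl fun g _ => ?_
  rw [Module.finrank_prod]

theorem As_zero (J : Set (Fin (n + 1) → ℕ)) (p j : ℕ) :
    finrank ℂ (As J p j 0) = cz (sl J 0) (p + 1) j := by
  unfold cz
  have : As J p j 0 = czs (sl J 0) (p + 1) j := by
    ext f
    constructor
    · rintro ⟨h1, h2⟩
      exact ⟨h1, fun U m hm => h2 rfl U m hm⟩
    · rintro ⟨h1, h2⟩
      exact ⟨h1, fun _ U m hm => h2 U m hm⟩
  rw [this]

theorem As_pos (J L : Set (Fin (n + 1) → ℕ)) (p j g : ℕ) (hg : 0 < g) :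
    finrank ℂ (As J p j g) = finrank ℂ (As L p j g) := by
  have : As J p j g = As L p j g := by
    ext f
    constructor
    · rintro ⟨h1, _⟩
      exact ⟨h1, fun h => absurd h hg.ne'⟩
    · rintro ⟨h1, _⟩
      exact ⟨h1, fun h => absurd h hg.ne'⟩
  rw [this]

/-- index set for the middle slices -/
noncomputable def XB (K : Set (Fin n → ℕ)) (p d : ℕ) : Finset (Finset (Fin n) × (Fin n → ℕ)) :=
  Finset.powersetCard p Finset.univ ×ˢ cF K d

theorem mem_XB {K : Set (Fin n → ℕ)} {p d : ℕ} {T : Finset (Fin n)} {u : Fin n → ℕ} :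
    (T, u) ∈ XB K p d ↔ T.card = p ∧ dg u = d ∧ u ∈ K := by
  unfold XB
  rw [Finset.mem_product, Finset.mem_powersetCard, mem_cF]
  simp

theorem card_XB (K : Set (Fin n → ℕ)) (p d : ℕ) : (XB K p d).card = n.choose p * cH K d := by
  unfold XB
  rw [Finset.card_product, Finset.card_powersetCard, Finset.card_univ, Fintype.card_fin]
  rfl

theorem Bs_zero (J : Set (Fin (n + 1) → ℕ)) (p j : ℕ) : finrank ℂ (Bs J p j 0) = 0 := by
  have : Bs J p j 0 = ⊥ := by
    rw [Submodule.eq_bot_iff]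
    rintro f ⟨h1, _⟩
    funext T u
    by_contra hne
    exact absurd (h1 T u hne).2.1 (lt_irrefl _)
  rw [this, finrank_bot]

theorem Bs_le_count (J : Set (Fin (n + 1) → ℕ)) (p j g : ℕ) (hpj : p ≤ j) :
    finrank ℂ (Bs J p j g) ≤
      n.choose p * cH (J ∩ {m | m (Fin.last n) = g}) (j - p) := by
  rcases lt_or_ge (j - p) g with h | h
  · have : Bs J p j g = ⊥ := by
      rw [Submodule.eq_bot_iff]
      rintro f ⟨h1, _⟩
      funext T u
      by_contra hne
      have := (h1 T u hne).1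
      omega
    rw [this, finrank_bot]
    exact Nat.zero_le _
  · obtain ⟨e, he⟩ : ∃ e, j - p = e + g := ⟨j - p - g, by omega⟩
    rw [he, cH_slice, ← card_XB, ← finrank_SX]
    apply Submodule.finrank_mono
    rintro f ⟨h1, _⟩ T u hne
    obtain ⟨h2, _, h3⟩ := h1 T u hne
    rw [mem_XB]
    exact ⟨h2.1, by omega, h3⟩

theorem Bs_eq_count {J : Set (Fin (n + 1) → ℕ)} {A : ℕ} (hst : Stb A J) (p j g : ℕ) (hpj : p ≤ j)
    (hg : 0 < g) (hgA : g < A) :
    finrank ℂ (Bs J p j g) =
      n.choose p * cH (J ∩ {m | m (Fin.last n) = g}) (j - p) := by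
  apply le_antisymm (Bs_le_count J p j g hpj)
  rcases lt_or_ge (j - p) g with h | h
  · rw [cH_slice_zero _ h, mul_zero]
    exact Nat.zero_le _
  · obtain ⟨e, he⟩ : ∃ e, j - p = e + g := ⟨j - p - g, by omega⟩
    rw [he, cH_slice, ← card_XB, ← finrank_SX]
    apply Submodule.finrank_mono
    intro f hf
    refine ⟨?_, ?_⟩
    · intro T u hne
      have := mem_XB.1 (hf T u hne)
      exact ⟨⟨this.1, by omega⟩, hg, this.2.2⟩
    · intro U u hu
      by_contra hne
      obtain ⟨t, ht1, ht2, ht3⟩ := cD_ne_zero hne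
      have h1 := (mem_XB.1 (hf _ _ ht3)).2.2
      obtain ⟨g', rfl⟩ : ∃ g', g = g' + 1 := ⟨g - 1, by omega⟩
      have h2 := hst g' _ t h1 hgA
      rw [inc_dec u t ht2] at h2
      rw [Nat.add_sub_cancel] at hu
      exact hu h2

theorem Bs_top {a : Fin (n + 1) → ℕ} {J : Set (Fin (n + 1) → ℕ)} (hJ : PP a J) (p j : ℕ)
    (hA : 0 < a (Fin.last n)) (hj : a (Fin.last n) ≤ j) :
    finrank ℂ (Bs J p j (a (Fin.last n))) = cz (sl J (a (Fin.last n) - 1)) p (j - a (Fin.last n)) := by
  unfold cz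
  have : Bs J p j (a (Fin.last n)) = czs (sl J (a (Fin.last n) - 1)) p (j - a (Fin.last n)) := by
    ext f
    constructor
    · rintro ⟨h1, h2⟩
      refine ⟨fun T u hne => ?_, fun U m hm => h2 U m hm⟩
      have := (h1 T u hne).1
      omega
    · rintro ⟨h1, h2⟩
      refine ⟨fun T u hne => ?_, fun U m hm => h2 U m hm⟩
      have := h1 T u hne
      exact ⟨by omega, hA, hJ.sl_eq le_rfl u⟩
  rw [this]

theorem Bs_big (J : Set (Fin (n + 1) → ℕ)) (p j g : ℕ) (hg : j < g) :
    finrank ℂ (Bs J p j g) = 0 := by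
  have : Bs J p j g = ⊥ := by
    rw [Submodule.eq_bot_iff]
    rintro f ⟨h1, _⟩
    funext T u
    by_contra hne
    have := (h1 T u hne).1
    omega
  rw [this, finrank_bot]

theorem Bs_above {a : Fin (n + 1) → ℕ} {J L : Set (Fin (n + 1) → ℕ)} (hJ : PP a J) (hL : PP a L)
    (p j g : ℕ) (hg : a (Fin.last n) < g) :
    finrank ℂ (Bs J p j g) = finrank ℂ (Bs L p j g) := by
  have : ∀ {J' L' : Set (Fin (n + 1) → ℕ)}, PP a L' → Bs J' p j g ≤ Bs L' p j g := by
    intro J' L' hL' f hf
    refine ⟨fun T u hne => ⟨(hf.1 T u hne).1, by omega, hL'.sl_eq hg.le u⟩, fun U u hu => ?_⟩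
    exact absurd (hL'.sl_eq (show a (Fin.last n) ≤ g - 1 by omega) u) hu
  rw [le_antisymm (this hL) (this hJ)]

theorem cz_zero_homological (J : Set (Fin n → ℕ)) (j : ℕ) : czs J 0 j = cch n 0 j := by
  apply le_antisymm inf_le_left
  intro f hf
  refine ⟨hf, fun U m _ => ?_⟩
  by_contra hne
  obtain ⟨t, ht1, ht2, ht3⟩ := cD_ne_zero hne
  have := (hf _ _ ht3).1
  rw [Finset.card_insert_of_notMem ht1] at this
  exact absurd this (Nat.succ_ne_zero _)

/-- comparison of `cz` for nested sets -/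
theorem cz_add_le {K M : Set (Fin n → ℕ)} (p j : ℕ)
    (hMK : ∀ u, dg u = j - p → u ∈ M → u ∈ K) :
    cz K (p + 1) j + n.choose p * cH M (j - p) ≤
      cz M (p + 1) j + n.choose p * cH K (j - p) := by
  classical
  set X := XB (K ∩ Mᶜ) p (j - p) with hX
  let R : Fn n →ₗ[ℂ] (X → ℂ) :=
    { toFun := fun f x => cD f x.1.1 x.1.2
      map_add' := fun f g => by funext x; rw [map_add]; rfl
      map_smul' := fun c f => by funext x; rw [map_smul]; rfl }
  have h1 := finrank_map_add_finrank_inf_ker R (czs K (p + 1) j)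
  have h2 : finrank ℂ ((czs K (p + 1) j).map R) ≤ X.card := by
    refine (Submodule.finrank_le _).trans ?_
    rw [Module.finrank_fintype_fun_eq_card, Fintype.card_coe]
  have h3 : finrank ℂ ↥(czs K (p + 1) j ⊓ LinearMap.ker R) ≤ cz M (p + 1) j := by
    apply Submodule.finrank_mono
    rintro f ⟨hf1, hf2⟩
    refine ⟨hf1.1, fun U m hm => ?_⟩
    by_contra hne
    have hK : m ∈ K := by
      by_contra hK
      exact hne (hf1.2 U m hK)
    obtain ⟨t, ht1, ht2, ht3⟩ := cD_ne_zero hne
    have h4 := hf1.1 _ _ ht3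
    rw [Finset.card_insert_of_notMem ht1] at h4
    have h5 := dg_dec m t ht2
    have h6 : (U, m) ∈ X := by
      rw [hX, mem_XB]
      exact ⟨by omega, by omega, hK, hm⟩
    exact hne (congrFun hf2 ⟨(U, m), h6⟩)
  have h4 : cH (K ∩ Mᶜ) (j - p) + cH M (j - p) = cH K (j - p) := by
    rw [← cH_add K M, add_comm]
    congr 1
    apply cH_congr
    intro m hm
    exact ⟨fun h => ⟨hMK m hm h, h⟩, fun h => h.2⟩
  have h5 : X.card = n.choose p * cH (K ∩ Mᶜ) (j - p) := card_XB _ _ _
  have h6 : cz K (p + 1) j ≤ n.choose p * cH (K ∩ Mᶜ) (j - p) + cz M (p + 1) j := by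
    have h7 : cz K (p + 1) j = finrank ℂ (czs K (p + 1) j) := rfl
    omega
  rw [← h4, mul_add]
  omega

theorem arithM {N A : ℕ} {x y γx γy : ℕ → ℕ} (h1 : ∀ g, g < A → x g + γy g ≤ y g + γx g)
    (h2 : ∀ g, A ≤ g → x g ≤ y g)
    (h3 : ∑ g ∈ Finset.range A, γx g = ∑ g ∈ Finset.range A, γy g) (hN : A ≤ N) :
    ∑ g ∈ Finset.range N, x g ≤ ∑ g ∈ Finset.range N, y g := by
  have h4 : ∑ g ∈ Finset.range A, (x g + γy g) ≤ ∑ g ∈ Finset.range A, (y g + γx g) :=
    Finset.sum_le_sum fun g hg => h1 g (Finset.mem_range.1 hg)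
  rw [Finset.sum_add_distrib, Finset.sum_add_distrib, h3] at h4
  obtain ⟨k, rfl⟩ : ∃ k, N = A + k := ⟨N - A, by omega⟩
  rw [Finset.sum_range_add, Finset.sum_range_add]
  have h5 : ∑ g ∈ Finset.range k, x (A + g) ≤ ∑ g ∈ Finset.range k, y (A + g) :=
    Finset.sum_le_sum fun g _ => h2 _ (Nat.le_add_right _ _)
  omega

/-- The comparison of `cz` in `n + 1` variables. -/
theorem cz_compare {a : Fin (n + 1) → ℕ} (hA : 0 < a (Fin.last n)) {J L : Set (Fin (n + 1) → ℕ)}
    (hJP : PP a J) (hLP : PP a L) (hLs : Stb (a (Fin.last n)) L) (hc : ∀ d, cH J d = cH L d)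
    (p j : ℕ) (hpj : p ≤ j)
    (h0 : cz (sl J 0) (p + 1) j + n.choose p * cH (sl L 0) (j - p) ≤
      cz (sl L 0) (p + 1) j + n.choose p * cH (sl J 0) (j - p))
    (h1 : cz (sl J (a (Fin.last n) - 1)) p (j - a (Fin.last n)) ≤
      cz (sl L (a (Fin.last n) - 1)) p (j - a (Fin.last n))) :
    cz J (p + 1) j ≤ cz L (p + 1) j := by
  rw [cz_slices J p j (a (Fin.last n) + (j + 1)) (by omega),
    cz_slices L p j (a (Fin.last n) + (j + 1)) (by omega)]
  refine arithM (A := a (Fin.last n))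
    (γx := fun g => n.choose p * cH (J ∩ {m | m (Fin.last n) = g}) (j - p))
    (γy := fun g => n.choose p * cH (L ∩ {m | m (Fin.last n) = g}) (j - p)) ?_ ?_ ?_ (by omega)
  · intro g hg
    rcases Nat.eq_zero_or_pos g with rfl | hg0
    · rw [As_zero, As_zero, Bs_zero, Bs_zero, add_zero, add_zero]
      have e1 := cH_slice J (j - p) 0
      have e2 := cH_slice L (j - p) 0
      rw [add_zero] at e1 e2
      simp only [e1, e2]
      exact h0
    · rw [As_pos J L p j g hg0]
      have e1 := Bs_le_count J p j g hpj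
      have e2 := Bs_eq_count hLs p j g hpj hg0 hg
      rw [← e2]
      omega
  · intro g hg
    rcases lt_or_eq_of_le hg with hg | hg
    · rw [As_pos J L p j g (by omega), Bs_above hJP hLP p j g hg]
    · rw [As_pos J L p j g (by omega)]
      by_cases hj : a (Fin.last n) ≤ j
      · rw [← hg, Bs_top hJP p j hA hj, Bs_top hLP p j hA hj]
        omega
      · rw [Bs_big J p j g (by omega)]
        omega
  · have e1 := cH_split J (j - p) (a (Fin.last n))
    have e2 := cH_split L (j - p) (a (Fin.last n))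
    rw [hc, rest_congr hJP hLP] at e1
    rw [e1] at e2
    rw [← Finset.mul_sum, ← Finset.mul_sum, Nat.add_right_cancel e2]

end Crest.Agent.R181.Mon
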