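import Crest.Agent.R181.MonDist2

/-!
# Reduction to stable monomial sets
-/

namespace Crest.Agent.R181.Mon

open MvPolynomial Module Finset

variable {n : ℕ}

/-- closed under multiplication by variables -/
def UpClosed (J : Set (Fin n →₀ ℕ)) : Prop := ∀ m ∈ J, ∀ t, m + Finsupp.single t 1 ∈ J

/-- contains the pure powers -/
def HasP (a : Fin n → ℕ) (J : Set (Fin n →₀ ℕ)) : Prop := ∀ i, Finsupp.single i (a i) ∈ J

/-- stable in the box with respect to the last variable -/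
def Stab (A : ℕ) (J : Set (Fin (n + 1) →₀ ℕ)) : Prop :=
  ∀ m : Fin (n + 1) →₀ ℕ, ∀ j, j ≠ Fin.last n → m + Finsupp.single (Fin.last n) 1 ∈ J →
    m (Fin.last n) + 1 < A → m + Finsupp.single j 1 ∈ J

theorem UpClosed.add_mem {J : Set (Fin n →₀ ℕ)} (hJ : UpClosed J) {m : Fin n →₀ ℕ} (hm : m ∈ J) :
    ∀ d : ℕ, ∀ r : Fin n →₀ ℕ, r.degree = d → m + r ∈ J := by
  intro d
  induction d with
  | zero =>
    intro r hr
    rw [Finsupp.degree_eq_zero_iff] at hr
    rw [hr, add_zero]; exact hm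
  | succ d ih =>
    intro r hr
    have hne : r ≠ 0 := by rintro rfl; simp at hr
    obtain ⟨k, hk⟩ := Finsupp.support_nonempty_iff.2 hne
    have h1 : r = (r - Finsupp.single k 1) + Finsupp.single k 1 := by
      rw [tsub_add_cancel_of_le]
      rw [Finsupp.single_le_iff]
      have := Finsupp.mem_support_iff.1 hk
      omega
    have h2 : (r - Finsupp.single k 1).degree = d := by
      have := congrArg Finsupp.degree h1
      rw [map_add, Finsupp.degree_single] at this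
      omega
    rw [h1, ← add_assoc]
    exact hJ _ (ih _ h2) k

theorem UpClosed.mem_of_le {J : Set (Fin n →₀ ℕ)} (hJ : UpClosed J) {m m' : Fin n →₀ ℕ}
    (hm : m ∈ J) (h : m ≤ m') : m' ∈ J := by
  have := hJ.add_mem hm _ (m' - m) rfl
  rwa [add_tsub_cancel_of_le h] at this

theorem UpClosed.mem_of_exists {a : Fin n → ℕ} {J : Set (Fin n →₀ ℕ)} (hJ : UpClosed J)
    (hP : HasP a J) {m : Fin n →₀ ℕ} (h : ∃ i, a i ≤ m i) : m ∈ J := by
  obtain ⟨i, hi⟩ := h
  exact hJ.mem_of_le (hP i) (Finsupp.single_le_iff.2 hi)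

theorem X_mul_mem_monId {J : Set (Fin n →₀ ℕ)} (hJ : UpClosed J) (t : Fin n)
    {f : MvPolynomial (Fin n) ℂ} (hf : f ∈ monId J) : X t * f ∈ monId J := by
  intro m hm
  rw [coeff_X_mul'] at hm
  split_ifs at hm with h
  · have h1 := hJ _ (hf _ hm) t
    rwa [tsub_add_cancel_of_le] at h1
    rw [Finsupp.single_le_iff]
    have := Finsupp.mem_support_iff.1 h
    omega
  · exact absurd rfl hm

theorem lead_monId (J : Set (Fin n →₀ ℕ)) : lead (monId J) = J := by
  ext m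
  constructor
  · rintro ⟨f, hf, h1, -⟩
    exact hf m h1
  · intro hm
    apply monomial_mem_lead
    intro m' hm'
    rw [coeff_monomial] at hm'
    split_ifs at hm' with h1
    · rw [← h1]; exact hm
    · exact absurd rfl hm'

theorem finrank_pc_monId (J : Set (Fin n →₀ ℕ)) (d : ℕ) :
    finrank ℂ (pc (monId J) d) = hf J d := by
  rw [hf_lead, lead_monId]

theorem X_mul_mem_dist (ζ : ℂ) {j : Fin (n + 1)} (hj : j ≠ Fin.last n)
    {J : Set (Fin (n + 1) →₀ ℕ)} (hJ : UpClosed J) (t : Fin (n + 1))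
    (f : MvPolynomial (Fin (n + 1)) ℂ) (hf : f ∈ dist ζ j J) : X t * f ∈ dist ζ j J := by
  obtain ⟨h, hh, rfl⟩ := hf
  by_cases ht : t = Fin.last n
  · subst ht
    refine ⟨X (Fin.last n) * h + X j * tau ζ h, ?_, ?_⟩
    · exact Submodule.add_mem _ (X_mul_mem_monId hJ _ hh)
        (X_mul_mem_monId hJ _ (tau_mem_monId ζ hh))
    · rw [map_add, phi_Xlast_mul, phi_X_mul ζ j hj]
      ring
  · exact ⟨X t * h, X_mul_mem_monId hJ _ hh, phi_X_mul ζ j ht h⟩

theorem homogeneousComponent_phi (ζ : ℂ) {j : Fin (n + 1)} (hj : j ≠ Fin.last n) (d : ℕ)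
    (f : MvPolynomial (Fin (n + 1)) ℂ) :
    homogeneousComponent d (phi ζ j f) = phi ζ j (homogeneousComponent d f) := by
  have : homogeneousComponent d ∘ₗ phi ζ j = phi ζ j ∘ₗ homogeneousComponent d := by
    apply linearMap_ext_monomial
    intro m
    rw [LinearMap.comp_apply, LinearMap.comp_apply]
    have h1 : phi ζ j (monomial m 1) ∈ homogeneousSubmodule (Fin (n + 1)) ℂ m.degree := by
      rw [mem_homogeneousSubmodule, isHomogeneous_iff']
      intro m' hm'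
      exact ((phi_tri ζ hj _ m rfl m').1 hm').2
    have h2 : (monomial m (1 : ℂ)) ∈ homogeneousSubmodule (Fin (n + 1)) ℂ m.degree := by
      rw [mem_homogeneousSubmodule]
      exact isHomogeneous_monomial _ rfl
    rw [homogeneousComponent_of_mem h1, homogeneousComponent_of_mem h2]
    split_ifs
    · rfl
    · rw [map_zero]
  exact LinearMap.congr_fun this f

theorem pc_dist (ζ : ℂ) {j : Fin (n + 1)} (hj : j ≠ Fin.last n)
    (J : Set (Fin (n + 1) →₀ ℕ)) (d : ℕ) :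
    pc (dist ζ j J) d = (pc (monId J) d).map (phi ζ j) := by
  apply le_antisymm
  · rintro f hf
    rw [mem_pc] at hf
    obtain ⟨h1, h, hh, rfl⟩ := hf
    refine ⟨homogeneousComponent d h, ?_, ?_⟩
    · change homogeneousComponent d h ∈ pc (monId J) d
      rw [mem_pc]
      constructor
      · intro m hm
        rw [coeff_homogeneousComponent] at hm
        by_contra hne
        rw [if_neg hne] at hm
        exact hm rfl
      · intro m hm
        rw [coeff_homogeneousComponent] at hm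
        split_ifs at hm
        · exact hh m hm
        · exact absurd rfl hm
    · rw [← homogeneousComponent_phi ζ hj]
      exact homogeneousComponent_eq_self (isHomogeneous_iff'.2 h1)
  · rintro _ ⟨f, hf, rfl⟩
    have hf' := mem_pc.1 hf
    rw [mem_pc]
    refine ⟨?_, ⟨f, hf'.2, rfl⟩⟩
    intro m hm
    obtain ⟨m', h1, -, h2⟩ := phi_coeff_ne_zero ζ hj _ _ hm
    rw [h2]
    exact hf'.1 _ h1

theorem finrank_map_phi (ζ : ℂ) {j : Fin (n + 1)} (hj : j ≠ Fin.last n)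
    (Z : Submodule ℂ (MvPolynomial (Fin (n + 1)) ℂ)) :
    finrank ℂ (Z.map (phi ζ j)) = finrank ℂ Z :=
  (LinearEquiv.finrank_eq (Submodule.equivMapOfInjective _ (phi_injective ζ hj) _)).symm

theorem hf_lead_dist (ζ : ℂ) {j : Fin (n + 1)} (hj : j ≠ Fin.last n)
    (J : Set (Fin (n + 1) →₀ ℕ)) (d : ℕ) : hf (lead (dist ζ j J)) d = hf J d := by
  rw [← hf_lead, pc_dist ζ hj, finrank_map_phi ζ hj, finrank_pc_monId]

open Classical in
/-- number of exponents of degree `d` in `J` with last exponent at least `s` -/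
noncomputable def cnt (J : Set (Fin (n + 1) →₀ ℕ)) (d s : ℕ) : ℕ :=
  ((degS (n + 1) d).filter (fun m => s ≤ m (Fin.last n) ∧ m ∈ J)).card

theorem cnt_add (J : Set (Fin (n + 1) →₀ ℕ)) (d s : ℕ) :
    cnt J d s + hf (J ∩ {m | m (Fin.last n) < s}) d = hf J d := by
  classical
  unfold cnt hf
  rw [← Finset.card_filter_add_card_filter_not (s := (degS (n + 1) d).filter (· ∈ J))
    (fun m => s ≤ m (Fin.last n)), Finset.filter_filter, Finset.filter_filter]
  congr 2
  · ext m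
    simp only [Finset.mem_filter]
    tauto
  · ext m
    simp only [Finset.mem_filter, Set.mem_inter_iff, Set.mem_ofPred_eq, not_le]

theorem finrank_top (ζ : ℂ) {j : Fin (n + 1)}
    (J : Set (Fin (n + 1) →₀ ℕ)) (d s : ℕ) :
    finrank ℂ ↥(pc (dist ζ j J) d ⊓ monId {m : Fin (n + 1) →₀ ℕ | s ≤ m (Fin.last n)}) =
      cnt (lead (dist ζ j J)) d s := by
  classical
  have hfd : FiniteDimensional ℂ
      ↥(pc (dist ζ j J) d ⊓ monId {m : Fin (n + 1) →₀ ℕ | s ≤ m (Fin.last n)}) :=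
    Submodule.finiteDimensional_of_le
      (inf_le_left : _ ≤ pc (dist ζ j J) d)
  unfold cnt
  apply finrank_eq_card_lead
    (pc (dist ζ j J) d ⊓ monId {m : Fin (n + 1) →₀ ℕ | s ≤ m (Fin.last n)}) d
    (fun _ hf => (mem_pc.1 hf.1).1)
  intro m
  rw [Finset.mem_filter, mem_degS]
  constructor
  · rintro ⟨h1, h2, f, hf, h3, h4⟩
    refine ⟨h1, f, ⟨mem_pc.2 ⟨fun m' hm' => by rw [(h4 m' hm').1, h1], hf⟩, ?_⟩, h3,
      fun m' hm' => (h4 m' hm').2⟩
    intro m' hm'
    have h5 := (h4 m' hm').2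
    change s ≤ m' (Fin.last n)
    by_contra hlt
    have h6 : m' (Fin.last n) < m (Fin.last n) := by omega
    exact absurd (key_lt_of_last h6) (not_lt.2 h5)
  · rintro ⟨h1, f, ⟨hf, hf2⟩, h3, h4⟩
    have := mem_pc.1 hf
    exact ⟨h1, hf2 m h3, f, this.2, h3, fun m' hm' => ⟨by rw [this.1 m' hm', h1], h4 m' hm'⟩⟩

theorem low_le (ζ : ℂ) {j : Fin (n + 1)} (hj : j ≠ Fin.last n)
    (J : Set (Fin (n + 1) →₀ ℕ)) (d s : ℕ) :
    (pc (monId (J ∩ {m | m (Fin.last n) < s})) d).map (phi ζ j) ≤ pc (dist ζ j J) d := by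
  rw [pc_dist ζ hj]
  apply Submodule.map_mono
  intro f hf
  rw [mem_pc] at hf ⊢
  exact ⟨hf.1, fun m hm => (hf.2 m hm).1⟩

theorem low_disjoint (ζ : ℂ) {j : Fin (n + 1)} (hj : j ≠ Fin.last n)
    (J : Set (Fin (n + 1) →₀ ℕ)) (d s : ℕ) :
    Disjoint (pc (dist ζ j J) d ⊓ monId {m : Fin (n + 1) →₀ ℕ | s ≤ m (Fin.last n)})
      ((pc (monId (J ∩ {m | m (Fin.last n) < s})) d).map (phi ζ j)) := by
  rw [Submodule.disjoint_def]
  rintro _ ⟨-, h1⟩ ⟨f, hf, rfl⟩
  ext m
  by_contra hne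
  rw [coeff_zero] at hne
  have h2 : s ≤ m (Fin.last n) := h1 m hne
  obtain ⟨m', h3, h4, -⟩ := phi_coeff_ne_zero ζ hj _ _ hne
  have h5 : m' (Fin.last n) < s := ((mem_pc.1 hf).2 m' h3).2
  omega

theorem sum_eq (ζ : ℂ) {j : Fin (n + 1)} (hj : j ≠ Fin.last n)
    (J : Set (Fin (n + 1) →₀ ℕ)) (d s : ℕ) :
    finrank ℂ ↥((pc (dist ζ j J) d ⊓ monId {m : Fin (n + 1) →₀ ℕ | s ≤ m (Fin.last n)}) ⊔
      ((pc (monId (J ∩ {m | m (Fin.last n) < s})) d).map (phi ζ j))) =
      cnt (lead (dist ζ j J)) d s + hf (J ∩ {m | m (Fin.last n) < s}) d := by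
  have hfd : FiniteDimensional ℂ
      ↥(pc (dist ζ j J) d ⊓ monId {m : Fin (n + 1) →₀ ℕ | s ≤ m (Fin.last n)}) :=
    Submodule.finiteDimensional_of_le
      (inf_le_left : _ ≤ pc (dist ζ j J) d)
  have := Submodule.finrank_sup_add_finrank_inf_eq
    (pc (dist ζ j J) d ⊓ monId {m : Fin (n + 1) →₀ ℕ | s ≤ m (Fin.last n)})
    ((pc (monId (J ∩ {m | m (Fin.last n) < s})) d).map (phi ζ j))
  rw [(low_disjoint ζ hj J d s).eq_bot, finrank_bot, add_zero, finrank_top,
    finrank_map_phi ζ hj, finrank_pc_monId] at this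
  exact this

theorem cnt_lead_le (ζ : ℂ) {j : Fin (n + 1)} (hj : j ≠ Fin.last n)
    (J : Set (Fin (n + 1) →₀ ℕ)) (d s : ℕ) :
    cnt (lead (dist ζ j J)) d s ≤ cnt J d s := by
  have h1 := sum_eq ζ hj J d s
  have h2 : finrank ℂ ↥((pc (dist ζ j J) d ⊓ monId {m : Fin (n + 1) →₀ ℕ | s ≤ m (Fin.last n)}) ⊔
      ((pc (monId (J ∩ {m | m (Fin.last n) < s})) d).map (phi ζ j))) ≤
      finrank ℂ (pc (dist ζ j J) d) :=
    Submodule.finrank_mono (sup_le inf_le_left (low_le ζ hj J d s))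
  rw [h1, hf_lead, hf_lead_dist ζ hj, ← cnt_add J d s] at h2
  exact Nat.le_of_add_le_add_right h2

theorem stab_of_cnt_eq (ζ : ℂ) {j : Fin (n + 1)} (hj : j ≠ Fin.last n)
    (J : Set (Fin (n + 1) →₀ ℕ)) (m : Fin (n + 1) →₀ ℕ)
    (hm : m + Finsupp.single (Fin.last n) 1 ∈ J)
    (hζ : ∑ k ∈ Finset.range (m (Fin.last n) + 1), ζ ^ k ≠ 0)
    (hc : cnt (lead (dist ζ j J)) (m.degree + 1) (m (Fin.last n) + 1) =
      cnt J (m.degree + 1) (m (Fin.last n) + 1)) :
    m + Finsupp.single j 1 ∈ J := by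
  set d := m.degree + 1 with hd
  set s := m (Fin.last n) + 1 with hs
  have h1 := sum_eq ζ hj J d s
  have h2 : (pc (dist ζ j J) d ⊓ monId {m : Fin (n + 1) →₀ ℕ | s ≤ m (Fin.last n)}) ⊔
      ((pc (monId (J ∩ {m | m (Fin.last n) < s})) d).map (phi ζ j)) = pc (dist ζ j J) d := by
    apply Submodule.eq_of_le_of_finrank_eq
    · exact sup_le inf_le_left (low_le ζ hj J d s)
    · rw [h1, hc, cnt_add, hf_lead, hf_lead_dist ζ hj]
  set m1 := m + Finsupp.single (Fin.last n) 1 with hm1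
  have hm1l : m1 (Fin.last n) = s := by
    rw [hm1, Finsupp.add_apply, Finsupp.single_eq_same]
  have h3 : phi ζ j (monomial m1 1) ∈ pc (dist ζ j J) d := by
    rw [pc_dist ζ hj]
    refine ⟨monomial m1 1, ?_, rfl⟩
    change monomial m1 1 ∈ pc (monId J) d
    rw [mem_pc]
    constructor
    · intro m' hm'
      rw [coeff_monomial] at hm'
      split_ifs at hm' with h4
      · rw [← h4, hm1, map_add, Finsupp.degree_single]
      · exact absurd rfl hm'
    · intro m' hm'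
      rw [coeff_monomial] at hm'
      split_ifs at hm' with h4
      · rw [← h4]; exact hm
      · exact absurd rfl hm'
  rw [← h2, Submodule.mem_sup] at h3
  obtain ⟨v, hv, w, ⟨h, hh, rfl⟩, hvw⟩ := h3
  have hsl : (m + Finsupp.single j 1 : Fin (n + 1) →₀ ℕ) (Fin.last n) + 1 = s := by
    rw [Finsupp.add_apply, Finsupp.single_eq_of_ne (Ne.symm hj), add_zero]
  have h5 : coeff (m + Finsupp.single j 1) (phi ζ j (monomial m1 1)) ≠ 0 := by
    rw [(phi_tri ζ hj s m1 hm1l _).2.2 hsl, if_pos]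
    · exact neg_ne_zero.2 hζ
    · rw [hm1, add_right_comm]
  have h6 : coeff (m + Finsupp.single j 1) v = 0 := by
    by_contra hne
    have : s ≤ (m + Finsupp.single j 1 : Fin (n + 1) →₀ ℕ) (Fin.last n) := hv.2 _ hne
    omega
  rw [← hvw, coeff_add, h6, zero_add] at h5
  have hh' := (mem_pc.1 hh).2
  rw [phi_coeff_top ζ hj] at h5
  · exact (hh' _ h5).1
  · intro m' hm'
    have : m' (Fin.last n) < s := (hh' _ hm').2
    omega

theorem geom_ne_zero {ζ : ℂ} {A : ℕ} (hζ : IsPrimitiveRoot ζ A) {β : ℕ} (h0 : 0 < β)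
    (hβ : β < A) : ∑ k ∈ Finset.range β, ζ ^ k ≠ 0 := by
  intro h
  have h1 := geom_sum_mul ζ β
  rw [h, zero_mul] at h1
  exact hζ.pow_ne_one_of_pos_of_lt h0.ne' hβ (sub_eq_zero.1 h1.symm)

theorem phi_pow_last (ζ : ℂ) {j : Fin (n + 1)} {A : ℕ} (hA : 0 < A)
    (hζ : IsPrimitiveRoot ζ A) :
    phi ζ j (monomial (Finsupp.single (Fin.last n) A) 1) =
      X (Fin.last n) ^ A - X j ^ A := by
  rw [phi_monomial, Finsupp.single_eq_same]
  have h1 : (Finsupp.single (Fin.last n) A).erase (Fin.last n) = 0 := by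
    rw [Finsupp.erase_single]
  rw [h1]
  have hζ' : IsPrimitiveRoot (C ζ : MvPolynomial (Fin (n + 1)) ℂ) A :=
    hζ.map_of_injective (C_injective _ _)
  rw [hζ'.pow_sub_pow_eq_prod_sub_mul (X (Fin.last n)) (X j) hA]
  have h2 : (monomial 0 1 : MvPolynomial (Fin (n + 1)) ℂ) = 1 := rfl
  rw [h2, one_mul]
  symm
  have h3 : Polynomial.nthRootsFinset A (1 : MvPolynomial (Fin (n + 1)) ℂ) =
      (Finset.range A).image (fun k => (C (ζ ^ k) : MvPolynomial (Fin (n + 1)) ℂ)) := by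
    symm
    apply Finset.eq_of_subset_of_card_le
    · intro x hx
      rw [Finset.mem_image] at hx
      obtain ⟨k, -, rfl⟩ := hx
      rw [Polynomial.mem_nthRootsFinset hA, ← map_pow, ← pow_mul, mul_comm, pow_mul, hζ.pow_eq_one,
        one_pow, map_one]
    · rw [hζ'.card_nthRootsFinset, Finset.card_image_of_injOn, Finset.card_range]
      intro k hk k' hk' h
      have := C_injective _ _ h
      exact hζ.pow_inj (Finset.mem_range.1 (Finset.mem_coe.1 hk))
        (Finset.mem_range.1 (Finset.mem_coe.1 hk')) this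
  rw [h3, Finset.prod_image]
  intro k hk k' hk' h
  have := C_injective _ _ h
  exact hζ.pow_inj (Finset.mem_range.1 (Finset.mem_coe.1 hk))
    (Finset.mem_range.1 (Finset.mem_coe.1 hk')) this

theorem hasP_lead_dist {a : Fin (n + 1) → ℕ} (ha : ∀ i, a i ≤ a (Fin.last n))
    (hpos : 0 < a (Fin.last n)) {ζ : ℂ} (hζ : IsPrimitiveRoot ζ (a (Fin.last n)))
    {j : Fin (n + 1)} (hj : j ≠ Fin.last n) {J : Set (Fin (n + 1) →₀ ℕ)} (hJ : UpClosed J)
    (hP : HasP a J) : HasP a (lead (dist ζ j J)) := by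
  have hmem : ∀ m ∈ J, (monomial m (1 : ℂ)) ∈ monId J := by
    intro m hm m' hm'
    rw [coeff_monomial] at hm'
    split_ifs at hm' with h4
    · rw [← h4]; exact hm
    · exact absurd rfl hm'
  have h0 : ∀ i b, i ≠ Fin.last n → a i ≤ b →
      (monomial (Finsupp.single i b) (1 : ℂ)) ∈ dist ζ j J := by
    intro i b hi hb
    refine ⟨monomial (Finsupp.single i b) 1, hmem _ ?_, ?_⟩
    · apply hJ.mem_of_le (hP i)
      rw [Finsupp.single_le_iff, Finsupp.single_eq_same]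
      exact hb
    · exact phi_mono_zero ζ j _ (Finsupp.single_eq_of_ne (Ne.symm hi))
  intro i
  apply monomial_mem_lead
  by_cases hi : i = Fin.last n
  · subst hi
    have h1 : (monomial (Finsupp.single (Fin.last n) (a (Fin.last n))) (1 : ℂ)) =
        phi ζ j (monomial (Finsupp.single (Fin.last n) (a (Fin.last n))) 1) +
          monomial (Finsupp.single j (a (Fin.last n))) (1 : ℂ) := by
      rw [phi_pow_last ζ hpos hζ, X_pow_eq_monomial, X_pow_eq_monomial]
      ring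
    rw [h1]
    exact Submodule.add_mem _ ⟨_, hmem _ (hP _), rfl⟩ (h0 j _ hj (ha j))
  · exact h0 i _ hi le_rfl

/-- Reduction to stable sets. -/
theorem exists_stable (a : Fin (n + 1) → ℕ) (ha : ∀ i, a i ≤ a (Fin.last n))
    (hpos : 0 < a (Fin.last n)) (J0 : Set (Fin (n + 1) →₀ ℕ)) (hJ0 : UpClosed J0)
    (hP0 : HasP a J0) :
    ∃ J : Set (Fin (n + 1) →₀ ℕ), UpClosed J ∧ HasP a J ∧ (∀ d, hf J d = hf J0 d) ∧
      (∀ p q, zd (monId J0) p q ≤ zd (monId J) p q) ∧ Stab (a (Fin.last n)) J := by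
  classical
  set A := a (Fin.last n) with hA
  let D := (∑ i, a i) + 1
  let pot : Set (Fin (n + 1) →₀ ℕ) → ℕ := fun J =>
    ∑ x ∈ Finset.range D ×ˢ Finset.range A, cnt J x.1 x.2
  let Q : Set (Set (Fin (n + 1) →₀ ℕ)) := {J | UpClosed J ∧ HasP a J ∧ (∀ d, hf J d = hf J0 d) ∧
      (∀ p q, zd (monId J0) p q ≤ zd (monId J) p q)}
  have hQ0 : J0 ∈ Q := ⟨hJ0, hP0, fun _ => rfl, fun _ _ => le_rfl⟩
  obtain ⟨J, hJQ, hmin⟩ := (measure pot).wf.has_min Q ⟨J0, hQ0⟩
  obtain ⟨hJ, hP, hhf, hz⟩ := hJQ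
  refine ⟨J, hJ, hP, hhf, hz, ?_⟩
  intro m j hj hm hlt
  obtain ⟨ζ, hζ⟩ : ∃ ζ : ℂ, IsPrimitiveRoot ζ A :=
    ⟨_, Complex.isPrimitiveRoot_exp A hpos.ne'⟩
  have hJ'Q : lead (dist ζ j J) ∈ Q := by
    refine ⟨fun m hm t => lead_upClosed _ (X_mul_mem_dist ζ hj hJ) m hm t,
      hasP_lead_dist ha hpos hζ hj hJ hP, fun d => by rw [hf_lead_dist ζ hj, hhf], fun p q => ?_⟩
    exact (hz p q).trans ((zd_le_zd_dist ζ hj J p q).trans (zd_le_zd_lead _ p q))
  have h1 : ¬ pot (lead (dist ζ j J)) < pot J := hmin _ hJ'Q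
  have h2 : ∀ x ∈ Finset.range D ×ˢ Finset.range A,
      cnt (lead (dist ζ j J)) x.1 x.2 ≤ cnt J x.1 x.2 := fun x _ => cnt_lead_le ζ hj J _ _
  have h3 : pot (lead (dist ζ j J)) = pot J := le_antisymm (Finset.sum_le_sum h2) (not_lt.1 h1)
  have h4 := (Finset.sum_eq_sum_iff_of_le h2).1 h3
  by_cases hd : m.degree + 1 < D
  · apply stab_of_cnt_eq ζ hj J m hm (geom_ne_zero hζ (Nat.succ_pos _) hlt)
    exact h4 (m.degree + 1, m (Fin.last n) + 1)
      (Finset.mem_product.2 ⟨Finset.mem_range.2 hd, Finset.mem_range.2 hlt⟩)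
  · apply hJ.mem_of_exists hP
    by_contra hne
    push Not at hne
    have h5 : (m + Finsupp.single j 1).degree < D := by
      rw [Finsupp.degree_eq_sum]
      exact Nat.lt_succ_of_le (Finset.sum_le_sum fun i _ => (hne i).le)
    rw [map_add, Finsupp.degree_single] at h5
    exact hd h5

end Crest.Agent.R181.Mon
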