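import Mathlib

/-!
R181, base level: the diamond lemma (Bergman) for the free algebra `MonoidAlgebra K (FreeMonoid X)`.
-/

set_option autoImplicit false

namespace Crest.Agent.R181.NW

universe u v w

/-- the free algebra on `X`, as monoid algebra of the free monoid. -/
abbrev FA (K : Type u) [Field K] (X : Type v) := MonoidAlgebra K (FreeMonoid X)

section mon
variable (K : Type u) [Field K] {X : Type v}

/-- the monomial of a word. -/
noncomputable def mon (l : List X) : FA K X := MonoidAlgebra.of K (FreeMonoid X) (FreeMonoid.ofList l)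

theorem mon_nil : mon K ([] : List X) = 1 := by
  rw [mon, FreeMonoid.ofList_nil, map_one]

theorem mon_append (a b : List X) : mon K (a ++ b) = mon K a * mon K b := by
  rw [mon, mon, mon, ← map_mul]
  rfl

theorem mon_coeff (l : List X) (m : FreeMonoid X) [Decidable (FreeMonoid.ofList l = m)] :
    (mon K l : FA K X).coeff m = if FreeMonoid.ofList l = m then 1 else 0 := by
  classical
  rw [mon, MonoidAlgebra.of_apply, MonoidAlgebra.coeff_single, Finsupp.single_apply]

end mon

/-- A rewriting system on the free algebra with a monomial order. -/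
structure RSys (K : Type u) [Field K] (X : Type v) where
  σ : Type w
  lt : List X → List X → Prop
  wf : WellFounded lt
  trans : ∀ {a b c}, lt a b → lt b c → lt a c
  tot : ∀ a b, lt a b ∨ a = b ∨ lt b a
  ctx : ∀ a b u v, lt u v → lt (a ++ u ++ b) (a ++ v ++ b)
  lead : σ → List X
  rel : σ → FA K X
  tail : ∀ s, rel s - mon K (lead s) ∈ Submodule.span K (mon K '' {l | lt l (lead s)})

namespace RSys
variable {K : Type u} [Field K] {X : Type v} (R : RSys.{u, v, w} K X)

theorem irrefl (a : List X) : ¬ R.lt a a := fun h => R.wf.irrefl.irrefl a h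

/-- span of the monomials smaller than `w`. -/
noncomputable def Below (l : List X) : Submodule K (FA K X) :=
  Submodule.span K (mon K '' {m | R.lt m l})

/-- the element `u * rel s * v`. -/
noncomputable def term (a : List X) (s : R.σ) (b : List X) : FA K X := mon K a * R.rel s * mon K b

def top (a : List X) (s : R.σ) (b : List X) : List X := a ++ R.lead s ++ b

/-- span of the `u * rel s * v` with leading word smaller than `l`. -/
noncomputable def Low (l : List X) : Submodule K (FA K X) :=
  Submodule.span K {z | ∃ a s b, R.lt (R.top a s b) l ∧ z = R.term a s b}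

/-- span of all the `u * rel s * v`. -/
noncomputable def I : Submodule K (FA K X) :=
  Submodule.span K {z | ∃ a s b, z = R.term a s b}

/-- a word is normal if no `lead s` is a factor. -/
def Normal (l : List X) : Prop := ∀ a s b, l ≠ R.top a s b

theorem Below_mono {l m : List X} (h : R.lt l m) : R.Below l ≤ R.Below m := by
  apply Submodule.span_mono
  rintro _ ⟨x, hx, rfl⟩
  exact ⟨x, R.trans hx h, rfl⟩

theorem Low_mono {l m : List X} (h : R.lt l m) : R.Low l ≤ R.Low m := by
  apply Submodule.span_mono
  rintro _ ⟨a, s, b, hx, rfl⟩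
  exact ⟨a, s, b, R.trans hx h, rfl⟩

theorem mon_mem_Below {l m : List X} (h : R.lt l m) : mon K l ∈ R.Below m :=
  Submodule.subset_span ⟨l, h, rfl⟩

theorem term_mem_Low {a b l : List X} {s : R.σ} (h : R.lt (R.top a s b) l) :
    R.term a s b ∈ R.Low l := Submodule.subset_span ⟨a, s, b, h, rfl⟩

theorem term_mem_I (a b : List X) (s : R.σ) : R.term a s b ∈ R.I :=
  Submodule.subset_span ⟨a, s, b, rfl⟩

theorem Low_le_I (l : List X) : R.Low l ≤ R.I := by
  apply Submodule.span_mono
  rintro _ ⟨a, s, b, _, rfl⟩
  exact ⟨a, s, b, rfl⟩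

theorem Below_ctx (a b : List X) {l : List X} {z : FA K X} (hz : z ∈ R.Below l) :
    mon K a * z * mon K b ∈ R.Below (a ++ l ++ b) := by
  induction hz using Submodule.span_induction with
  | mem x hx =>
    obtain ⟨m, hm, rfl⟩ := hx
    rw [← mon_append, ← mon_append]
    exact R.mon_mem_Below (R.ctx _ _ _ _ hm)
  | zero => simp
  | add x y _ _ hx hy => rw [mul_add, add_mul]; exact add_mem hx hy
  | smul c x _ hx => rw [mul_smul_comm, smul_mul_assoc]; exact Submodule.smul_mem _ _ hx

theorem Low_ctx (a b : List X) {l : List X} {z : FA K X} (hz : z ∈ R.Low l) :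
    mon K a * z * mon K b ∈ R.Low (a ++ l ++ b) := by
  induction hz using Submodule.span_induction with
  | mem x hx =>
    obtain ⟨a', s, b', hm, rfl⟩ := hx
    have : mon K a * R.term a' s b' * mon K b = R.term (a ++ a') s (b' ++ b) := by
      simp only [term, mon_append, mul_assoc]
    rw [this]
    apply R.term_mem_Low
    have h2 := R.ctx a b _ _ hm
    simpa [top, List.append_assoc] using h2
  | zero => simp
  | add x y _ _ hx hy => rw [mul_add, add_mul]; exact add_mem hx hy
  | smul c x _ hx => rw [mul_smul_comm, smul_mul_assoc]; exact Submodule.smul_mem _ _ hx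

theorem term_sub_mem (a b : List X) (s : R.σ) :
    R.term a s b - mon K (R.top a s b) ∈ R.Below (R.top a s b) := by
  have h := R.Below_ctx a b (R.tail s)
  have e : R.term a s b - mon K (R.top a s b)
      = mon K a * (R.rel s - mon K (R.lead s)) * mon K b := by
    simp only [term, top, mon_append, mul_sub, sub_mul]
  rw [e]; exact h

theorem Low_le_Below (l : List X) : R.Low l ≤ R.Below l := by
  refine Submodule.span_le.2 ?_
  rintro _ ⟨a, s, b, h, rfl⟩
  have h1 := R.Below_mono h (R.term_sub_mem a b s)
  have h2 := R.mon_mem_Below (K := K) h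
  have := add_mem h1 h2
  simpa using this

theorem Below_coeff {l : List X} {z : FA K X} (hz : z ∈ R.Below l) :
    z.coeff (FreeMonoid.ofList l) = 0 := by
  classical
  induction hz using Submodule.span_induction with
  | mem x hx =>
    obtain ⟨m, hm, rfl⟩ := hx
    rw [mon_coeff, if_neg]
    intro h
    have : m = l := h
    subst this
    exact R.irrefl _ hm
  | zero => rfl
  | add x y _ _ hx hy =>
    rw [MonoidAlgebra.coeff_add, Finsupp.add_apply, hx, hy, add_zero]
  | smul c x _ hx =>
    rw [MonoidAlgebra.coeff_smul, Finsupp.smul_apply, hx, smul_zero]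

/-- all pairs of occurrences with the same leading word are resolvable. -/
def Res : Prop := ∀ a s b a' s' b', R.top a s b = R.top a' s' b' →
  R.term a s b - R.term a' s' b' ∈ R.Low (R.top a s b)

/-- span of the terms with leading word at most `l`. -/
noncomputable def LowEq (l : List X) : Submodule K (FA K X) :=
  Submodule.span K {z | ∃ a s b, (R.lt (R.top a s b) l ∨ R.top a s b = l) ∧ z = R.term a s b}

theorem LowEq_mono {l m : List X} (h : R.lt l m ∨ l = m) : R.LowEq l ≤ R.LowEq m := by
  rcases h with h | rfl
  · apply Submodule.span_mono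
    rintro _ ⟨a, s, b, hx, rfl⟩
    refine ⟨a, s, b, Or.inl ?_, rfl⟩
    rcases hx with hx | hx
    · exact R.trans hx h
    · rw [hx]; exact h
  · exact le_rfl

theorem Low_le_LowEq (l : List X) : R.Low l ≤ R.LowEq l := by
  apply Submodule.span_mono
  rintro _ ⟨a, s, b, hx, rfl⟩
  exact ⟨a, s, b, Or.inl hx, rfl⟩

theorem exists_max (l m : List X) : ∃ k, (R.lt l k ∨ l = k) ∧ (R.lt m k ∨ m = k) ∧ (k = l ∨ k = m) := by
  rcases R.tot l m with h | h | h
  · exact ⟨m, Or.inl h, Or.inr rfl, Or.inr rfl⟩
  · exact ⟨m, Or.inr h, Or.inr rfl, Or.inr rfl⟩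
  · exact ⟨l, Or.inr rfl, Or.inl h, Or.inl rfl⟩

theorem mem_Low_iff {z : FA K X} {l : List X} (hz : z ∈ R.Low l) :
    z = 0 ∨ ∃ m, R.lt m l ∧ z ∈ R.LowEq m := by
  induction hz using Submodule.span_induction with
  | mem x hx =>
    obtain ⟨a, s, b, h, rfl⟩ := hx
    exact Or.inr ⟨_, h, Submodule.subset_span ⟨a, s, b, Or.inr rfl, rfl⟩⟩
  | zero => exact Or.inl rfl
  | add x y _ _ hx hy =>
    rcases hx with rfl | ⟨m, hm, hx⟩
    · rcases hy with rfl | ⟨m', hm', hy⟩
      · left; simp
      · right; exact ⟨m', hm', by simpa using hy⟩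
    · rcases hy with rfl | ⟨m', hm', hy⟩
      · right; exact ⟨m, hm, by simpa using hx⟩
      · right
        obtain ⟨k, h1, h2, h3⟩ := R.exists_max m m'
        refine ⟨k, ?_, add_mem (R.LowEq_mono h1 hx) (R.LowEq_mono h2 hy)⟩
        rcases h3 with rfl | rfl
        · exact hm
        · exact hm'
  | smul c x _ hx =>
    rcases hx with rfl | ⟨m, hm, hx⟩
    · left; simp
    · right; exact ⟨m, hm, Submodule.smul_mem _ _ hx⟩

theorem mem_I_iff {z : FA K X} (hz : z ∈ R.I) : z = 0 ∨ ∃ m, z ∈ R.LowEq m := by
  induction hz using Submodule.span_induction with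
  | mem x hx =>
    obtain ⟨a, s, b, rfl⟩ := hx
    exact Or.inr ⟨R.top a s b, Submodule.subset_span ⟨a, s, b, Or.inr rfl, rfl⟩⟩
  | zero => exact Or.inl rfl
  | add x y _ _ hx hy =>
    rcases hx with rfl | ⟨m, hx⟩
    · rcases hy with rfl | ⟨m', hy⟩
      · left; simp
      · right; exact ⟨m', by simpa using hy⟩
    · rcases hy with rfl | ⟨m', hy⟩
      · right; exact ⟨m, by simpa using hx⟩
      · right
        obtain ⟨k, h1, h2, h3⟩ := R.exists_max m m'
        exact ⟨k, add_mem (R.LowEq_mono h1 hx) (R.LowEq_mono h2 hy)⟩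
  | smul c x _ hx =>
    rcases hx with rfl | ⟨m, hx⟩
    · left; simp
    · right; exact ⟨m, Submodule.smul_mem _ _ hx⟩

theorem LowEq_dec (hR : R.Res) {a b l : List X} {s : R.σ} (h : R.top a s b = l) {z : FA K X}
    (hz : z ∈ R.LowEq l) : ∃ c : K, z - c • R.term a s b ∈ R.Low l := by
  induction hz using Submodule.span_induction with
  | mem x hx =>
    obtain ⟨a', s', b', h', rfl⟩ := hx
    rcases h' with h' | h'
    · exact ⟨0, by simpa using R.term_mem_Low h'⟩
    · refine ⟨1, ?_⟩
      have := hR a' s' b' a s b (h'.trans h.symm)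
      rw [h'] at this
      simpa using this
  | zero => exact ⟨0, by simp⟩
  | add x y _ _ hx hy =>
    obtain ⟨c, hc⟩ := hx
    obtain ⟨d, hd⟩ := hy
    refine ⟨c + d, ?_⟩
    have := add_mem hc hd
    have e : x + y - (c + d) • R.term a s b
      = (x - c • R.term a s b) + (y - d • R.term a s b) := by
      rw [add_smul]; abel
    rw [e]; exact this
  | smul e x _ hx =>
    obtain ⟨c, hc⟩ := hx
    refine ⟨e * c, ?_⟩
    have := Submodule.smul_mem _ e hc
    rwa [smul_sub, smul_smul] at this

theorem LowEq_eq_Low {l : List X} (h : ∀ a s b, R.top a s b ≠ l) : R.LowEq l ≤ R.Low l := by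
  apply Submodule.span_mono
  rintro _ ⟨a, s, b, hx, rfl⟩
  refine ⟨a, s, b, ?_, rfl⟩
  rcases hx with hx | hx
  · exact hx
  · exact absurd hx (h a s b)

theorem coeff_term (a b : List X) (s : R.σ) :
    (R.term a s b).coeff (FreeMonoid.ofList (R.top a s b)) = 1 := by
  classical
  have h := R.Below_coeff (R.term_sub_mem a b s)
  rw [MonoidAlgebra.coeff_sub, Finsupp.sub_apply, mon_coeff, if_pos rfl, sub_eq_zero] at h
  exact h

/-- **Diamond lemma, independence part.** -/
theorem eq_zero_of_mem_Low (hR : R.Res) (l : List X) :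
    ∀ z ∈ R.Low l, (∀ m, ¬ R.Normal m → z.coeff (FreeMonoid.ofList m) = 0) → z = 0 := by
  induction l using R.wf.induction with
  | h l ih =>
    intro z hz hn
    rcases R.mem_Low_iff hz with h | ⟨m, hm, hz'⟩
    · exact h
    · by_cases hex : ∃ a s b, R.top a s b = m
      · obtain ⟨a, s, b, hab⟩ := hex
        obtain ⟨c, hc⟩ := R.LowEq_dec hR hab hz'
        have h1 := R.Below_coeff (R.Low_le_Below m hc)
        have h2 : z.coeff (FreeMonoid.ofList m) = 0 := by
          apply hn
          intro hN
          exact hN a s b hab.symm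
        have h3 := R.coeff_term a b s
        rw [hab] at h3
        rw [MonoidAlgebra.coeff_sub, Finsupp.sub_apply, MonoidAlgebra.coeff_smul,
          Finsupp.smul_apply, h2, h3] at h1
        have hc0 : c = 0 := by simpa using h1
        rw [hc0, zero_smul, sub_zero] at hc
        exact ih m hm z hc hn
      · push Not at hex
        exact ih m hm z (R.LowEq_eq_Low hex hz') hn

theorem eq_zero_of_mem_I (hR : R.Res) {z : FA K X} (hz : z ∈ R.I)
    (hn : ∀ m, ¬ R.Normal m → z.coeff (FreeMonoid.ofList m) = 0) : z = 0 := by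
  rcases R.mem_I_iff hz with h | ⟨m, hz'⟩
  · exact h
  · by_cases hex : ∃ a s b, R.top a s b = m
    · obtain ⟨a, s, b, hab⟩ := hex
      obtain ⟨c, hc⟩ := R.LowEq_dec hR hab hz'
      have h1 := R.Below_coeff (R.Low_le_Below m hc)
      have h2 : z.coeff (FreeMonoid.ofList m) = 0 := by
        apply hn
        intro hN
        exact hN a s b hab.symm
      have h3 := R.coeff_term a b s
      rw [hab] at h3
      rw [MonoidAlgebra.coeff_sub, Finsupp.sub_apply, MonoidAlgebra.coeff_smul,
        Finsupp.smul_apply, h2, h3] at h1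
      have hc0 : c = 0 := by simpa using h1
      rw [hc0, zero_smul, sub_zero] at hc
      exact R.eq_zero_of_mem_Low hR m z hc hn
    · push Not at hex
      exact R.eq_zero_of_mem_Low hR m z (R.LowEq_eq_Low hex hz') hn

/-- **Diamond lemma, spanning part.** -/
theorem mon_mem_sup (l : List X) :
    mon K l ∈ Submodule.span K (mon K '' {m | R.Normal m}) ⊔ R.I := by
  induction l using R.wf.induction with
  | h l ih =>
    by_cases hN : R.Normal l
    · exact Submodule.mem_sup_left (Submodule.subset_span ⟨l, hN, rfl⟩)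
    · have : ∃ a s b, l = R.top a s b := by
        by_contra hcon
        push Not at hcon
        exact hN hcon
      obtain ⟨a, s, b, rfl⟩ := this
      have h1 : R.term a s b ∈ Submodule.span K (mon K '' {m | R.Normal m}) ⊔ R.I :=
        Submodule.mem_sup_right (R.term_mem_I a b s)
      have h2 : R.Below (R.top a s b) ≤ Submodule.span K (mon K '' {m | R.Normal m}) ⊔ R.I := by
        refine Submodule.span_le.2 ?_
        rintro _ ⟨m, hm, rfl⟩
        exact ih m hm
      have h3 := sub_mem h1 (h2 (R.term_sub_mem a b s))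
      simpa using h3

theorem span_mon : Submodule.span K (Set.range (mon K : List X → FA K X)) = ⊤ := by
  rw [eq_top_iff]
  rintro z -
  rw [← MonoidAlgebra.sum_coeff_single z]
  refine Submodule.sum_mem _ (fun m _ => ?_)
  have : MonoidAlgebra.single m (z.coeff m) = (z.coeff m) • mon K (FreeMonoid.toList m) := by
    rw [mon, MonoidAlgebra.of_apply, MonoidAlgebra.smul_single, smul_eq_mul, mul_one]
    rfl
  rw [this]
  exact Submodule.smul_mem _ _ (Submodule.subset_span ⟨_, rfl⟩)

theorem sup_eq_top : Submodule.span K (mon K '' {m | R.Normal m}) ⊔ R.I = ⊤ := by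
  rw [eq_top_iff, ← span_mon, Submodule.span_le]
  rintro _ ⟨l, rfl⟩
  exact R.mon_mem_sup l

theorem I_mul_mem (x y : FA K X) {z : FA K X} (hz : z ∈ R.I) : x * z * y ∈ R.I := by
  have key : ∀ a b : List X, mon K a * z * mon K b ∈ R.I := by
    intro a b
    induction hz using Submodule.span_induction with
    | mem x hx =>
      obtain ⟨a', s, b', rfl⟩ := hx
      have : mon K a * R.term a' s b' * mon K b = R.term (a ++ a') s (b' ++ b) := by
        simp only [term, mon_append, mul_assoc]
      rw [this]
      exact R.term_mem_I _ _ _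
    | zero => simp
    | add x y _ _ hx hy => rw [mul_add, add_mul]; exact add_mem hx hy
    | smul c x _ hx => rw [mul_smul_comm, smul_mul_assoc]; exact Submodule.smul_mem _ _ hx
  have hx : x ∈ Submodule.span K (Set.range (mon K : List X → FA K X)) := by
    rw [span_mon]; trivial
  have hy : y ∈ Submodule.span K (Set.range (mon K : List X → FA K X)) := by
    rw [span_mon]; trivial
  induction hx using Submodule.span_induction with
  | mem x hx =>
    obtain ⟨a, rfl⟩ := hx
    induction hy using Submodule.span_induction with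
    | mem y hy => obtain ⟨b, rfl⟩ := hy; exact key a b
    | zero => simp
    | add y y' _ _ h h' => rw [mul_add]; exact add_mem h h'
    | smul c y _ h => rw [mul_smul_comm]; exact Submodule.smul_mem _ _ h
  | zero => simp
  | add x x' _ _ h h' => rw [add_mul, add_mul]; exact add_mem h h'
  | smul c x _ h => rw [smul_mul_assoc, smul_mul_assoc]; exact Submodule.smul_mem _ _ h

end RSys
end Crest.Agent.R181.NW
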