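import Mathlib
import Crest.Agent.R181.NW1

/-!
R181, base level: the universal algebra of a commuting tuple, operator level.
`PA` = polynomials in central variables `x_j` (j : κ) with coefficients in the free algebra on the
letters `(i,j)`; `Mop i = ∑ x_j (i,j)`; relations `Mop i * Mop i' = Mop i' * Mop i` (i < i') and
`Mop i ^ a i = h i (x, Mop l : l > i)`.
-/

set_option autoImplicit false

namespace Crest.Agent.R181.NW

universe u v w

/-- degrees and right hand sides: `h i` is a combination of `x^β * Mop l_1 * ... * Mop l_m` with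
`l_r > i` and `|β| + m = a i`. -/
structure Tup (K : Type u) [Field K] (ι : Type v) (κ : Type w) [LinearOrder ι] where
  a : ι → ℕ
  ha : ∀ i, 2 ≤ a i
  h : ι → ((κ →₀ ℕ) × List ι) →₀ K
  hdeg : ∀ i, ∀ t ∈ (h i).support, t.1.degree + t.2.length = a i
  hgt : ∀ i, ∀ t ∈ (h i).support, ∀ l ∈ t.2, i < l

/-- polynomials in the central variables over the free algebra. -/
abbrev PA (K : Type u) [Field K] (ι : Type v) (κ : Type w) :=
  AddMonoidAlgebra (FA K (ι × κ)) (κ →₀ ℕ)

section
variable {K : Type u} [Field K] {ι : Type v} {κ : Type w}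

/-- central monomial. -/
noncomputable def xm (K : Type u) [Field K] (ι : Type v) {κ : Type w} (β : κ →₀ ℕ) : PA K ι κ :=
  AddMonoidAlgebra.single β 1

theorem xm_comm (β : κ →₀ ℕ) (z : PA K ι κ) : xm K ι β * z = z * xm K ι β := by
  induction z using AddMonoidAlgebra.induction_linear with
  | zero => simp
  | add f g hf hg => rw [mul_add, add_mul, hf, hg]
  | single m r =>
    rw [xm, AddMonoidAlgebra.single_mul_single, AddMonoidAlgebra.single_mul_single, one_mul, mul_one,
      add_comm]

theorem xm_mul (β γ : κ →₀ ℕ) : xm K ι β * xm K ι γ = xm K ι (β + γ) := by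
  rw [xm, xm, xm, AddMonoidAlgebra.single_mul_single, one_mul]

theorem xm_zero : xm K ι (0 : κ →₀ ℕ) = 1 := by
  rw [xm, AddMonoidAlgebra.one_def]

/-- the operators. -/
noncomputable def Mop (K : Type u) [Field K] {ι : Type v} {κ : Type w} [Fintype κ] (i : ι) :
    PA K ι κ :=
  ∑ j : κ, AddMonoidAlgebra.single (Finsupp.single j 1) (mon K [(i, j)])

/-- products of operators. -/
noncomputable def Ml (K : Type u) [Field K] {ι : Type v} (κ : Type w) [Fintype κ] (o : List ι) :
    PA K ι κ := (o.map (Mop K)).prod

variable [Fintype κ]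

theorem Ml_nil : Ml K κ ([] : List ι) = 1 := by simp [Ml]
theorem Ml_cons (i : ι) (o : List ι) : Ml K κ (i :: o) = Mop K i * Ml K κ o := by simp [Ml]
theorem Ml_append (o p : List ι) : Ml K κ (o ++ p) = Ml K κ o * Ml K κ p := by simp [Ml]
theorem Ml_replicate (n : ℕ) (i : ι) : Ml K κ (List.replicate n i) = Mop K i ^ n := by simp [Ml]
theorem Ml_single (i : ι) : Ml K κ [i] = Mop K i := by simp [Ml]

end

/-- names of the relations. -/
inductive Rl (ι : Type v) [LinearOrder ι] where
  | c (i i' : ι) (h : i < i') : Rl ι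
  | p (i : ι) : Rl ι

/-- the order on operator words: shortlex, small indices are large. -/
def ol {ι : Type v} [LinearOrder ι] : List ι → List ι → Prop := List.Shortlex (fun x y => y < x)

section order
variable {ι : Type v} [LinearOrder ι]

theorem ol_of_length {s t : List ι} (h : s.length < t.length) : ol s t :=
  List.Shortlex.of_length_lt h

theorem ol_of_rel {x y : ι} {s t : List ι} (h : s.length ≤ t.length) (hxy : y < x) :
    ol (x :: s) (y :: t) := by
  rcases lt_or_eq_of_le h with h | h
  · exact ol_of_length (by simpa using h)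
  · exact List.Shortlex.of_lex (by simp [h]) (List.Lex.rel hxy)

theorem ol_cons {x : ι} {s t : List ι} (h : ol s t) : ol (x :: s) (x :: t) := by
  rcases List.shortlex_def.1 h with h | ⟨h, h'⟩
  · exact ol_of_length (by simpa using h)
  · exact List.Shortlex.of_lex (by simp [h]) (List.Lex.cons h')

theorem lex_append_right {α : Type*} {r : α → α → Prop} {s t : List α} (h : List.Lex r s t)
    (hl : s.length = t.length) (b : List α) : List.Lex r (s ++ b) (t ++ b) := by
  induction h with
  | nil => simp at hl
  | cons h ih => exact List.Lex.cons (ih (by simpa using hl))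
  | rel h => exact List.Lex.rel h

theorem shortlex_ctx {α : Type*} {r : α → α → Prop} {s t : List α} (h : List.Shortlex r s t)
    (a b : List α) : List.Shortlex r (a ++ s ++ b) (a ++ t ++ b) := by
  rcases List.shortlex_def.1 h with h | ⟨h, h'⟩
  · exact List.Shortlex.of_length_lt (by simp; omega)
  · refine List.Shortlex.of_lex (by simp [h]) ?_
    apply lex_append_right _ (by simp [h])
    exact List.Lex.append_left r h' a

theorem ol_ctx {s t : List ι} (h : ol s t) (a b : List ι) : ol (a ++ s ++ b) (a ++ t ++ b) :=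
  shortlex_ctx h a b

theorem ol_length {s t : List ι} (h : ol s t) : s.length ≤ t.length := by
  rcases List.shortlex_def.1 h with h | ⟨h, _⟩
  · exact h.le
  · exact h.le

end order

namespace Tup
variable {K : Type u} [Field K] {ι : Type v} {κ : Type w} [LinearOrder ι] [Fintype κ]
variable (T : Tup K ι κ)

/-- right hand side of the power relation. -/
noncomputable def hh (i : ι) : PA K ι κ := (T.h i).sum fun t c => c • (xm K ι t.1 * Ml K κ t.2)

noncomputable def CC (i i' : ι) : PA K ι κ := Mop K i * Mop K i' - Mop K i' * Mop K i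

noncomputable def PP (i : ι) : PA K ι κ := Mop K i ^ T.a i - T.hh i

/-- operator word of a relation. -/
def tl : Rl ι → List ι
  | .c i i' _ => [i, i']
  | .p i => List.replicate (T.a i) i

/-- the relations in `PA`. -/
noncomputable def RR : Rl ι → PA K ι κ
  | .c i i' _ => CC i i'
  | .p i => T.PP i

theorem tl_length_pos (r : Rl ι) : 2 ≤ (T.tl r).length := by
  cases r with
  | c i i' h => simp [tl]
  | p i => simpa [tl] using T.ha i

/-- span of `x^β * Ml p * RR r * Ml q` of total degree `|o|` with operator word below `o`. -/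
noncomputable def Lo (o : List ι) : Submodule K (PA K ι κ) :=
  Submodule.span K {z | ∃ (β : κ →₀ ℕ) (p : List ι) (r : Rl ι) (q : List ι),
    β.degree + (p ++ T.tl r ++ q).length = o.length ∧ ol (p ++ T.tl r ++ q) o ∧
    z = xm K ι β * (Ml K κ p * T.RR r * Ml K κ q)}

/-- span of `x^β * Ml p` of total degree `|o|` with operator word below `o`. -/
noncomputable def Bo (o : List ι) : Submodule K (PA K ι κ) :=
  Submodule.span K {z | ∃ (β : κ →₀ ℕ) (p : List ι),
    β.degree + p.length = o.length ∧ ol p o ∧ z = xm K ι β * Ml K κ p}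

theorem mem_Lo {o p q : List ι} {r : Rl ι} (hl : (p ++ T.tl r ++ q).length = o.length)
    (h : ol (p ++ T.tl r ++ q) o) : Ml K κ p * T.RR r * Ml K κ q ∈ T.Lo o := by
  refine Submodule.subset_span ⟨0, p, r, q, ?_, h, ?_⟩
  · simpa using hl
  · rw [xm_zero, one_mul]

theorem mem_Lo_xm {o p q : List ι} {r : Rl ι} (β : κ →₀ ℕ)
    (hl : β.degree + (p ++ T.tl r ++ q).length = o.length)
    (h : ol (p ++ T.tl r ++ q) o) : xm K ι β * (Ml K κ p * T.RR r * Ml K κ q) ∈ T.Lo o :=
  Submodule.subset_span ⟨β, p, r, q, hl, h, rfl⟩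

theorem Lo_ctx {o : List ι} {z : PA K ι κ} (hz : z ∈ T.Lo o) (a b : List ι) :
    Ml K κ a * z * Ml K κ b ∈ T.Lo (a ++ o ++ b) := by
  induction hz using Submodule.span_induction with
  | mem x hx =>
    obtain ⟨β, p, r, q, h1, h2, rfl⟩ := hx
    have e : Ml K κ a * (xm K ι β * (Ml K κ p * T.RR r * Ml K κ q)) * Ml K κ b
        = xm K ι β * (Ml K κ (a ++ p) * T.RR r * Ml K κ (q ++ b)) := by
      rw [Ml_append, Ml_append, ← mul_assoc (Ml K κ a), ← xm_comm β (Ml K κ a)]
      simp only [mul_assoc]
    rw [e]
    apply T.mem_Lo_xm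
    · simp only [List.length_append] at h1 ⊢
      omega
    · have := ol_ctx h2 a b
      simpa [List.append_assoc] using this
  | zero => simp
  | add x y _ _ hx hy => rw [mul_add, add_mul]; exact add_mem hx hy
  | smul c x _ hx => rw [mul_smul_comm, smul_mul_assoc]; exact Submodule.smul_mem _ _ hx

theorem CC_eq_RR {i i' : ι} (h : i < i') : (CC i i' : PA K ι κ) = T.RR (.c i i' h) := rfl

theorem CC_symm (i i' : ι) : (CC i i' : PA K ι κ) = - CC i' i := by simp [CC]

theorem CC_self (i : ι) : (CC i i : PA K ι κ) = 0 := by simp [CC]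

end Tup
end Crest.Agent.R181.NW
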