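import Mathlib
import Crest.Agent.R181.NW2

/-!
R181, base level: operator level resolvability of all overlaps.
-/

set_option autoImplicit false
set_option linter.unusedSectionVars false

namespace Crest.Agent.R181.NW

universe u v w

section ids
variable {A : Type*} [Ring A]

theorem id1 (p m l o q : A) : p * (m * (l * o) - (l * o) * m) * q
    = p * (m * l - l * m) * (o * q) + (p * l) * (m * o - o * m) * q := by noncomm_ring

theorem id2 (b p r q : A) : b * (p * -r * q) = -(b * (p * r * q)) := by
  rw [mul_neg, neg_mul, mul_neg]

theorem id3 (x y z : A) : (x * y - y * x) * z - x * (y * z - z * y)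
      = - (1 * (y * z - z * y) * x)
        - (y * (x * z - z * x) * 1)
        + (1 * (x * z - z * x) * y)
        + (z * (x * y - y * x) * 1) := by noncomm_ring

theorem id4 (x y yb h : A) : (x * y - y * x) * yb - x * (y * yb - h)
      = - (1 * (y * yb - h) * x) - y * (x * yb - yb * x) * 1 + 1 * (x * h - h * x) * 1 := by
  noncomm_ring

theorem id5 (x y xb h : A) : (xb * x - h) * y - xb * (x * y - y * x)
      = y * (xb * x - h) * 1 - 1 * (y * xb - xb * y) * x + 1 * (y * h - h * y) * 1 := by
  noncomm_ring

theorem id6 (x xa h : A) (hx : xa * x = x * xa) : (xa - h) * x - x * (xa - h)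
      = 1 * (x * h - h * x) * 1 := by
  rw [sub_mul, mul_sub, hx]
  noncomm_ring

theorem id7 (P xs x : A) : P * (xs * x) - (xs * x) * P
      = 1 * (P * xs - xs * P) * x + xs * (P * x - x * P) * 1 := by
  noncomm_ring

end ids

section order
variable {ι : Type v} [LinearOrder ι]

theorem ol_replicate (i : ι) (n : ℕ) {s t : List ι} (h : ol s t) :
    ol (List.replicate n i ++ s) (List.replicate n i ++ t) := by
  have := ol_ctx h (List.replicate n i) []
  simpa using this

end order

namespace Tup
variable {K : Type u} [Field K] {ι : Type v} {κ : Type w} [LinearOrder ι] [Fintype κ]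
variable (T : Tup K ι κ)

/-- commutators of a product with an operator. -/
theorem comm_mem (i' : ι) (w : List ι) (β : κ →₀ ℕ) (o : List ι) : ∀ (p q : List ι),
    β.degree + (p ++ o ++ q).length + 1 = w.length →
    (∀ o1 l o2, o = o1 ++ l :: o2 → l ≠ i' →
      ol (p ++ (o1 ++ min l i' :: max l i' :: o2) ++ q) w) →
    xm K ι β * (Ml K κ p * (Mop K i' * Ml K κ o - Ml K κ o * Mop K i') * Ml K κ q) ∈ T.Lo w := by
  induction o with
  | nil =>
    intro p q _ _
    simp [Ml_nil]
  | cons l o ih =>
    intro p q hlen hol
    have e : Ml K κ p * (Mop K i' * Ml K κ (l :: o) - Ml K κ (l :: o) * Mop K i') * Ml K κ q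
        = Ml K κ p * (CC i' l) * Ml K κ (o ++ q)
          + Ml K κ (p ++ [l]) * (Mop K i' * Ml K κ o - Ml K κ o * Mop K i') * Ml K κ q := by
      rw [Ml_cons, Ml_append, Ml_append, Ml_single, CC]
      exact id1 _ _ _ _ _
    rw [e, mul_add]
    refine add_mem ?_ ?_
    · rcases lt_trichotomy i' l with h | h | h
      · have h1 := hol [] l o rfl (ne_of_gt h)
        rw [min_eq_right h.le, max_eq_left h.le] at h1
        rw [T.CC_eq_RR h]
        apply T.mem_Lo_xm
        · simp only [tl, List.length_append, List.length_cons, List.length_nil] at hlen ⊢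
          omega
        · simpa [tl] using h1
      · rw [h, CC_self]; simp
      · have h1 := hol [] l o rfl (ne_of_lt h)
        rw [min_eq_left h.le, max_eq_right h.le] at h1
        rw [CC_symm, T.CC_eq_RR h]
        have e2 : xm K ι β * (Ml K κ p * -T.RR (Rl.c l i' h) * Ml K κ (o ++ q))
            = -(xm K ι β * (Ml K κ p * T.RR (Rl.c l i' h) * Ml K κ (o ++ q))) := id2 _ _ _ _
        rw [e2]
        apply neg_mem
        apply T.mem_Lo_xm
        · simp only [tl, List.length_append, List.length_cons, List.length_nil] at hlen ⊢
          omega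
        · simpa [tl] using h1
    · apply ih (p ++ [l]) q
      · simp only [List.length_append, List.length_cons, List.length_nil] at hlen ⊢
        omega
      · intro o1 l' o2 ho hl'
        have := hol (l :: o1) l' o2 (by rw [ho]; rfl) hl'
        simpa using this

/-- commutators of a right hand side with an operator. -/
theorem comm_hh_mem (i i' : ι) (w p q : List ι)
    (hlen : (p ++ q).length + T.a i + 1 = w.length)
    (hol : ∀ t ∈ (T.h i).support, ∀ o1 l o2, t.2 = o1 ++ l :: o2 → l ≠ i' →
      ol (p ++ (o1 ++ min l i' :: max l i' :: o2) ++ q) w) :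
    Ml K κ p * (Mop K i' * T.hh i - T.hh i * Mop K i') * Ml K κ q ∈ T.Lo w := by
  have e : Ml K κ p * (Mop K i' * T.hh i - T.hh i * Mop K i') * Ml K κ q
      = (T.h i).sum fun t c => c • (xm K ι t.1 *
          (Ml K κ p * (Mop K i' * Ml K κ t.2 - Ml K κ t.2 * Mop K i') * Ml K κ q)) := by
    rw [hh, Finsupp.sum, Finsupp.sum, Finset.mul_sum, Finset.sum_mul, ← Finset.sum_sub_distrib,
      Finset.mul_sum, Finset.sum_mul]
    refine Finset.sum_congr rfl (fun t _ => ?_)
    have h1 := xm_comm (K := K) (ι := ι) t.1 (Mop K i')
    have h2 := xm_comm (K := K) (ι := ι) t.1 (Ml K κ p)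
    rw [mul_smul_comm, smul_mul_assoc, ← smul_sub, mul_smul_comm, smul_mul_assoc]
    congr 1
    rw [← mul_assoc (Mop K i'), ← h1, mul_assoc (xm K ι t.1) (Mop K i'),
      mul_assoc (xm K ι t.1) (Ml K κ t.2), ← mul_sub, ← mul_assoc (Ml K κ p), ← h2,
      mul_assoc (xm K ι t.1), mul_assoc (xm K ι t.1)]
  rw [e]
  refine Submodule.sum_mem _ (fun t ht => ?_)
  refine Submodule.smul_mem _ _ ?_
  apply T.comm_mem
  · have := T.hdeg i t ht
    simp only [List.length_append] at hlen ⊢
    omega
  · exact hol t ht

theorem sup_length {i : ι} {t : (κ →₀ ℕ) × List ι} (ht : t ∈ (T.h i).support) :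
    t.2.length ≤ T.a i := by
  have := T.hdeg i t ht
  omega

/-- overlap `(i)(i')(i'')`. -/
theorem ov_cc {i i' i'' : ι} (h1 : i < i') (h2 : i' < i'') :
    CC i i' * Mop K i'' - Mop K i * CC i' i'' ∈ T.Lo [i, i', i''] := by
  have h3 : i < i'' := h1.trans h2
  have e : CC i i' * Mop K i'' - Mop K i * CC i' i''
      = - (Ml K κ [] * T.RR (.c i' i'' h2) * Ml K κ [i])
        - (Ml K κ [i'] * T.RR (.c i i'' h3) * Ml K κ [])
        + (Ml K κ [] * T.RR (.c i i'' h3) * Ml K κ [i'])
        + (Ml K κ [i''] * T.RR (.c i i' h1) * Ml K κ []) := by
    simp only [Ml_nil, Ml_single, RR, CC]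
    exact id3 _ _ _
  rw [e]
  refine add_mem (add_mem (sub_mem (neg_mem ?_) ?_) ?_) ?_
  · apply T.mem_Lo
    · simp [tl]
    · simp only [tl, List.nil_append, List.cons_append]
      exact ol_of_rel (by simp) h1
  · apply T.mem_Lo
    · simp [tl]
    · simp only [tl, List.append_nil, List.cons_append, List.nil_append]
      exact ol_of_rel (by simp) h1
  · apply T.mem_Lo
    · simp [tl]
    · simp only [tl, List.nil_append, List.cons_append]
      exact ol_cons (ol_of_rel (by simp) h2)
  · apply T.mem_Lo
    · simp [tl]
    · simp only [tl, List.append_nil, List.cons_append, List.nil_append]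
      exact ol_of_rel (by simp) h3

/-- overlap `(i)(i')...(i')`. -/
theorem ov_cp {i i' : ι} (h : i < i') (b : ℕ) (hb : T.a i' = b + 1) :
    CC i i' * Mop K i' ^ b - Mop K i * T.PP i' ∈ T.Lo (i :: List.replicate (b + 1) i') := by
  have e : CC i i' * Mop K i' ^ b - Mop K i * T.PP i'
      = - (Ml K κ [] * T.RR (.p i') * Ml K κ [i])
        - Ml K κ [i'] * (Mop K i * Ml K κ (List.replicate b i')
            - Ml K κ (List.replicate b i') * Mop K i) * Ml K κ []
        + Ml K κ [] * (Mop K i * T.hh i' - T.hh i' * Mop K i) * Ml K κ [] := by
    simp only [Ml_nil, Ml_single, RR, CC, PP, Ml_replicate, hb, pow_succ']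
    exact id4 _ _ _ _
  rw [e]
  refine add_mem (sub_mem (neg_mem ?_) ?_) ?_
  · apply T.mem_Lo
    · simp [tl, hb]
    · simp only [tl, List.nil_append, hb, List.replicate_succ, List.cons_append]
      exact ol_of_rel (by simp) h
  · have := T.comm_mem i (i :: List.replicate (b + 1) i') (0 : κ →₀ ℕ) (List.replicate b i')
      [i'] [] (by simp) ?_
    · rw [xm_zero, one_mul] at this
      exact this
    · intro o1 l o2 ho hl
      simp only [List.cons_append, List.nil_append, List.append_nil]
      refine ol_of_rel ?_ h
      have hlen := congrArg List.length ho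
      simp only [List.length_replicate, List.length_append, List.length_cons] at hlen ⊢
      omega
  · apply T.comm_hh_mem
    · simp [hb]
    · intro t ht o1 l o2 ho hl
      have hl' : i' < l := T.hgt i' t ht l (by rw [ho]; simp)
      have hlen := T.sup_length ht
      rw [ho, hb] at hlen
      simp only [List.length_append, List.length_cons] at hlen
      rw [min_eq_right (h.trans hl').le, max_eq_left (h.trans hl').le]
      simp only [List.nil_append, List.append_nil]
      cases o1 with
      | nil =>
        simp only [List.nil_append]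
        apply ol_cons
        rw [List.replicate_succ]
        exact ol_of_rel (by simpa using hlen) hl'
      | cons x o1 =>
        have hx : i' < x := T.hgt i' t ht x (by rw [ho]; simp)
        simp only [List.cons_append]
        refine ol_of_rel ?_ (h.trans hx)
        simp only [List.length_append, List.length_cons, List.length_replicate] at hlen ⊢
        omega

/-- overlap `(i)...(i)(i')`. -/
theorem ov_pc {i i' : ι} (h : i < i') (b : ℕ) (hb : T.a i = b + 1) :
    T.PP i * Mop K i' - Mop K i ^ b * CC i i' ∈ T.Lo (List.replicate (b + 1) i ++ [i']) := by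
  have e : T.PP i * Mop K i' - Mop K i ^ b * CC i i'
      = (Ml K κ [i'] * T.RR (.p i) * Ml K κ [])
        - Ml K κ [] * (Mop K i' * Ml K κ (List.replicate b i)
            - Ml K κ (List.replicate b i) * Mop K i') * Ml K κ [i]
        + Ml K κ [] * (Mop K i' * T.hh i - T.hh i * Mop K i') * Ml K κ [] := by
    simp only [Ml_nil, Ml_single, RR, CC, PP, Ml_replicate, hb, pow_succ]
    exact id5 _ _ _ _
  rw [e]
  refine add_mem (sub_mem ?_ ?_) ?_
  · apply T.mem_Lo
    · simp [tl, hb]
    · simp only [tl, List.append_nil, hb, List.replicate_succ, List.cons_append, List.nil_append]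
      exact ol_of_rel (by simp) h
  · have := T.comm_mem i' (List.replicate (b + 1) i ++ [i']) (0 : κ →₀ ℕ) (List.replicate b i)
      [] [i] (by simp) ?_
    · rw [xm_zero, one_mul] at this
      exact this
    · intro o1 l o2 ho hl
      have hlen := congrArg List.length ho
      have ho1 : o1 = List.replicate o1.length i := by
        rw [List.eq_replicate_iff]
        refine ⟨rfl, fun x hx => ?_⟩
        have : x ∈ List.replicate b i := by rw [ho]; simp [hx]
        exact List.eq_of_mem_replicate this
      have hl1 : l = i := by
        have : l ∈ List.replicate b i := by rw [ho]; simp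
        exact List.eq_of_mem_replicate this
      simp only [List.length_replicate, List.length_append, List.length_cons] at hlen
      rw [hl1, min_eq_left h.le, max_eq_right h.le]
      set n := o1.length with hn
      clear_value n
      subst ho1
      have hbb : b = n + 1 + o2.length := by simpa [add_assoc, add_comm, add_left_comm] using hlen
      have e1 : List.replicate (b + 1) i ++ [i'] = List.replicate n i ++
          (i :: i :: (List.replicate o2.length i ++ [i'])) := by
        have : b + 1 = n + (o2.length + 2) := by omega
        rw [this, List.replicate_add]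
        simp [List.replicate_succ]
      rw [e1]
      have := ol_replicate i n (s := i :: i' :: (o2 ++ [i]))
        (t := i :: i :: (List.replicate o2.length i ++ [i']))
        (ol_cons (ol_of_rel (by simp) h))
      simpa using this
  · apply T.comm_hh_mem
    · simp [hb]
    · intro t ht o1 l o2 ho hl
      have hl' : i < l := T.hgt i t ht l (by rw [ho]; simp)
      have hlen := T.sup_length ht
      rw [ho, hb] at hlen
      simp only [List.length_append, List.length_cons] at hlen
      simp only [List.nil_append, List.append_nil, List.replicate_succ, List.cons_append]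
      cases o1 with
      | nil =>
        simp only [List.nil_append]
        refine ol_of_rel ?_ (lt_min hl' h)
        simp only [List.length_append, List.length_cons, List.length_replicate,
          List.length_nil] at hlen ⊢
        omega
      | cons x o1 =>
        have hx : i < x := T.hgt i t ht x (by rw [ho]; simp)
        simp only [List.cons_append]
        refine ol_of_rel ?_ hx
        simp only [List.length_append, List.length_cons, List.length_replicate] at hlen ⊢
        omega

/-- overlap `(i)...(i)` shifted by one. -/
theorem ov_pp1 (i : ι) :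
    T.PP i * Mop K i - Mop K i * T.PP i ∈ T.Lo (List.replicate (T.a i + 1) i) := by
  have e : T.PP i * Mop K i - Mop K i * T.PP i
      = Ml K κ [] * (Mop K i * T.hh i - T.hh i * Mop K i) * Ml K κ [] := by
    simp only [Ml_nil, PP]
    have : Mop K i ^ T.a i * Mop K i = (Mop K i * Mop K i ^ T.a i : PA K ι κ) := by
      rw [← pow_succ, ← pow_succ']
    exact id6 _ _ _ this
  rw [e]
  apply T.comm_hh_mem
  · simp
  · intro t ht o1 l o2 ho hl
    have hl' : i < l := T.hgt i t ht l (by rw [ho]; simp)
    have hlen := T.sup_length ht
    rw [ho] at hlen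
    simp only [List.length_append, List.length_cons] at hlen
    rw [min_eq_right hl'.le, max_eq_left hl'.le]
    obtain ⟨b, hb⟩ : ∃ b, T.a i = b + 1 := ⟨T.a i - 1, by have := T.ha i; omega⟩
    rw [hb] at hlen ⊢
    simp only [List.nil_append, List.append_nil, List.replicate_succ]
    cases o1 with
    | nil =>
      simp only [List.nil_append]
      apply ol_cons
      refine ol_of_rel ?_ hl'
      simp only [List.length_replicate] at hlen ⊢
      simp only [List.length_nil] at hlen
      omega
    | cons x o1 =>
      have hx : i < x := T.hgt i t ht x (by rw [ho]; simp)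
      simp only [List.cons_append]
      refine ol_of_rel ?_ hx
      simp only [List.length_append, List.length_cons, List.length_replicate] at hlen ⊢
      omega

theorem ov_pp (i : ι) (s : ℕ) :
    T.PP i * Mop K i ^ s - Mop K i ^ s * T.PP i ∈ T.Lo (List.replicate (T.a i + s) i) := by
  induction s with
  | zero => simp
  | succ s ih =>
    have e : T.PP i * Mop K i ^ (s + 1) - Mop K i ^ (s + 1) * T.PP i
        = Ml K κ [] * (T.PP i * Mop K i ^ s - Mop K i ^ s * T.PP i) * Ml K κ [i]
          + Ml K κ (List.replicate s i) * (T.PP i * Mop K i - Mop K i * T.PP i) * Ml K κ [] := by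
      rw [Ml_nil, Ml_single, Ml_replicate, pow_succ]
      exact id7 _ _ _
    rw [e]
    refine add_mem ?_ ?_
    · have := T.Lo_ctx ih [] [i]
      convert this using 2
      simp [List.replicate_succ', ← add_assoc]
    · have := T.Lo_ctx (T.ov_pp1 i) (List.replicate s i) []
      convert this using 2
      rw [← List.replicate_add, List.append_nil]
      congr 1
      omega

end Tup
end Crest.Agent.R181.NW
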