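import Mathlib
import Crest.Agent.R181.NW3

/-!
R181, base level: contents of words, expansion of products of operators, leading words.
-/

set_option autoImplicit false
set_option linter.unusedSectionVars false

namespace Crest.Agent.R181.NW

universe u v w

section cont
variable {κ : Type w}

/-- content of a word of variables. -/
noncomputable def cont (v : List κ) : κ →₀ ℕ := (v.map fun j => Finsupp.single j 1).sum

theorem cont_nil : cont ([] : List κ) = 0 := rfl
theorem cont_cons (j : κ) (v : List κ) : cont (j :: v) = Finsupp.single j 1 + cont v := by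
  simp [cont]
theorem cont_append (v v' : List κ) : cont (v ++ v') = cont v + cont v' := by
  simp [cont]

theorem toMultiset_cont (v : List κ) : Finsupp.toMultiset (cont v) = (v : Multiset κ) := by
  induction v with
  | nil => simp [cont_nil]
  | cons j v ih =>
    rw [cont_cons, Finsupp.toMultiset_add, Finsupp.toMultiset_single, ih]
    simp

theorem degree_cont (v : List κ) : (cont v).degree = v.length := by
  induction v with
  | nil => simp [cont_nil]
  | cons j v ih =>
    rw [cont_cons, map_add, Finsupp.degree_single, ih, List.length_cons, add_comm]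

theorem toMultiset_inj {δ ε : κ →₀ ℕ} (h : Finsupp.toMultiset δ = Finsupp.toMultiset ε) : δ = ε := by
  classical
  have := congrArg Multiset.toFinsupp h
  rwa [Finsupp.toMultiset_toFinsupp, Finsupp.toMultiset_toFinsupp] at this

theorem cont_eq_iff {v v' : List κ} : cont v = cont v' ↔ v.Perm v' := by
  rw [← Multiset.coe_eq_coe, ← toMultiset_cont, ← toMultiset_cont]
  exact ⟨fun h => by rw [h], fun h => toMultiset_inj h⟩

variable [LinearOrder κ]

/-- sorted word of a content. -/
noncomputable def srt (δ : κ →₀ ℕ) : List κ := (Finsupp.toMultiset δ).sort (· ≤ ·)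

theorem srt_pairwise (δ : κ →₀ ℕ) : (srt δ).Pairwise (· ≤ ·) := Multiset.pairwise_sort _ _

theorem cont_srt (δ : κ →₀ ℕ) : cont (srt δ) = δ := by
  apply toMultiset_inj
  rw [toMultiset_cont, srt, Multiset.sort_eq]

theorem length_srt (δ : κ →₀ ℕ) : (srt δ).length = δ.degree := by
  rw [← degree_cont, cont_srt]

theorem srt_cont {v : List κ} (h : v.Pairwise (· ≤ ·)) : srt (cont v) = v := by
  have h1 : (srt (cont v)).Perm v := cont_eq_iff.1 (cont_srt _)
  exact h1.eq_of_pairwise' (srt_pairwise _) h

/-- among the words of given content the sorted one is the largest. -/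
theorem lex_of_perm {s : List κ} : ∀ {v : List κ}, s.Pairwise (· ≤ ·) → v.Perm s → v ≠ s →
    List.Lex (fun x y => y < x) v s := by
  induction s with
  | nil => intro v _ hp hne; exact absurd hp.eq_nil hne
  | cons x s ih =>
    intro v hs hp hne
    cases v with
    | nil => simp at hp
    | cons y v =>
      have hy : y ∈ x :: s := hp.subset (by simp)
      have hxy : x ≤ y := by
        rcases List.mem_cons.1 hy with h | h
        · exact h.ge
        · exact (List.pairwise_cons.1 hs).1 y h
      rcases hxy.eq_or_lt with h | h
      · subst h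
        refine List.Lex.cons (ih (List.pairwise_cons.1 hs).2 (List.Perm.cons_inv hp) ?_)
        rintro rfl
        exact hne rfl
      · exact List.Lex.rel h

end cont

/-- order on words of letters: length, then variables, then operators. -/
def wl {ι : Type v} {κ : Type w} [LinearOrder ι] [LinearOrder κ] :
    List (ι × κ) → List (ι × κ) → Prop :=
  InvImage (Prod.Lex (List.Shortlex (fun x y : κ => y < x)) (List.Shortlex (fun x y : ι => y < x)))
    fun l => (l.map Prod.snd, l.map Prod.fst)

section wl
variable {ι : Type v} {κ : Type w} [LinearOrder ι] [LinearOrder κ]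

theorem wl_iff {s t : List (ι × κ)} : wl s t ↔
    List.Shortlex (fun x y : κ => y < x) (s.map Prod.snd) (t.map Prod.snd) ∨
    s.map Prod.snd = t.map Prod.snd ∧
      List.Shortlex (fun x y : ι => y < x) (s.map Prod.fst) (t.map Prod.fst) := by
  unfold wl InvImage
  rw [Prod.lex_def]

theorem eq_of_maps {s t : List (ι × κ)} (h1 : s.map Prod.fst = t.map Prod.fst)
    (h2 : s.map Prod.snd = t.map Prod.snd) : s = t := by
  rw [← List.zip_unzip s, ← List.zip_unzip t, List.unzip_eq_map, List.unzip_eq_map]
  simp only [h1, h2]

theorem wl_wf [Finite ι] [Finite κ] : WellFounded (wl : List (ι × κ) → List (ι × κ) → Prop) := by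
  apply InvImage.wf
  apply WellFounded.prod_lex
  · exact List.Shortlex.wf (Finite.wellFounded_of_trans_of_irrefl _)
  · exact List.Shortlex.wf (Finite.wellFounded_of_trans_of_irrefl _)

theorem lex_trans {α : Type*} {r : α → α → Prop} (tr : ∀ a b c, r a b → r b c → r a c) :
    ∀ {s t w : List α}, List.Lex r s t → List.Lex r t w → List.Lex r s w := by
  intro s
  induction s with
  | nil =>
    intro t w h h'
    cases h' with
    | nil => exact List.Lex.nil
    | cons h' => exact List.Lex.nil
    | rel h' => exact List.Lex.nil
  | cons a s ih =>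
    intro t w h h'
    cases h with
    | cons h =>
      cases h' with
      | cons h' => exact List.Lex.cons (ih h h')
      | rel h' => exact List.Lex.rel h'
    | rel h =>
      cases h' with
      | cons h' => exact List.Lex.rel h
      | rel h' => exact List.Lex.rel (tr _ _ _ h h')

theorem shortlex_trans {α : Type*} [LinearOrder α] {a b c : List α}
    (h : List.Shortlex (fun x y => y < x) a b) (h' : List.Shortlex (fun x y => y < x) b c) :
    List.Shortlex (fun x y => y < x) a c := by
  rw [List.shortlex_def] at *
  rcases h with h | ⟨h, hl⟩ <;> rcases h' with h' | ⟨h', hl'⟩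
  · left; omega
  · left; omega
  · left; omega
  · right
    refine ⟨h.trans h', ?_⟩
    exact lex_trans (fun _ _ _ h1 h2 => h2.trans h1) hl hl'

theorem shortlex_tot {α : Type*} [LinearOrder α] (a b : List α) :
    List.Shortlex (fun x y => y < x) a b ∨ a = b ∨ List.Shortlex (fun x y => y < x) b a := by
  rcases lt_trichotomy a.length b.length with h | h | h
  · exact Or.inl (List.Shortlex.of_length_lt h)
  · by_cases hab : a = b
    · exact Or.inr (Or.inl hab)
    · by_cases h1 : List.Lex (fun x y : α => y < x) a b
      · exact Or.inl (List.Shortlex.of_lex h h1)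
      · by_cases h2 : List.Lex (fun x y : α => y < x) b a
        · exact Or.inr (Or.inr (List.Shortlex.of_lex h.symm h2))
        · exact absurd (Std.Trichotomous.trichotomous (r := List.Lex (fun x y : α => y < x)) a b h1 h2) hab
  · exact Or.inr (Or.inr (List.Shortlex.of_length_lt h))

theorem wl_trans {a b c : List (ι × κ)} (h : wl a b) (h' : wl b c) : wl a c := by
  rw [wl_iff] at *
  rcases h with h | ⟨h, hl⟩ <;> rcases h' with h' | ⟨h', hl'⟩
  · exact Or.inl (shortlex_trans h h')
  · exact Or.inl (h' ▸ h)
  · exact Or.inl (h ▸ h')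
  · exact Or.inr ⟨h.trans h', shortlex_trans hl hl'⟩

theorem wl_tot (a b : List (ι × κ)) : wl a b ∨ a = b ∨ wl b a := by
  simp only [wl_iff]
  rcases shortlex_tot (a.map Prod.snd) (b.map Prod.snd) with h | h | h
  · exact Or.inl (Or.inl h)
  · rcases shortlex_tot (a.map Prod.fst) (b.map Prod.fst) with h' | h' | h'
    · exact Or.inl (Or.inr ⟨h, h'⟩)
    · exact Or.inr (Or.inl (eq_of_maps h' h))
    · exact Or.inr (Or.inr (Or.inr ⟨h.symm, h'⟩))
  · exact Or.inr (Or.inr (Or.inl h))

theorem wl_ctx (a b u v : List (ι × κ)) (h : wl u v) : wl (a ++ u ++ b) (a ++ v ++ b) := by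
  rw [wl_iff] at *
  simp only [List.map_append]
  rcases h with h | ⟨h, h'⟩
  · exact Or.inl (shortlex_ctx h _ _)
  · exact Or.inr ⟨by rw [h], shortlex_ctx h' _ _⟩

/-- comparison with the sorted word of a content. -/
theorem wl_zip {p o : List ι} {v : List κ} {β α : κ →₀ ℕ} (hv : v.length = p.length)
    (hα : α.degree = o.length) (hc : β + cont v = α) (h : ol p o ∨ (p = o ∧ v ≠ srt α)) :
    wl (List.zip p v) (List.zip o (srt α)) := by
  have hs : (srt α).length = o.length := by rw [length_srt, hα]
  rw [wl_iff, List.map_snd_zip hv.le, List.map_snd_zip hs.le, List.map_fst_zip hv.ge,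
    List.map_fst_zip hs.ge]
  have hdeg : β.degree + v.length = α.degree := by
    rw [← hc, map_add, degree_cont]
  rcases Nat.eq_zero_or_pos β.degree with hβ | hβ
  · have hβ0 : β = 0 := (Finsupp.degree_eq_zero_iff β).1 hβ
    rw [hβ0, zero_add] at hc
    have hp : v.Perm (srt α) := by rw [← cont_eq_iff, cont_srt, hc]
    by_cases hvs : v = srt α
    · rcases h with h | ⟨_, h⟩
      · exact Or.inr ⟨hvs, h⟩
      · exact absurd hvs h
    · left
      exact List.Shortlex.of_lex hp.length_eq (lex_of_perm (srt_pairwise α) hp hvs)
  · left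
    apply List.Shortlex.of_length_lt
    rw [length_srt]
    omega

end wl

section expand
variable {K : Type u} [Field K] {ι : Type v} {κ : Type w} [Fintype κ]

/-- all words of length `n`. -/
noncomputable def lists (κ : Type w) [Fintype κ] : ℕ → Finset (List κ)
  | 0 => {[]}
  | n + 1 => (Finset.univ ×ˢ lists κ n).map
      ⟨fun p => p.1 :: p.2, by
        rintro ⟨a, b⟩ ⟨c, d⟩ h
        simp only [List.cons.injEq] at h
        exact Prod.ext h.1 h.2⟩

theorem mem_lists {n : ℕ} {v : List κ} : v ∈ lists κ n ↔ v.length = n := by
  induction n generalizing v with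
  | zero => simp [lists]
  | succ n ih =>
    simp only [lists, Finset.mem_map, Finset.mem_product, Finset.mem_univ, true_and,
      Function.Embedding.coeFn_mk, Prod.exists]
    constructor
    · rintro ⟨a, b, hb, rfl⟩
      simp [ih.1 hb]
    · intro h
      cases v with
      | nil => simp at h
      | cons a b => exact ⟨a, b, ih.2 (by simpa using h), rfl⟩

theorem Ml_expand (o : List ι) : Ml K κ o = ∑ v ∈ lists κ o.length,
    AddMonoidAlgebra.single (cont v) (mon K (List.zip o v)) := by
  induction o with
  | nil =>
    rw [Ml_nil]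
    simp only [List.length_nil, lists, Finset.sum_singleton, cont_nil, List.zip_nil_left, mon_nil]
    rfl
  | cons i o ih =>
    rw [Ml_cons, ih, Mop, List.length_cons, lists, Finset.sum_map, Finset.sum_product,
      Finset.sum_mul]
    refine Finset.sum_congr rfl (fun j _ => ?_)
    rw [Finset.mul_sum]
    refine Finset.sum_congr rfl (fun v _ => ?_)
    rw [AddMonoidAlgebra.single_mul_single, ← mon_append]
    simp [cont_cons]

end expand
end Crest.Agent.R181.NW
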