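import Mathlib
import Crest.Agent.R181.NW4

/-!
R181, base level: coefficients of the relations, the rewriting system, coefficient extraction.
-/

set_option autoImplicit false
set_option linter.unusedSectionVars false

namespace Crest.Agent.R181.NW

universe u v w

section
variable {K : Type u} [Field K] {ι : Type v} {κ : Type w} [Fintype κ] [LinearOrder ι]
  [LinearOrder κ]

/-- contents of total degree `n`. -/
noncomputable def DD (κ : Type w) [Fintype κ] [LinearOrder κ] (n : ℕ) : Finset (κ →₀ ℕ) :=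
  (lists κ n).image cont

theorem mem_DD {n : ℕ} {δ : κ →₀ ℕ} : δ ∈ DD κ n ↔ δ.degree = n := by
  simp only [DD, Finset.mem_image, mem_lists]
  constructor
  · rintro ⟨v, hv, rfl⟩; rw [degree_cont, hv]
  · intro h; exact ⟨srt δ, by rw [length_srt, h], cont_srt δ⟩

theorem eq_sum_of_hom {n : ℕ} {z : PA K ι κ} (hz : ∀ δ, δ.degree ≠ n → z.coeff δ = 0) :
    z = ∑ δ ∈ DD κ n, AddMonoidAlgebra.single δ (z.coeff δ) := by
  classical
  ext1
  ext1 δ
  rw [AddMonoidAlgebra.coeff_sum, Finsupp.finset_sum_apply]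
  simp only [AddMonoidAlgebra.coeff_single, Finsupp.single_apply]
  rw [Finset.sum_ite_eq' (DD κ n) δ]
  split_ifs with h
  · rfl
  · rw [mem_DD] at h; exact hz δ h

theorem coeff_xm_Ml (β α : κ →₀ ℕ) (p : List ι) :
    (xm K ι β * Ml K κ p).coeff α = ∑ v ∈ lists κ p.length,
      if β + cont v = α then mon K (List.zip p v) else 0 := by
  classical
  rw [Ml_expand, xm, Finset.mul_sum, AddMonoidAlgebra.coeff_sum, Finsupp.finset_sum_apply]
  refine Finset.sum_congr rfl (fun v _ => ?_)
  rw [AddMonoidAlgebra.single_mul_single, one_mul, AddMonoidAlgebra.coeff_single,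
    Finsupp.single_apply]

theorem coeff_prod (β α : κ →₀ ℕ) (p q : List ι) {n : ℕ} {R : PA K ι κ}
    (hR : ∀ δ, δ.degree ≠ n → R.coeff δ = 0) :
    (xm K ι β * (Ml K κ p * R * Ml K κ q)).coeff α
      = ∑ x ∈ lists κ p.length ×ˢ (DD κ n ×ˢ lists κ q.length),
        if β + (cont x.1 + x.2.1 + cont x.2.2) = α then
          mon K (List.zip p x.1) * R.coeff x.2.1 * mon K (List.zip q x.2.2) else 0 := by
  classical
  have h1 : Ml K κ p * R * Ml K κ q = ∑ x ∈ lists κ p.length ×ˢ (DD κ n ×ˢ lists κ q.length),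
      AddMonoidAlgebra.single (cont x.1 + x.2.1 + cont x.2.2)
        (mon K (List.zip p x.1) * R.coeff x.2.1 * mon K (List.zip q x.2.2)) := by
    conv_lhs => rw [Ml_expand p, Ml_expand q, eq_sum_of_hom hR]
    rw [Finset.sum_product, Finset.sum_mul, Finset.sum_mul]
    refine Finset.sum_congr rfl (fun v _ => ?_)
    rw [Finset.sum_product, Finset.mul_sum (DD κ n), Finset.sum_mul]
    refine Finset.sum_congr rfl (fun δ _ => ?_)
    rw [Finset.mul_sum]
    refine Finset.sum_congr rfl (fun v' _ => ?_)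
    rw [AddMonoidAlgebra.single_mul_single, AddMonoidAlgebra.single_mul_single]
  rw [h1, xm, Finset.mul_sum, AddMonoidAlgebra.coeff_sum, Finsupp.finset_sum_apply]
  refine Finset.sum_congr rfl (fun x _ => ?_)
  rw [AddMonoidAlgebra.single_mul_single, one_mul, AddMonoidAlgebra.coeff_single,
    Finsupp.single_apply]

/-- monomials below a word. -/
noncomputable def Bw (K : Type u) [Field K] (l : List (ι × κ)) : Submodule K (FA K (ι × κ)) :=
  Submodule.span K (mon K '' {m | wl m l})

end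

namespace Tup
variable {K : Type u} [Field K] {ι : Type v} {κ : Type w} [LinearOrder ι] [Fintype κ]
  [LinearOrder κ] (T : Tup K ι κ)

theorem coeff_Bo {o : List ι} {z : PA K ι κ} (hz : z ∈ Bo (K := K) (κ := κ) o) {α : κ →₀ ℕ}
    (hα : α.degree = o.length) : z.coeff α ∈ Bw K (List.zip o (srt α)) := by
  induction hz using Submodule.span_induction with
  | mem x hx =>
    obtain ⟨β, p, h1, h2, rfl⟩ := hx
    rw [coeff_xm_Ml]
    refine Submodule.sum_mem _ (fun v hv => ?_)
    rw [mem_lists] at hv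
    split_ifs with h
    · exact Submodule.subset_span ⟨_, wl_zip hv hα h (Or.inl h2), rfl⟩
    · exact zero_mem _
  | zero => rw [AddMonoidAlgebra.coeff_zero]; exact zero_mem _
  | add x y _ _ hx hy => rw [AddMonoidAlgebra.coeff_add]; exact add_mem hx hy
  | smul c x _ hx => rw [AddMonoidAlgebra.coeff_smul]; exact Submodule.smul_mem _ _ hx

theorem coeff_Ml (o : List ι) {α : κ →₀ ℕ} (hα : α.degree = o.length) :
    (Ml K κ o).coeff α - mon K (List.zip o (srt α)) ∈ Bw K (List.zip o (srt α)) := by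
  classical
  have h0 : Ml K κ o = xm K ι 0 * Ml K κ o := by rw [xm_zero, one_mul]
  rw [h0, coeff_xm_Ml]
  have hm : srt α ∈ lists κ o.length := by rw [mem_lists, length_srt, hα]
  rw [← Finset.add_sum_erase _ _ hm, if_pos (by rw [zero_add, cont_srt]), add_sub_cancel_left]
  refine Submodule.sum_mem _ (fun v hv => ?_)
  rw [Finset.mem_erase, mem_lists] at hv
  split_ifs with h
  · exact Submodule.subset_span ⟨_, wl_zip hv.2 hα h (Or.inr ⟨rfl, hv.1⟩), rfl⟩
  · exact zero_mem _

theorem hh_mem (i : ι) : T.hh i ∈ Bo (K := K) (κ := κ) (List.replicate (T.a i) i) := by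
  rw [hh, Finsupp.sum]
  refine Submodule.sum_mem _ (fun t ht => Submodule.smul_mem _ _ ?_)
  refine Submodule.subset_span ⟨t.1, t.2, by simpa using T.hdeg i t ht, ?_, rfl⟩
  obtain ⟨b, hb⟩ : ∃ b, T.a i = b + 1 := ⟨T.a i - 1, by have := T.ha i; omega⟩
  have hlen := T.sup_length ht
  rw [hb] at hlen ⊢
  rcases hxx : t.2 with _ | ⟨l, o⟩
  · exact ol_of_length (by simp)
  · rw [List.replicate_succ]
    have := T.hgt i t ht l (by rw [hxx]; simp)
    exact ol_of_rel (by rw [hxx] at hlen; simpa using hlen) this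

theorem RR_sub (r : Rl ι) : Ml K κ (T.tl r) - T.RR r ∈ Bo (K := K) (κ := κ) (T.tl r) := by
  cases r with
  | c i i' h =>
    have e : Ml K κ (T.tl (.c i i' h)) - T.RR (.c i i' h) = xm K ι (0 : κ →₀ ℕ) * Ml K κ [i', i] := by
      rw [xm_zero, one_mul]
      simp [tl, RR, CC, Ml]
    rw [e]
    exact Submodule.subset_span ⟨0, [i', i], by simp [tl], ol_of_rel (by simp) h, rfl⟩
  | p i =>
    have e : Ml K κ (T.tl (.p i)) - T.RR (.p i) = T.hh i := by
      simp [tl, RR, PP, Ml]
    rw [e]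
    exact T.hh_mem i

/-- homogeneity. -/
theorem coeff_span_eq_zero {n : ℕ} {z : PA K ι κ}
    (hz : z ∈ Submodule.span K {z : PA K ι κ | ∃ (β : κ →₀ ℕ) (p : List ι),
      β.degree + p.length = n ∧ z = xm K ι β * Ml K κ p}) {δ : κ →₀ ℕ} (hδ : δ.degree ≠ n) :
    z.coeff δ = 0 := by
  induction hz using Submodule.span_induction with
  | mem x hx =>
    obtain ⟨β, p, h1, rfl⟩ := hx
    rw [coeff_xm_Ml]
    refine Finset.sum_eq_zero (fun v hv => if_neg ?_)
    rw [mem_lists] at hv
    rintro rfl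
    apply hδ
    rw [map_add, degree_cont, hv, h1]
  | zero => rfl
  | add x y _ _ hx hy => rw [AddMonoidAlgebra.coeff_add, Finsupp.add_apply, hx, hy, add_zero]
  | smul c x _ hx => rw [AddMonoidAlgebra.coeff_smul, Finsupp.smul_apply, hx, smul_zero]

theorem Bo_le (o : List ι) : Bo (K := K) (κ := κ) o ≤
    Submodule.span K {z : PA K ι κ | ∃ (β : κ →₀ ℕ) (p : List ι),
      β.degree + p.length = o.length ∧ z = xm K ι β * Ml K κ p} := by
  apply Submodule.span_mono
  rintro _ ⟨β, p, h1, _, rfl⟩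
  exact ⟨β, p, h1, rfl⟩

theorem RR_hom (r : Rl ι) (δ : κ →₀ ℕ) (hδ : δ.degree ≠ (T.tl r).length) :
    (T.RR r).coeff δ = 0 := by
  refine coeff_span_eq_zero (n := (T.tl r).length) ?_ hδ
  have h1 := Bo_le _ (T.RR_sub r)
  have h2 : Ml K κ (T.tl r) ∈ Submodule.span K {z : PA K ι κ | ∃ (β : κ →₀ ℕ) (p : List ι),
      β.degree + p.length = (T.tl r).length ∧ z = xm K ι β * Ml K κ p} :=
    Submodule.subset_span ⟨0, T.tl r, by simp, by rw [xm_zero, one_mul]⟩
  have := sub_mem h2 h1
  simpa using this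

variable [Finite ι]

/-- the rewriting system of the tuple algebra. -/
noncomputable def sys : RSys K (ι × κ) where
  σ := Σ r : Rl ι, {δ : κ →₀ ℕ // δ.degree = (T.tl r).length}
  lt := wl
  wf := wl_wf
  trans := wl_trans
  tot := wl_tot
  ctx := wl_ctx
  lead s := List.zip (T.tl s.1) (srt s.2.1)
  rel s := (T.RR s.1).coeff s.2.1
  tail s := by
    have h1 := coeff_Bo (K := K) (T.RR_sub s.1) s.2.2
    have h2 := coeff_Ml (K := K) (T.tl s.1) s.2.2
    rw [AddMonoidAlgebra.coeff_sub, Finsupp.sub_apply] at h1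
    have := sub_mem h2 h1
    have e : (T.RR s.1).coeff s.2.1 - mon K (List.zip (T.tl s.1) (srt s.2.1))
        = (Ml K κ (T.tl s.1)).coeff s.2.1 - mon K (List.zip (T.tl s.1) (srt s.2.1)) -
          ((Ml K κ (T.tl s.1)).coeff s.2.1 - (T.RR s.1).coeff s.2.1) := by abel
    rw [e]
    exact this

theorem top_zip (p q : List ι) (r : Rl ι) (δ : κ →₀ ℕ) (hδ : δ.degree = (T.tl r).length)
    (v v' : List κ) (hv : v.length = p.length) :
    T.sys.top (List.zip p v) ⟨r, ⟨δ, hδ⟩⟩ (List.zip q v')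
      = List.zip (p ++ T.tl r ++ q) (v ++ srt δ ++ v') := by
  change List.zip p v ++ List.zip (T.tl r) (srt δ) ++ List.zip q v' = _
  rw [List.zip_append (by simp [hv, length_srt, hδ]), List.zip_append hv.symm]

/-- (A) coefficients of `Lo`. -/
theorem coeff_Lo {o : List ι} {z : PA K ι κ} (hz : z ∈ T.Lo o) {α : κ →₀ ℕ}
    (hα : α.degree = o.length) : z.coeff α ∈ T.sys.Low (List.zip o (srt α)) := by
  induction hz using Submodule.span_induction with
  | mem x hx =>
    obtain ⟨β, p, r, q, h1, h2, rfl⟩ := hx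
    rw [coeff_prod β α p q (T.RR_hom r)]
    refine Submodule.sum_mem _ (fun x hx => ?_)
    simp only [Finset.mem_product, mem_lists, mem_DD] at hx
    obtain ⟨hx1, hx2, hx3⟩ := hx
    split_ifs with h
    · have ht : mon K (List.zip p x.1) * (T.RR r).coeff x.2.1 * mon K (List.zip q x.2.2)
          = T.sys.term (List.zip p x.1) ⟨r, ⟨x.2.1, hx2⟩⟩ (List.zip q x.2.2) := rfl
      rw [ht]
      apply T.sys.term_mem_Low
      rw [T.top_zip p q r _ hx2 _ _ hx1]
      refine wl_zip (β := β) ?_ hα ?_ (Or.inl h2)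
      · simp [hx1, hx3, length_srt, hx2]
      · rw [cont_append, cont_append, cont_srt, h]
    · exact zero_mem _
  | zero => rw [AddMonoidAlgebra.coeff_zero]; exact zero_mem _
  | add x y _ _ hx hy => rw [AddMonoidAlgebra.coeff_add]; exact add_mem hx hy
  | smul c x _ hx => rw [AddMonoidAlgebra.coeff_smul]; exact Submodule.smul_mem _ _ hx

/-- (B) coefficient of a product, leading occurrence. -/
theorem coeff_occ (p q : List ι) (r : Rl ι) {v1 s v2 : List κ}
    (hs : (v1 ++ s ++ v2).Pairwise (· ≤ ·)) (h1 : v1.length = p.length)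
    (h2 : s.length = (T.tl r).length) (h3 : v2.length = q.length) :
    (Ml K κ p * T.RR r * Ml K κ q).coeff (cont (v1 ++ s ++ v2))
      - T.sys.term (List.zip p v1) ⟨r, ⟨cont s, by rw [degree_cont, h2]⟩⟩ (List.zip q v2)
      ∈ T.sys.Low (List.zip (p ++ T.tl r ++ q) (v1 ++ s ++ v2)) := by
  classical
  have hss : s.Pairwise (· ≤ ·) := by
    rw [List.pairwise_append, List.pairwise_append] at hs
    exact hs.1.2.1
  have h0 : Ml K κ p * T.RR r * Ml K κ q = xm K ι 0 * (Ml K κ p * T.RR r * Ml K κ q) := by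
    rw [xm_zero, one_mul]
  rw [h0, coeff_prod 0 _ p q (T.RR_hom r)]
  have hmem : ((v1, (cont s, v2)) : List κ × ((κ →₀ ℕ) × List κ)) ∈
      lists κ p.length ×ˢ (DD κ (T.tl r).length ×ˢ lists κ q.length) := by
    simp [mem_lists, mem_DD, h1, h3, degree_cont, h2]
  rw [← Finset.add_sum_erase _ _ hmem, if_pos (by rw [zero_add, cont_append, cont_append])]
  have ht : mon K (List.zip p v1) * (T.RR r).coeff (cont s) * mon K (List.zip q v2)
      = T.sys.term (List.zip p v1) ⟨r, ⟨cont s, by rw [degree_cont, h2]⟩⟩ (List.zip q v2) := rfl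
  simp only [ht, add_sub_cancel_left]
  refine Submodule.sum_mem _ (fun x hx => ?_)
  simp only [Finset.mem_erase, Finset.mem_product, mem_lists, mem_DD] at hx
  obtain ⟨hne, hx1, hx2, hx3⟩ := hx
  split_ifs with h
  · have ht : mon K (List.zip p x.1) * (T.RR r).coeff x.2.1 * mon K (List.zip q x.2.2)
        = T.sys.term (List.zip p x.1) ⟨r, ⟨x.2.1, hx2⟩⟩ (List.zip q x.2.2) := rfl
    rw [ht]
    apply T.sys.term_mem_Low
    rw [T.top_zip p q r _ hx2 _ _ hx1]
    have hlen : (p ++ T.tl r ++ q).length = (v1 ++ s ++ v2).length := by simp [h1, h2, h3]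
    have hw := wl_zip (ι := ι) (p := p ++ T.tl r ++ q) (o := p ++ T.tl r ++ q)
      (v := x.1 ++ srt x.2.1 ++ x.2.2) (β := 0) (α := cont (v1 ++ s ++ v2)) ?_ ?_ ?_ (Or.inr ⟨rfl, ?_⟩)
    · rw [srt_cont hs] at hw
      exact hw
    · simp [hx1, hx3, length_srt, hx2]
    · rw [degree_cont, hlen]
    · rw [cont_append, cont_append, cont_srt, h]
    · rw [srt_cont hs]
      intro he
      apply hne
      obtain ⟨he1, he2⟩ := List.append_inj he (by simp [hx1, h1, length_srt, hx2, h2])
      obtain ⟨he3, he4⟩ := List.append_inj he1 (by rw [hx1, h1])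
      have : x.2.1 = cont s := by rw [← he4, cont_srt]
      exact Prod.ext he3 (Prod.ext this he2)
  · exact zero_mem _

end Tup
end Crest.Agent.R181.NW
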