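import Mathlib
import Crest.Agent.R181.NW5

/-!
R181, base level: all overlaps are resolvable; PBW theorem for the tuple algebra.
-/

set_option autoImplicit false
set_option linter.unusedSectionVars false

namespace Crest.Agent.R181.NW

universe u v w

namespace RSys
variable {K : Type u} [Field K] {X : Type v} (R : RSys.{u, v, w} K X)

theorem L1 (s : R.σ) (n : List X) {l : List X} {y : FA K X} (hy : y ∈ R.Below l) :
    R.rel s * mon K n * y ∈ R.Low (R.lead s ++ n ++ l) := by
  induction hy using Submodule.span_induction with
  | mem x hx =>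
    obtain ⟨m, hm, rfl⟩ := hx
    have e : R.rel s * mon K n * mon K m = R.term [] s (n ++ m) := by
      simp [term, mon_nil, mon_append, mul_assoc]
    rw [e]
    apply R.term_mem_Low
    have := R.ctx (R.lead s ++ n) [] m l hm
    simpa [top] using this
  | zero => simp
  | add x y _ _ hx hy => rw [mul_add]; exact add_mem hx hy
  | smul c x _ hx => rw [mul_smul_comm]; exact Submodule.smul_mem _ _ hx

theorem L2 (s : R.σ) (n : List X) {l : List X} {y : FA K X} (hy : y ∈ R.Below l) :
    y * mon K n * R.rel s ∈ R.Low (l ++ n ++ R.lead s) := by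
  induction hy using Submodule.span_induction with
  | mem x hx =>
    obtain ⟨m, hm, rfl⟩ := hx
    have e : mon K m * mon K n * R.rel s = R.term (m ++ n) s [] := by
      simp [term, mon_nil, mon_append, mul_assoc]
    rw [e]
    apply R.term_mem_Low
    have := R.ctx [] (n ++ R.lead s) m l hm
    simpa [top] using this
  | zero => simp
  | add x y _ _ hx hy => rw [add_mul, add_mul]; exact add_mem hx hy
  | smul c x _ hx => rw [smul_mul_assoc, smul_mul_assoc]; exact Submodule.smul_mem _ _ hx

theorem res_disj (a n b : List X) (s s' : R.σ) :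
    R.term a s (n ++ R.lead s' ++ b) - R.term (a ++ R.lead s ++ n) s' b
      ∈ R.Low (R.top a s (n ++ R.lead s' ++ b)) := by
  have h1 := R.L1 s n (R.tail s')
  have h2 := R.L2 s' n (R.tail s)
  have h3 := R.Low_ctx a b (sub_mem h2 h1)
  have e : R.term a s (n ++ R.lead s' ++ b) - R.term (a ++ R.lead s ++ n) s' b
      = mon K a * ((R.rel s - mon K (R.lead s)) * mon K n * R.rel s'
        - R.rel s * mon K n * (R.rel s' - mon K (R.lead s'))) * mon K b := by
    simp only [term, mon_append]
    generalize mon K a = A, mon K b = B, mon K n = N, R.rel s = S, R.rel s' = S',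
      mon K (R.lead s) = L, mon K (R.lead s') = L'
    simp only [sub_mul, mul_sub, mul_assoc]
    abel
  rw [e]
  have e2 : R.top a s (n ++ R.lead s' ++ b) = a ++ (R.lead s ++ n ++ R.lead s') ++ b := by
    simp [top]
  rw [e2]
  exact h3

/-- It is enough to resolve overlaps with empty left context. -/
theorem res_of_ov (h : ∀ (s s' : R.σ) (m q1 q2 : List X), m.length < (R.lead s).length →
    R.lead s ++ q1 = m ++ R.lead s' ++ q2 → (q1 = [] ∨ q2 = []) →
    R.rel s * mon K q1 - mon K m * R.rel s' * mon K q2 ∈ R.Low (R.lead s ++ q1)) : R.Res := by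
  have key : ∀ a s b a' s' b', a.length ≤ a'.length → R.top a s b = R.top a' s' b' →
      R.term a s b - R.term a' s' b' ∈ R.Low (R.top a s b) := by
    intro a s b a' s' b' hle heq
    have heq' : a ++ (R.lead s ++ b) = a' ++ (R.lead s' ++ b') := by simpa [top] using heq
    obtain ⟨m, rfl⟩ : ∃ m, a' = a ++ m := by
      have h1 := List.prefix_of_prefix_length_le (List.prefix_append a (R.lead s ++ b))
        (heq' ▸ List.prefix_append a' (R.lead s' ++ b')) hle
      obtain ⟨m, hm⟩ := h1
      exact ⟨m, hm.symm⟩
    rw [List.append_assoc, List.append_cancel_left_eq] at heq'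
    by_cases hm : (R.lead s).length ≤ m.length
    · obtain ⟨n, rfl⟩ : ∃ n, m = R.lead s ++ n := by
        have h1 := List.prefix_of_prefix_length_le (List.prefix_append (R.lead s) b)
          (heq' ▸ List.prefix_append m (R.lead s' ++ b')) hm
        obtain ⟨n, hn⟩ := h1
        exact ⟨n, hn.symm⟩
      rw [List.append_assoc, List.append_cancel_left_eq] at heq'
      subst heq'
      have := R.res_disj a n b' s s'
      simpa using this
    · push Not at hm
      -- common extension
      have : ∃ q1 q2 bb, b = q1 ++ bb ∧ b' = q2 ++ bb ∧ R.lead s ++ q1 = m ++ R.lead s' ++ q2 ∧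
          (q1 = [] ∨ q2 = []) := by
        by_cases hc : b.length ≤ b'.length
        · have heq2 : (R.lead s) ++ b = (m ++ R.lead s') ++ b' := by simpa using heq'
          have h1 : b <:+ b' := by
            apply List.suffix_of_suffix_length_le (List.suffix_append (R.lead s) b) _ hc
            rw [heq2]; exact List.suffix_append _ _
          obtain ⟨q2, hq2⟩ := h1
          refine ⟨[], q2, b, by simp, hq2.symm, ?_, Or.inl rfl⟩
          rw [← hq2, ← List.append_assoc (m ++ R.lead s'), List.append_cancel_right_eq] at heq2
          simpa using heq2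
        · push Not at hc
          have heq2 : (R.lead s) ++ b = (m ++ R.lead s') ++ b' := by simpa using heq'
          have h1 : b' <:+ b := by
            apply List.suffix_of_suffix_length_le (List.suffix_append (m ++ R.lead s') b') _ hc.le
            rw [← heq2]; exact List.suffix_append _ _
          obtain ⟨q1, hq1⟩ := h1
          refine ⟨q1, [], b', hq1.symm, by simp, ?_, Or.inr rfl⟩
          rw [← hq1, ← List.append_assoc, List.append_cancel_right_eq] at heq2
          simpa using heq2
      obtain ⟨q1, q2, bb, rfl, rfl, hq, hq'⟩ := this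
      have h1 := R.Low_ctx a bb (h s s' m q1 q2 hm hq hq')
      have e : R.term a s (q1 ++ bb) - R.term (a ++ m) s' (q2 ++ bb)
          = mon K a * (R.rel s * mon K q1 - mon K m * R.rel s' * mon K q2) * mon K bb := by
        simp only [term, mon_append, mul_sub, sub_mul, mul_assoc]
      rw [e]
      have e2 : R.top a s (q1 ++ bb) = a ++ (R.lead s ++ q1) ++ bb := by simp [top]
      rw [e2]
      exact h1
  intro a s b a' s' b' heq
  rcases le_total a.length a'.length with hle | hle
  · exact key a s b a' s' b' hle heq
  · have := neg_mem (key a' s' b' a s b hle heq.symm)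
    rw [neg_sub, ← heq] at this
    exact this

end RSys

namespace Tup
variable {K : Type u} [Field K] {ι : Type v} {κ : Type w} [LinearOrder ι] [Fintype κ]
  (T : Tup K ι κ)

theorem rep_cancel {i : ι} {n m : ℕ} {q1 q2 : List ι} (h : n ≤ m)
    (he : List.replicate n i ++ q1 = List.replicate m i ++ q2) :
    q1 = List.replicate (m - n) i ++ q2 := by
  obtain ⟨k, rfl⟩ := Nat.exists_eq_add_of_le h
  rw [List.replicate_add, List.append_assoc, List.append_cancel_left_eq] at he
  simpa using he

/-- all overlaps at operator level. -/
theorem ov_all (r r' : Rl ι) (m q1 q2 : List ι) (hm : m.length < (T.tl r).length)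
    (he : T.tl r ++ q1 = m ++ T.tl r' ++ q2) :
    T.RR r * Ml K κ q1 - Ml K κ m * T.RR r' * Ml K κ q2 ∈ T.Lo (T.tl r ++ q1) := by
  have ctx : ∀ {z : PA K ι κ} {o : List ι}, z ∈ T.Lo o → ∀ q, z * Ml K κ q ∈ T.Lo (o ++ q) := by
    intro z o hz q
    have := T.Lo_ctx hz [] q
    simpa [Ml_nil] using this
  cases r with
  | c i i' h =>
    simp only [tl, List.length_cons, List.length_nil] at hm he ⊢
    match m, hm with
    | [], _ =>
      cases r' with
      | c j j' h' =>
        simp only [tl, List.nil_append, List.cons_append, List.cons.injEq] at he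
        obtain ⟨rfl, rfl, rfl⟩ := he
        simp [Ml_nil]
      | p j =>
        exfalso
        obtain ⟨b, hb⟩ : ∃ b, T.a j = b + 2 := ⟨T.a j - 2, by have := T.ha j; omega⟩
        simp only [tl, hb, List.replicate_succ, List.nil_append, List.cons_append,
          List.cons.injEq] at he
        obtain ⟨rfl, rfl, _⟩ := he
        exact lt_irrefl _ h
    | [x], _ =>
      cases r' with
      | c j j' h' =>
        simp only [tl, List.nil_append, List.cons_append, List.cons.injEq] at he
        obtain ⟨rfl, rfl, rfl⟩ := he
        have := ctx (T.ov_cc h h') q2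
        have e : T.RR (.c i i' h) * Ml K κ (j' :: q2) - Ml K κ [i] * T.RR (.c i' j' h') * Ml K κ q2
            = (CC i i' * Mop K j' - Mop K i * CC i' j') * Ml K κ q2 := by
          simp only [Ml_cons, Ml_nil, RR, sub_mul, mul_assoc, mul_one, one_mul]
        rw [e]
        simpa using this
      | p j =>
        obtain ⟨b, hb⟩ : ∃ b, T.a j = b + 1 := ⟨T.a j - 1, by have := T.ha j; omega⟩
        simp only [tl, hb, List.replicate_succ, List.nil_append, List.cons_append,
          List.cons.injEq] at he
        obtain ⟨rfl, rfl, rfl⟩ := he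
        have := ctx (T.ov_cp h b hb) q2
        have e : T.RR (.c i i' h) * Ml K κ (List.replicate b i' ++ q2)
              - Ml K κ [i] * T.RR (.p i') * Ml K κ q2
            = (CC i i' * Mop K i' ^ b - Mop K i * T.PP i') * Ml K κ q2 := by
          simp only [Ml_append, Ml_replicate, Ml_single, RR, sub_mul, mul_assoc]
        rw [e]
        simpa [List.replicate_succ] using this
    | x :: y :: m, hm => simp at hm
  | p i =>
    simp only [tl, List.length_replicate] at hm he ⊢
    have hmi : m = List.replicate m.length i := by
      have h1 : m <+: List.replicate (T.a i) i ++ q1 := by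
        rw [he, List.append_assoc]; exact List.prefix_append _ _
      have h2 := List.prefix_of_prefix_length_le h1 (List.prefix_append (List.replicate (T.a i) i) q1)
        (by simpa using hm.le)
      rw [List.eq_replicate_iff]
      exact ⟨rfl, fun x hx => List.eq_of_mem_replicate (h2.subset hx)⟩
    set s := m.length with hs
    clear_value s
    subst hmi
    have he' : List.replicate (T.a i - s) i ++ q1 = T.tl r' ++ q2 := by
      have : T.a i = s + (T.a i - s) := by omega
      rw [this, List.replicate_add, List.append_assoc, List.append_assoc,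
        List.append_cancel_left_eq] at he
      exact he
    obtain ⟨t, ht⟩ : ∃ t, T.a i - s = t + 1 := ⟨T.a i - s - 1, by omega⟩
    rw [ht, List.replicate_succ] at he'
    cases r' with
    | c j j' h' =>
      simp only [tl, List.cons_append, List.cons.injEq, List.nil_append] at he'
      obtain ⟨rfl, he'⟩ := he'
      have ht0 : t = 0 := by
        rcases t with _ | t
        · rfl
        · exfalso
          rw [List.replicate_succ, List.cons_append, List.cons.injEq] at he'
          exact absurd he'.1 (ne_of_lt h')
      subst ht0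
      simp only [List.replicate_zero, List.nil_append] at he'
      subst he'
      have hb : T.a i = s + 1 := by omega
      have := ctx (T.ov_pc h' s hb) q2
      have e : T.RR (.p i) * Ml K κ (j' :: q2) - Ml K κ (List.replicate s i) * T.RR (.c i j' h')
            * Ml K κ q2
          = (T.PP i * Mop K j' - Mop K i ^ s * CC i j') * Ml K κ q2 := by
        simp only [Ml_cons, Ml_replicate, RR, sub_mul, mul_assoc]
      rw [e, hb]
      simpa using this
    | p j =>
      have hji : j = i := by
        obtain ⟨b, hb⟩ : ∃ b, T.a j = b + 1 := ⟨T.a j - 1, by have := T.ha j; omega⟩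
        simp only [tl, hb, List.replicate_succ, List.cons_append, List.cons.injEq] at he'
        exact he'.1.symm
      subst hji
      simp only [tl] at he'
      rw [← List.replicate_succ] at he'
      have h3 := rep_cancel (by omega) he'
      have h4 : T.a j - (t + 1) = s := by omega
      rw [h4] at h3
      subst h3
      have := ctx (T.ov_pp j s) q2
      have e : T.RR (.p j) * Ml K κ (List.replicate s j ++ q2)
            - Ml K κ (List.replicate s j) * T.RR (.p j) * Ml K κ q2
          = (T.PP j * Mop K j ^ s - Mop K j ^ s * T.PP j) * Ml K κ q2 := by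
        simp only [Ml_append, Ml_replicate, RR, sub_mul, mul_assoc]
      rw [e]
      rw [List.replicate_add, List.append_assoc] at this
      exact this

theorem pairwise_glue {α : Type*} [LinearOrder α] {m n c : List α} (hn : n ≠ [])
    (h1 : (m ++ n).Pairwise (· ≤ ·)) (h2 : (n ++ c).Pairwise (· ≤ ·)) :
    (m ++ n ++ c).Pairwise (· ≤ ·) := by
  rw [List.pairwise_append]
  refine ⟨h1, (List.pairwise_append.1 h2).2.1, ?_⟩
  intro x hx y hy
  obtain ⟨z, n', rfl⟩ := List.exists_cons_of_ne_nil hn
  rcases List.mem_append.1 hx with hx | hx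
  · exact ((List.pairwise_append.1 h1).2.2 x hx z (by simp)).trans
      ((List.pairwise_append.1 h2).2.2 z (by simp) y hy)
  · exact (List.pairwise_append.1 h2).2.2 x hx y hy

variable [LinearOrder κ] [Finite ι]

theorem zip_maps (l : List (ι × κ)) : List.zip (l.map Prod.fst) (l.map Prod.snd) = l := by
  have := List.zip_unzip l
  rw [List.unzip_eq_map] at this
  exact this

theorem lead_fst (s : T.sys.σ) : (T.sys.lead s).map Prod.fst = T.tl s.1 := by
  change (List.zip (T.tl s.1) (srt s.2.1)).map Prod.fst = _
  rw [List.map_fst_zip]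
  rw [length_srt, s.2.2]

theorem lead_snd (s : T.sys.σ) : (T.sys.lead s).map Prod.snd = srt s.2.1 := by
  change (List.zip (T.tl s.1) (srt s.2.1)).map Prod.snd = _
  rw [List.map_snd_zip]
  rw [length_srt, s.2.2]

theorem res : T.sys.Res := by
  apply T.sys.res_of_ov
  intro s s' m q1 q2 hm he hq
  -- the word and its sorted variables
  set w0 := T.sys.lead s ++ q1 with hw0
  have hsnd : (w0.map Prod.snd).Pairwise (· ≤ ·) := by
    rcases hq with rfl | rfl
    · rw [hw0, List.append_nil, lead_snd]; exact srt_pairwise _
    · rw [List.append_nil] at he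
      obtain ⟨n, hn⟩ : ∃ n, T.sys.lead s = m ++ n := by
        have h1 := List.prefix_of_prefix_length_le (List.prefix_append m (T.sys.lead s'))
          (he ▸ List.prefix_append (T.sys.lead s) q1) hm.le
        obtain ⟨n, hn⟩ := h1
        exact ⟨n, hn.symm⟩
      have hn0 : n ≠ [] := by
        rintro rfl
        rw [hn] at hm
        simp at hm
      have hn2 : T.sys.lead s' = n ++ q1 := by
        rw [hw0, hn, List.append_assoc, List.append_cancel_left_eq] at he
        exact he.symm
      have h1 : ((m ++ n).map Prod.snd).Pairwise (· ≤ ·) := by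
        rw [← hn, lead_snd]; exact srt_pairwise _
      have h2 : ((n ++ q1).map Prod.snd).Pairwise (· ≤ ·) := by
        rw [← hn2, lead_snd]; exact srt_pairwise _
      rw [hw0, hn, List.map_append, List.map_append]
      rw [List.map_append] at h1 h2
      exact pairwise_glue (by simpa using hn0) h1 h2
  -- operator level
  have hop : T.tl s.1 ++ q1.map Prod.fst = m.map Prod.fst ++ T.tl s'.1 ++ q2.map Prod.fst := by
    have := congrArg (List.map Prod.fst) he
    rw [hw0] at this
    simpa only [List.map_append, lead_fst] using this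
  have hvar : srt s.2.1 ++ q1.map Prod.snd = m.map Prod.snd ++ srt s'.2.1 ++ q2.map Prod.snd := by
    have := congrArg (List.map Prod.snd) he
    rw [hw0] at this
    simpa only [List.map_append, lead_snd] using this
  have hmlen : (m.map Prod.fst).length < (T.tl s.1).length := by
    rw [← lead_fst, List.length_map, List.length_map]
    exact hm
  have hA := T.ov_all (K := K) (κ := κ) s.1 s'.1 _ _ _ hmlen hop
  have hw : List.zip (T.tl s.1 ++ q1.map Prod.fst) (w0.map Prod.snd) = w0 := by
    conv_rhs => rw [← zip_maps w0]
    congr 1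
    rw [hw0, List.map_append, lead_fst]
  have hdeg : (cont (w0.map Prod.snd)).degree = (T.tl s.1 ++ q1.map Prod.fst).length := by
    rw [degree_cont, hw0, List.length_map, List.length_append, List.length_append, List.length_map,
      ← lead_fst, List.length_map]
  have hA' := T.coeff_Lo hA hdeg
  rw [srt_cont hsnd, hw, AddMonoidAlgebra.coeff_sub, Finsupp.sub_apply] at hA'
  -- first occurrence
  have hw1 : w0.map Prod.snd = [] ++ srt s.2.1 ++ q1.map Prod.snd := by
    rw [hw0, List.map_append, lead_snd]; rfl
  have hw2 : w0.map Prod.snd = m.map Prod.snd ++ srt s'.2.1 ++ q2.map Prod.snd := by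
    rw [hw0, List.map_append, lead_snd, hvar]
  have hB1 := T.coeff_occ (K := K) [] (q1.map Prod.fst) s.1 (v1 := []) (s := srt s.2.1)
    (v2 := q1.map Prod.snd) (hw1 ▸ hsnd) rfl (by rw [length_srt, s.2.2]) (by simp)
  have hB2 := T.coeff_occ (K := K) (m.map Prod.fst) (q2.map Prod.fst) s'.1 (v1 := m.map Prod.snd)
    (s := srt s'.2.1) (v2 := q2.map Prod.snd) (hw2 ▸ hsnd) (by simp)
    (by rw [length_srt, s'.2.2]) (by simp)
  rw [← hw1] at hB1
  rw [← hw2] at hB2
  have ew1 : List.zip ([] ++ T.tl s.1 ++ q1.map Prod.fst) (w0.map Prod.snd) = w0 := by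
    rw [List.nil_append]; exact hw
  have ew2 : List.zip (m.map Prod.fst ++ T.tl s'.1 ++ q2.map Prod.fst) (w0.map Prod.snd) = w0 := by
    rw [← hop]; exact hw
  rw [ew1, Ml_nil, one_mul] at hB1
  rw [ew2] at hB2
  have es : ∀ (s : T.sys.σ) (h : (cont (srt s.2.1)).degree = (T.tl s.1).length),
      (⟨s.1, ⟨cont (srt s.2.1), h⟩⟩ : T.sys.σ) = s := by
    rintro ⟨r, δ, hδ⟩ h
    simp only [cont_srt]
  rw [es] at hB1 hB2
  rw [zip_maps, zip_maps] at hB2
  have e1 : T.sys.term (List.zip [] []) s (List.zip (q1.map Prod.fst) (q1.map Prod.snd))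
      = T.sys.rel s * mon K q1 := by
    rw [zip_maps, RSys.term, List.zip_nil_left, mon_nil, one_mul]
  have e1' : T.sys.term (List.zip ([] : List ι) ([] : List κ)) s
      (List.zip (q1.map Prod.fst) (q1.map Prod.snd)) = T.sys.rel s * mon K q1 := e1
  rw [e1'] at hB1
  have e2 : T.sys.term m s' q2 = mon K m * T.sys.rel s' * mon K q2 := rfl
  rw [e2] at hB2
  have := add_mem (sub_mem hA' hB1) hB2
  have e3 : (T.RR s.1 * Ml K κ (q1.map Prod.fst)).coeff (cont (w0.map Prod.snd)) -
      (Ml K κ (m.map Prod.fst) * T.RR s'.1 * Ml K κ (q2.map Prod.fst)).coeff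
        (cont (w0.map Prod.snd)) -
      ((T.RR s.1 * Ml K κ (q1.map Prod.fst)).coeff (cont (w0.map Prod.snd)) -
        T.sys.rel s * mon K q1) +
      ((Ml K κ (m.map Prod.fst) * T.RR s'.1 * Ml K κ (q2.map Prod.fst)).coeff
        (cont (w0.map Prod.snd)) - mon K m * T.sys.rel s' * mon K q2)
      = T.sys.rel s * mon K q1 - mon K m * T.sys.rel s' * mon K q2 := by abel
  rw [e3] at this
  exact this

end Tup
end Crest.Agent.R181.NW
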