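import Mathlib
import Crest.Agent.R181.NW6

/-!
R181, base level: the quotient ring and its basis of normal words.
-/

set_option autoImplicit false
set_option linter.unusedSectionVars false

namespace Crest.Agent.R181.NW

universe u v w

namespace RSys
variable {K : Type u} [Field K] {X : Type v} (R : RSys.{u, v, w} K X)

/-- the defining relations. -/
def qrel (x y : FA K X) : Prop := ∃ s : R.σ, x = R.rel s ∧ y = 0

/-- the algebra presented by the rewriting system. -/
abbrev Q := RingQuot R.qrel

noncomputable def qm : FA K X →ₐ[K] R.Q := RingQuot.mkAlgHom K R.qrel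

theorem rel_mem_I (s : R.σ) : R.rel s ∈ R.I := by
  have := R.term_mem_I [] [] s
  simpa [term, mon_nil] using this

theorem sub_mem_of_Rel {x y : FA K X} (h : RingQuot.Rel R.qrel x y) : x - y ∈ R.I := by
  induction h with
  | of h =>
    obtain ⟨s, rfl, rfl⟩ := h
    simpa using R.rel_mem_I s
  | add_left _ ih => simpa using ih
  | @mul_left a b c _ ih =>
    have := R.I_mul_mem 1 c ih
    rwa [one_mul, sub_mul] at this
  | @mul_right a b c _ ih =>
    have := R.I_mul_mem a 1 ih
    rwa [mul_one, mul_sub] at this

theorem sub_mem_of_eqvGen {x y : FA K X} (h : Relation.EqvGen (RingQuot.Rel R.qrel) x y) :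
    x - y ∈ R.I := by
  induction h with
  | rel x y h => exact R.sub_mem_of_Rel h
  | refl x => simp
  | symm x y _ ih => rw [← neg_sub]; exact neg_mem ih
  | trans x y z _ _ ih ih' =>
    have := add_mem ih ih'
    simpa using this

theorem qm_rel (s : R.σ) : R.qm (R.rel s) = 0 := by
  have : R.qm (R.rel s) = R.qm 0 := RingQuot.mkAlgHom_rel K ⟨s, rfl, rfl⟩
  rw [this, map_zero]

theorem qm_eq_zero_iff {z : FA K X} : R.qm z = 0 ↔ z ∈ R.I := by
  constructor
  · intro h
    have h1 : (RingQuot.mkAlgHom K R.qrel : FA K X →+* RingQuot R.qrel) z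
        = (RingQuot.mkAlgHom K R.qrel : FA K X →+* RingQuot R.qrel) 0 := by
      rw [map_zero]; exact h
    rw [RingQuot.mkAlgHom_coe] at h1
    simp only [RingQuot.mkRingHom_def, RingHom.coe_mk, MonoidHom.coe_mk, OneHom.coe_mk,
      RingQuot.mk.injEq] at h1
    have := R.sub_mem_of_eqvGen (Quot.eqvGen_exact h1)
    simpa using this
  · intro h
    induction h using Submodule.span_induction with
    | mem x hx =>
      obtain ⟨a, s, b, rfl⟩ := hx
      rw [term, map_mul, map_mul, qm_rel, mul_zero, zero_mul]
    | zero => exact map_zero _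
    | add x y _ _ hx hy => rw [map_add, hx, hy, add_zero]
    | smul c x _ hx => rw [map_smul, hx, smul_zero]

theorem qm_surjective : Function.Surjective R.qm := RingQuot.mkAlgHom_surjective K _

theorem coeff_lin (l : {m : List X // R.Normal m} →₀ K) (n : List X) :
    (Finsupp.linearCombination K (fun m : {m : List X // R.Normal m} => mon K m.1) l).coeff
      (FreeMonoid.ofList n) = ∑ m ∈ l.support, l m * (mon K m.1 : FA K X).coeff
        (FreeMonoid.ofList n) := by
  rw [Finsupp.linearCombination_apply, Finsupp.sum, MonoidAlgebra.coeff_sum,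
    Finsupp.finsetSum_apply]
  refine Finset.sum_congr rfl (fun m _ => ?_)
  rw [MonoidAlgebra.coeff_smul, Finsupp.smul_apply, smul_eq_mul]

theorem linearIndependent (hR : R.Res) : LinearIndependent K
    (fun m : {m : List X // R.Normal m} => R.qm (mon K m.1)) := by
  classical
  rw [linearIndependent_iff]
  intro l hl
  have h1 : R.qm (Finsupp.linearCombination K
      (fun m : {m : List X // R.Normal m} => mon K m.1) l) = 0 := by
    rw [← hl, Finsupp.linearCombination_apply, Finsupp.linearCombination_apply, Finsupp.sum,
      Finsupp.sum, map_sum]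
    simp only [map_smul]
  rw [qm_eq_zero_iff] at h1
  have h2 := R.eq_zero_of_mem_I hR h1 (fun n hn => by
    rw [coeff_lin]
    refine Finset.sum_eq_zero (fun m _ => ?_)
    rw [mon_coeff, if_neg, mul_zero]
    intro h
    have : m.1 = n := h
    exact hn (this ▸ m.2))
  ext m
  have h3 := R.coeff_lin l m.1
  rw [h2] at h3
  have h4 : ∑ m' ∈ l.support, l m' * (mon K m'.1 : FA K X).coeff (FreeMonoid.ofList m.1) = l m := by
    rw [Finset.sum_eq_single m]
    · rw [mon_coeff, if_pos rfl, mul_one]
    · intro b _ hb
      rw [mon_coeff, if_neg, mul_zero]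
      intro h
      exact hb (Subtype.ext h)
    · intro hm
      rw [Finsupp.notMem_support_iff.1 hm, zero_mul]
  rw [h4] at h3
  exact h3.symm

theorem span_eq_top : ⊤ ≤ Submodule.span K (Set.range
    (fun m : {m : List X // R.Normal m} => R.qm (mon K m.1))) := by
  rintro y -
  obtain ⟨x, rfl⟩ := R.qm_surjective y
  have hx : x ∈ Submodule.span K (mon K '' {m | R.Normal m}) ⊔ R.I := by
    rw [R.sup_eq_top]; trivial
  obtain ⟨a, ha, b, hb, rfl⟩ := Submodule.mem_sup.1 hx
  clear hx
  rw [map_add, (R.qm_eq_zero_iff).2 hb, add_zero]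
  induction ha using Submodule.span_induction with
  | mem x hx =>
    obtain ⟨m, hm, rfl⟩ := hx
    exact Submodule.subset_span ⟨⟨m, hm⟩, rfl⟩
  | zero => rw [map_zero]; exact zero_mem _
  | add x y _ _ hx hy =>
    rw [map_add]
    exact add_mem hx hy
  | smul c x _ hx =>
    rw [map_smul]
    exact Submodule.smul_mem _ _ hx

/-- **PBW**: the normal words form a basis. -/
noncomputable def basis (hR : R.Res) : Module.Basis {m : List X // R.Normal m} K R.Q :=
  Module.Basis.mk (R.linearIndependent hR) R.span_eq_top

theorem basis_apply (hR : R.Res) (m : {m : List X // R.Normal m}) :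
    R.basis hR m = R.qm (mon K m.1) := by
  rw [basis, Module.Basis.mk_apply]

end RSys

namespace Tup
variable {K : Type u} [Field K] {ι : Type v} {κ : Type w} [LinearOrder ι] [Fintype κ]
  [LinearOrder κ] [Finite ι] (T : Tup K ι κ)

/-- the universal algebra of a commuting tuple `w_i = ∑ x_j ξ_ij`, `w_i ^ a_i = h_i(x, w_{>i})`. -/
abbrev Alg := T.sys.Q

noncomputable def basis : Module.Basis {m : List (ι × κ) // T.sys.Normal m} K T.Alg :=
  T.sys.basis T.res

theorem basis_apply (m : {m : List (ι × κ) // T.sys.Normal m}) :
    T.basis m = T.sys.qm (mon K m.1) := T.sys.basis_apply _ m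

/-- normal words in terms of forbidden factors. -/
theorem normal_iff (l : List (ι × κ)) : T.sys.Normal l ↔
    (∀ a b i i' j j', i < i' → j ≤ j' → l ≠ a ++ [(i, j), (i', j')] ++ b) ∧
    (∀ a b i (v : List κ), v.length = T.a i → v.Pairwise (· ≤ ·) →
      l ≠ a ++ v.map (fun j => (i, j)) ++ b) := by
  have hz : ∀ (i : ι) (v : List κ) (n : ℕ), v.length = n →
      List.zip (List.replicate n i) v = v.map (fun j => (i, j)) := by
    intro i v
    induction v with
    | nil => intro n h; subst h; rfl
    | cons x v ih => intro n h; subst h; simp [List.replicate_succ, ih v.length rfl]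
  constructor
  · intro h
    constructor
    · intro a b i i' j j' hi hj
      have hs : ([j, j'] : List κ).Pairwise (· ≤ ·) := by simpa using hj
      have := h a ⟨.c i i' hi, ⟨cont [j, j'], by rw [degree_cont]; rfl⟩⟩ b
      have e : T.sys.top a ⟨.c i i' hi, ⟨cont [j, j'], by rw [degree_cont]; rfl⟩⟩ b
          = a ++ [(i, j), (i', j')] ++ b := by
        change a ++ List.zip (T.tl (.c i i' hi)) (srt (cont [j, j'])) ++ b = _
        rw [srt_cont hs]
        rfl
      rwa [e] at this
    · intro a b i v hv hs
      have hd : (cont v).degree = (T.tl (.p i)).length := by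
        rw [degree_cont, hv]; simp [tl]
      have := h a ⟨.p i, ⟨cont v, hd⟩⟩ b
      have e : T.sys.top a ⟨.p i, ⟨cont v, hd⟩⟩ b = a ++ v.map (fun j => (i, j)) ++ b := by
        change a ++ List.zip (T.tl (.p i)) (srt (cont v)) ++ b = _
        rw [srt_cont hs, tl, hz i v _ hv]
      rwa [e] at this
  · rintro ⟨h1, h2⟩ a ⟨r, δ, hδ⟩ b
    have hs := srt_pairwise δ
    have hl : (srt δ).length = (T.tl r).length := by rw [length_srt, hδ]
    change l ≠ a ++ List.zip (T.tl r) (srt δ) ++ b
    cases r with
    | c i i' hi =>
      simp only [tl, List.length_cons, List.length_nil] at hl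
      match hv : srt δ, hl with
      | [j, j'], _ =>
        rw [hv] at hs
        have := h1 a b i i' j j' hi (by simpa using hs)
        simpa [tl] using this
    | p i =>
      simp only [tl, List.length_replicate] at hl
      have := h2 a b i (srt δ) hl hs
      rw [tl, hz i _ _ hl]
      exact this

end Tup
end Crest.Agent.R181.NW
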