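import Crest.Agent.R181.RO789a
import Crest.Agent.R181.UR396a

/-!
R181, V-chain, ring `O` block (helper836): universal localisations and polynomial extensions.

`Univ φ 0` (RO789a): `φ : T' → D` is the universal localisation of `T'` at all matrices which become
invertible over `D`.

* `Univ.mp`: then `T'[τ] → D[τ]` (central variables) is the universal localisation as well.
* `Univ.comp`: if `S → S'` is `S → S/(p)` (in the form: surjective, and every ring hom out of `S`
  killing `p` factors) and `Univ (S' → Δ) 0` then `Univ (S → Δ) p`.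
-/

namespace Crest.Agent.R181.OR

open AddMonoidAlgebra Crest.Agent.R181.RO Crest.Agent.R181.UR

universe u

section units

variable {A B : Type*} [Ring A] [Ring B] {n : Type*} [Fintype n] [DecidableEq n]

theorem isUnit_map {A B : Type*} [Ring A] [Ring B] {n : Type*} [Fintype n] [DecidableEq n]
    (f : A →+* B) {M : Matrix n n A} (h : IsUnit M) : IsUnit (M.map f) :=
  h.map f.mapMatrix

/-- if the entries of an invertible matrix are in the centralizer of a set so are those of the
inverse. -/
theorem isUnit_centralizer {A : Type*} [Ring A] {n : Type*} [Fintype n] [DecidableEq n]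
    (s : Set A) (M : Matrix n n (Subring.centralizer s))
    (h : IsUnit (M.map (Subring.centralizer s).subtype)) : IsUnit M := by
  obtain ⟨v, hv⟩ := h
  have hc : ∀ z ∈ s, ∀ i j, z * (↑v⁻¹ : Matrix n n A) i j = (↑v⁻¹ : Matrix n n A) i j * z := by
    intro z hz i j
    have h1 : Matrix.scalar n z * (v : Matrix n n A) = (v : Matrix n n A) * Matrix.scalar n z := by
      rw [hv]
      ext i j
      simp only [Matrix.scalar_apply, Matrix.diagonal_mul, Matrix.mul_diagonal, Matrix.map_apply]
      exact Subring.mem_centralizer_iff.1 (M i j).2 z hz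
    have h2 : (↑v⁻¹ : Matrix n n A) * Matrix.scalar n z = Matrix.scalar n z * (↑v⁻¹ : Matrix n n A) := by
      calc (↑v⁻¹ : Matrix n n A) * Matrix.scalar n z
          = ↑v⁻¹ * (Matrix.scalar n z * (v : Matrix n n A)) * ↑v⁻¹ := by
            rw [mul_assoc, mul_assoc, v.mul_inv, mul_one]
        _ = _ := by rw [h1, ← mul_assoc, v.inv_mul, one_mul]
    have h3 := congrFun (congrFun h2 i) j
    simpa [Matrix.scalar_apply] using h3.symm
  let N : Matrix n n (Subring.centralizer s) := fun i j =>
    ⟨(↑v⁻¹ : Matrix n n A) i j, Subring.mem_centralizer_iff.2 fun z hz => hc z hz i j⟩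
  have hN : N.map (Subring.centralizer s).subtype = (↑v⁻¹ : Matrix n n A) := rfl
  have hinj : Function.Injective fun X : Matrix n n (Subring.centralizer s) =>
      X.map (Subring.centralizer s).subtype := by
    intro X Y hXY
    ext1 i j
    exact Subtype.ext (congrFun (congrFun hXY i) j)
  refine ⟨⟨M, N, hinj ?_, hinj ?_⟩, rfl⟩
  · simp only
    rw [Matrix.map_mul, hN, ← hv, v.mul_inv, Matrix.map_one _ (map_zero _) (map_one _)]
  · simp only
    rw [Matrix.map_mul, hN, ← hv, v.inv_mul, Matrix.map_one _ (map_zero _) (map_one _)]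

end units

section univ

variable {T' D : Type u} [Ring T'] [Ring D] {φ : T' →+* D}

/-- the universal localisation is an epimorphism (no condition on matrices) -/
theorem Univ.ext' {S Δ : Type u} [Ring S] [Ring Δ] {δ : S →+* Δ} {p : S} (h : Univ δ p)
    (hp : δ p = 0) {A : Type u} [Ring A] {f g : Δ →+* A} (hfg : f.comp δ = g.comp δ) : f = g := by
  have h1 : ∀ n (M : Matrix (Fin n) (Fin n) S), IsUnit (M.map δ) → IsUnit (M.map (f.comp δ)) := by
    intro n M hM
    exact isUnit_map f hM
  obtain ⟨f₀, -, hu⟩ := h A (f.comp δ) (by simp [hp]) h1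
  rw [hu f rfl, hu g hfg.symm]

variable {τ : Type u}

/-- the homomorphism `D[τ] → A` given by `D → A` and a commuting monoid hom. -/
noncomputable def liftPA {D A : Type*} [Ring D] [Ring A] {τ : Type*} (f : D →+* A)
    (g : Multiplicative (τ →₀ ℕ) →* A) (hfg : ∀ x y, Commute (f x) (g y)) : PA D τ →+* A :=
  AddMonoidAlgebra.liftNCRingHom f g hfg

theorem liftPA_single {D A : Type*} [Ring D] [Ring A] {τ : Type*} (f : D →+* A)
    (g : Multiplicative (τ →₀ ℕ) →* A) (hfg : ∀ x y, Commute (f x) (g y)) (m : τ →₀ ℕ) (d : D) :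
    liftPA f g hfg (single m d) = f d * g (Multiplicative.ofAdd m) := by
  simp [liftPA, AddMonoidAlgebra.liftNCRingHom]

theorem single_eq {D : Type*} [Ring D] {τ : Type*} (m : τ →₀ ℕ) (d : D) :
    (single m d : PA D τ) = cst τ d * single m 1 := by
  simp [cst_apply, single_mul_single]

theorem ringHom_ext_PA {D A : Type*} [Ring D] [Ring A] {τ : Type*} {f g : PA D τ →+* A}
    (h0 : ∀ d, f (cst τ d) = g (cst τ d)) (h1 : ∀ m, f (single m 1) = g (single m 1)) : f = g := by
  refine RingHom.ext fun x => ?_
  induction x using AddMonoidAlgebra.induction_linear with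
  | zero => simp
  | add x y hx hy => rw [map_add, map_add, hx, hy]
  | single m d => rw [single_eq, map_mul, map_mul, h0, h1]

/-- **polynomial extension**: if `T' → D` is a universal localisation so is `T'[τ] → D[τ]`. -/
theorem Univ.mp (h : Univ φ 0) : Univ (UR.mp τ φ) 0 := by
  intro A _ ψ _ hψ
  -- monomials
  let g : Multiplicative (τ →₀ ℕ) →* A :=
    { toFun := fun m => ψ (single m.toAdd 1)
      map_one' := by
        show ψ (single 0 1) = 1
        rw [← AddMonoidAlgebra.one_def, map_one]
      map_mul' := fun a b => by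
        show ψ (single (a.toAdd + b.toAdd) 1) = _
        rw [← map_mul, single_mul_single, one_mul] }
  let s : Set A := Set.range g
  let C := Subring.centralizer s
  have hcm : ∀ (t : T') (m : τ →₀ ℕ), (cst τ t : PA T' τ) * single m 1 = single m 1 * cst τ t := by
    intro t m
    simp [cst_apply, single_mul_single]
  have hC : ∀ t : T', ψ (cst τ t) ∈ C := by
    intro t
    rw [Subring.mem_centralizer_iff]
    rintro _ ⟨m, rfl⟩
    show ψ (single m.toAdd 1) * ψ (cst τ t) = ψ (cst τ t) * ψ (single m.toAdd 1)
    rw [← map_mul, ← map_mul, hcm]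
  let ψC : T' →+* C := (ψ.comp (cst τ)).codRestrict C hC
  have hψC : ∀ n (M : Matrix (Fin n) (Fin n) T'), IsUnit (M.map φ) → IsUnit (M.map ψC) := by
    intro n M hM
    apply isUnit_centralizer s
    have h1 : (M.map ψC).map (Subring.centralizer s).subtype = (M.map (cst τ)).map ψ := rfl
    rw [h1]
    apply hψ
    have h2 : (M.map (cst τ)).map (UR.mp τ φ) = (M.map φ).map (cst τ : D →+* PA D τ) := by
      ext1 i j
      simp
    rw [h2]
    exact isUnit_map _ hM
  obtain ⟨fC, hfC, -⟩ := h C ψC (map_zero _) hψC
  let f : D →+* A := C.subtype.comp fC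
  have hf : ∀ t, f (φ t) = ψ (cst τ t) := fun t => by
    have := RingHom.congr_fun hfC t
    exact congrArg Subtype.val this
  have hcomm : ∀ x y, Commute (f x) (g y) := fun x y =>
    (Subring.mem_centralizer_iff.1 (fC x).2 (g y) ⟨y, rfl⟩).symm
  refine ⟨liftPA f g hcomm, ?_, ?_⟩
  · apply ringHom_ext_PA
    · intro t
      simp only [RingHom.comp_apply, mp_cst]
      rw [cst_apply, liftPA_single, hf]
      have : g (Multiplicative.ofAdd (0 : τ →₀ ℕ)) = 1 := map_one g
      rw [this, mul_one]
    · intro m
      simp only [RingHom.comp_apply, mp_single, map_one]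
      rw [liftPA_single, map_one, one_mul]
      rfl
  · intro f' hf'
    have hf'' : ∀ x, f' (UR.mp τ φ x) = ψ x := fun x => RingHom.congr_fun hf' x
    apply ringHom_ext_PA
    · intro d
      have h3 : (f'.comp (cst τ) : D →+* A) = f := by
        apply Univ.ext' h (map_zero _)
        ext t
        simp only [RingHom.comp_apply, hf]
        rw [← hf'', mp_cst]
      have h4 : liftPA f g hcomm (cst τ d) = f d := by
        rw [cst_apply, liftPA_single]
        have : g (Multiplicative.ofAdd (0 : τ →₀ ℕ)) = 1 := map_one g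
        rw [this, mul_one]
      rw [h4, ← h3]
      rfl
    · intro m
      rw [liftPA_single, map_one, one_mul]
      show _ = ψ (single m 1)
      rw [← hf'', mp_single, map_one]

/-- **reduction modulo `p`**: if `α : S → S'` is universal among the ring homs killing `p`, then the
universal localisations of `S'` are those of `S` modulo `p`. -/
theorem Univ.comp {S S' Δ : Type u} [Ring S] [Ring S'] [Ring Δ] {p : S} {α : S →+* S'}
    {β : S' →+* Δ} (hα : Function.Surjective α)
    (hf : ∀ (A : Type u) [Ring A] (ψ : S →+* A), ψ p = 0 → ∃ ψ' : S' →+* A, ψ'.comp α = ψ)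
    (hβ : Univ β 0) : Univ (β.comp α) p := by
  intro A _ ψ hp hψ
  obtain ⟨ψ', rfl⟩ := hf A ψ hp
  have h1 : ∀ n (M : Matrix (Fin n) (Fin n) S'), IsUnit (M.map β) → IsUnit (M.map ψ') := by
    intro n M hM
    choose l hl using hα
    have h2 : (M.map l).map α = M := by
      ext i j
      simp [hl]
    have h3 := hψ n (M.map l) (by
      have : (M.map l).map (β.comp α) = ((M.map l).map α).map β := rfl
      rw [this, h2]
      exact hM)
    have h4 : (M.map l).map (ψ'.comp α) = ((M.map l).map α).map ψ' := rfl
    rwa [h4, h2] at h3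
  obtain ⟨f, hf1, hf2⟩ := hβ A ψ' (map_zero _) h1
  refine ⟨f, ?_, ?_⟩
  · show f.comp (β.comp α) = ψ'.comp α
    rw [← RingHom.comp_assoc, hf1]
  · intro g hg
    apply hf2
    ext x
    obtain ⟨y, rfl⟩ := hα x
    exact RingHom.congr_fun hg y

/-- both together: `S → T'[τ] = S/(p) → D[τ]`. -/
theorem Univ.mp_comp {S : Type u} [Ring S] {p : S} {α : S →+* PA T' τ} (h : Univ φ 0)
    (hα : Function.Surjective α)
    (hf : ∀ (A : Type u) [Ring A] (ψ : S →+* A), ψ p = 0 → ∃ ψ' : PA T' τ →+* A, ψ'.comp α = ψ) :
    Univ ((UR.mp τ φ).comp α) p :=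
  Univ.comp hα hf (Univ.mp h)

end univ

end Crest.Agent.R181.OR
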