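import Crest.Agent.R181.AS4

/-!
# The parameters of the tower over the polynomial ring `Λ = ℂ[c, θ]`

`QLam a f i` and `thL i l` are the forms `QF a f i` and the parameters `thF i l` of `AS4` with
coefficients in `Λ = MvPolynomial (Par n) ℂ`; `tw u` is the endomorphism of `Λ` which multiplies the
parameter `θ_il` by the complex number `u i l` and fixes all other parameters.
-/

set_option autoImplicit false

namespace Crest.Agent.R181.QL

open Crest.Agent.R181.AS

variable {n : ℕ}

/-- The parameter ring `ℂ[c, θ]`. -/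
abbrev Lam (n : ℕ) : Type := MvPolynomial (Par n) ℂ

/-- The parameter `c_i` in `Λ`. -/
noncomputable def cL (i : Fin n) : Lam n := MvPolynomial.X (Sum.inl i)

/-- The parameter `c_ijv` in `Λ`. -/
noncomputable def ccL (i j v : Fin n) : Lam n := MvPolynomial.X (Sum.inr (Sum.inl (i, j, v)))

/-- The parameter `θ_il` in `Λ` (`0` unless `i < l`). -/
noncomputable def thL (i l : Fin n) : Lam n :=
  if i < l then MvPolynomial.X (Sum.inr (Sum.inr (i, l))) else 0

@[simp] theorem algebraMap_cL (i : Fin n) : algebraMap (Lam n) (Fld n) (cL i) = cF i := rfl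

@[simp] theorem algebraMap_ccL (i j v : Fin n) :
    algebraMap (Lam n) (Fld n) (ccL i j v) = ccF i j v := rfl

@[simp] theorem algebraMap_thL (i l : Fin n) : algebraMap (Lam n) (Fld n) (thL i l) = thF i l := by
  unfold thL thF
  split
  · rfl
  · rw [map_zero]

theorem thL_of_le {i l : Fin n} (h : l ≤ i) : thL i l = 0 := if_neg (not_lt.2 h)

/-- The form `f i` with coefficients in `Λ`. -/
noncomputable def fL (f : Fin n → MvPolynomial (Fin n) ℂ) (i : Fin n) :
    MvPolynomial (Fin n) (Lam n) := MvPolynomial.map (algebraMap ℂ (Lam n)) (f i)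

/-- The forms `q_i = c_i f_i + ∑_{j<i} ∑_v c_ijv x_v^(a_i-a_j) f_j` over `Λ`. -/
noncomputable def QLam (a : Fin n → ℕ) (f : Fin n → MvPolynomial (Fin n) ℂ) (i : Fin n) :
    MvPolynomial (Fin n) (Lam n) :=
  MvPolynomial.C (cL i) * fL f i + ∑ j ∈ Finset.univ.filter (fun j => j < i), ∑ v,
    MvPolynomial.C (ccL i j v) * (fL f j * MvPolynomial.X v ^ (a i - a j))

@[simp] theorem map_fL (f : Fin n → MvPolynomial (Fin n) ℂ) (i : Fin n) :
    MvPolynomial.map (algebraMap (Lam n) (Fld n)) (fL f i) = fF f i := by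
  unfold fL fF
  rw [MvPolynomial.map_map, ← IsScalarTower.algebraMap_eq]

@[simp] theorem map_QLam (a : Fin n → ℕ) (f : Fin n → MvPolynomial (Fin n) ℂ) (i : Fin n) :
    MvPolynomial.map (algebraMap (Lam n) (Fld n)) (QLam a f i) = QF a f i := by
  unfold QLam QF
  simp only [map_add, map_mul, map_sum, map_pow, MvPolynomial.map_C, MvPolynomial.map_X, map_fL,
    algebraMap_cL, algebraMap_ccL]

theorem fL_isHomogeneous {a : Fin n → ℕ} {f : Fin n → MvPolynomial (Fin n) ℂ}
    (hf : ∀ i, (f i).IsHomogeneous (a i)) (i : Fin n) : (fL f i).IsHomogeneous (a i) :=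
  (hf i).map _

theorem QLam_isHomogeneous {a : Fin n → ℕ} (ha : Monotone a) {f : Fin n → MvPolynomial (Fin n) ℂ}
    (hf : ∀ i, (f i).IsHomogeneous (a i)) (i : Fin n) : (QLam a f i).IsHomogeneous (a i) := by
  unfold QLam
  refine MvPolynomial.IsHomogeneous.add ?_ (MvPolynomial.IsHomogeneous.sum _ _ _ fun j hj =>
    MvPolynomial.IsHomogeneous.sum _ _ _ fun v _ => ?_)
  · have := (MvPolynomial.isHomogeneous_C (Fin n) (cL i)).mul (fL_isHomogeneous hf i)
    rwa [zero_add] at this
  · have h1 := (MvPolynomial.isHomogeneous_C (Fin n) (ccL i j v)).mul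
      ((fL_isHomogeneous hf j).mul (MvPolynomial.isHomogeneous_X_pow (R := Lam n) v (a i - a j)))
    have h2 : 0 + (a j + (a i - a j)) = a i := by
      have := ha (Finset.mem_filter.1 hj).2.le
      omega
    rwa [h2] at h1

/-! ### Twists -/

/-- The endomorphism of `Λ` with `θ_il ↦ u i l • θ_il` which fixes the other parameters. -/
noncomputable def tw (u : Fin n → Fin n → ℂ) : Lam n →ₐ[ℂ] Lam n :=
  MvPolynomial.aeval (Sum.elim (fun i => MvPolynomial.X (Sum.inl i))
    (Sum.elim (fun p => MvPolynomial.X (Sum.inr (Sum.inl p)))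
      (fun q => MvPolynomial.C (u q.1 q.2) * MvPolynomial.X (Sum.inr (Sum.inr q)))))

@[simp] theorem tw_cL (u : Fin n → Fin n → ℂ) (i : Fin n) : tw u (cL i) = cL i := by
  simp [tw, cL]

@[simp] theorem tw_ccL (u : Fin n → Fin n → ℂ) (i j v : Fin n) :
    tw u (ccL i j v) = ccL i j v := by
  simp [tw, ccL]

@[simp] theorem tw_thL (u : Fin n → Fin n → ℂ) (i l : Fin n) :
    tw u (thL i l) = MvPolynomial.C (u i l) * thL i l := by
  unfold thL
  split
  · simp [tw]
  · simp

theorem tw_comp (u u' : Fin n → Fin n → ℂ) :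
    (tw u).comp (tw u') = tw (fun i l => u i l * u' i l) := by
  refine MvPolynomial.algHom_ext fun q => ?_
  rcases q with i | p | q
  · simp [tw]
  · simp [tw]
  · simp only [tw, AlgHom.comp_apply, MvPolynomial.aeval_X, Sum.elim_inr, map_mul,
      MvPolynomial.aeval_C, MvPolynomial.algebraMap_eq]
    ring

theorem tw_one : tw (fun _ _ => (1 : ℂ)) = AlgHom.id ℂ (Lam n) := by
  refine MvPolynomial.algHom_ext fun q => ?_
  rcases q with i | p | q <;> simp [tw]

/-- The twist as an automorphism, `u i l ≠ 0`. -/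
noncomputable def twE (u : Fin n → Fin n → ℂ) (hu : ∀ i l, u i l ≠ 0) : Lam n ≃ₐ[ℂ] Lam n :=
  AlgEquiv.ofAlgHom (tw u) (tw fun i l => (u i l)⁻¹)
    (by rw [tw_comp]; simp only [mul_inv_cancel₀ (hu _ _)]; exact tw_one)
    (by rw [tw_comp]; simp only [inv_mul_cancel₀ (hu _ _)]; exact tw_one)

@[simp] theorem twE_apply (u : Fin n → Fin n → ℂ) (hu : ∀ i l, u i l ≠ 0) (x : Lam n) :
    twE u hu x = tw u x := rfl

@[simp] theorem map_tw_fL (u : Fin n → Fin n → ℂ) (f : Fin n → MvPolynomial (Fin n) ℂ)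
    (i : Fin n) : MvPolynomial.map (tw u : Lam n →+* Lam n) (fL f i) = fL f i := by
  unfold fL
  rw [MvPolynomial.map_map, AlgHom.comp_algebraMap]

/-- The twist fixes the coefficients of the forms `q_i`. -/
@[simp] theorem map_tw_QLam (u : Fin n → Fin n → ℂ) (a : Fin n → ℕ)
    (f : Fin n → MvPolynomial (Fin n) ℂ) (i : Fin n) :
    MvPolynomial.map (tw u : Lam n →+* Lam n) (QLam a f i) = QLam a f i := by
  unfold QLam
  simp only [map_add, map_mul, map_sum, map_pow, MvPolynomial.map_C, MvPolynomial.map_X,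
    map_tw_fL, RingHom.coe_coe, tw_cL, tw_ccL]

/-- The twist fixes every coefficient of `q_i`. -/
theorem tw_coeff_QLam (u : Fin n → Fin n → ℂ) (a : Fin n → ℕ)
    (f : Fin n → MvPolynomial (Fin n) ℂ) (i : Fin n) (m : Fin n →₀ ℕ) :
    tw u ((QLam a f i).coeff m) = (QLam a f i).coeff m := by
  conv_rhs => rw [← map_tw_QLam u a f i, MvPolynomial.coeff_map]
  rfl

/-- The twist as an automorphism of the field of fractions. -/
noncomputable def twF (u : Fin n → Fin n → ℂ) (hu : ∀ i l, u i l ≠ 0) : Fld n ≃+* Fld n :=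
  IsFractionRing.ringEquivOfRingEquiv (K := Fld n) (L := Fld n)
    (twE u hu : Lam n ≃+* Lam n)

@[simp] theorem twF_algebraMap (u : Fin n → Fin n → ℂ) (hu : ∀ i l, u i l ≠ 0) (x : Lam n) :
    twF u hu (algebraMap (Lam n) (Fld n) x) = algebraMap (Lam n) (Fld n) (tw u x) := by
  unfold twF
  rw [IsFractionRing.ringEquivOfRingEquiv_algebraMap]
  rfl

@[simp] theorem twF_thF (u : Fin n → Fin n → ℂ) (hu : ∀ i l, u i l ≠ 0) (i l : Fin n) :
    twF u hu (thF i l) = algebraMap ℂ (Fld n) (u i l) * thF i l := by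
  rw [← algebraMap_thL, twF_algebraMap, tw_thL, map_mul]
  rfl

@[simp] theorem map_twF_QF (u : Fin n → Fin n → ℂ) (hu : ∀ i l, u i l ≠ 0) (a : Fin n → ℕ)
    (f : Fin n → MvPolynomial (Fin n) ℂ) (i : Fin n) :
    MvPolynomial.map (twF u hu : Fld n →+* Fld n) (QF a f i) = QF a f i := by
  have h : (twF u hu : Fld n →+* Fld n).comp (algebraMap (Lam n) (Fld n)) =
      (algebraMap (Lam n) (Fld n)).comp (tw u : Lam n →+* Lam n) :=
    RingHom.ext fun x => twF_algebraMap u hu x
  rw [← map_QLam, MvPolynomial.map_map, h, ← MvPolynomial.map_map, map_tw_QLam]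

end Crest.Agent.R181.QL
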