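import Crest.Agent.R181.VB789b

/-!
R181, V-chain, block V2b (helper789): right bases `RB`, the two representations of `T`.
-/

set_option autoImplicit false

namespace Crest.Agent.R181.VB

open V868

universe u

variable {DD : Type u} [Ring DD] {L : Line DD} {T : Type u} [Ring T]

/-- right-handed output of V1: the right bases `b` (of `T[x]` over `V`) and `b' = b P` (of
`G_inf` over `O`). -/
structure RB (U : UnivT L T) where
  W : Type u
  w0 : W
  b : W → LaurentSeries T
  P : W → (W →₀ DD)
  b_w0 : b w0 = 1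
  P_w0 : P w0 = Finsupp.single w0 1
  b_aff : ∀ w, Aff (b w)
  span : ∀ z : LaurentSeries T, Aff z → ∃ v : W →₀ DD, (∀ w, v w ∈ L.V) ∧ evm U.Θ b v = z
  ind : ∀ v : W →₀ DD, evm U.Θ b v = 0 → v = 0
  inf : ∀ w, Inf (evm U.Θ b (P w))
  span' : ∀ v : W →₀ DD, Inf (evm U.Θ b v) → ∃ o : W →₀ DD, (∀ w, o w ∈ L.O) ∧
    evm U.Θ (fun w => evm U.Θ b (P w)) o = evm U.Θ b v
  ind' : ∀ v : W →₀ DD, evm U.Θ (fun w => evm U.Θ b (P w)) v = 0 → v = 0

namespace RB

variable {U : UnivT L T} (R : RB U)

/-- the `O`-basis of `G_inf` -/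
noncomputable def b' (w : R.W) : LaurentSeries T := evm U.Θ R.b (R.P w)

theorem b'_w0 : R.b' R.w0 = 1 := by
  rw [b', R.P_w0, evm_single, R.b_w0, map_one, mul_one]

theorem evm_injective : Function.Injective (evm U.Θ R.b) := by
  rw [injective_iff_map_eq_zero]
  exact R.ind

theorem evm'_injective : Function.Injective (evm U.Θ R.b') := by
  rw [injective_iff_map_eq_zero]
  exact R.ind'

theorem evm_act_P (f : R.W →₀ DD) : evm U.Θ R.b (act R.P f) = evm U.Θ R.b' f :=
  evm_act U.Θ R.b R.P f

theorem aff_evm (f : R.W →₀ L.V) : Aff (evm U.Θ R.b (up L.V f)) := by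
  induction f using Finsupp.induction_linear with
  | zero => rw [up_zero, map_zero]; intro n _; simp
  | add f g hf hg => rw [up_add, map_add]; exact hf.add hg
  | single w x =>
    rw [up_single, evm_single]
    exact (R.b_aff w).mul (U.ΘV _ x.2)

theorem inf_evm (f : R.W →₀ L.O) : Inf (evm U.Θ R.b' (up L.O f)) := by
  induction f using Finsupp.induction_linear with
  | zero => rw [up_zero, map_zero]; intro n _; simp
  | add f g hf hg => rw [up_add, map_add]; exact hf.add hg
  | single w x =>
    rw [up_single, evm_single]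
    exact Inf.mul (R.inf w) (U.ΘO _ x.2)

theorem exists_V (z : LaurentSeries T) (hz : Aff z) :
    ∃ v : R.W →₀ L.V, evm U.Θ R.b (up L.V v) = z := by
  obtain ⟨v, hv, h⟩ := R.span z hz
  obtain ⟨g, rfl⟩ := exists_up L.V v hv
  exact ⟨g, h⟩

theorem exists_O (v : R.W →₀ DD) (hv : Inf (evm U.Θ R.b v)) :
    ∃ o : R.W →₀ L.O, v = act R.P (up L.O o) := by
  obtain ⟨o, ho, h⟩ := R.span' v hv
  obtain ⟨g, rfl⟩ := exists_up L.O o ho
  exact ⟨g, R.evm_injective (by rw [R.evm_act_P]; exact h.symm)⟩

/-- coordinates of `t * b_w` -/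
noncomputable def mV (t : T) (w : R.W) : R.W →₀ L.V :=
  (R.exists_V (HahnSeries.C t * R.b w) ((R.b_aff w).C_mul t)).choose

theorem mV_spec (t : T) (w : R.W) :
    evm U.Θ R.b (up L.V (R.mV t w)) = HahnSeries.C t * R.b w :=
  (R.exists_V (HahnSeries.C t * R.b w) ((R.b_aff w).C_mul t)).choose_spec

theorem C_mul_evm (t : T) (f : R.W →₀ DD) :
    HahnSeries.C t * evm U.Θ R.b f = evm U.Θ R.b (act (fun w => up L.V (R.mV t w)) f) := by
  rw [evm_act, mul_evm]
  congr 1
  have : (fun w => HahnSeries.C t * R.b w) = fun w => evm U.Θ R.b (up L.V (R.mV t w)) :=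
    funext fun w => (R.mV_spec t w).symm
  rw [this]

theorem evm_up_injective : Function.Injective fun f : R.W →₀ L.V => evm U.Θ R.b (up L.V f) :=
  R.evm_injective.comp (up_injective L.V)

theorem evm'_up_injective : Function.Injective fun f : R.W →₀ L.O => evm U.Θ R.b' (up L.O f) :=
  R.evm'_injective.comp (up_injective L.O)

/-- the representation of `T` on the right free `V`-module `T[x]` -/
noncomputable def ρV : Rep T L.V R.W where
  m := R.mV
  m_one w := R.evm_up_injective (by
    simp only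
    rw [R.mV_spec, map_one, one_mul, up_single, evm_single]
    simp)
  m_add s t w := R.evm_up_injective (by
    simp only
    rw [R.mV_spec, up_add, map_add, map_add, R.mV_spec, R.mV_spec, add_mul])
  m_mul s t w := R.evm_up_injective (by
    simp only
    rw [R.mV_spec, up_act, ← R.C_mul_evm, R.mV_spec, map_mul, mul_assoc])

theorem exists_mO (t : T) (w : R.W) : ∃ o : R.W →₀ L.O,
    act (fun w => up L.V (R.mV t w)) (R.P w) = act R.P (up L.O o) := by
  apply R.exists_O
  rw [← R.C_mul_evm]
  exact Inf.C_mul (R.inf w) t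

/-- coordinates of `t * b'_w` -/
noncomputable def mO (t : T) (w : R.W) : R.W →₀ L.O := (R.exists_mO t w).choose

theorem mO_spec' (t : T) (w : R.W) :
    act (fun w => up L.V (R.mV t w)) (R.P w) = act R.P (up L.O (R.mO t w)) :=
  (R.exists_mO t w).choose_spec

theorem mO_spec (t : T) (w : R.W) :
    evm U.Θ R.b' (up L.O (R.mO t w)) = HahnSeries.C t * R.b' w := by
  rw [← R.evm_act_P, ← R.mO_spec', ← R.C_mul_evm]
  rfl

theorem C_mul_evm' (t : T) (f : R.W →₀ DD) :
    HahnSeries.C t * evm U.Θ R.b' f = evm U.Θ R.b' (act (fun w => up L.O (R.mO t w)) f) := by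
  rw [evm_act, mul_evm]
  congr 1
  have : (fun w => HahnSeries.C t * R.b' w) = fun w => evm U.Θ R.b' (up L.O (R.mO t w)) :=
    funext fun w => (R.mO_spec t w).symm
  rw [this]

/-- the representation of `T` on the right free `O`-module `G_inf` -/
noncomputable def ρO : Rep T L.O R.W where
  m := R.mO
  m_one w := R.evm'_up_injective (by
    simp only
    rw [R.mO_spec, map_one, one_mul, up_single, evm_single]
    simp)
  m_add s t w := R.evm'_up_injective (by
    simp only
    rw [R.mO_spec, up_add, map_add, map_add, R.mO_spec, R.mO_spec, add_mul])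
  m_mul s t w := R.evm'_up_injective (by
    simp only
    rw [R.mO_spec, up_act, ← R.C_mul_evm', R.mO_spec, map_mul, mul_assoc])

/-- the comparison map `G_inf ⊗_O C → MM ⊗_DD C` -/
noncomputable def cmp (C : Type u) [AddCommGroup C] [Module DD C] :
    Fr R.ρO C →ₗ[T] Fr R.ρV C where
  toFun f := Fr.mk R.ρV (act R.P (Fr.co R.ρO f))
  map_add' f g := map_add (act R.P) _ _
  map_smul' t f := by
    change act R.P (act (R.mO t) (Fr.co R.ρO f)) = act (R.mV t) (act R.P (Fr.co R.ρO f))
    rw [act_up L.O, act_up L.V, ← act_cmul, ← act_cmul]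
    have : cmul R.P (fun w => up L.O (R.mO t w)) = cmul (fun w => up L.V (R.mV t w)) R.P :=
      funext fun w => (R.mO_spec' t w).symm
    rw [this]

/-- `T`-part at the root: `t • b_{w0}` -/
theorem mO_w0_eq (t : T) : evm U.Θ R.b' (up L.O (R.mO t R.w0)) = HahnSeries.C t := by
  rw [R.mO_spec, b'_w0, mul_one]

theorem mV_w0_eq (t : T) : evm U.Θ R.b (up L.V (R.mV t R.w0)) = HahnSeries.C t := by
  rw [R.mV_spec, R.b_w0, mul_one]

end RB

end Crest.Agent.R181.VB
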