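import Crest.Agent.R181.V868d
import Crest.Agent.R181.VL963b
import Crest.Agent.R181.VB789c

/-!
# R181, V-chain: the right-handed output of V1

`RB.ofOp : (B' : LB L.op) → (⋂ pⁿO = 0) → RB U` for `U : UnivT L T`.
-/

set_option autoImplicit false

namespace Crest.Agent.R181.RB963

open Crest.Agent.R181.V868 Crest.Agent.R181.VL Crest.Agent.R181.VB MulOpposite

universe u

noncomputable section

variable {DD : Type u} [Ring DD] {L : Line DD} {T : Type u} [Ring T]

section Unop

theorem lunop_zero : lunop T (0 : LaurentSeries Tᵐᵒᵖ) = 0 := by ext n; simp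

theorem lunop_add (x y : LaurentSeries Tᵐᵒᵖ) : lunop T (x + y) = lunop T x + lunop T y := by
  ext n; simp

theorem lunop_mul (x y : LaurentSeries Tᵐᵒᵖ) : lunop T (x * y) = lunop T y * lunop T x := by
  have h := map_mul (lsOp T).symm x y
  have h2 := congrArg MulOpposite.unop h
  rw [unop_mul] at h2
  exact h2

theorem lunop_one : lunop T (1 : LaurentSeries Tᵐᵒᵖ) = 1 := by
  have h := map_one (lsOp T).symm
  have h2 := congrArg MulOpposite.unop h
  exact h2

theorem lunop_lop (x : LaurentSeries T) : lunop T (lop T x) = x := by ext n; rfl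

theorem lop_lunop (x : LaurentSeries Tᵐᵒᵖ) : lop T (lunop T x) = x := by ext n; rfl

theorem lunop_injective : Function.Injective (lunop T) := by
  intro x y h
  rw [← lop_lunop x, h, lop_lunop]

theorem lunop_Θ (U : UnivT L T) (d : DDᵐᵒᵖ) : lunop T (U.op.Θ d) = U.Θ d.unop := by
  ext n; rfl

/-- coefficientwise `op` -/
def opf {W : Type*} (v : W →₀ DD) : W →₀ DDᵐᵒᵖ := v.mapRange MulOpposite.op rfl

/-- coefficientwise `unop` -/
def unopf {W : Type*} (v : W →₀ DDᵐᵒᵖ) : W →₀ DD := v.mapRange MulOpposite.unop rfl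

@[simp] theorem opf_apply {W : Type*} (v : W →₀ DD) (w : W) : opf v w = op (v w) := rfl

@[simp] theorem unopf_apply {W : Type*} (v : W →₀ DDᵐᵒᵖ) (w : W) : unopf v w = unop (v w) := rfl

theorem opf_unopf {W : Type*} (v : W →₀ DDᵐᵒᵖ) : opf (unopf v) = v := by ext w; rfl

theorem unopf_opf {W : Type*} (v : W →₀ DD) : unopf (opf v) = v := by ext w; rfl

theorem opf_zero {W : Type*} : opf (0 : W →₀ DD) = 0 := by ext w; simp

theorem opf_add {W : Type*} (v v' : W →₀ DD) : opf (v + v') = opf v + opf v' := by ext w; simp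

theorem opf_single {W : Type*} (w : W) (d : DD) :
    opf (Finsupp.single w d) = Finsupp.single w (op d) := by simp [opf]

theorem unopf_single {W : Type*} (w : W) (d : DDᵐᵒᵖ) :
    unopf (Finsupp.single w d) = Finsupp.single w d.unop := by simp [unopf]

/-- `∑ c_w Θ(f_w)` is the `unop` of `∑ Θ(f_w) c_w` -/
theorem evm_eq_lunop (U : UnivT L T) {W : Type*} (c : W → LaurentSeries Tᵐᵒᵖ) (v : W →₀ DD) :
    evm U.Θ (fun w => lunop T (c w)) v =
      lunop T ((opf v).sum fun w d => U.op.Θ d * c w) := by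
  induction v using Finsupp.induction_linear with
  | zero => rw [map_zero, opf_zero, Finsupp.sum_zero_index, lunop_zero]
  | add f g hf hg =>
    rw [map_add, hf, hg, opf_add, Finsupp.sum_add_index', lunop_add]
    · intro w; rw [map_zero, zero_mul]
    · intro w a b; rw [map_add, add_mul]
  | single w d =>
    rw [evm_single, opf_single, Finsupp.sum_single_index (by rw [map_zero, zero_mul]), lunop_mul,
      lunop_Θ]
    rfl

end Unop

theorem sep_op (hsep : ∀ d : DD, (∀ n : ℕ, ∃ o ∈ L.O, d = L.p ^ n * o) → d = 0) (d : DDᵐᵒᵖ)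
    (h : ∀ n : ℕ, ∃ o ∈ L.op.O, d = L.op.p ^ n * o) : d = 0 := by
  apply unop_injective
  rw [unop_zero]
  apply hsep
  intro n
  obtain ⟨o, ho, h⟩ := h n
  refine ⟨o.unop, ho, ?_⟩
  rw [h, unop_mul, unop_pow, L.p_pow_comm]
  rfl

/-- the words `bi` are linearly independent over `DD` -/
theorem bi_ind {L : Line DD} (B : LB L) (o : B.W →₀ DD)
    (h : o.sum (fun w d => d • B.bi w) = 0) : o = 0 := by
  have h1 := B.smul_bi_sum o
  rw [h, smul_zero] at h1
  have h2 : o + Finsupp.single none (L.p * o none - o none) = 0 := by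
    apply VL.dP_injective (B := B)
    rw [map_zero]; exact h1.symm
  ext w
  have h3 := DFunLike.congr_fun h2 w
  rcases w with _ | κ
  · simp only [Finsupp.add_apply, Finsupp.single_eq_same, Finsupp.zero_apply] at h3
    have h4 : L.p * o none = 0 := by rw [← h3]; abel
    have h5 : L.x * (L.p * o none) = 0 := by rw [h4, mul_zero]
    rw [← mul_assoc, L.xp, one_mul] at h5
    simpa using h5
  · simpa using h3

variable (U : UnivT L T) (B : LB L.op)

/-- the right basis of `T[x]` over `V` -/
def rb (w : B.W) : LaurentSeries T := lunop T (B.b U.op w)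

/-- coordinates of the right `O`-basis of `G_inf` -/
def rP (w : B.W) : B.W →₀ DD := unopf (B.bi w)

theorem evm_rb (v : B.W →₀ DD) : evm U.Θ (rb U B) v = lunop T (B.φ U.op (opf v)) := by
  rw [B.φ_apply U.op, ← evm_eq_lunop]
  rfl

theorem evm_rP (w : B.W) : evm U.Θ (rb U B) (rP B w) = lunop T (B.φ U.op (B.bi w)) := by
  rw [evm_rb, rP, opf_unopf]

theorem evm_evm_rP (v : B.W →₀ DD) :
    evm U.Θ (fun w => evm U.Θ (rb U B) (rP B w)) v =
      lunop T (B.φ U.op ((opf v).sum fun w d => d • B.bi w)) := by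
  have e : (fun w => evm U.Θ (rb U B) (rP B w)) = fun w => lunop T (B.φ U.op (B.bi w)) :=
    funext fun w => evm_rP U B w
  rw [e, evm_eq_lunop]
  congr 1
  rw [Finsupp.sum, Finsupp.sum, map_sum]
  exact Finset.sum_congr rfl fun w _ => (B.φ_smul U.op _ _).symm

/-- **the right-handed output of V1** -/
def ofOp (hsep : ∀ d : DD, (∀ n : ℕ, ∃ o ∈ L.O, d = L.p ^ n * o) → d = 0) : RB U where
  W := B.W
  w0 := none
  b := rb U B
  P := rP B
  b_w0 := by
    show lunop T (B.b U.op none) = 1
    rw [B.b_none U.op, lunop_one]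
  P_w0 := by
    show unopf (B.bi none) = _
    rw [B.bi_none, unopf_single]; rfl
  b_aff w n hn := by
    show (lunop T (B.b U.op w)).coeff n = 0
    rw [coeff_lunop, B.b_pos U.op w n hn]; rfl
  span z hz := by
    obtain ⟨m, ⟨hm, hm'⟩, -⟩ := B.existsUnique_Gaff U.op (lop T z) (fun n hn => by
      rw [coeff_lop, hz n hn]; rfl)
    refine ⟨unopf m, fun w => hm w, ?_⟩
    rw [evm_rb, opf_unopf, hm', lunop_lop]
  ind v hv := by
    rw [evm_rb, ← lunop_zero] at hv
    have h1 := lunop_injective hv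
    have h2 : opf v = 0 := B.φ_injective U.op (sep_op hsep) (by rw [h1, map_zero])
    rw [← unopf_opf v, h2]
    ext w; rfl
  inf w n hn := by
    rw [evm_rP, coeff_lunop, B.φ_bi_neg U.op w n hn]; rfl
  span' v hv := by
    have h1 : opf v ∈ B.Ginf := by
      rw [B.mem_Ginf_iff_φ U.op B.isCompl]
      intro n hn
      have h2 := hv n hn
      rw [evm_rb, coeff_lunop] at h2
      exact unop_injective h2
    obtain ⟨o, ⟨ho, hg⟩, -⟩ := B.existsUnique_Ginf _ h1
    refine ⟨unopf o, fun w => ho w, ?_⟩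
    rw [evm_evm_rP, opf_unopf, ← hg, evm_rb]
  ind' v hv := by
    rw [evm_evm_rP, ← lunop_zero] at hv
    have h1 := lunop_injective hv
    have h2 := B.φ_injective U.op (sep_op hsep) (h1.trans (map_zero (B.φ U.op)).symm)
    have h3 := bi_ind B (opf v) h2
    rw [← unopf_opf v, h3]
    ext w; rfl

end

end Crest.Agent.R181.RB963
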