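import Crest.Agent.R181.UR396g
import Crest.Agent.R181.BM553a

/-!
R181, block B9 (helper459): (REES).  `T = U(D, w; F, Q)`, `TX = U(D, w; F[X], Q(s ↦ X s))`,
`K = U(D, w; F, Q(s ↦ 0))`; `T` embeds into any ring `C` which receives `TX` with `X` invertible and
a reduction of the image compatible with `TX → K`.
-/

set_option autoImplicit false
set_option linter.unusedSectionVars false

namespace Crest.Agent.R181.RE

open AddMonoidAlgebra Crest.Agent.R181.UR
open scoped Polynomial

section Rees

variable {F D I σ : Type} [CommRing F] [Ring D] [Algebra F D] [Fintype I] [Fintype σ]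
  [DecidableEq σ]
  (a : I → ℕ) (th : I → I → F) (Q : I → MvPolynomial (Option σ) F) (w : I → σ → D)

/-- `Q` with `s ↦ X * s` -/
noncomputable def QX (i : I) : MvPolynomial (Option σ) F[X] :=
  subL (Polynomial.C : F →+* F[X]) (Xz Polynomial.X) (Q i)

/-- `Q` with `s ↦ 0` -/
noncomputable def Q0 (i : I) : MvPolynomial (Option σ) F :=
  MvPolynomial.rename some (BM.res0 (Q i))

/-- the ring over `F[X]` -/
abbrev TX : Type := U a th (QX Q) w

/-- the ring at `X = 0` -/
abbrev K : Type := U a th (Q0 Q) w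

theorem mp_QX (i : I) : Q0 Q i = mp (Option σ) (Polynomial.evalRingHom (0 : F)) (QX Q i) := by
  rw [QX, mp_subL, Q0]
  have h : (MvPolynomial.rename (some : σ → Option σ)).toRingHom.comp
      (BM.res0 (R := F) (σ := σ)).toRingHom =
      subL ((Polynomial.evalRingHom (0 : F)).comp Polynomial.C)
        (fun v v' => Polynomial.evalRingHom (0 : F) (Xz (σ := σ) Polynomial.X v v')) := by
    apply MvPolynomial.ringHom_ext
    · intro c
      rw [subL_C, RingHom.comp_apply]
      show MvPolynomial.rename some (BM.res0 (MvPolynomial.C c)) = _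
      rw [show (MvPolynomial.C c : MvPolynomial (Option σ) F) = algebraMap F _ c from rfl,
        AlgHom.commutes, AlgHom.commutes]
      simp
    · intro v
      rw [subL_X, RingHom.comp_apply]
      show MvPolynomial.rename some (BM.res0 (MvPolynomial.X v)) = _
      rw [Fintype.sum_option]
      rcases v with _ | v
      · simp [Xz]
      · simp [Xz, apply_ite]
  exact RingHom.congr_fun h (Q i)

/-- `TX → K`, `X ↦ 0` -/
noncomputable def pi : TX a th Q w →+* K a th Q w :=
  Umap a th w (Polynomial.evalRingHom (0 : F))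
    (fun c => by
      rw [Polynomial.algebraMap_apply, Polynomial.coe_evalRingHom, Polynomial.eval_C])
    (mp_QX Q)

@[simp] theorem pi_iD (d : D) : pi a th Q w (iD a th (QX Q) w d) = iD a th (Q0 Q) w d :=
  Umap_iD _ _ _ _ _ _ d

@[simp] theorem pi_iL (x : F[X]) : pi a th Q w (iL a th (QX Q) w x) =
    iL a th (Q0 Q) w (Polynomial.evalRingHom 0 x) :=
  Umap_iL _ _ _ _ _ _ x

@[simp] theorem pi_eta (i : I) : pi a th Q w (eta a th (QX Q) w i) = eta a th (Q0 Q) w i :=
  Umap_eta _ _ _ _ _ _ i

/-- the variable `X` of `TX` -/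
noncomputable def xX : TX a th Q w := iL a th (QX Q) w Polynomial.X

/-- (R2) -/
theorem pi_ker (r : TX a th Q w) (h : pi a th Q w r = 0) : ∃ r', r = xX a th Q w * r' := by
  refine Umap_ker a th w (Polynomial.evalRingHom (0 : F)) _ _ (fun c => ⟨Polynomial.C c, by simp⟩)
    Polynomial.X ?_ r h
  intro x hx
  have : (Polynomial.X : F[X]) ∣ x := by
    rw [Polynomial.X_dvd_iff, Polynomial.coeff_zero_eq_eval_zero]
    exact hx
  obtain ⟨y, hy⟩ := this
  exact ⟨y, hy⟩

theorem exists_phi : ∃ Φ : TX a th Q w →+* (U a th Q w)[X],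
    (∀ d, Φ (iD a th (QX Q) w d) = Polynomial.C (iD a th Q w d)) ∧
    (∀ x, Φ (iL a th (QX Q) w x) = Polynomial.map (iL a th Q w) x) ∧
    ∀ i, Φ (eta a th (QX Q) w i) = Polynomial.C (eta a th Q w i) * Polynomial.X := by
  have hcen : ∀ (x : F[X]) (y : (U a th Q w)[X]),
      Commute (Polynomial.mapRingHom (iL a th Q w) x) y := by
    intro x y
    induction x using Polynomial.induction_on' with
    | add p q hp hq => rw [map_add]; exact hp.add_left hq
    | monomial n c =>
      rw [Polynomial.coe_mapRingHom, Polynomial.map_monomial]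
      show _ * _ = _ * _
      ext m
      rw [← Polynomial.C_mul_X_pow_eq_monomial, mul_assoc, Polynomial.X_pow_mul, ← mul_assoc,
        ← mul_assoc, Polynomial.coeff_mul_X_pow', Polynomial.coeff_mul_X_pow']
      split_ifs with hnm
      · rw [Polynomial.coeff_C_mul, Polynomial.coeff_mul_C]
        exact (iL_comm a th Q w c _).eq
      · rfl
  have h1 := (isTuple_wU a th Q w).subst (Polynomial.C : U a th Q w →+* _)
    (Polynomial.C : F →+* F[X]) _ (Polynomial.mapRingHom (iL a th Q w)) hcen
    (Xz Polynomial.X) (by ext x; simp) (fun c => rfl)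
  have e : (fun i v' => ∑ v, Polynomial.C (wU a th Q w i v) *
      Polynomial.mapRingHom (iL a th Q w) (Xz Polynomial.X v v')) =
      (ext' (fun i v => (Polynomial.C.comp (iD a th Q w)) (w i v))
      (fun i => Polynomial.C (eta a th Q w i) * Polynomial.X)) := by
    funext i v'
    rw [Fintype.sum_option]
    rcases v' with _ | v'
    · simp [Xz, wU]
    · simp only [Xz, wU]
      simp [apply_ite]
  rw [e] at h1
  exact exists_lift (a := a) (th := th) (Q := QX Q) (w := w)
    ((Polynomial.C : U a th Q w →+* _).comp (iD a th Q w))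
    (Polynomial.mapRingHom (iL a th Q w))
    (fun i => Polynomial.C (eta a th Q w i) * Polynomial.X) (by
      intro c
      rw [RingHom.comp_apply, iD_base, Polynomial.algebraMap_apply, Polynomial.coe_mapRingHom,
        Polynomial.map_C]) (fun _ _ => hcen _ _) (fun _ _ => hcen _ _) h1

/-- `TX → T[X]` -/
noncomputable def phi : TX a th Q w →+* (U a th Q w)[X] := (exists_phi a th Q w).choose

@[simp] theorem phi_iD (d : D) : phi a th Q w (iD a th (QX Q) w d) =
    Polynomial.C (iD a th Q w d) := (exists_phi a th Q w).choose_spec.1 d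

@[simp] theorem phi_iL (x : F[X]) : phi a th Q w (iL a th (QX Q) w x) =
    Polynomial.map (iL a th Q w) x := (exists_phi a th Q w).choose_spec.2.1 x

@[simp] theorem phi_eta (i : I) : phi a th Q w (eta a th (QX Q) w i) =
    Polynomial.C (eta a th Q w i) * Polynomial.X := (exists_phi a th Q w).choose_spec.2.2 i

@[simp] theorem phi_xX : phi a th Q w (xX a th Q w) = Polynomial.X := by
  rw [xX, phi_iL, Polynomial.map_X]

/-- (R1) -/
theorem exists_lead (u : U a th Q w) : ∃ (d : ℕ) (r : TX a th Q w),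
    phi a th Q w r = Polynomial.C u * Polynomial.X ^ d := by
  refine generation a th Q w (fun u => ∃ (d : ℕ) (r : TX a th Q w),
    phi a th Q w r = Polynomial.C u * Polynomial.X ^ d) ?_ ?_ ?_ ?_ ?_ u
  · intro d
    exact ⟨0, iD a th (QX Q) w d, by rw [phi_iD, pow_zero, mul_one]⟩
  · intro x
    exact ⟨0, iL a th (QX Q) w (Polynomial.C x), by
      rw [phi_iL, Polynomial.map_C, pow_zero, mul_one]⟩
  · intro i
    exact ⟨1, eta a th (QX Q) w i, by rw [phi_eta, pow_one]⟩
  · rintro x y ⟨d, r, hr⟩ ⟨e, t, ht⟩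
    refine ⟨d + e, xX a th Q w ^ e * r + xX a th Q w ^ d * t, ?_⟩
    rw [map_add, map_mul, map_mul, map_pow, map_pow, phi_xX, hr, ht, map_add, add_mul,
      Polynomial.X_pow_mul, Polynomial.X_pow_mul, mul_assoc, mul_assoc, ← pow_add, ← pow_add,
      add_comm e d]
  · rintro x y ⟨d, r, hr⟩ ⟨e, t, ht⟩
    refine ⟨d + e, r * t, ?_⟩
    rw [map_mul, hr, ht, map_mul, mul_assoc, ← mul_assoc (Polynomial.X ^ d),
      Polynomial.X_pow_mul, mul_assoc, ← pow_add, ← mul_assoc]

variable {C : Type} {C1 C' : Type*} [Ring C] [Ring C1] [Ring C']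

variable {a th Q w} in
/-- (R3) -/
theorem lead_zero (θ1 : TX a th Q w →+* C1)
    (hreg : ∀ c, θ1 (xX a th Q w) * c = 0 → c = 0) (g : C1 →+* C')
    (fK : K a th Q w →+* C') (hfK : Function.Injective fK)
    (hg : g.comp θ1 = fK.comp (pi a th Q w)) (d : ℕ) :
    ∀ (u : U a th Q w) (r : TX a th Q w), phi a th Q w r = Polynomial.C u * Polynomial.X ^ d →
      θ1 r = 0 → u = 0 := by
  have key : ∀ r : TX a th Q w, θ1 r = 0 → ∃ r', r = xX a th Q w * r' ∧ θ1 r' = 0 := by
    intro r hr
    have h1 : pi a th Q w r = 0 := by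
      apply hfK
      rw [map_zero, ← RingHom.comp_apply, ← hg, RingHom.comp_apply, hr, map_zero]
    obtain ⟨r', hr'⟩ := pi_ker a th Q w r h1
    refine ⟨r', hr', hreg _ ?_⟩
    rw [← map_mul, ← hr', hr]
  induction d with
  | zero =>
    intro u r hu hr
    obtain ⟨r', hr', -⟩ := key r hr
    have h2 : (phi a th Q w r).coeff 0 = 0 := by
      rw [hr', map_mul, phi_xX, Polynomial.X_mul, Polynomial.coeff_mul_X_zero]
    rw [hu, pow_zero, mul_one, Polynomial.coeff_C_zero] at h2
    exact h2
  | succ d ih =>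
    intro u r hu hr
    obtain ⟨r', hr', h1⟩ := key r hr
    refine ih u r' ?_ h1
    ext n
    have h2 : (phi a th Q w r).coeff (n + 1) = (phi a th Q w r').coeff n := by
      rw [hr', map_mul, phi_xX, Polynomial.X_mul, Polynomial.coeff_mul_X]
    rw [← h2, hu, pow_succ, ← mul_assoc, Polynomial.coeff_mul_X]

/-- (R4), the map -/
theorem exists_hom (θ : TX a th Q w →+* C) (hy : IsUnit (θ (xX a th Q w))) :
    ∃ h : U a th Q w →+* C, (∀ d, h (iD a th Q w d) = θ (iD a th (QX Q) w d)) ∧
      (∀ x, h (iL a th Q w x) = θ (iL a th (QX Q) w (Polynomial.C x))) ∧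
      ∀ i, h (eta a th Q w i) * θ (xX a th Q w) = θ (eta a th (QX Q) w i) := by
  obtain ⟨y, hy⟩ := hy
  -- the centralizer of the image of `F[X]`
  let C0 : Subring C := Subring.centralizer (Set.range fun p => θ (iL a th (QX Q) w p))
  have hθ0 : ∀ r, θ r ∈ C0 := by
    intro r
    rw [Subring.mem_centralizer_iff]
    rintro _ ⟨p, rfl⟩
    exact ((iL_comm a th (QX Q) w p r).map θ).eq
  let θ0 : TX a th Q w →+* C0 := θ.codRestrict C0 hθ0
  have hcen : ∀ (p : F[X]) (z : C0), Commute (θ0 (iL a th (QX Q) w p)) z := by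
    intro p z
    apply Subtype.ext
    have := z.2
    rw [Subring.mem_centralizer_iff] at this
    exact this _ ⟨p, rfl⟩
  have hyi : (↑y⁻¹ : C) ∈ C0 := by
    rw [Subring.mem_centralizer_iff]
    rintro _ ⟨p, rfl⟩
    have h1 : Commute (θ (iL a th (QX Q) w p)) (y : C) := by
      rw [hy]
      exact (iL_comm a th (QX Q) w p (xX a th Q w)).map θ
    exact h1.units_inv_right.eq
  let z : C0 := ⟨(↑y⁻¹ : C), hyi⟩
  have hz : ∀ x : C0, Commute z x := by
    intro x
    apply Subtype.ext
    have h1 := x.2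
    rw [Subring.mem_centralizer_iff] at h1
    have h2 : Commute (y : C) (x : C) := by
      rw [hy]
      exact h1 _ ⟨Polynomial.X, rfl⟩
    exact h2.units_inv_left.eq
  have hzx : θ0 (xX a th Q w) * z = 1 := by
    apply Subtype.ext
    show θ (xX a th Q w) * (↑y⁻¹ : C) = 1
    rw [← hy, Units.mul_inv]
  -- the central ring
  let τ' : Subring.center C0 →+* C0 := (Subring.center C0).subtype
  have hτ' : ∀ (x : Subring.center C0) (y : C0), Commute (τ' x) y := fun x y =>
    ((Subring.mem_center_iff.1 x.2 y).symm : _)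
  let g' : F[X] →+* Subring.center C0 := (θ0.comp (iL a th (QX Q) w)).codRestrict _ (fun p => by
    rw [Subring.mem_center_iff]
    intro x
    exact (hcen p x).symm.eq)
  let zc : Subring.center C0 := ⟨z, by
    rw [Subring.mem_center_iff]
    intro x
    exact (hz x).symm.eq⟩
  let : Algebra F (Subring.center C0) := (g'.comp Polynomial.C).toAlgebra
  have h1 := ((isTuple_wU a th (QX Q) w).map θ0).subst (RingHom.id C0) g'
    (θ0.comp (iL a th (QX Q) w)) τ' hτ' (Xz zc) (by ext x <;> rfl) (fun c => rfl)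
  have hQ : (fun i => subL g' (Xz zc) (QX Q i)) =
      fun i => mp (Option σ) (g'.comp Polynomial.C) (Q i) := by
    funext i
    rw [QX, subL_subL]
    have hX : (fun v v'' => ∑ v', g' (Xz (σ := σ) Polynomial.X v v') * Xz zc v' v'') =
        fun v v'' => if v = v'' then 1 else 0 := by
      have hgz : g' Polynomial.X * zc = 1 := Subtype.ext hzx
      funext v v''
      rw [Fintype.sum_option]
      rcases v with _ | v <;> rcases v'' with _ | v''
      · simp [Xz, hgz]
      · simp [Xz]
      · simp [Xz]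
      · by_cases hvv : v = v'' <;> simp [Xz, apply_ite, hvv]
    rw [hX]
    have h3 : (subL (g'.comp Polynomial.C) (fun v v'' : Option σ => if v = v'' then 1 else 0) :
        MvPolynomial (Option σ) F →+* _) = MvPolynomial.map (g'.comp Polynomial.C) := by
      apply MvPolynomial.ringHom_ext
      · intro c; simp
      · intro v; simp
    rw [h3]
    rfl
  rw [hQ] at h1
  have h2 := (isTuple_map_iff (L := F) (Q := Q) a th (g'.comp Polynomial.C) (fun c => rfl)
    (fun i => rfl) τ' _).1 h1
  have e : (fun i v' => ∑ v, (RingHom.id C0) (θ0 (wU a th (QX Q) w i v)) *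
      τ' (Xz zc v v')) =
      ext' (fun i v => (θ0.comp (iD a th (QX Q) w)) (w i v))
        (fun i => θ0 (eta a th (QX Q) w i) * z) := by
    funext i v'
    rw [Fintype.sum_option]
    rcases v' with _ | v'
    · simp [Xz, wU, τ', zc]
    · simp [Xz, wU, apply_ite]
  rw [e] at h2
  obtain ⟨h, hD, hL, hη⟩ := exists_lift (a := a) (th := th) (Q := Q) (w := w)
    (θ0.comp (iD a th (QX Q) w)) (τ'.comp (g'.comp Polynomial.C))
    (fun i => θ0 (eta a th (QX Q) w i) * z) (by
      intro c
      rw [RingHom.comp_apply, iD_base]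
      rfl) (fun _ _ => hτ' _ _) (fun _ _ => hτ' _ _) h2
  refine ⟨C0.subtype.comp h, fun d => ?_, fun x => ?_, fun i => ?_⟩
  · rw [RingHom.comp_apply, hD]; rfl
  · rw [RingHom.comp_apply, hL]; rfl
  · rw [RingHom.comp_apply, hη]
    show θ (eta a th (QX Q) w i) * (↑y⁻¹ : C) * θ (xX a th Q w) = _
    rw [← hy, mul_assoc, Units.inv_mul, mul_one]

/-- (REES) -/
theorem rees (θ : TX a th Q w →+* C) (hy : IsUnit (θ (xX a th Q w)))
    (θ1 : TX a th Q w →+* C1) (h01 : ∀ r, θ r = 0 → θ1 r = 0)
    (hreg : ∀ c, θ1 (xX a th Q w) * c = 0 → c = 0) (g : C1 →+* C')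
    (fK : K a th Q w →+* C') (hfK : Function.Injective fK)
    (hg : g.comp θ1 = fK.comp (pi a th Q w)) :
    ∃ h : U a th Q w →+* C, Function.Injective h ∧
      (∀ d, h (iD a th Q w d) = θ (iD a th (QX Q) w d)) ∧
      (∀ x, h (iL a th Q w x) = θ (iL a th (QX Q) w (Polynomial.C x))) ∧
      ∀ i, h (eta a th Q w i) * θ (xX a th Q w) = θ (eta a th (QX Q) w i) := by
  obtain ⟨h, hD, hL, hη⟩ := exists_hom a th Q w θ hy
  refine ⟨h, ?_, hD, hL, hη⟩
  have hc : ∀ u, Commute (h u) (θ (xX a th Q w)) := by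
    intro u
    refine generation a th Q w (fun u => Commute (h u) (θ (xX a th Q w))) ?_ ?_ ?_ ?_ ?_ u
    · intro d
      show Commute (h _) _
      rw [hD]
      exact ((iL_comm a th (QX Q) w _ _).map θ).symm
    · intro x
      show Commute (h _) _
      rw [hL]
      exact ((iL_comm a th (QX Q) w _ _).map θ).symm
    · intro i
      obtain ⟨y, hy⟩ := hy
      have h1 : h (eta a th Q w i) = θ (eta a th (QX Q) w i) * ↑y⁻¹ := by
        rw [← hη, ← hy, mul_assoc, Units.mul_inv, mul_one]
      show Commute (h _) _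
      rw [h1, ← hy]
      have h2 : Commute (θ (eta a th (QX Q) w i)) (y : C) := by
        rw [hy]
        exact ((iL_comm a th (QX Q) w _ _).map θ).symm
      exact h2.mul_left (Commute.refl (y : C)).units_inv_left
    · intro x y hx hy
      show Commute (h _) _
      rw [map_add]; exact hx.add_left hy
    · intro x y hx hy
      show Commute (h _) _
      rw [map_mul]; exact hx.mul_left hy
  have hθ : (Polynomial.eval₂RingHom' h (θ (xX a th Q w)) hc).comp (phi a th Q w) = θ := by
    apply hom_ext' a th (QX Q) w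
    · intro d
      rw [RingHom.comp_apply, phi_iD]
      show Polynomial.eval₂ _ _ _ = _
      rw [Polynomial.eval₂_C, hD]
    · intro x
      rw [RingHom.comp_apply, phi_iL]
      show Polynomial.eval₂ _ _ _ = _
      induction x using Polynomial.induction_on' with
      | add p q hp hq => rw [Polynomial.map_add, Polynomial.eval₂_add, hp, hq, map_add, map_add]
      | monomial n c =>
        rw [Polynomial.map_monomial, Polynomial.eval₂_monomial, hL, xX, ← map_pow, ← map_mul,
          ← map_pow, ← map_mul, Polynomial.C_mul_X_pow_eq_monomial]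
    · intro i
      rw [RingHom.comp_apply, phi_eta]
      show Polynomial.eval₂ _ _ _ = _
      rw [Polynomial.eval₂_mul_X, Polynomial.eval₂_C, hη]
  rw [injective_iff_map_eq_zero]
  intro u hu
  obtain ⟨d, r, hr⟩ := exists_lead a th Q w u
  refine lead_zero θ1 hreg g fK hfK hg d u r hr (h01 _ ?_)
  rw [← hθ, RingHom.comp_apply, hr]
  show Polynomial.eval₂ _ _ _ = _
  rw [Polynomial.eval₂_mul_noncomm _ _ (fun n => (hc _)), Polynomial.eval₂_C, hu, zero_mul]

/-- (REES) with the conclusion on stable finiteness -/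
theorem rees_stablyFinite [Nontrivial C] (hC : IsStablyFiniteRing C) (θ : TX a th Q w →+* C)
    (hy : IsUnit (θ (xX a th Q w)))
    (θ1 : TX a th Q w →+* C1) (h01 : ∀ r, θ r = 0 → θ1 r = 0)
    (hreg : ∀ c, θ1 (xX a th Q w) * c = 0 → c = 0) (g : C1 →+* C')
    (fK : K a th Q w →+* C') (hfK : Function.Injective fK)
    (hg : g.comp θ1 = fK.comp (pi a th Q w)) :
    Nontrivial (U a th Q w) ∧ IsStablyFiniteRing (U a th Q w) := by
  obtain ⟨h, hi, -⟩ := rees a th Q w θ hy θ1 h01 hreg g fK hfK hg
  exact ⟨h.domain_nontrivial, IsStablyFiniteRing.of_injective h hi⟩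

/-- the matrix form of stable finiteness -/
theorem isStablyFiniteRing_iff' {R : Type*} [Ring R] : IsStablyFiniteRing R ↔
    ∀ (m : ℕ) (X Y : Matrix (Fin m) (Fin m) R), X * Y = 1 → Y * X = 1 := by
  constructor
  · intro h m X Y hXY
    exact mul_eq_one_symm hXY
  · intro h
    exact ⟨fun m => ⟨fun {X Y} hXY => h m X Y hXY⟩⟩

end Rees

end Crest.Agent.R181.RE
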