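import Crest.Agent.R181.RO789a

/-!
R181, V-chain: the ring `O` is left noetherian if `Δ` is (complete w.r.t. a central element).
-/

namespace Crest.Agent.R181.RO

open PowerSeries Matrix

/-- a ring complete w.r.t. a central element `x` with left noetherian residue ring `Δ = R/xR` is
left noetherian -/
theorem noeth_of_complete {R Δ : Type*} [Ring R] [Ring Δ] [IsNoetherianRing Δ] (x : R)
    (hx : ∀ r, r * x = x * r) (q : R →+* Δ) (hq : Function.Surjective q)
    (hker : ∀ r, q r = 0 → ∃ s, r = x * s)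
    (hsum : ∀ a : ℕ → R, ∃ s, ∀ N, ∃ r, s = ∑ n ∈ Finset.range N, x ^ n * a n + x ^ N * r)
    (hsep : ∀ f : R, (∀ N, ∃ r, f = x ^ N * r) → f = 0) : IsNoetherianRing R := by
  classical
  have hxn : ∀ (n : ℕ) (r : R), r * x ^ n = x ^ n * r := by
    intro n r
    induction n with
    | zero => simp
    | succ n ih => rw [pow_succ, ← mul_assoc, ih, mul_assoc, hx, ← mul_assoc, mul_assoc]
  constructor
  intro J
  -- leading coefficient ideals
  let L : ℕ → Submodule Δ Δ := fun n =>
    { carrier := {d | ∃ h : R, x ^ n * h ∈ J ∧ q h = d}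
      add_mem' := by
        rintro _ _ ⟨a, ha, rfl⟩ ⟨b, hb, rfl⟩
        exact ⟨a + b, by rw [mul_add]; exact J.add_mem ha hb, map_add q a b⟩
      zero_mem' := ⟨0, by simp, map_zero q⟩
      smul_mem' := by
        rintro c _ ⟨a, ha, rfl⟩
        obtain ⟨r, rfl⟩ := hq c
        refine ⟨r * a, ?_, by rw [map_mul, smul_eq_mul]⟩
        rw [← mul_assoc, ← hxn, mul_assoc]
        exact J.smul_mem r ha }
  have hL : ∀ n d, d ∈ L n ↔ ∃ h : R, x ^ n * h ∈ J ∧ q h = d := fun n d => Iff.rfl
  have hmono : Monotone L := by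
    apply monotone_nat_of_le_succ
    rintro n _ ⟨a, ha, rfl⟩
    refine ⟨a, ?_, rfl⟩
    rw [pow_succ', mul_assoc]
    exact J.smul_mem x ha
  obtain ⟨N, hN⟩ := monotone_stabilizes_iff_noetherian.2 (inferInstanceAs (IsNoetherian Δ Δ))
    ⟨L, hmono⟩
  have hN' : ∀ m, N ≤ m → L m = L N := fun m hm => (hN m hm).symm
  -- finite generating sets of the leading coefficient ideals, lifted
  have hfg : ∀ n, ∃ (K : ℕ) (g : Fin K → R), (∀ t, x ^ n * g t ∈ J) ∧
      ∀ d ∈ L n, ∃ c : Fin K → R, d = ∑ t, q (c t * g t) := by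
    intro n
    obtain ⟨K, g, hg⟩ := Submodule.fg_iff_exists_fin_generating_family.1
      (IsNoetherian.noetherian (L n))
    have h1 : ∀ t, ∃ h : R, x ^ n * h ∈ J ∧ q h = g t := fun t => by
      rw [← hL, ← hg]; exact Submodule.subset_span ⟨t, rfl⟩
    choose g' hg'1 hg'2 using h1
    refine ⟨K, g', hg'1, fun d hd => ?_⟩
    rw [← hg, Submodule.mem_span_range_iff_exists_fun] at hd
    obtain ⟨c, hc⟩ := hd
    choose c' hc' using fun t => hq (c t)
    refine ⟨c', ?_⟩
    rw [← hc]
    refine Finset.sum_congr rfl fun t _ => ?_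
    rw [map_mul, hc', hg'2, smul_eq_mul]
  choose K g hgJ hg using hfg
  -- all generators
  let ι := Σ n : Fin (N + 1), Fin (K n)
  let e : ι → R := fun t => x ^ (t.1 : ℕ) * g t.1 t.2
  have heJ : ∀ t, e t ∈ J := fun t => hgJ _ _
  have hstep : ∀ (m : ℕ) (f : R), ∃ (c : ι → R) (f' : R), x ^ m * f ∈ J →
      x ^ m * f = ∑ t, x ^ (m - N) * c t * e t + x ^ (m + 1) * f' := by
    intro m f
    by_cases hf : x ^ m * f ∈ J
    swap
    · exact ⟨0, 0, fun h => absurd h hf⟩
    -- the level
    obtain ⟨k, hk, hkm, hkL⟩ : ∃ k : ℕ, k ≤ N ∧ k ≤ m ∧ L m = L k := by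
      rcases le_total m N with h | h
      · exact ⟨m, h, le_rfl, rfl⟩
      · exact ⟨N, le_rfl, h, hN' m h⟩
    have h1 : q f ∈ L k := by rw [← hkL]; exact ⟨f, hf, rfl⟩
    obtain ⟨c, hc⟩ := hg k _ h1
    have h2 : q (f - ∑ t, c t * g k t) = 0 := by rw [map_sub, map_sum, ← hc, sub_self]
    obtain ⟨f', hf'⟩ := hker _ h2
    have h3 : f = ∑ t, c t * g k t + x * f' := by rw [← hf']; abel
    have hmN : m - k = (m - N) + ((m - k) - (m - N)) := by omega
    let kk : Fin (N + 1) := ⟨k, by omega⟩
    let c' : ∀ n : Fin (N + 1), Fin (K n) → R :=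
      Function.update (fun _ _ => 0) kk (fun t => x ^ ((m - k) - (m - N)) * c t)
    refine ⟨fun t => c' t.1 t.2, f', fun _ => ?_⟩
    have h4 : ∑ t : ι, x ^ (m - N) * (c' t.1 t.2) * e t =
        ∑ t : Fin (K k), x ^ (m - k) * c t * (x ^ k * g k t) := by
      rw [Fintype.sum_sigma]
      rw [Finset.sum_eq_single kk]
      · refine Finset.sum_congr rfl fun t _ => ?_
        simp only [c', Function.update_self, e]
        rw [← mul_assoc (x ^ (m - N)), ← pow_add, ← hmN]
      · intro b _ hb
        refine Finset.sum_eq_zero fun t _ => ?_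
        simp only [c']
        rw [Function.update_of_ne hb]
        simp
      · intro h; exact absurd (Finset.mem_univ _) h
    rw [h4]
    conv_lhs => rw [h3]
    rw [mul_add, Finset.mul_sum, ← mul_assoc, ← pow_succ]
    congr 1
    refine Finset.sum_congr rfl fun t _ => ?_
    have h5 : x ^ m = x ^ (m - k) * x ^ k := by rw [← pow_add]; congr 1; omega
    rw [h5, mul_assoc, mul_assoc, ← mul_assoc (x ^ k) (c t), ← hxn k (c t), mul_assoc]
  choose c f' hcf using hstep
  refine ⟨Finset.univ.image e, le_antisymm ?_ ?_⟩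
  · rw [Submodule.span_le]
    intro y hy
    simp only [Finset.coe_image, Finset.coe_univ, Set.image_univ, Set.mem_range] at hy
    obtain ⟨t, rfl⟩ := hy
    exact heJ t
  · intro f hf
    -- the approximating sequence
    let F : ℕ → R := fun m => Nat.rec f (fun m y => f' m y) m
    have hF0 : F 0 = f := rfl
    have hFs : ∀ m, F (m + 1) = f' m (F m) := fun m => rfl
    have hFJ : ∀ m, x ^ m * F m ∈ J := by
      intro m
      induction m with
      | zero => simpa [hF0] using hf
      | succ m ih =>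
        have h1 := hcf m (F m) ih
        rw [hFs]
        have h2 : x ^ (m + 1) * f' m (F m) =
            x ^ m * F m - ∑ t, x ^ (m - N) * c m (F m) t * e t := by rw [h1]; abel
        rw [h2]
        exact J.sub_mem ih (J.sum_mem fun t _ => J.smul_mem _ (heJ t))
    have hFeq : ∀ m, f = ∑ l ∈ Finset.range m, ∑ t, x ^ (l - N) * c l (F l) t * e t +
        x ^ m * F m := by
      intro m
      induction m with
      | zero => simp [hF0]
      | succ m ih =>
        rw [Finset.sum_range_succ, hFs, add_assoc, ← hcf m (F m) (hFJ m)]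
        exact ih
    -- the limit coefficients
    choose S hS using fun t => hsum (fun n => c (N + n) (F (N + n)) t)
    let C : ι → R := fun t => ∑ l ∈ Finset.range N, c l (F l) t + S t
    have hC : ∀ (M : ℕ) (t : ι), ∃ r, C t =
        ∑ l ∈ Finset.range (N + M), x ^ (l - N) * c l (F l) t + x ^ M * r := by
      intro M t
      obtain ⟨r, hr⟩ := hS t M
      refine ⟨r, ?_⟩
      simp only [C]
      rw [hr, Finset.sum_range_add, ← add_assoc]
      congr 2
      · refine Finset.sum_congr rfl fun l hl => ?_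
        rw [Finset.mem_range] at hl
        have : l - N = 0 := by omega
        rw [this, pow_zero, one_mul]
      · refine Finset.sum_congr rfl fun l _ => ?_
        have : N + l - N = l := by omega
        rw [this]
    have hfin : f - ∑ t, C t * e t = 0 := by
      apply hsep
      intro M
      choose r hr using hC M
      refine ⟨x ^ N * F (N + M) - ∑ t, r t * e t, ?_⟩
      have h1 : ∑ t, C t * e t = ∑ l ∈ Finset.range (N + M), ∑ t,
          x ^ (l - N) * c l (F l) t * e t + x ^ M * ∑ t, r t * e t := by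
        rw [Finset.sum_comm, Finset.mul_sum, ← Finset.sum_add_distrib]
        refine Finset.sum_congr rfl fun t _ => ?_
        rw [hr t, add_mul, Finset.sum_mul, mul_assoc (x ^ M)]
      rw [h1]
      conv_lhs => rw [hFeq (N + M)]
      rw [mul_sub, ← mul_assoc, ← pow_add, add_comm M N]
      abel
    have hf2 : f = ∑ t, C t * e t := sub_eq_zero.1 hfin
    rw [hf2]
    refine Submodule.sum_mem _ fun t _ => ?_
    exact Submodule.smul_mem _ _ (Submodule.subset_span (by simp))

universe u

variable {T S Δ : Type u} [Ring T] [Ring S] [Ring Δ]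
variable {j : S →+* PowerSeries T} {δ : S →+* Δ} {i : Δ →+* T} {p : S}

/-- `∑_n π^n a_{N+n}` in `T⟦π⟧` -/
noncomputable def tailSum (a : ℕ → PowerSeries T) (N : ℕ) : PowerSeries T :=
  PowerSeries.mk fun k => ∑ n ∈ Finset.range (k + 1), PowerSeries.coeff (k - n) (a (N + n))

theorem tailSum_succ (a : ℕ → PowerSeries T) (N : ℕ) :
    tailSum a N = a N + PowerSeries.X * tailSum a (N + 1) := by
  ext k
  cases k with
  | zero => simp [tailSum]
  | succ k =>
    rw [map_add, PowerSeries.coeff_succ_X_mul]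
    simp only [tailSum, PowerSeries.coeff_mk]
    rw [Finset.sum_range_succ', add_comm]
    congr 1
    refine Finset.sum_congr rfl fun n _ => ?_
    have h1 : k + 1 - (n + 1) = k - n := by omega
    have h2 : N + (n + 1) = N + 1 + n := by omega
    rw [h1, h2]

theorem tailSum_eq (a : ℕ → PowerSeries T) (N M : ℕ) :
    tailSum a N = ∑ n ∈ Finset.range M, PowerSeries.X ^ n * a (N + n) +
      PowerSeries.X ^ M * tailSum a (N + M) := by
  induction M with
  | zero => simp
  | succ M ih =>
    rw [ih, Finset.sum_range_succ, add_assoc]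
    congr 1
    conv_lhs => rw [tailSum_succ]
    rw [mul_add, ← mul_assoc, ← pow_succ, add_assoc N M 1]

theorem tailSum_mem (a : ℕ → PowerSeries T) (ha : ∀ n, a n ∈ O j δ)
    (hX : (PowerSeries.X : PowerSeries T) ∈ O j δ) (N : ℕ) : tailSum a N ∈ O j δ := by
  apply mem_O_of_forall
  intro s
  refine ⟨∑ n ∈ Finset.range s, PowerSeries.X ^ n * a (N + n),
    sum_mem fun n _ => mul_mem (pow_mem hX n) (ha _), fun m hm => ?_⟩
  rw [tailSum_eq a N s, map_add]
  rw [PowerSeries.coeff_X_pow_mul', if_neg (by omega), add_zero]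

/-- completeness of `O` -/
theorem exists_sum (h : Dat j δ i p) (a : ℕ → O j δ) : ∃ s : O j δ, ∀ N, ∃ r : O j δ,
    s = ∑ n ∈ Finset.range N, pi h ^ n * a n + pi h ^ N * r := by
  have hX := X_mem_O h
  refine ⟨⟨tailSum (fun n => (a n : PowerSeries T)) 0, tailSum_mem _ (fun n => (a n).2) hX 0⟩,
    fun N => ⟨⟨tailSum (fun n => (a n : PowerSeries T)) N,
      tailSum_mem _ (fun n => (a n).2) hX N⟩, ?_⟩⟩
  apply Subtype.ext
  have := tailSum_eq (fun n => (a n : PowerSeries T)) 0 N
  simp only [zero_add] at this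
  push_cast
  exact this

/-- separatedness of `O` -/
theorem eq_zero_of_forall (h : Dat j δ i p) (f : O j δ) (hf : ∀ N, ∃ r, f = pi h ^ N * r) :
    f = 0 := by
  apply Subtype.ext
  ext k
  obtain ⟨r, hr⟩ := hf (k + 1)
  have h1 : (f : PowerSeries T) = PowerSeries.X ^ (k + 1) * (r : PowerSeries T) := by
    rw [hr]; push_cast; rfl
  rw [h1, PowerSeries.coeff_X_pow_mul', if_neg (by omega)]
  simp

/-- `O` is left noetherian if `Δ` is. -/
theorem isNoetherianRing_O (h : Dat j δ i p) [IsNoetherianRing Δ] : IsNoetherianRing (O j δ) :=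
  noeth_of_complete (pi h) (pi_comm h) (q h) (q_surjective h)
    (fun r hr => (q_eq_zero_iff h r).1 hr) (exists_sum h) (eq_zero_of_forall h)

end Crest.Agent.R181.RO
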