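import Crest.Agent.R181.VB789d

/-!
R181, V-chain, block V2b (helper789): `Psi` of `OO(1)` and `OO(-m)`.
-/

set_option autoImplicit false

namespace Crest.Agent.R181.VB

open V868

universe u

variable {DD : Type u} [Ring DD] {L : Line DD} {T : Type u} [Ring T] {U : UnivT L T} (R : RB U)

section tr

variable {T : Type*} [Ring T]

/-- the part in `T[x]` -/
def tr0 (z : LaurentSeries T) : LaurentSeries T where
  coeff n := if n ≤ 0 then z.coeff n else 0
  isPWO_support' := z.isPWO_support.mono (by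
    intro n hn
    rw [Function.mem_support] at hn
    rw [HahnSeries.mem_support]
    intro h
    apply hn
    simp [h])

theorem coeff_tr0 (z : LaurentSeries T) (n : ℤ) :
    (tr0 z).coeff n = if n ≤ 0 then z.coeff n else 0 := rfl

theorem aff_tr0 (z : LaurentSeries T) : Aff (tr0 z) := fun n hn => by
  rw [coeff_tr0, if_neg (by omega)]

end tr

theorem ΘP (U : UnivT L T) : U.Θ L.p = HahnSeries.single 1 1 := by
  have h1 : U.Θ L.x * U.Θ L.p = 1 := by rw [← map_mul, L.xp, map_one]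
  have h2 : (HahnSeries.single (1 : ℤ) (1 : T)) * U.Θ L.x = 1 := by
    rw [U.Θx, HahnSeries.single_mul_single]; simp
  calc U.Θ L.p = (HahnSeries.single (1 : ℤ) (1 : T) * U.Θ L.x) * U.Θ L.p := by rw [h2, one_mul]
    _ = _ := by rw [mul_assoc, h1, mul_one]

theorem ΘPpow (U : UnivT L T) (k : ℕ) : U.Θ (L.p ^ k) = HahnSeries.single (k : ℤ) 1 := by
  rw [map_pow, ΘP, HahnSeries.single_pow]
  simp

theorem Θxpow (U : UnivT L T) (k : ℕ) : U.Θ (L.x ^ k) = HahnSeries.single (-(k : ℤ)) 1 := by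
  rw [map_pow, U.Θx, HahnSeries.single_pow]
  simp

namespace RB

/-- splitting lemma -/
theorem split (k : ℕ) (f : R.W →₀ DD)
    (h : ∀ n : ℤ, 0 < n → n < k → (evm U.Θ R.b f).coeff n = 0) :
    ∃ (a : R.W →₀ L.V) (o : R.W →₀ L.O), f = up L.V a + act R.P (rmul (up L.O o) (L.p ^ k)) := by
  obtain ⟨a, ha⟩ := R.exists_V (tr0 (evm U.Θ R.b f)) (aff_tr0 _)
  have h1 : Inf (evm U.Θ R.b (rmul (f - up L.V a) (L.x ^ k))) := by
    intro n hn
    rw [evm_rmul, Θxpow, coeff_mul_sing, map_sub, ha, HahnSeries.coeff_sub, coeff_tr0]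
    split_ifs with h2
    · rw [sub_self]
    · rw [sub_zero]
      exact h _ (by omega) (by omega)
  obtain ⟨o, ho⟩ := R.exists_O _ h1
  refine ⟨a, o, ?_⟩
  have h2 : rmul (rmul (f - up L.V a) (L.x ^ k)) (L.p ^ k) = f - up L.V a := by
    ext w; simp [mul_assoc, L.xp_pow]
  have h3 : rmul (act R.P (up L.O o)) (L.p ^ k) = act R.P (rmul (up L.O o) (L.p ^ k)) := by
    apply R.evm_injective
    rw [evm_rmul, R.evm_act_P, R.evm_act_P, evm_rmul]
  rw [← h3, ← ho, h2]
  abel

theorem eq_zero_of_split (k : ℕ) (hk : 0 < k) (a : R.W →₀ L.V) (o : R.W →₀ L.O)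
    (h : up L.V a + act R.P (rmul (up L.O o) (L.p ^ k)) = 0) : a = 0 ∧ o = 0 := by
  have h1 : evm U.Θ R.b (up L.V a) + evm U.Θ R.b' (up L.O o) * HahnSeries.single (k : ℤ) 1 = 0 := by
    have := congrArg (evm U.Θ R.b) h
    rwa [map_add, R.evm_act_P, evm_rmul, ΘPpow, map_zero] at this
  have hA := R.aff_evm a
  have hI := R.inf_evm o
  have h2 : evm U.Θ R.b' (up L.O o) * HahnSeries.single (k : ℤ) 1 = 0 := by
    ext n
    rcases lt_or_ge 0 n with hn | hn
    · have h3 := congrArg (fun z => HahnSeries.coeff z n) h1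
      simp only [HahnSeries.coeff_add, HahnSeries.coeff_zero] at h3
      rw [hA n hn, zero_add] at h3
      rw [h3]; simp
    · rw [coeff_mul_sing, hI _ (by omega)]; simp
  have h3 : evm U.Θ R.b (up L.V a) = 0 := by rwa [h2, add_zero] at h1
  have h4 : evm U.Θ R.b' (up L.O o) = 0 := by
    ext n
    have := congrArg (fun z => HahnSeries.coeff z (n + k)) h2
    simp only [coeff_mul_sing, add_sub_cancel_right, HahnSeries.coeff_zero] at this
    rw [this]; simp
  exact ⟨R.evm_up_injective (by simp only; rw [h3, up_zero, map_zero]),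
    R.evm'_up_injective (by simp only; rw [h4, up_zero, map_zero])⟩

end RB

section OO

variable (L)

/-- the inclusion `V → DD` -/
def alV : L.V →ₛₗ[L.V.subtype] DD where
  toFun := Subtype.val
  map_add' _ _ := rfl
  map_smul' _ _ := rfl

/-- `o ↦ p^m o` -/
def beP (m : ℕ) : L.O →ₛₗ[L.O.subtype] DD where
  toFun o := L.p ^ m * o
  map_add' a b := by push_cast; rw [mul_add]
  map_smul' o y := by
    simp only [smul_eq_mul, Subring.subtype_apply]
    push_cast
    rw [← mul_assoc, ← mul_assoc, L.ppow_comm]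

/-- `o ↦ x o` -/
def beX : L.O →ₛₗ[L.O.subtype] DD where
  toFun o := L.x * o
  map_add' a b := by push_cast; rw [mul_add]
  map_smul' o y := by
    simp only [smul_eq_mul, Subring.subtype_apply]
    push_cast
    rw [← mul_assoc, ← mul_assoc, L.xc]

variable {L}

theorem co_delta_P (m : ℕ) (a : Fr R.ρV L.V) (o : Fr R.ρO L.O) :
    Fr.co R.ρV (delta R (alV L) (beP L m) (a, o)) =
      up L.V a + act R.P (rmul (up L.O o) (L.p ^ (m + 2))) := by
  have h1 : Fr.co R.ρO (Fr.map R.ρO (pmul 2 (beP L m)) o) = rmul (up L.O o) (L.p ^ (m + 2)) := by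
    refine Finsupp.ext fun w => ?_
    change L.p ^ 2 • (L.p ^ m * ((Fr.co R.ρO o) w : DD)) = ((Fr.co R.ρO o) w : DD) * _
    rw [smul_eq_mul, ← mul_assoc, ← pow_add, add_comm 2 m, L.ppow_comm]
  have h2 : Fr.co R.ρV (Fr.map R.ρV (lin L.V (alV L)) a) = up L.V a := rfl
  rw [← h1, ← h2]
  rfl

theorem co_delta_X (a : Fr R.ρV L.V) (o : Fr R.ρO L.O) :
    Fr.co R.ρV (delta R (alV L) (beX L) (a, o)) =
      up L.V a + act R.P (rmul (up L.O o) (L.p ^ 1)) := by
  have h1 : Fr.co R.ρO (Fr.map R.ρO (pmul 2 (beX L)) o) = rmul (up L.O o) (L.p ^ 1) := by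
    refine Finsupp.ext fun w => ?_
    change L.p ^ 2 • (L.x * ((Fr.co R.ρO o) w : DD)) = ((Fr.co R.ρO o) w : DD) * _
    rw [smul_eq_mul, ← mul_assoc, pow_two, mul_assoc L.p, L.px, mul_one, pow_one, L.pc]
  have h2 : Fr.co R.ρV (Fr.map R.ρV (lin L.V (alV L)) a) = up L.V a := rfl
  rw [← h1, ← h2]
  rfl

/-- `Psi(OO(1)) = 0` -/
theorem delta_theta : Function.Bijective (delta R (alV L) (beX L)) := by
  constructor
  · rw [injective_iff_map_eq_zero]
    rintro ⟨a, o⟩ h
    have h1 := co_delta_X R a o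
    rw [h] at h1
    obtain ⟨h2, h3⟩ := R.eq_zero_of_split 1 one_pos a o h1.symm
    exact Prod.ext h2 h3
  · intro f
    obtain ⟨a, o, h⟩ := R.split 1 (Fr.co R.ρV f) (fun n h1 h2 => by
      exfalso; norm_cast at h2; omega)
    exact ⟨(Fr.mk R.ρV a, Fr.mk R.ρO o), (co_delta_X R _ _).trans h.symm⟩

/-- `Psi⁰(OO(-m)) = 0` -/
theorem delta_P_injective (m : ℕ) : Function.Injective (delta R (alV L) (beP L m)) := by
  rw [injective_iff_map_eq_zero]
  rintro ⟨a, o⟩ h
  have h1 := co_delta_P R m a o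
  rw [h] at h1
  obtain ⟨h2, h3⟩ := R.eq_zero_of_split (m + 2) (by omega) a o h1.symm
  exact Prod.ext h2 h3

/-- `p^k b_{w0}` -/
noncomputable def pk (k : ℕ) : Fr R.ρV DD := Fr.mk R.ρV (Finsupp.single R.w0 (L.p ^ k))

theorem evm_smul_pk (t : T) (k : ℕ) :
    evm U.Θ R.b (Fr.co R.ρV (t • pk R k)) = HahnSeries.single (k : ℤ) t := by
  change evm U.Θ R.b (act (R.mV t) (Finsupp.single R.w0 (L.p ^ k))) = _
  rw [act_up L.V, act_single, evm_col, R.mV_w0_eq, ΘPpow]
  ext n
  rw [coeff_mul_sing]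
  simp only [HahnSeries.C_apply, HahnSeries.coeff_single]
  by_cases h : n = k
  · subst h; simp
  · rw [if_neg (by omega), if_neg h]

/-- the map `T^{m+1} → Psi¹(OO(-m))` -/
noncomputable def toPsiP (m : ℕ) : (Fin (m + 1) → T) →ₗ[T] Psi1 R (alV L) (beP L m) :=
  (LinearMap.range (delta R (alV L) (beP L m))).mkQ.comp
    (∑ k : Fin (m + 1), (LinearMap.toSpanSingleton T (Fr R.ρV DD) (pk R (k + 1))).comp
      (LinearMap.proj k))

theorem toPsiP_apply (m : ℕ) (t : Fin (m + 1) → T) :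
    toPsiP R m t = (LinearMap.range (delta R (alV L) (beP L m))).mkQ
      (∑ k : Fin (m + 1), t k • pk R (k + 1)) := by
  simp [toPsiP, LinearMap.toSpanSingleton_apply]

theorem coeff_sum_pk (m : ℕ) (t : Fin (m + 1) → T) (n : ℤ) :
    (evm U.Θ R.b (Fr.co R.ρV (∑ k : Fin (m + 1), t k • pk R (k + 1)))).coeff n =
      ∑ k : Fin (m + 1), if n = ((k : ℕ) : ℤ) + 1 then t k else 0 := by
  have h1 : ∀ s : Finset (Fin (m + 1)),
      (evm U.Θ R.b (Fr.co R.ρV (∑ k ∈ s, t k • pk R (k + 1)))).coeff n =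
      ∑ k ∈ s, if n = ((k : ℕ) : ℤ) + 1 then t k else 0 := by
    intro s
    classical
    induction s using Finset.induction_on with
    | empty =>
      rw [Finset.sum_empty, Finset.sum_empty]
      have : Fr.co R.ρV (0 : Fr R.ρV DD) = 0 := rfl
      rw [this, map_zero]; simp
    | insert a s ha ih =>
      rw [Finset.sum_insert ha, Finset.sum_insert ha]
      have : Fr.co R.ρV (t a • pk R (a + 1) + ∑ k ∈ s, t k • pk R (k + 1)) =
        Fr.co R.ρV (t a • pk R (a + 1)) + Fr.co R.ρV (∑ k ∈ s, t k • pk R (k + 1)) := rfl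
      rw [this, map_add, HahnSeries.coeff_add, ih, evm_smul_pk, HahnSeries.coeff_single]
      push_cast
      rfl
  exact h1 Finset.univ

theorem toPsiP_bijective (m : ℕ) : Function.Bijective (toPsiP R m (L := L)) := by
  constructor
  · rw [injective_iff_map_eq_zero]
    intro t ht
    rw [toPsiP_apply, Submodule.mkQ_apply, Submodule.Quotient.mk_eq_zero] at ht
    obtain ⟨⟨a, o⟩, h⟩ := ht
    have h1 := co_delta_P R m a o
    rw [h] at h1
    funext k
    have h2 := congrArg (fun z => HahnSeries.coeff (evm U.Θ R.b z) (((k : ℕ) : ℤ) + 1)) h1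
    rw [coeff_sum_pk, map_add, HahnSeries.coeff_add, R.evm_act_P, evm_rmul, ΘPpow,
      coeff_mul_sing, R.aff_evm a _ (by omega), R.inf_evm o _ (by push_cast; omega)] at h2
    rw [Finset.sum_eq_single k] at h2
    · simpa using h2
    · intro j _ hj
      rw [if_neg]
      intro h3
      apply hj
      ext
      omega
    · intro h3; exact absurd (Finset.mem_univ _) h3
  · intro z
    obtain ⟨f, rfl⟩ := Submodule.mkQ_surjective _ z
    let t : Fin (m + 1) → T := fun k => (evm U.Θ R.b (Fr.co R.ρV f)).coeff (((k : ℕ) : ℤ) + 1)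
    refine ⟨t, ?_⟩
    rw [toPsiP_apply]
    rw [← sub_eq_zero, ← map_sub, Submodule.mkQ_apply, Submodule.Quotient.mk_eq_zero]
    obtain ⟨a, o, h⟩ := R.split (m + 2)
      (Fr.co R.ρV ((∑ k : Fin (m + 1), t k • pk R (k + 1)) - f)) (by
        intro n h1 h2
        have h3 : Fr.co R.ρV ((∑ k : Fin (m + 1), t k • pk R (k + 1)) - f) =
          Fr.co R.ρV (∑ k : Fin (m + 1), t k • pk R (k + 1)) - Fr.co R.ρV f := rfl
        rw [h3, map_sub, HahnSeries.coeff_sub, coeff_sum_pk]
        push_cast at h2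
        have hn : n.toNat - 1 < m + 1 := by omega
        rw [Finset.sum_eq_single (⟨n.toNat - 1, hn⟩ : Fin (m + 1))]
        · have h4 : (((⟨n.toNat - 1, hn⟩ : Fin (m + 1)) : ℕ) : ℤ) + 1 = n := by
            simp only
            omega
          rw [h4, if_pos rfl]
          simp only [t]
          rw [h4, sub_self]
        · intro j _ hj
          rw [if_neg]
          intro h3
          apply hj
          ext
          simp only
          omega
        · intro h3; exact absurd (Finset.mem_univ _) h3)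
    exact ⟨(Fr.mk R.ρV a, Fr.mk R.ρO o), (co_delta_P R m _ _).trans h.symm⟩

/-- `Psi¹(OO(-m)) = T^{m+1}` -/
noncomputable def psiPEquiv (m : ℕ) : (Fin (m + 1) → T) ≃ₗ[T] Psi1 R (alV L) (beP L m) :=
  LinearEquiv.ofBijective (toPsiP R m) (toPsiP_bijective R m)

end OO

end Crest.Agent.R181.VB
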