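import Crest.Agent.R181.VC889b
import Crest.Agent.R181.VB789e

/-!
# R181, V-chain, V2c (3): Step 5

`Psi¹` of a triple `A → C ← B` with a finite free resolution of the pair `A → C`, `B` a lattice in
`C`, and `Psi⁰ = 0`, has a finite free resolution over `T`.
-/

set_option autoImplicit false

namespace Crest.Agent.R181.VC

open FR V868 VB

universe u

variable {DD : Type u} [Ring DD] {L : Line DD} {T : Type u} [Ring T] {U : UnivT L T} (R : RB U)

/-- `p` in `O` -/
def pO (L : Line DD) : L.O := ⟨L.p, L.pO⟩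

theorem be_pO_pow {B C : Type u} [AddCommGroup B] [Module L.O B] [AddCommGroup C] [Module DD C]
    (be : B →ₛₗ[L.O.subtype] C) (s : ℕ) (b : B) : be (pO L ^ s • b) = L.p ^ s • be b := by
  rw [map_smulₛₗ, map_pow]; rfl

section OOpow

/-- `o ↦ p^m o` coordinatewise -/
def bP (L : Line DD) (m : ℕ) (ι : Type) : (ι → L.O) →ₛₗ[L.O.subtype] (ι → DD) where
  toFun o i := L.p ^ m * o i
  map_add' a b := by funext i; simp [mul_add]
  map_smul' o y := by
    funext i
    simp only [Pi.smul_apply, smul_eq_mul, Subring.subtype_apply, Subring.coe_mul]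
    rw [← mul_assoc, ← mul_assoc, L.ppow_comm]

@[simp] theorem bP_apply (m : ℕ) (ι : Type) (o : ι → L.O) (i : ι) :
    bP L m ι o i = L.p ^ m * o i := rfl

variable {ι : Type} [Fintype ι] [DecidableEq ι]

/-- `i`-th coordinate -/
abbrev pr (S : Type u) [Ring S] (i : ι) : (ι → S) →ₗ[S] S := LinearMap.proj i

/-- `i`-th inclusion -/
abbrev sg (S : Type u) [Ring S] (i : ι) : S →ₗ[S] (ι → S) := LinearMap.single S (fun _ : ι => S) i

theorem deltaF_proj (m : ℕ) (i : ι) (y : Fr R.ρV (ι → L.V) × Fr R.ρO (ι → L.O)) :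
    delta R (alV L) (beP L m) ((Fr.map R.ρV (pr L.V i)).prodMap
      (Fr.map R.ρO (pr L.O i)) y) =
      Fr.map R.ρV (res L.V (pr DD i))
        (delta R (cσ L.V.subtype ι) (bP L m ι) y) :=
  delta_map R (al := cσ L.V.subtype ι) (be := bP L m ι) (al' := alV L) (be' := beP L m)
    (pr L.V i) (pr L.O i) (pr DD i) (fun _ => rfl) (fun _ => rfl) y

theorem deltaF_single (m : ℕ) (i : ι) (y : Fr R.ρV L.V × Fr R.ρO L.O) :
    delta R (cσ L.V.subtype ι) (bP L m ι) ((Fr.map R.ρV (sg L.V i)).prodMap
      (Fr.map R.ρO (sg L.O i)) y) =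
      Fr.map R.ρV (res L.V (sg DD i)) (delta R (alV L) (beP L m) y) := by
  refine delta_map R (al' := cσ L.V.subtype ι) (be' := bP L m ι) (al := alV L) (be := beP L m)
    (sg L.V i) (sg L.O i) (sg DD i) ?_ ?_ y
  · intro a
    funext j
    by_cases h : j = i
    · subst h; simp [alV]
    · simp [h]
  · intro a
    funext j
    by_cases h : j = i
    · subst h; simp [beP]
    · simp [h]

theorem deltaF_injective (m : ℕ) :
    Function.Injective (delta R (cσ L.V.subtype ι) (bP L m ι)) := by
  rw [injective_iff_map_eq_zero]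
  intro y hy
  have h1 : ∀ i, (Fr.map R.ρV (pr L.V i)).prodMap
      (Fr.map R.ρO (pr L.O i)) y = (0 : Fr R.ρV L.V × Fr R.ρO L.O) := by
    intro i
    apply delta_P_injective R m
    rw [deltaF_proj, hy, map_zero, map_zero]
  refine Prod.ext ?_ ?_
  · refine Finsupp.ext fun w => ?_
    funext i
    exact DFunLike.congr_fun (F := R.W →₀ L.V) (congrArg Prod.fst (h1 i)) w
  · refine Finsupp.ext fun w => ?_
    funext i
    exact DFunLike.congr_fun (F := R.W →₀ L.O) (congrArg Prod.snd (h1 i)) w

theorem Fr_sum_single (z : Fr R.ρV (ι → DD)) :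
    z = ∑ i, Fr.map R.ρV (res L.V (sg DD i))
      (Fr.map R.ρV (res L.V (pr DD i)) z) := by
  have h : ∀ (s : Finset ι) (w : R.W), (Fr.co R.ρV (∑ i ∈ s,
      Fr.map R.ρV (res L.V (sg DD i))
      (Fr.map R.ρV (res L.V (pr DD i)) z))) w =
      ∑ i ∈ s, (Pi.single i ((Fr.co R.ρV z) w i) : ι → DD) := by
    intro s w
    induction s using Finset.induction_on with
    | empty => rfl
    | insert i s hi ih =>
      rw [Finset.sum_insert hi, Finset.sum_insert hi, ← ih]
      rfl
  refine Finsupp.ext fun w => ?_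
  have h2 := h Finset.univ w
  refine Eq.trans ?_ h2.symm
  funext j
  rw [Finset.sum_apply, Finset.sum_pi_single]
  simp
  rfl

/-- `Psi¹(OO(-m)^ι)` has a finite free resolution (it is free) -/
theorem ffr_psi1_F (m : ℕ) : FFR T (Psi1 R (cσ L.V.subtype ι) (bP L m ι)) := by
  let f : Psi1 R (cσ L.V.subtype ι) (bP L m ι) →ₗ[T] (ι → Psi1 R (alV L) (beP L m)) :=
    LinearMap.pi fun i => psi1Map R (al := cσ L.V.subtype ι) (be := bP L m ι) (al' := alV L)
      (be' := beP L m) (pr L.V i) (pr L.O i) (pr DD i)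
      (fun _ => rfl) (fun _ => rfl)
  have hf : Function.Bijective f := by
    constructor
    · rw [injective_iff_map_eq_zero]
      intro z hz
      obtain ⟨z, rfl⟩ := Submodule.mkQ_surjective _ z
      have h1 : ∀ i, ∃ y, delta R (alV L) (beP L m) y =
          Fr.map R.ρV (res L.V (pr DD i)) z := by
        intro i
        have h2 := congrFun hz i
        have h3 : (LinearMap.range (delta R (alV L) (beP L m))).mkQ
          (Fr.map R.ρV (res L.V (pr DD i)) z) = 0 := h2
        rw [Submodule.mkQ_apply, Submodule.Quotient.mk_eq_zero] at h3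
        exact h3
      choose y hy using h1
      rw [Submodule.mkQ_apply, Submodule.Quotient.mk_eq_zero]
      rw [Fr_sum_single R z]
      refine Submodule.sum_mem _ fun i _ => ?_
      rw [← hy, ← deltaF_single]
      exact ⟨_, rfl⟩
    · intro z
      choose x hx using fun i => Submodule.mkQ_surjective _ (z i)
      refine ⟨(LinearMap.range _).mkQ (∑ i, Fr.map R.ρV
        (res L.V (sg DD i)) (x i)), ?_⟩
      funext j
      have h1 : ∀ i, Fr.map R.ρV (res L.V (pr DD j))
          (Fr.map R.ρV (res L.V (sg DD i)) (x i)) =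
          if i = j then x i else 0 := by
        intro i
        refine Finsupp.ext fun w => ?_
        show (Pi.single i ((Fr.co R.ρV (x i)) w) : ι → DD) j = _
        by_cases h : i = j
        · subst h; simp; rfl
        · rw [if_neg h]
          exact Pi.single_eq_of_ne (Ne.symm h) _
      show (LinearMap.range (delta R (alV L) (beP L m))).mkQ
        (Fr.map R.ρV (res L.V (pr DD j)) _) = z j
      rw [map_sum]
      simp only [h1]
      rw [Finset.sum_ite_eq' Finset.univ j, if_pos (Finset.mem_univ j), hx]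
  have e1 : (ι → Psi1 R (alV L) (beP L m)) ≃ₗ[T] (Fin (Fintype.card ι * (m + 1)) → T) :=
    ((LinearEquiv.piCongrRight fun _ : ι => (psiPEquiv R m).symm).trans
      (LinearEquiv.curry T T ι (Fin (m + 1))).symm).trans
      (LinearEquiv.funCongrLeft T T ((Fintype.equivFin ι).prodCongr (Equiv.refl _) |>.trans
        finProdFinEquiv).symm)
  exact (FFR.of_free _).of_equiv ((LinearEquiv.ofBijective f hf).trans e1).symm

end OOpow

section Step

variable {A B C : Type u} [AddCommGroup A] [Module L.V A] [AddCommGroup B] [Module L.O B]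
  [AddCommGroup C] [Module DD C]

variable {ι : Type} [Fintype ι]

/-- the kernel lattice -/
def kO (m : ℕ) (al : A →ₛₗ[L.V.subtype] C) (be : B →ₛₗ[L.O.subtype] C) (a : ι → A) (b : ι → B)
    (hab : ∀ i, be (b i) = L.p ^ m • al (a i)) :
    LinearMap.ker (lc L.O b) →ₛₗ[L.O.subtype] LinearMap.ker (lc DD (fun i => al (a i))) where
  toFun o := ⟨bP L m ι (o : ι → L.O), by
    rw [LinearMap.mem_ker, lc_apply]
    have h1 := congrArg be (LinearMap.mem_ker.mp o.2)
    rw [lc_apply, map_sum, map_zero] at h1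
    rw [← h1]
    refine Finset.sum_congr rfl fun i _ => ?_
    rw [map_smulₛₗ, hab, bP_apply, smul_smul]
    congr 1
    exact L.ppow_comm m _⟩
  map_add' v w := by
    apply Subtype.ext
    exact map_add (bP L m ι) _ _
  map_smul' r v := by
    apply Subtype.ext
    exact (bP L m ι).map_smulₛₗ r _

@[simp] theorem kO_coe (m : ℕ) (al : A →ₛₗ[L.V.subtype] C) (be : B →ₛₗ[L.O.subtype] C)
    (a : ι → A) (b : ι → B) (hab : ∀ i, be (b i) = L.p ^ m • al (a i))
    (o : LinearMap.ker (lc L.O b)) :
    ((kO m al be a b hab o : _) : ι → DD) = bP L m ι (o : ι → L.O) := rfl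

theorem lc_bP (m : ℕ) (al : A →ₛₗ[L.V.subtype] C) (be : B →ₛₗ[L.O.subtype] C) (a : ι → A)
    (b : ι → B) (hab : ∀ i, be (b i) = L.p ^ m • al (a i)) (o : ι → L.O) :
    lc DD (fun i => al (a i)) (bP L m ι o) = be (lc L.O b o) := by
  rw [lc_apply, lc_apply, map_sum]
  refine Finset.sum_congr rfl fun i _ => ?_
  rw [map_smulₛₗ, hab, bP_apply, smul_smul]
  congr 1
  exact L.ppow_comm m _

theorem bP_injective (m : ℕ) : Function.Injective (bP L m ι) := by
  intro x y h
  funext i
  apply Subtype.ext
  have h1 : L.p ^ m * (x i : DD) = L.p ^ m * (y i : DD) := congrFun h i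
  have h2 := congrArg (fun z => L.x ^ m * z) h1
  simp only [← mul_assoc, L.xp_pow, one_mul] at h2
  exact h2

theorem exists_bP (m : ℕ) (c : ι → DD) : ∃ (k : ℕ), ∀ j, k ≤ j → ∃ o : ι → L.O,
    bP L m ι o = L.p ^ (j + m) • c := by
  classical
  choose k hk using fun i => L.exh (c i)
  refine ⟨Finset.univ.sup k, fun j hj => ?_⟩
  have h1 : ∀ i, L.p ^ j * c i ∈ L.O := by
    intro i
    have h2 : k i ≤ j := (Finset.le_sup (Finset.mem_univ i)).trans hj
    obtain ⟨l, rfl⟩ := Nat.exists_eq_add_of_le h2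
    rw [add_comm, pow_add, mul_assoc]
    exact L.O.mul_mem (L.O.pow_mem L.pO l) (hk i)
  refine ⟨fun i => ⟨_, h1 i⟩, ?_⟩
  funext i
  rw [bP_apply, Pi.smul_apply, smul_eq_mul, ← mul_assoc, ← pow_add, add_comm m j]

/-- one step of the induction -/
theorem step (hT : ∀ (B : Type u) [AddCommGroup B] [Module L.O B], Module.Finite L.O B →
      (∃ s : ℕ, ∀ b : B, pO L ^ s • b = 0) → FFR T (Fr R.ρO B))
    (m : ℕ) (al : A →ₛₗ[L.V.subtype] C) (be : B →ₛₗ[L.O.subtype] C)
    (a : ι → A) (b : ι → B) (hab : ∀ i, be (b i) = L.p ^ m • al (a i))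
    (ha : Function.Surjective (lc L.V a)) (hc : Function.Surjective (lc DD fun i => al (a i)))
    (hB : Module.Finite L.O B) (hbe : Function.Injective be)
    (h0 : Function.Injective (delta R al be))
    (hK : FFR T (Psi1 R (kmap al a) (kO m al be a b hab))) : FFR T (Psi1 R al be) := by
  classical
  -- the image triple
  let N : Submodule L.O B := LinearMap.range (lc L.O b)
  let be' : N →ₛₗ[L.O.subtype] C := be.comp N.subtype
  -- `Z' → Z → τ`
  have t2 : TS (al' := al) (be' := be') (al := al) (be := be)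
      (al'' := (0 : PUnit.{u+1} →ₛₗ[L.V.subtype] PUnit.{u+1}))
      (be'' := (0 : (B ⧸ N) →ₛₗ[L.O.subtype] PUnit.{u+1}))
      (fA := LinearMap.id) (fB := N.subtype) (fC := LinearMap.id) (gA := 0) (gB := N.mkQ)
      (gC := 0) := by
    refine ⟨Function.injective_id, N.injective_subtype, Function.injective_id,
      fun _ => ⟨0, Subsingleton.elim _ _⟩, N.mkQ_surjective, fun _ => ⟨0, Subsingleton.elim _ _⟩,
      ?_, LinearMap.exact_subtype_mkQ N, ?_, fun _ => rfl, fun _ => rfl, fun _ => rfl,
      fun _ => rfl⟩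
    · intro y; exact ⟨fun _ => ⟨y, rfl⟩, fun _ => rfl⟩
    · intro y; exact ⟨fun _ => ⟨y, rfl⟩, fun _ => rfl⟩
  -- `K → F → Z'`
  have t1 : TS (al' := kmap al a) (be' := kO m al be a b hab) (al := cσ L.V.subtype ι)
      (be := bP L m ι) (al'' := al) (be'' := be')
      (fA := (LinearMap.ker (lc L.V a)).subtype) (fB := (LinearMap.ker (lc L.O b)).subtype)
      (fC := (LinearMap.ker (lc DD fun i => al (a i))).subtype)
      (gA := lc L.V a) (gB := (lc L.O b).rangeRestrict) (gC := lc DD fun i => al (a i)) := by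
    refine ⟨Submodule.injective_subtype _, Submodule.injective_subtype _,
      Submodule.injective_subtype _, ha, LinearMap.surjective_rangeRestrict _, hc,
      LinearMap.exact_subtype_ker_map _, ?_, LinearMap.exact_subtype_ker_map _, fun _ => rfl,
      fun _ => rfl, fun v => (lc_cσ al a v).symm, fun o => (lc_bP m al be a b hab o).symm⟩
    intro y
    constructor
    · intro h
      exact ⟨⟨y, congrArg Subtype.val h⟩, rfl⟩
    · rintro ⟨z, rfl⟩
      exact Subtype.ext z.2
  have s1 := t1.ses R
  have s2 := t2.ses R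
  have hZ' : Function.Injective (delta R al be') := s2.injective_of h0
  -- `0 → Psi¹ K → Psi¹ F → Psi¹ Z' → 0`
  have f1 : FFR T (Psi1 R al be') :=
    FFR.right (s1.cokerMap_injective hZ') s1.cokerMap'_surjective s1.exact_coker hK
      (ffr_psi1_F R m)
  -- `0 → Psi⁰ τ → Psi¹ Z' → Psi¹ Z → 0`
  have hfin : Module.Finite L.O (B ⧸ N) := inferInstance
  have htors : ∃ s : ℕ, ∀ y : B ⧸ N, pO L ^ s • y = 0 := by
    obtain ⟨r, y, hy⟩ := Module.Finite.exists_fin (R := L.O) (M := B)
    choose c hc' using fun j => hc (be (y j))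
    choose k hk using fun j => exists_bP (L := L) m (c j)
    refine ⟨Finset.univ.sup k + m, ?_⟩
    have h1 : ∀ j, pO L ^ (Finset.univ.sup k + m) • y j ∈ N := by
      intro j
      obtain ⟨o, ho⟩ := hk j (Finset.univ.sup k) (Finset.le_sup (Finset.mem_univ j))
      refine ⟨o, ?_⟩
      apply hbe
      rw [← lc_bP m al be a b hab, ho, map_smul, hc', be_pO_pow]
    intro z
    obtain ⟨z, rfl⟩ := N.mkQ_surjective z
    have h2 : z ∈ Submodule.span L.O (Set.range y) := by rw [hy]; trivial
    rw [← map_smul, Submodule.mkQ_apply, Submodule.Quotient.mk_eq_zero]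
    induction h2 using Submodule.span_induction with
    | mem x hx =>
      obtain ⟨j, rfl⟩ := hx
      exact h1 j
    | zero => rw [smul_zero]; exact N.zero_mem
    | add u v _ _ hu hv => rw [smul_add]; exact N.add_mem hu hv
    | smul o u _ hu =>
      have h3 : pO L ^ (Finset.univ.sup k + m) • o • u =
          o • pO L ^ (Finset.univ.sup k + m) • u := by
        rw [smul_smul, smul_smul]
        congr 1
        apply Subtype.ext
        have : ((pO L ^ (Finset.univ.sup k + m) : L.O) : DD) = L.p ^ (Finset.univ.sup k + m) := by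
          rw [Subring.coe_pow]; rfl
        rw [Subring.coe_mul, Subring.coe_mul, this]
        exact L.ppow_comm _ _
      rw [h3]
      exact N.smul_mem o hu
  have f2 : FFR T (Psi0 R (0 : PUnit.{u+1} →ₛₗ[L.V.subtype] PUnit.{u+1})
      (0 : (B ⧸ N) →ₛₗ[L.O.subtype] PUnit.{u+1})) :=
    (hT (B ⧸ N) hfin htors).of_equiv (psi0Tors R _ _).symm
  have hsub : Subsingleton (Psi1 R (0 : PUnit.{u+1} →ₛₗ[L.V.subtype] PUnit.{u+1})
      (0 : (B ⧸ N) →ₛₗ[L.O.subtype] PUnit.{u+1})) := psi1_subsingleton R _ _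
  refine FFR.right (f := s2.δ) (g := s2.cokerMap) (s2.δ_injective h0) ?_ s2.exact_δ_right f2 f1
  intro z
  exact (s2.exact_coker z).1 (Subsingleton.elim _ _)

/-- **Step 5**, plain triples -/
theorem step5 [IsNoetherianRing L.O] (hT : ∀ (B : Type u) [AddCommGroup B] [Module L.O B], Module.Finite L.O B →
      (∃ s : ℕ, ∀ b : B, pO L ^ s • b = 0) → FFR T (Fr R.ρO B)) :
    ∀ (n : ℕ) {A B C : Type u} [AddCommGroup A] [Module L.V A] [AddCommGroup B] [Module L.O B]
      [AddCommGroup C] [Module DD C] (al : A →ₛₗ[L.V.subtype] C) (be : B →ₛₗ[L.O.subtype] C),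
      RR n al → Module.Finite L.O B → Function.Injective be →
      (∀ c : C, ∃ (m : ℕ) (b : B), be b = L.p ^ m • c) → Function.Injective (delta R al be) →
      FFR T (Psi1 R al be) := by
  classical
  -- common part: choice of `m`
  have key : ∀ {A B C : Type u} [AddCommGroup A] [Module L.V A] [AddCommGroup B] [Module L.O B]
      [AddCommGroup C] [Module DD C] (al : A →ₛₗ[L.V.subtype] C) (be : B →ₛₗ[L.O.subtype] C)
      {ι : Type} [Fintype ι] (a : ι → A), (∀ c : C, ∃ (m : ℕ) (b : B), be b = L.p ^ m • c) →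
      ∃ (m : ℕ) (b : ι → B), ∀ i, be (b i) = L.p ^ m • al (a i) := by
    intro A B C _ _ _ _ _ _ al be ι _ a h
    choose k b hb using fun i => h (al (a i))
    refine ⟨Finset.univ.sup k, fun i => pO L ^ (Finset.univ.sup k - k i) • b i, fun i => ?_⟩
    rw [be_pO_pow, hb, smul_smul, ← pow_add,
      Nat.sub_add_cancel (Finset.le_sup (Finset.mem_univ i))]
  intro n
  induction n with
  | zero =>
    intro A B C _ _ _ _ _ _ al be hR hB hbe hC h0
    obtain ⟨ι, _, a, a1, a2⟩ := hR
    obtain ⟨m, b, hab⟩ := key al be a hC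
    refine step R hT m al be a b hab a1.2 a2.2 hB hbe h0 ?_
    have : Subsingleton (LinearMap.ker (lc DD fun i => al (a i))) := by
      rw [LinearMap.ker_eq_bot.mpr a2.1]; infer_instance
    have := psi1_subsingleton R (kmap al a) (kO m al be a b hab)
    exact FFR.of_subsingleton
  | succ n ih =>
    intro A B C _ _ _ _ _ _ al be hR hB hbe hC h0
    obtain ⟨ι, _, a, a1, a2, a3⟩ := hR
    obtain ⟨m, b, hab⟩ := key al be a hC
    refine step R hT m al be a b hab a1 a2 hB hbe h0 ?_
    have hinj : Function.Injective (kO m al be a b hab) := by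
      intro x y hxy
      exact Subtype.ext (bP_injective m (congrArg Subtype.val hxy))
    refine ih (kmap al a) (kO m al be a b hab) a3 inferInstance hinj ?_ ?_
    · rintro ⟨c, hc⟩
      obtain ⟨k, hk⟩ := exists_bP (L := L) m c
      obtain ⟨o, ho⟩ := hk k le_rfl
      have ho' : lc L.O b o = 0 := by
        apply hbe
        rw [← lc_bP m al be a b hab, ho, map_smul, LinearMap.mem_ker.mp hc, smul_zero, map_zero]
      refine ⟨k + m, ⟨o, ho'⟩, Subtype.ext ?_⟩
      exact ho
    · -- the kernel triple sits in `F`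
      intro y z hyz
      have h1 := delta_map R (al := kmap al a) (be := kO m al be a b hab)
        (al' := cσ L.V.subtype ι) (be' := bP L m ι)
        (LinearMap.ker (lc L.V a)).subtype (LinearMap.ker (lc L.O b)).subtype
        (LinearMap.ker (lc DD fun i => al (a i))).subtype (fun _ => rfl) (fun _ => rfl)
      have h2 := deltaF_injective R m ((h1 y).trans ((congrArg _ hyz).trans (h1 z).symm))
      refine Prod.ext ?_ ?_
      · exact Fr.map_injective R.ρV _ (Submodule.injective_subtype _) (congrArg Prod.fst h2)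
      · exact Fr.map_injective R.ρO _ (Submodule.injective_subtype _) (congrArg Prod.snd h2)

end Step

end Crest.Agent.R181.VC
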