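import Crest.Agent.R181.VT495f
import Crest.Agent.R181.VC889c

/-!
R181, V-chain, V2 (helper836): resolutions of `Lam`-modules by powers of `P0` give resolutions of
the pairs `cA → cC`; Step 5 for `Lam`-modules.
-/

set_option autoImplicit false
set_option linter.unusedSectionVars false

namespace Crest.Agent.R181.S5

open V868 VA VB VC VT LK

universe u

variable {DD : Type u} [Ring DD] {L : Line DD}

section comp

/-- the `V`-component of `P0` -/
def aP : cA L (P0 L) ≃ₗ[L.V] L.V := (cA_tri : _ ≃ₗ[L.V] Vs L).trans vsE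

/-- the `DD`-component of `P0` -/
def cP : cC L (P0 L) ≃ₗ[DD] DD :=
  (cC_tri : _ ≃ₗ[DD] (⊤ : Submodule DD DD)).trans Submodule.topEquiv

theorem cP_al (y : cA L (P0 L)) : cP (al L y) = (aP y : DD) := coe_cC_tri_al y

theorem al_aP (v : L.V) : al L (aP.symm v) = cP.symm (v : DD) := by
  apply cP.injective
  rw [cP_al, LinearEquiv.apply_symm_apply, LinearEquiv.apply_symm_apply]

/-- the `V`-component of `P0^k` -/
def eA (k : ℕ) : (Fin k → L.V) ≃ₗ[L.V] cA L (Fin k → P0 L) :=
  (LinearEquiv.piCongrRight fun _ => aP.symm).trans (Cpi (iA L) (Fin k)).symm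

/-- the `DD`-component of `P0^k` -/
def eC (k : ℕ) : (Fin k → DD) ≃ₗ[DD] cC L (Fin k → P0 L) :=
  (LinearEquiv.piCongrRight fun _ => cP.symm).trans (Cpi (iC L) (Fin k)).symm

theorem al_eA {k : ℕ} (v : Fin k → L.V) : al L (eA k v) = eC k (cσ L.V.subtype (Fin k) v) := by
  apply Subtype.ext
  funext j
  exact congrArg Subtype.val (al_aP (v j))

end comp

section res

variable {W : Type u} [AddCommGroup W] [Module (Lam L) W]

/-- the images of the generators -/
def gen {k : ℕ} (f : (Fin k → P0 L) →ₗ[Lam L] W) (i : Fin k) : cA L W :=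
  Cmap (iA L) f (eA k (Pi.single i 1))

theorem lc_gen {k : ℕ} (f : (Fin k → P0 L) →ₗ[Lam L] W) (v : Fin k → L.V) :
    lc L.V (gen f) v = Cmap (iA L) f (eA k v) := by
  have h : lc L.V (gen f) = (Cmap (iA L) f).comp (eA (L := L) k).toLinearMap := by
    apply LinearMap.pi_ext'
    intro i
    apply LinearMap.ext_ring
    simp only [LinearMap.comp_apply, LinearMap.single_apply]
    rw [lc, Fintype.linearCombination_apply_single, one_smul]
    rfl
  exact LinearMap.congr_fun h v

theorem al_gen {k : ℕ} (f : (Fin k → P0 L) →ₗ[Lam L] W) (i : Fin k) :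
    al L (gen f i) = Cmap (iC L) f (eC k (Pi.single i 1)) := by
  rw [gen, al_map, al_eA]
  congr 2
  funext j
  rw [cσ_apply]
  by_cases h : j = i
  · subst h; simp
  · simp [Pi.single_eq_of_ne h]

theorem lc_al_gen {k : ℕ} (f : (Fin k → P0 L) →ₗ[Lam L] W) (v : Fin k → DD) :
    lc DD (fun i => al L (gen f i)) v = Cmap (iC L) f (eC k v) := by
  have h : lc DD (fun i => al L (gen f i)) = (Cmap (iC L) f).comp (eC (L := L) k).toLinearMap := by
    apply LinearMap.pi_ext'
    intro i
    apply LinearMap.ext_ring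
    simp only [LinearMap.comp_apply, LinearMap.single_apply]
    rw [lc, Fintype.linearCombination_apply_single, one_smul, al_gen]
    rfl
  exact LinearMap.congr_fun h v

/-- the component of a kernel -/
noncomputable def kerCmp {R S : Type u} [Ring R] [Ring S] (ι : S →ₙ+* R) {Y Z : Type u}
    [AddCommGroup Y] [Module R Y] [AddCommGroup Z] [Module R Z] (f : Y →ₗ[R] Z) {M N : Type u}
    [AddCommGroup M] [Module S M] [AddCommGroup N] [Module S N] (e : M ≃ₗ[S] Cmp ι Y)
    (g : M →ₗ[S] N) (j : N →ₗ[S] Cmp ι Z) (hj : Function.Injective j)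
    (h : ∀ m, Cmap ι f (e m) = j (g m)) :
    Cmp ι (LinearMap.ker f) ≃ₗ[S] LinearMap.ker g :=
  LinearEquiv.ofBijective
    (((e.symm.toLinearMap).comp (Cmap ι (LinearMap.ker f).subtype)).codRestrict (LinearMap.ker g)
      (fun y => by
        rw [LinearMap.mem_ker]
        apply hj
        rw [map_zero, ← h, LinearMap.comp_apply, LinearEquiv.coe_coe,
          LinearEquiv.apply_symm_apply]
        exact Subtype.ext (y : LinearMap.ker f).2))
    ⟨by
      intro x y hxy
      have h1 := e.symm.injective (congrArg Subtype.val hxy)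
      exact Cmap_injective ι (Submodule.subtype_injective _) h1, by
      rintro ⟨m, hm⟩
      have h1 : f ((e m : Cmp ι Y) : Y) = 0 := by
        have h2 : Cmap ι f (e m) = 0 := by rw [h, LinearMap.mem_ker.1 hm, map_zero]
        exact congrArg Subtype.val h2
      refine ⟨⟨⟨((e m : Cmp ι Y) : Y), h1⟩, ?_⟩, ?_⟩
      · rw [mem_Cmp]
        exact Subtype.ext (e m).2
      · apply Subtype.ext
        exact e.symm_apply_apply m⟩

theorem coe_kerCmp {R S : Type u} [Ring R] [Ring S] (ι : S →ₙ+* R) {Y Z : Type u}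
    [AddCommGroup Y] [Module R Y] [AddCommGroup Z] [Module R Z] (f : Y →ₗ[R] Z) {M N : Type u}
    [AddCommGroup M] [Module S M] [AddCommGroup N] [Module S N] (e : M ≃ₗ[S] Cmp ι Y)
    (g : M →ₗ[S] N) (j : N →ₗ[S] Cmp ι Z) (hj : Function.Injective j)
    (h : ∀ m, Cmap ι f (e m) = j (g m)) (y : Cmp ι (LinearMap.ker f)) :
    e ((kerCmp ι f e g j hj h y : LinearMap.ker g) : M) = Cmap ι (LinearMap.ker f).subtype y :=
  e.apply_symm_apply _

theorem rr_of_res : ∀ {n : ℕ} {W : Type u} [AddCommGroup W] [Module (Lam L) W],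
    PR.Res (Lam L) (P0 L) n W → RR n (al L (Y := W))
  | 0, W, _, _, ⟨k, ⟨e⟩⟩ => by
    refine ⟨Fin k, inferInstance, gen e.symm.toLinearMap, ?_, ?_⟩
    · have h : ⇑(lc L.V (gen e.symm.toLinearMap)) = Cequiv (iA L) e.symm ∘ eA k := by
        funext v
        exact lc_gen _ v
      rw [h]
      exact (LinearEquiv.bijective _).comp (LinearEquiv.bijective _)
    · have h : ⇑(lc DD (fun i => al L (gen e.symm.toLinearMap i))) =
          Cequiv (iC L) e.symm ∘ eC k := by
        funext v
        exact lc_al_gen _ v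
      rw [h]
      exact (LinearEquiv.bijective _).comp (LinearEquiv.bijective _)
  | n + 1, W, _, _, ⟨k, f, hf, h⟩ => by
    refine ⟨Fin k, inferInstance, gen f, ?_, ?_, ?_⟩
    · have h : ⇑(lc L.V (gen f)) = Cmap (iA L) f ∘ eA k := by
        funext v
        exact lc_gen _ v
      rw [h]
      exact (Cmap_surjective _ hf).comp (LinearEquiv.surjective _)
    · have h : ⇑(lc DD (fun i => al L (gen f i))) = Cmap (iC L) f ∘ eC k := by
        funext v
        exact lc_al_gen _ v
      rw [h]
      exact (Cmap_surjective _ hf).comp (LinearEquiv.surjective _)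
    · refine RR.of_equiv
        (kerCmp (iA L) f (eA k) (lc L.V (gen f)) LinearMap.id Function.injective_id
          (fun m => (lc_gen f m).symm))
        (kerCmp (iC L) f (eC k) (lc DD (fun i => al L (gen f i))) LinearMap.id
          Function.injective_id (fun m => (lc_al_gen f m).symm)) ?_ (rr_of_res h)
      intro y
      have h1 := coe_kerCmp (iC L) f (eC k) (lc DD (fun i => al L (gen f i))) LinearMap.id
          Function.injective_id (fun m => (lc_al_gen f m).symm) (al L y)
      have h2 := coe_kerCmp (iA L) f (eA k) (lc L.V (gen f)) LinearMap.id Function.injective_id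
          (fun m => (lc_gen f m).symm) y
      have h3 := al_eA ((kerCmp (iA L) f (eA k) (lc L.V (gen f)) LinearMap.id
          Function.injective_id (fun m => (lc_gen f m).symm) y : LinearMap.ker (lc L.V (gen f))) :
            Fin k → L.V)
      have h4 : al L (Cmap (iA L) (LinearMap.ker f).subtype y) =
          Cmap (iC L) (LinearMap.ker f).subtype (al L y) := al_map L _ y
      apply Subtype.ext
      apply (eC (L := L) k).injective
      exact h1.trans (h4.symm.trans ((congrArg (al L) h2).symm.trans h3))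

/-- the `V`-components of `AC` -/
noncomputable def acA (Z : Type u) [AddCommGroup Z] [Module (Lam L) Z] :
    cA L (AC L Z) ≃ₗ[L.V] cA L Z :=
  LinearEquiv.ofBijective (Cmap (iA L) (AC L Z).subtype)
    ⟨Cmap_injective _ (Submodule.subtype_injective _), fun y =>
      ⟨⟨⟨(y : Z), (mem_AC L).2 (iB_smul_A L 1 y)⟩, (mem_Cmp _).2 (Subtype.ext y.2)⟩, rfl⟩⟩

/-- the `DD`-components of `AC` -/
noncomputable def acC (Z : Type u) [AddCommGroup Z] [Module (Lam L) Z] :
    cC L (AC L Z) ≃ₗ[DD] cC L Z :=
  LinearEquiv.ofBijective (Cmap (iC L) (AC L Z).subtype)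
    ⟨Cmap_injective _ (Submodule.subtype_injective _), fun y =>
      ⟨⟨⟨(y : Z), (mem_AC L).2 (iB_smul_C L 1 y)⟩, (mem_Cmp _).2 (Subtype.ext y.2)⟩, rfl⟩⟩

theorem rr_of_ffr {Z : Type u} [AddCommGroup Z] [Module (Lam L) Z]
    (h : PR.FFR (Lam L) (P0 L) (AC L Z)) : ∃ n, RR n (al L (Y := Z)) := by
  obtain ⟨n, hn⟩ := h
  exact ⟨n, (rr_of_res hn).of_equiv (acA Z) (acC Z) (fun a => (al_map L _ a).symm)⟩

end res

end Crest.Agent.R181.S5
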