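import Crest.Agent.R181.VA980f

/-! R181, V-chain, V2a: the final theorem (a good direct summand inside a power of `GG`). -/

set_option autoImplicit false
set_option linter.unusedSectionVars false

open MulOpposite

namespace Crest.Agent.R181.VA

open LK V868

universe u

section

variable {DD : Type u} [Ring DD] {L : Line DD}

/-- powers of a submodule -/
def piEquiv {R M : Type*} [Ring R] [AddCommGroup M] [Module R M] (N : Submodule R M) (r : ℕ) :
    ↥(Submodule.pi Set.univ (fun _ : Fin r => N)) ≃ₗ[R] (Fin r → N) where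
  toFun v j := ⟨(v : Fin r → M) j, (Submodule.mem_pi.1 v.2) j trivial⟩
  invFun w := ⟨fun j => (w j : M), Submodule.mem_pi.2 fun j _ => (w j).2⟩
  map_add' _ _ := rfl
  map_smul' _ _ := rfl
  left_inv _ := rfl
  right_inv _ := rfl

/-- `OO(-m)` is generated by `(1, 0, 0)` and `(0, p^m, 0)` -/
instance finite_OO (m : ℕ) : Module.Finite (Lam L) (OO L m) := by
  let a : OO L m := ⟨T3 L (1 : DD) 0 0, (mem_OO L).2 ⟨L.V.one_mem, 0, L.O.zero_mem, by
    rw [mul_zero]; rfl⟩⟩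
  let b : OO L m := ⟨T3 L (0 : DD) (L.p ^ m) 0, (mem_OO L).2 ⟨L.V.zero_mem, 1, L.O.one_mem, by
    rw [mul_one]; rfl⟩⟩
  refine Module.Finite.of_surjective
    ((LinearMap.toSpanSingleton (Lam L) (OO L m) a).coprod
      (LinearMap.toSpanSingleton (Lam L) (OO L m) b)) (fun y => ?_)
  obtain ⟨h1, o, ho, h2⟩ := (mem_OO L).1 y.2
  refine ⟨(iA L ⟨_, h1⟩ + iC L (y : Tr L DD).2.2 * tA L, iB L ⟨o, ho⟩), Subtype.ext ?_⟩
  rw [LinearMap.coprod_apply, LinearMap.toSpanSingleton_apply, LinearMap.toSpanSingleton_apply]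
  show (_ + _) • T3 L (1 : DD) 0 0 + iB L ⟨o, ho⟩ • T3 L (0 : DD) (L.p ^ m) 0 = (y : Tr L DD)
  rw [add_smul, mul_smul, Tr_iA, Tr_tA, Tr_iC, Tr_iB]
  refine Tr_ext L ?_ ?_ ?_
  · show (y : Tr L DD).1 • (1 : DD) + 0 + 0 = _
    rw [add_zero, add_zero, smul_eq_mul, mul_one]
  · show (0 : DD) + 0 + o • L.p ^ m = _
    rw [add_zero, zero_add, h2, smul_eq_mul]
    exact (Commute.pow_left (show Commute L.p o from L.pc o) m).eq.symm
  · show (0 : DD) + (y : Tr L DD).2.2 • (1 : DD) + 0 = _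
    rw [add_zero, zero_add, smul_eq_mul, mul_one]

/-- `OO(1)` is generated by `(1, 0, 0)` and `(0, x, 0)` -/
instance finite_TT : Module.Finite (Lam L) (TT L) := by
  let a : TT L := ⟨T3 L (1 : DD) 0 0, (mem_TT L).2 ⟨L.V.one_mem, by
    show L.p * 0 ∈ L.O
    rw [mul_zero]; exact L.O.zero_mem⟩⟩
  let b : TT L := ⟨T3 L (0 : DD) L.x 0, (mem_TT L).2 ⟨L.V.zero_mem, by
    show L.p * L.x ∈ L.O
    rw [L.px]; exact L.O.one_mem⟩⟩
  refine Module.Finite.of_surjective
    ((LinearMap.toSpanSingleton (Lam L) (TT L) a).coprod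
      (LinearMap.toSpanSingleton (Lam L) (TT L) b)) (fun y => ?_)
  obtain ⟨h1, h2⟩ := (mem_TT L).1 y.2
  refine ⟨(iA L ⟨_, h1⟩ + iC L (y : Tr L DD).2.2 * tA L, iB L ⟨_, h2⟩), Subtype.ext ?_⟩
  rw [LinearMap.coprod_apply, LinearMap.toSpanSingleton_apply, LinearMap.toSpanSingleton_apply]
  show (_ + _) • T3 L (1 : DD) 0 0 + iB L ⟨_, h2⟩ • T3 L (0 : DD) L.x 0 = (y : Tr L DD)
  rw [add_smul, mul_smul, Tr_iA, Tr_tA, Tr_iC, Tr_iB]
  refine Tr_ext L ?_ ?_ ?_
  · show (y : Tr L DD).1 • (1 : DD) + 0 + 0 = _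
    rw [add_zero, add_zero, smul_eq_mul, mul_one]
  · show (0 : DD) + 0 + (L.p * (y : Tr L DD).2.1) • L.x = _
    rw [add_zero, zero_add, smul_eq_mul, mul_assoc, ← L.xc, ← mul_assoc, L.px, one_mul]
  · show (0 : DD) + (y : Tr L DD).2.2 • (1 : DD) + 0 = _
    rw [add_zero, zero_add, smul_eq_mul, mul_one]

/-- **V2a**: an idempotent endomorphism of a power of `GG` has a stable good lattice -/
theorem exists_good [IsNoetherianRing (EE L)] (hF : Flat (Lam L) (EE L) (TT L))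
    (hH : Full (Lam L) (EE L) (TT L))
    (hE : ∀ (M : Type u) [AddCommGroup M] [Module (EE L) M], Module.Finite (EE L) M →
      FR.FFR (EE L) M)
    (hV : ∀ (Q : Type u) [AddCommGroup Q] [Module L.V Q], Module.Finite L.V Q →
      Module.Projective L.V Q → FR.StFree L.V Q)
    {G : Type u} [AddCommGroup G] [Module (Lam L) G]
    (hG : Function.Injective (be L : cB L G → cC L G))
    {ι : Type*} (Ls : ι → Submodule (Lam L) G) (O : Submodule (Lam L) G)
    (eO : OO L 0 ≃ₗ[Lam L] O) (hLfg : ∀ i, (Ls i).FG) (hOL : ∀ i, O ≤ Ls i)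
    (hne : Nonempty ι) (hdir : ∀ i j, ∃ k, Ls i ≤ Ls k ∧ Ls j ≤ Ls k)
    (hex : ∀ x : G, ∃ i, x ∈ Ls i)
    (hO : ∀ i, (thClass hF hH).filt.mem (SQ (Ls i) O))
    (hLL : ∀ i j, Ls i ≤ Ls j → (thClass hF hH).filt.mem (SQ (Ls j) (Ls i)))
    (r : ℕ) (e : (Fin r → G) →ₗ[Lam L] (Fin r → G)) (he : ∀ y, e (e y) = e y) :
    ∃ M : Submodule (Lam L) (Fin r → G),
      Submodule.pi Set.univ (fun _ : Fin r => O) ≤ M ∧ (∀ y ∈ M, e y ∈ M) ∧
      (thClass hF hH).filt.mem (SQ M (Submodule.pi Set.univ (fun _ : Fin r => O))) ∧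
      Good L M ∧ Good L (M.map e) := by
  have hOfg : O.FG := by
    haveI : Module.Finite (Lam L) O := Module.Finite.equiv eO
    exact Module.Finite.iff_fg.1 inferInstance
  obtain ⟨i, M, h1, -, h3, h4⟩ := exists_lattice (extClosed_filt (thClass hF hH)) Ls O hOfg hLfg
    hOL hne hdir hex hO hLL r e he
  have h5 : PreGood L ↥(Submodule.submoduleOf (Submodule.pi Set.univ (fun _ : Fin r => O)) M) :=
    PreGood.iso ((LinearEquiv.piCongrRight fun _ => eO).trans
      ((piEquiv O r).symm.trans (Submodule.submoduleOfEquivOfLe h1).symm))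
      ((preGood_OO 0).pi r)
  have h6 : PreGood L M := PreGood.ext (SES.subtype_mkQ _) h5 (preGood_of_filt hF hH hE h4)
  have h7 : Good L M := { h6 with inj := inj_of_inj (Submodule.subtype_injective M) (inj_pi hG) }
  exact ⟨M, h1, h3, h4, h7, good_summand hV h7 e he h3⟩

end

end Crest.Agent.R181.VA
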