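import Crest.Agent.R181.VB789a
import Crest.Agent.R181.V868a

/-!
R181, V-chain, block V2b (helper789): right bases, the two representations of `T`, plain triples
and the functors `Psi0`, `Psi1`.
-/

set_option autoImplicit false

namespace Crest.Agent.R181.VB

universe u

section up

variable {W : Type*} {D : Type*} [Ring D] (S : Subring D)

/-- columns over a subring as columns over the ring -/
noncomputable def up (f : W →₀ S) : W →₀ D := f.mapRange Subtype.val rfl

@[simp] theorem up_apply (f : W →₀ S) (w : W) : up S f w = (f w : D) := rfl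

theorem up_injective : Function.Injective (up (W := W) S) := by
  intro f g h
  ext w
  exact DFunLike.congr_fun h w

theorem up_add (f g : W →₀ S) : up S (f + g) = up S f + up S g := by ext w; simp

theorem up_zero : up S (0 : W →₀ S) = 0 := by ext w; simp

theorem up_single (w : W) (s : S) : up S (Finsupp.single w s) = Finsupp.single w (s : D) := by
  simp [up]

theorem exists_up (f : W →₀ D) (h : ∀ w, f w ∈ S) : ∃ g, up S g = f := by
  classical
  refine ⟨Finsupp.onFinset f.support (fun w => ⟨f w, h w⟩) (fun w hw => ?_), ?_⟩
  · rw [Finsupp.mem_support_iff]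
    intro h0
    exact hw (Subtype.ext h0)
  · ext w; rfl

/-- for a `D`-module, the action of a column matrix over `S` -/
theorem act_up {X : Type*} [AddCommGroup X] [Module D X] (m : W → (W →₀ S)) (f : W →₀ X) :
    act m f = act (fun w => up S (m w)) f := by
  induction f using Finsupp.induction_linear with
  | zero => simp
  | add f g hf hg => rw [map_add, map_add, hf, hg]
  | single w x =>
    rw [act_single, act_single]
    ext w'
    simp [Subring.smul_def]

theorem up_act (m : W → (W →₀ S)) (f : W →₀ S) :
    up S (act m f) = act (fun w => up S (m w)) (up S f) := by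
  induction f using Finsupp.induction_linear with
  | zero => simp [up_zero]
  | add f g hf hg => rw [map_add, up_add, up_add, map_add, hf, hg]
  | single w x =>
    rw [act_single, up_single, act_single]
    ext w'
    simp

end up

section evm

variable {W : Type*} {D : Type*} [Ring D] {K : Type*} [Ring K] (Θ : D →+* K)

/-- `∑ c_w Θ(f_w)` -/
noncomputable def evm (c : W → K) : (W →₀ D) →+ K :=
  Finsupp.liftAddHom fun w => (AddMonoidHom.mulLeft (c w)).comp (Θ : D →+ K)

@[simp] theorem evm_single (c : W → K) (w : W) (d : D) :
    evm Θ c (Finsupp.single w d) = c w * Θ d := by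
  simp [evm]

theorem evm_eq_sum (c : W → K) (f : W →₀ D) : evm Θ c f = f.sum fun w d => c w * Θ d := by
  simp [evm, Finsupp.liftAddHom]
  rfl

/-- right multiplication of a column -/
noncomputable def rmul (f : W →₀ D) (d : D) : W →₀ D := f.mapRange (· * d) (zero_mul d)

@[simp] theorem rmul_apply (f : W →₀ D) (d : D) (w : W) : rmul f d w = f w * d := rfl

theorem col_eq_rmul (c : W →₀ D) (d : D) : col c d = rmul c d := by
  ext w; simp

theorem evm_rmul (c : W → K) (f : W →₀ D) (d : D) : evm Θ c (rmul f d) = evm Θ c f * Θ d := by
  induction f using Finsupp.induction_linear with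
  | zero =>
    have : rmul (0 : W →₀ D) d = 0 := by ext w; simp
    rw [this]; simp
  | add f g hf hg =>
    have : rmul (f + g) d = rmul f d + rmul g d := by ext w; simp [add_mul]
    rw [this, map_add, map_add, hf, hg, add_mul]
  | single w x =>
    have : rmul (Finsupp.single w x) d = Finsupp.single w (x * d) := by
      simp [rmul]
    rw [this, evm_single, evm_single, map_mul, mul_assoc]

theorem evm_col (c : W → K) (m : W →₀ D) (d : D) : evm Θ c (col m d) = evm Θ c m * Θ d := by
  rw [col_eq_rmul, evm_rmul]

theorem evm_act (c : W → K) (m : W → (W →₀ D)) (f : W →₀ D) :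
    evm Θ c (act m f) = evm Θ (fun w => evm Θ c (m w)) f := by
  induction f using Finsupp.induction_linear with
  | zero => simp
  | add f g hf hg => rw [map_add, map_add, map_add, hf, hg]
  | single w x => rw [act_single, evm_single, evm_col]

theorem mul_evm (c : W → K) (k : K) (f : W →₀ D) :
    k * evm Θ c f = evm Θ (fun w => k * c w) f := by
  induction f using Finsupp.induction_linear with
  | zero => simp
  | add f g hf hg => rw [map_add, map_add, mul_add, hf, hg]
  | single w x => rw [evm_single, evm_single, mul_assoc]

end evm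

section Laurent

variable {T : Type*} [Ring T]

/-- `z ∈ T[x]` -/
def Aff (z : LaurentSeries T) : Prop := ∀ n : ℤ, 0 < n → z.coeff n = 0

/-- `z ∈ T[[π]]` -/
def Inf (z : LaurentSeries T) : Prop := ∀ n : ℤ, n < 0 → z.coeff n = 0

theorem coeff_C_mul (t : T) (z : LaurentSeries T) (n : ℤ) :
    (HahnSeries.C t * z).coeff n = t * z.coeff n := by
  rw [HahnSeries.C_mul_eq_smul]; simp

theorem Aff.C_mul {z : LaurentSeries T} (h : Aff z) (t : T) : Aff (HahnSeries.C t * z) :=
  fun n hn => by rw [coeff_C_mul, h n hn, mul_zero]

theorem Inf.C_mul {z : LaurentSeries T} (h : Inf z) (t : T) : Inf (HahnSeries.C t * z) :=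
  fun n hn => by rw [coeff_C_mul, h n hn, mul_zero]

theorem Aff.add {y z : LaurentSeries T} (h : Aff y) (h' : Aff z) : Aff (y + z) :=
  fun n hn => by rw [HahnSeries.coeff_add, h n hn, h' n hn, add_zero]

theorem Inf.add {y z : LaurentSeries T} (h : Inf y) (h' : Inf z) : Inf (y + z) :=
  fun n hn => by rw [HahnSeries.coeff_add, h n hn, h' n hn, add_zero]

theorem coeff_mul_sing (z : LaurentSeries T) (k n : ℤ) :
    (z * HahnSeries.single k 1).coeff n = z.coeff (n - k) := by
  have h := HahnSeries.coeff_mul_single_add (r := (1 : T)) (x := z) (a := n - k) (b := k)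
  rw [sub_add_cancel, mul_one] at h
  exact h

theorem coeff_sing_mul (z : LaurentSeries T) (k n : ℤ) :
    (HahnSeries.single k 1 * z).coeff n = z.coeff (n - k) := by
  have h := HahnSeries.coeff_single_mul_add (r := (1 : T)) (x := z) (a := n - k) (b := k)
  rw [sub_add_cancel, one_mul] at h
  exact h

theorem Aff.mul {y z : LaurentSeries T} (h : Aff y) (h' : Aff z) : Aff (y * z) := by
  intro n hn
  rw [HahnSeries.coeff_mul]
  refine Finset.sum_eq_zero fun ij hij => ?_
  rw [Finset.mem_antidiagonal] at hij
  rcases lt_or_ge 0 ij.1 with h1 | h1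
  · rw [h _ h1, zero_mul]
  · rw [h' ij.2 (by omega), mul_zero]

theorem Inf.mul {y z : LaurentSeries T} (h : Inf y) (h' : Inf z) : Inf (y * z) := by
  intro n hn
  rw [HahnSeries.coeff_mul]
  refine Finset.sum_eq_zero fun ij hij => ?_
  rw [Finset.mem_antidiagonal] at hij
  rcases lt_or_ge ij.1 0 with h1 | h1
  · rw [h _ h1, zero_mul]
  · rw [h' ij.2 (by omega), mul_zero]

end Laurent

end Crest.Agent.R181.VB
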