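import Crest.Agent.R181.V868f
import Crest.Agent.R181.VA980g
import Crest.Agent.R181.VB789b

/-!
# R181, V-chain, V2: `exists_good` applied to `G = (G_aff, G_inf, MM)`, and the map `φ` on `G`
-/

set_option autoImplicit false
set_option linter.unusedSectionVars false

open MulOpposite

namespace Crest.Agent.R181.V868

open VA LK

universe u

namespace LB

variable {DD : Type u} [Ring DD] {L : Line DD} {B : LB L} {T : Type u} [Ring T] (U : UnivT L T)

theorem inj_GG : Function.Injective (be L : cB L B.GG → cC L B.GG) := inj_tri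

variable (B) in
/-- `OO(0) ≃ LG ∅` -/
noncomputable def eO : OO L 0 ≃ₗ[Lam L] B.LG ∅ :=
  (LinearEquiv.ofInjective (iOO (B := B)) iOO_injective).trans (LinearEquiv.ofEq _ _ range_iOO)

lemma coe_eO (z : OO L 0) :
    (((B.eO z : B.LG ∅) : B.GG) : Tr L B.MM) = trMap (Finsupp.lsingle none) (z : Tr L DD) := rfl

variable (B) in
/-- `φ` of the third component -/
noncomputable def φGG : B.GG →+ LaurentSeries T where
  toFun y := B.φ U (y : Tr L B.MM).2.2
  map_zero' := map_zero _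
  map_add' _ _ := map_add (B.φ U) _ _

lemma φGG_apply (y : B.GG) : B.φGG U y = B.φ U (y : Tr L B.MM).2.2 := rfl

variable (B) in
/-- `φ` on the `DD`-component of `G` -/
noncomputable def φG : cC L B.GG →+ LaurentSeries T := (B.φGG U).comp (cC L B.GG).subtype

lemma φG_apply (y : cC L B.GG) : B.φG U y = B.φGG U (y : B.GG) := rfl

lemma φG_smul (d : DD) (y : cC L B.GG) : B.φG U (d • y) = U.Θ d * B.φG U y := by
  have h : (((d • y : cC L B.GG) : B.GG) : Tr L B.MM).2.2 =
      d • (((y : cC L B.GG) : B.GG) : Tr L B.MM).2.2 := by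
    show (iC L d • (((y : cC L B.GG) : B.GG) : Tr L B.MM)).2.2 = _
    rw [Tr_iC]
  rw [φG_apply, φGG_apply, h, φ_smul]
  rfl

lemma φG_al (a : cA L B.GG) : VB.Aff (B.φG U (al L a)) := by
  have h : (((al L a : cC L B.GG) : B.GG) : Tr L B.MM).2.2 =
      ((a : B.GG) : Tr L B.MM).1 := by
    show (tA L • ((a : B.GG) : Tr L B.MM)).2.2 = _
    rw [Tr_tA]
  rw [φG_apply, φGG_apply, h]
  exact B.φ_Gaff U (a : B.GG).2.1

lemma φG_be (b : cB L B.GG) : VB.Inf (B.φG U (be L b)) := by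
  have h : (((be L b : cC L B.GG) : B.GG) : Tr L B.MM).2.2 =
      ((b : B.GG) : Tr L B.MM).2.1 := by
    show (tB L • ((b : B.GG) : Tr L B.MM)).2.2 = _
    rw [Tr_tB]
  rw [φG_apply, φGG_apply, h]
  exact B.φ_Ginf U (b : B.GG).2.2.1

/-- `φ (1 , root) = 1` -/
lemma φGG_eO (z : OO L 0) : B.φGG U (B.eO z : B.LG ∅) = U.Θ (z : Tr L DD).2.2 := by
  rw [φGG_apply, coe_eO]
  show B.φ U (Finsupp.single none (z : Tr L DD).2.2) = _
  simp [φ_single]

section
variable (hinj : Function.Injective (B.φ U))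

lemma φGG_RtG (t : T) (y : B.GG) :
    B.φGG U (RtG U hinj t y) = B.φGG U y * HahnSeries.C t := by
  rw [φGG_apply, coe_RtG, trMap_3, φ_Rt, φGG_apply]
  rfl

/-- the action of a matrix -/
theorem φGG_mT {r s : ℕ} (e : Matrix (Fin r) (Fin s) T) (y : Fin r → B.GG) (i : Fin s) :
    B.φGG U (mT U hinj e y i) = ∑ j, B.φGG U (y j) * HahnSeries.C (e j i) := by
  rw [mT_apply, map_sum]
  exact Finset.sum_congr rfl fun j _ => φGG_RtG U hinj _ _

theorem φG_mT {r s : ℕ} (e : Matrix (Fin r) (Fin s) T) (y : cC L (Fin r → B.GG)) (i : Fin s) :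
    B.φG U (Cpi (iC L) (Fin s) (Cmap (iC L) (mT U hinj e) y) i) =
      ∑ j, B.φG U (Cpi (iC L) (Fin r) y j) * HahnSeries.C (e j i) :=
  φGG_mT U hinj e (y : Fin r → B.GG) i

end

/-- `TT` is in the class -/
theorem TT_mem [IsNoetherianRing (EE L)] (hF : Flat (Lam L) (EE L) (TT L))
    (hH : Full (Lam L) (EE L) (TT L)) : (thClass hF hH).filt.mem (TT L) := by
  refine AbClass.filt_of_mem ?_
  refine memTH_of_surj (ι := Empty) (κ := Unit) (0 : Matrix Empty Unit (EE L))
    (LinearMap.proj ()) (fun y => ⟨fun _ => y, rfl⟩) (fun x => ?_)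
  constructor
  · intro h
    refine ⟨0, ?_⟩
    rw [map_zero]
    funext i
    exact h.symm
  · rintro ⟨w, rfl⟩
    show mR (Lam L) (TT L) (0 : Matrix Empty Unit (EE L)) w () = 0
    simp

/-- `exists_good` for `G` -/
theorem exists_goodG [IsNoetherianRing (EE L)] (hF : Flat (Lam L) (EE L) (TT L))
    (hH : Full (Lam L) (EE L) (TT L))
    (hE : ∀ (M : Type u) [AddCommGroup M] [Module (EE L) M], Module.Finite (EE L) M →
      FR.FFR (EE L) M)
    (hV : ∀ (Q : Type u) [AddCommGroup Q] [Module L.V Q], Module.Finite L.V Q →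
      Module.Projective L.V Q → FR.StFree L.V Q)
    (hinj : Function.Injective (B.φ U)) (r : ℕ) (e : Matrix (Fin r) (Fin r) T) (he : e * e = e) :
    ∃ M : Submodule (Lam L) (Fin r → B.GG),
      Submodule.pi Set.univ (fun _ : Fin r => B.LG ∅) ≤ M ∧ (∀ y ∈ M, mT U hinj e y ∈ M) ∧
      (thClass hF hH).filt.mem (SQ M (Submodule.pi Set.univ (fun _ : Fin r => B.LG ∅))) ∧
      Good L M ∧ Good L (M.map (mT U hinj e)) := by
  classical
  exact exists_good hF hH hE hV inj_GG
    (fun S : {S : Finset B.Wd // B.Cl S} => B.LG S.1) (B.LG ∅) B.eO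
    (fun S => B.LG_fg S.2) (fun S => B.LG_mono (Finset.empty_subset _)) ⟨⟨∅, Cl.empty⟩⟩
    (fun S S' => ⟨⟨S.1 ∪ S'.1, S.2.union S'.2⟩, B.LG_mono Finset.subset_union_left,
      B.LG_mono Finset.subset_union_right⟩)
    (fun x => by
      obtain ⟨S, hS, hx⟩ := B.exists_mem_LG x
      exact ⟨⟨S, hS⟩, hx⟩)
    (fun S => SQ_mem (extClosed_filt _) (TT_mem hF hH) Cl.empty S.2 (Finset.empty_subset _))
    (fun S S' h => SQ_mem' (extClosed_filt _) (TT_mem hF hH) S.2 S'.2 h) r (mT U hinj e)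
    (fun y => by rw [← mT_mul, he])

end LB

end Crest.Agent.R181.V868
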