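import Crest.Agent.R181.VT495f
import Crest.Agent.R181.V868g
import Crest.Agent.R181.RB963a

/-!
# R181, V-chain, block V2: assembly over 868's lattices
-/

set_option autoImplicit false
set_option linter.unusedSectionVars false

namespace Crest.Agent.R181.VT

open V868 VA VB LK MulOpposite

universe u

section core

variable {DD : Type u} [Ring DD] {L : Line DD} {T : Type u} [Ring T] {U : UnivT L T} (R : RB U)

/-- `Θ` itself is in the class -/
theorem memTH_TT [IsNoetherianRing (EE L)] : memTH (Lam L) (EE L) (TT L) (TT L) := by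
  refine memTH_of_surj (ι := Empty) (κ := Unit) (0 : Matrix Empty Unit (EE L))
    (LinearMap.proj ()) (fun y => ⟨fun _ => y, rfl⟩) (fun x => ?_)
  constructor
  · intro h
    refine ⟨0, ?_⟩
    funext j
    rw [map_zero]
    exact h.symm
  · rintro ⟨w, rfl⟩
    rw [mR_zero]; rfl

/-- Step 5 for modules over the triangular ring -/
def Step5 : Prop := ∀ (Z : Type u) [AddCommGroup Z] [Module (Lam L) Z], Good L Z →
  Function.Injective (dZ R Z) → FR.FFR T (Psi1 R (al L (Y := Z)) (be L (Y := Z)))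

variable (B : LB L)

/-- `φ` on the third component of `G` -/
noncomputable def phG (U : UnivT L T) : cC L B.GG →+ LaurentSeries T where
  toFun y := B.φ U ((y : B.GG) : Tr L B.MM).2.2
  map_zero' := by
    show B.φ U (0 : B.MM) = 0
    rw [map_zero]
  map_add' x y := by
    show B.φ U (((x : B.GG) : Tr L B.MM).2.2 + ((y : B.GG) : Tr L B.MM).2.2) = _
    rw [map_add]

theorem phG_apply (y : cC L B.GG) : phG B U y = B.φ U ((y : B.GG) : Tr L B.MM).2.2 := rfl

theorem phG_smul (d : DD) (y : cC L B.GG) : phG B U (d • y) = U.Θ d * phG B U y := by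
  rw [phG_apply, phG_apply]
  have h : (((d • y : cC L B.GG) : B.GG) : Tr L B.MM).2.2 =
      d • ((y : B.GG) : Tr L B.MM).2.2 := by
    show (iC L d • ((y : B.GG) : Tr L B.MM)).2.2 = _
    rw [iC_3]
  rw [h, B.φ_smul]

theorem phG_al (a : cA L B.GG) : Aff (phG B U (al L a)) := by
  rw [phG_apply]
  have h : (((al L a : cC L B.GG) : B.GG) : Tr L B.MM).2.2 = ((a : B.GG) : Tr L B.MM).1 := by
    show (tA L • ((a : B.GG) : Tr L B.MM)).2.2 = _
    rw [tA_3]
  rw [h]
  exact B.φ_Gaff U ((B.mem_GG).1 (a : B.GG).2).1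

theorem phG_be (a : cB L B.GG) : Inf (phG B U (be L a)) := by
  rw [phG_apply]
  have h : (((be L a : cC L B.GG) : B.GG) : Tr L B.MM).2.2 = ((a : B.GG) : Tr L B.MM).2.1 := by
    show (tB L • ((a : B.GG) : Tr L B.MM)).2.2 = _
    rw [tB_3]
  rw [h]
  exact B.φ_Ginf U ((B.mem_GG).1 (a : B.GG).2).2

/-- `OO ≃ L_∅` -/
noncomputable def eLG : OO L 0 ≃ₗ[Lam L] B.LG ∅ :=
  (LinearEquiv.ofInjective LB.iOO LB.iOO_injective).trans (LinearEquiv.ofEq _ _ LB.range_iOO)

theorem coe_eLG (y : OO L 0) : ((eLG B y : B.LG ∅) : B.GG) = LB.iOO y := rfl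

theorem phG_one : phG B U (Cmap (iC L) ((B.LG ∅).subtype.comp (eLG B).toLinearMap)
    (cO.symm 1)) = 1 := by
  rw [phG_apply]
  have h : (((Cmap (iC L) ((B.LG ∅).subtype.comp (eLG B).toLinearMap) (cO.symm 1) :
      cC L B.GG) : B.GG) : Tr L B.MM).2.2 = Finsupp.single none 1 := by
    show (((LB.iOO ((cO.symm 1 : cC L (OO L 0)) : OO L 0) : B.GG) : Tr L B.MM)).2.2 = _
    rw [LB.coe_iOO]
    rfl
  rw [h, B.φ_single, map_one, B.b_none, one_mul]

variable (hinj : Function.Injective (B.φ U))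

theorem coe_sum_GG {r : ℕ} (f : Fin r → B.GG) :
    ((∑ i, f i : B.GG) : Tr L B.MM).2.2 = ∑ i, ((f i : B.GG) : Tr L B.MM).2.2 := by
  classical
  exact map_sum (⟨⟨fun y : B.GG => (y : Tr L B.MM).2.2, rfl⟩, fun _ _ => rfl⟩ : B.GG →+ B.MM) f _

theorem phG_mT {r : ℕ} (E : Matrix (Fin r) (Fin r) T) (i : Fin r)
    (y : cC L (Fin r → B.GG)) :
    phG B U (Cmap (iC L) (LinearMap.proj i) (Cmap (iC L) (LB.mT U hinj E) y)) =
      ∑ j, phG B U (Cmap (iC L) (LinearMap.proj j) y) * HahnSeries.C (E j i) := by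
  rw [phG_apply]
  have h : (((Cmap (iC L) (LinearMap.proj i) (Cmap (iC L) (LB.mT U hinj E) y) :
      cC L B.GG) : B.GG) : Tr L B.MM).2.2 =
      ∑ j, B.Rt U hinj (E j i) (((y : Fin r → B.GG) j : B.GG) : Tr L B.MM).2.2 := by
    show ((LB.mT U hinj E (y : Fin r → B.GG) i : B.GG) : Tr L B.MM).2.2 = _
    rw [LB.mT_apply, coe_sum_GG]
    rfl
  rw [h, map_sum]
  refine Finset.sum_congr rfl fun j _ => ?_
  rw [B.φ_Rt]
  rfl

include hinj in
/-- V2, the core -/
theorem core (h5 : Step5 R) [IsNoetherianRing (EE L)]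
    (hF : Flat (Lam L) (EE L) (TT L)) (hH : Full (Lam L) (EE L) (TT L))
    (hE : ∀ (M : Type u) [AddCommGroup M] [Module (EE L) M], Module.Finite (EE L) M →
      FR.FFR (EE L) M)
    (hV : ∀ (Q : Type u) [AddCommGroup Q] [Module L.V Q], Module.Finite L.V Q →
      Module.Projective L.V Q → FR.StFree L.V Q) (r : ℕ) (E : Matrix (Fin r) (Fin r) T)
    (hEE : E * E = E) : FR.FFR T (LinearMap.range (Matrix.vecMulLinear E)) := by
  classical
  have he : ∀ y, LB.mT U hinj E (LB.mT U hinj E y) = LB.mT U hinj E y := fun y => by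
    rw [← LB.mT_mul, hEE]
  obtain ⟨M, h1, h2, h3, _, h4⟩ := LB.exists_goodG U hF hH hE hV hinj r E hEE
  have hPZ := PZ_filt R hF hH h3
  obtain ⟨eq⟩ := psi1_summand_Z R (eLG B) h1 (phG B U) (phG_smul B) (phG_al B) (phG_be B)
    (phG_one B) (e := LB.mT U hinj E) h2 hPZ he E (phG_mT B hinj E)
  refine FR.FFR.of_equiv eq (h5 _ h4 ?_)
  exact delta_injective_of_sub R (Cmap (iA L) (iM h2)) (Cmap (iB L) (iM h2)) (Cmap (iC L) (iM h2))
    (Cmap_injective _ (Submodule.inclusion_injective _))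
    (Cmap_injective _ (Submodule.inclusion_injective _)) (fun a => al_map L _ a)
    (fun a => be_map L _ a) (dZ_injective R (eLG B) h1 hPZ)

end core

end Crest.Agent.R181.VT
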