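import Crest.Agent.R181.S5836a
import Crest.Agent.R181.VT495g

/-!
R181, V-chain, V2 (helper836): Step 5 for `Lam`-modules.
-/

set_option autoImplicit false
set_option linter.unusedSectionVars false

namespace Crest.Agent.R181.S5

open V868 VA VB VC VT LK

universe u

/-- **Step 5 for `Lam`-modules** -/
theorem step5Z {DD : Type u} [Ring DD] {L : Line DD} {T : Type u} [Ring T] {U : UnivT L T}
    (R : RB U) (hn : IsNoetherianRing L.O)
    (hT : ∀ (B : Type u) [AddCommGroup B] [Module L.O B], Module.Finite L.O B →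
      (∃ s : ℕ, ∀ b : B, VB.pO L ^ s • b = 0) → FR.FFR T (Fr R.ρO B)) : VT.Step5 R := by
  intro Z _ _ hZ hinj
  obtain ⟨n, hr⟩ := rr_of_ffr hZ.ffr
  exact VC.step5 R hT n (al L) (be L) hr hZ.fin hZ.inj hZ.tor hinj

end Crest.Agent.R181.S5
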