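import Crest.Agent.R181.VB789e

/-!
R181, V-chain, block V2b (helper789): `Fr' τ` has a finite free resolution for `τ` finitely
generated over `O` and killed by a power of `p`.
-/

set_option autoImplicit false

namespace Crest.Agent.R181.VB

open V868

universe u

variable {DD : Type u} [Ring DD] {L : Line DD} {T : Type u} [Ring T] {U : UnivT L T} (R : RB U)

section base

variable {R0 R1 : Type*} [Ring R0] [Ring R1] {W : Type*} {T : Type*} [Ring T]

theorem mapRange_act (q : R0 →+* R1) (m : W → (W →₀ R0)) (f : W →₀ R0) :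
    (act m f).mapRange q (map_zero q) =
      act (fun w => (m w).mapRange q (map_zero q)) (f.mapRange q (map_zero q)) := by
  induction f using Finsupp.induction_linear with
  | zero => simp
  | add f g hf hg =>
    rw [map_add, Finsupp.mapRange_add (fun a b => map_add q a b),
      Finsupp.mapRange_add (fun a b => map_add q a b), map_add, hf, hg]
  | single w x =>
    rw [Finsupp.mapRange_single, act_single, act_single]
    ext w'
    simp

/-- change of the coefficient ring of a representation -/
noncomputable def Rep.base (ρ : Rep T R0 W) (q : R0 →+* R1) : Rep T R1 W where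
  m t w := (ρ.m t w).mapRange q (map_zero q)
  m_one w := by rw [ρ.m_one, Finsupp.mapRange_single, map_one]
  m_add s t w := by rw [ρ.m_add, Finsupp.mapRange_add (fun a b => map_add q a b)]
  m_mul s t w := by rw [ρ.m_mul, mapRange_act]

end base

/-- the point `p` of `O` -/
def pO (L : Line DD) : L.O := ⟨L.p, L.pO⟩

section N

/-- `G_inf = T ⊕ p G_inf` -/
theorem exists_T (o : R.W →₀ L.O) : ∃ (t : T) (o' : R.W →₀ L.O),
    up L.O o = up L.O (R.mO t R.w0) + rmul (up L.O o') L.p := by
  let z := evm U.Θ R.b' (up L.O o)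
  refine ⟨z.coeff 0, ?_⟩
  have hz : Inf z := R.inf_evm o
  have h1 : Inf (evm U.Θ R.b (rmul (act R.P (up L.O o - up L.O (R.mO (z.coeff 0) R.w0))) L.x)) := by
    intro n hn
    have h2 := Θxpow U 1
    rw [pow_one] at h2
    rw [evm_rmul, R.evm_act_P, map_sub, R.mO_w0_eq, h2, coeff_mul_sing, HahnSeries.coeff_sub]
    rcases lt_or_eq_of_le (show n - -((1 : ℕ) : ℤ) ≤ 0 by push_cast; omega) with h | h
    · have h3 := hz _ h
      simp only [z] at h3
      rw [h3, HahnSeries.C_apply, HahnSeries.coeff_single_of_ne (by omega), sub_zero]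
    · rw [h, HahnSeries.C_apply, HahnSeries.coeff_single_same, sub_self]
  obtain ⟨o', ho'⟩ := R.exists_O _ h1
  refine ⟨o', ?_⟩
  have h4 : act R.P (up L.O o - up L.O (R.mO (z.coeff 0) R.w0)) =
      act R.P (rmul (up L.O o') L.p) := by
    apply R.evm_injective
    have h5 : evm U.Θ R.b (rmul (rmul (act R.P (up L.O o - up L.O (R.mO (z.coeff 0) R.w0))) L.x)
        L.p) = evm U.Θ R.b (rmul (act R.P (up L.O o')) L.p) := by rw [ho']
    have h6 : rmul (rmul (act R.P (up L.O o - up L.O (R.mO (z.coeff 0) R.w0))) L.x) L.p =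
        act R.P (up L.O o - up L.O (R.mO (z.coeff 0) R.w0)) := by
      ext w; simp [mul_assoc, L.xp]
    rw [h6] at h5
    rw [h5, R.evm_act_P, evm_rmul, R.evm_act_P, evm_rmul]
  have h7 : up L.O o - up L.O (R.mO (z.coeff 0) R.w0) = rmul (up L.O o') L.p := by
    apply R.evm'_injective
    rw [← R.evm_act_P, ← R.evm_act_P, h4]
  rw [← h7]; abel

theorem T_eq_zero (t : T) (o' : R.W →₀ L.O)
    (h : up L.O (R.mO t R.w0) = rmul (up L.O o') L.p) : t = 0 := by
  have h1 := congrArg (evm U.Θ R.b') h
  rw [R.mO_w0_eq, evm_rmul, ΘP] at h1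
  have h2 := congrArg (fun z => HahnSeries.coeff z 0) h1
  simp only [HahnSeries.C_apply, HahnSeries.coeff_single_same, coeff_mul_sing] at h2
  rw [h2]
  exact R.inf_evm o' _ (by omega)

end N

section Delta

variable {Δ : Type u} [Ring Δ] (q : L.O →+* Δ)

/-- the `T`-module `T ⊗_Δ Y` -/
noncomputable abbrev ρΔ : Rep T Δ R.W := R.ρO.base q

variable (hq : Function.Surjective q) (hker : ∀ o : L.O, q o = 0 ↔ ∃ o', o = pO L * o')

include hq hker in
/-- `T ⊗_Δ Δ = T` -/
theorem bij_root : Function.Bijective
    (LinearMap.toSpanSingleton T (Fr (ρΔ R q) Δ)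
      (Fr.mk (ρΔ R q) (Finsupp.single R.w0 (1 : Δ)))) := by
  have hval : ∀ t : T, Fr.co (ρΔ R q) (LinearMap.toSpanSingleton T (Fr (ρΔ R q) Δ)
      (Fr.mk (ρΔ R q) (Finsupp.single R.w0 (1 : Δ))) t) =
      (R.mO t R.w0).mapRange q (map_zero q) := by
    intro t
    change act ((ρΔ R q).m t) (Finsupp.single R.w0 (1 : Δ)) = _
    rw [act_single]
    ext w
    simp only [col_apply, smul_eq_mul, mul_one]
    rfl
  constructor
  · rw [injective_iff_map_eq_zero]
    intro t ht
    have h1 := hval t
    rw [ht] at h1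
    have h2 : ∀ w, ∃ o', (R.mO t R.w0) w = pO L * o' := fun w =>
      (hker _).1 (DFunLike.congr_fun (F := R.W →₀ Δ) h1.symm w)
    classical
    choose g hg using h2
    refine T_eq_zero R t (Finsupp.onFinset (R.mO t R.w0).support
      (fun w => if (R.mO t R.w0) w = 0 then 0 else g w) (fun w hw => by
        rw [Finsupp.mem_support_iff]
        intro h0
        simp [h0] at hw)) ?_
    ext w
    rw [rmul_apply, up_apply, up_apply, Finsupp.onFinset_apply]
    split_ifs with h0
    · rw [h0]; simp
    · have := congrArg Subtype.val (hg w)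
      rw [this, ← L.pc]
      rfl
  · intro f
    classical
    have h1 : ∀ w, ∃ o : L.O, q o = (Fr.co (ρΔ R q) f) w := fun w => hq _
    choose g hg using h1
    let o : R.W →₀ L.O := Finsupp.onFinset (Fr.co (ρΔ R q) f).support
      (fun w => if (Fr.co (ρΔ R q) f) w = 0 then 0 else g w) (fun w hw => by
        rw [Finsupp.mem_support_iff]
        intro h0
        simp [h0] at hw)
    have ho : o.mapRange q (map_zero q) = Fr.co (ρΔ R q) f := by
      ext w
      rw [Finsupp.mapRange_apply, Finsupp.onFinset_apply]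
      split_ifs with h0
      · rw [map_zero, h0]
      · exact hg w
    obtain ⟨t, o', h2⟩ := exists_T R o
    refine ⟨t, ?_⟩
    have h3 : Fr.co (ρΔ R q) (LinearMap.toSpanSingleton T (Fr (ρΔ R q) Δ)
      (Fr.mk (ρΔ R q) (Finsupp.single R.w0 (1 : Δ))) t) = Fr.co (ρΔ R q) f := by
      rw [hval, ← ho]
      ext w
      rw [Finsupp.mapRange_apply, Finsupp.mapRange_apply]
      have h4 : o w = R.mO t R.w0 w + pO L * o' w := by
        apply Subtype.ext
        have := DFunLike.congr_fun h2 w
        rw [Finsupp.add_apply, rmul_apply, up_apply, up_apply, up_apply, ← L.pc] at this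
        exact this
      have h5 : q (pO L * o' w) = 0 := (hker _).2 ⟨_, rfl⟩
      rw [h4, map_add, h5, add_zero]
    exact h3

variable {q}

include hq hker in
theorem ffr_Delta : FR.FFR T (Fr (ρΔ R q) Δ) :=
  FR.FFR.of_equiv (LinearEquiv.ofBijective _ (bij_root R q hq hker)) (FR.FFR.self)

include hq hker in
theorem ffr_pow : ∀ k : ℕ, FR.FFR T (Fr (ρΔ R q) (Fin k → Δ))
  | 0 => by
    have : Subsingleton (Fr (ρΔ R q) (Fin 0 → Δ)) :=
      ⟨fun f g => Finsupp.ext fun w => Subsingleton.elim _ _⟩
    exact FR.FFR.of_subsingleton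
  | k + 1 => by
    have h1 := ffr_Delta R hq hker
    have h2 := ffr_pow k
    let f : Δ →ₗ[Δ] (Fin (k + 1) → Δ) := LinearMap.single Δ (fun _ => Δ) 0
    let g : (Fin (k + 1) → Δ) →ₗ[Δ] (Fin k → Δ) :=
      LinearMap.pi fun i => LinearMap.proj i.succ
    refine FR.FFR.mid (f := Fr.map (ρΔ R q) f) (g := Fr.map (ρΔ R q) g)
      (Fr.map_injective _ _ ?_) (Fr.map_surjective _ _ ?_) (Fr.map_exact _ _ _ ?_) h1 h2
    · intro a b hab
      have := congrFun hab 0
      simpa [f] using this
    · intro y
      exact ⟨Fin.cons 0 y, by funext i; simp [g]⟩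
    · intro y
      constructor
      · intro hy
        refine ⟨y 0, ?_⟩
        funext i
        refine Fin.cases ?_ (fun i => ?_) i
        · simp [f]
        · have := congrFun hy i
          simp only [g, LinearMap.pi_apply, LinearMap.proj_apply, Pi.zero_apply] at this
          rw [this]
          simp [f]
      · rintro ⟨x, rfl⟩
        funext i
        simp [f, g]

include hq hker in
theorem ffr_res : ∀ (n : ℕ) (Y : Type u) [AddCommGroup Y] [Module Δ Y], FR.Res Δ n Y →
    FR.FFR T (Fr (ρΔ R q) Y)
  | 0, Y, _, _, h => by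
    obtain ⟨k, ⟨e⟩⟩ := h
    have h1 := ffr_pow R hq hker k
    refine FR.FFR.of_equiv (LinearEquiv.ofBijective (Fr.map (ρΔ R q) e.symm.toLinearMap)
      ⟨Fr.map_injective _ _ e.symm.injective, Fr.map_surjective _ _ e.symm.surjective⟩) h1
  | n + 1, Y, _, _, h => by
    obtain ⟨k, f, hf, hk⟩ := h
    have h1 := ffr_pow R hq hker k
    have h2 := ffr_res n (LinearMap.ker f) hk
    refine FR.FFR.right (f := Fr.map (ρΔ R q) (LinearMap.ker f).subtype)
      (g := Fr.map (ρΔ R q) f)
      (Fr.map_injective _ _ (Submodule.subtype_injective _)) (Fr.map_surjective _ _ hf)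
      (Fr.map_exact _ _ _ ?_) h2 h1
    intro y
    constructor
    · intro hy; exact ⟨⟨y, hy⟩, rfl⟩
    · rintro ⟨⟨x, hx⟩, rfl⟩; exact hx

end Delta

section tors

variable {Δ : Type u} [Ring Δ] {q : L.O →+* Δ}
  (hq : Function.Surjective q) (hker : ∀ o : L.O, q o = 0 ↔ ∃ o', o = pO L * o')
  (hΔ : ∀ (Y : Type u) [AddCommGroup Y] [Module Δ Y], Module.Finite Δ Y → FR.FFR Δ Y)

include hq hker hΔ in
/-- modules killed by `p` -/
theorem ffr_killed (B : Type u) [AddCommGroup B] [Module L.O B] (hfin : Module.Finite L.O B)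
    (hp : ∀ y : B, pO L • y = 0) : FR.FFR T (Fr R.ρO B) := by
  classical
  -- the `Δ`-module structure
  let sm : SMul Δ B := ⟨fun d y => (Function.surjInv hq d) • y⟩
  have hsm : ∀ (o : L.O) (y : B), q o • y = o • y := by
    intro o y
    change (Function.surjInv hq (q o)) • y = o • y
    have h1 : q (Function.surjInv hq (q o) - o) = 0 := by
      rw [map_sub, Function.surjInv_eq hq, sub_self]
    obtain ⟨o', ho'⟩ := (hker _).1 h1
    have h2 : (pO L * o') • y = o' • (pO L • y) := by
      have : pO L * o' = o' * pO L := Subtype.ext (L.pc _)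
      rw [this, mul_smul]
    rw [← sub_eq_zero, ← sub_smul, ho', h2, hp, smul_zero]
  let _ : Module Δ B := Function.Surjective.moduleLeft q hq hsm
  have hfin' : Module.Finite Δ B := by
    obtain ⟨s, hs⟩ := hfin.fg_top
    refine ⟨⟨s, ?_⟩⟩
    rw [eq_top_iff]
    intro y _
    have hy : y ∈ Submodule.span L.O (s : Set B) := by rw [hs]; trivial
    induction hy using Submodule.span_induction with
    | mem x hx => exact Submodule.subset_span hx
    | zero => exact Submodule.zero_mem _
    | add a b _ _ ha hb => exact Submodule.add_mem _ (ha trivial) (hb trivial)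
    | smul o a _ ha =>
      rw [← hsm]
      exact Submodule.smul_mem _ _ (ha trivial)
  obtain ⟨n, hn⟩ := hΔ B hfin'
  have h1 := ffr_res R hq hker n B hn
  have hact : ∀ (t : T) (f : R.W →₀ B), act (R.ρO.m t) f = act ((ρΔ R q).m t) f := by
    intro t f
    induction f using Finsupp.induction_linear with
    | zero => simp
    | add f g hf hg => rw [map_add, map_add, hf, hg]
    | single w x =>
      rw [act_single, act_single]
      ext w'
      simp only [col_apply]
      exact (hsm _ _).symm
  let e : Fr (ρΔ R q) B ≃ₗ[T] Fr R.ρO B :=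
    { toFun := fun f => f
      invFun := fun f => f
      left_inv := fun _ => rfl
      right_inv := fun _ => rfl
      map_add' := fun _ _ => rfl
      map_smul' := fun t f => (hact t f).symm }
  exact FR.FFR.of_equiv e h1

include hq hker hΔ in
/-- **(T4)** `τ` finitely generated over `O`, killed by `p^s`: `Fr' τ` has a finite free
resolution over `T` -/
theorem ffr_tors : ∀ (s : ℕ) (B : Type u) [AddCommGroup B] [Module L.O B],
    Module.Finite L.O B → (∀ y : B, pO L ^ s • y = 0) → FR.FFR T (Fr R.ρO B)
  | 0, B, _, _, _, h0 => by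
    have : Subsingleton B := ⟨fun a b => by
      have h1 := h0 a
      have h2 := h0 b
      rw [pow_zero, one_smul] at h1 h2
      rw [h1, h2]⟩
    have : Subsingleton (Fr R.ρO B) := ⟨fun f g => Finsupp.ext fun w => Subsingleton.elim _ _⟩
    exact FR.FFR.of_subsingleton
  | s + 1, B, _, _, hfin, h0 => by
    -- multiplication by `p`
    let μ : B →ₗ[L.O] B :=
      { toFun := fun y => pO L • y
        map_add' := fun a b => smul_add _ _ _
        map_smul' := fun o y => by
          have : pO L * o = o * pO L := Subtype.ext (L.pc _)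
          rw [RingHom.id_apply, ← mul_smul, this, mul_smul] }
    have h1 : FR.FFR T (Fr R.ρO (LinearMap.range μ)) := by
      refine ffr_tors s (LinearMap.range μ) inferInstance ?_
      rintro ⟨_, ⟨y, rfl⟩⟩
      apply Subtype.ext
      change pO L ^ s • (pO L • y) = 0
      rw [← mul_smul, ← pow_succ, h0]
    have h2 : FR.FFR T (Fr R.ρO (B ⧸ LinearMap.range μ)) := by
      refine ffr_killed R hq hker hΔ _ inferInstance ?_
      intro y
      obtain ⟨y, rfl⟩ := Submodule.mkQ_surjective _ y
      rw [← map_smul, Submodule.mkQ_apply, Submodule.Quotient.mk_eq_zero]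
      exact ⟨y, rfl⟩
    refine FR.FFR.mid (f := Fr.map R.ρO (LinearMap.range μ).subtype)
      (g := Fr.map R.ρO (LinearMap.range μ).mkQ)
      (Fr.map_injective _ _ (Submodule.subtype_injective _))
      (Fr.map_surjective _ _ (Submodule.mkQ_surjective _)) (Fr.map_exact _ _ _ ?_) h1 h2
    intro y
    rw [Submodule.mkQ_apply, Submodule.Quotient.mk_eq_zero]
    constructor
    · intro hy; exact ⟨⟨y, hy⟩, rfl⟩
    · rintro ⟨x, rfl⟩; exact x.2

end tors

end Crest.Agent.R181.VB
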