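import Crest.Agent.R181.TW825a

/-!
# R181, V-chain, block V2: reduction to ranges of idempotent endomorphisms of `T^r`
-/

set_option autoImplicit false

namespace Crest.Agent.R181.VT

open Crest.Agent.R181

/-- it is enough that the ranges of idempotent endomorphisms of `T^r` have finite free
resolutions -/
theorem allSF_of_idem {T : Type} [Ring T]
    (h : ∀ (r : ℕ) (e : (Fin r → T) →ₗ[T] (Fin r → T)), (∀ y, e (e y) = e y) →
      FR.FFR T (LinearMap.range e)) : TW.AllSF T := by
  intro P _ _ hfin hproj
  obtain ⟨r, f, hf⟩ := Module.Finite.exists_fin' T P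
  obtain ⟨s, hs⟩ := Module.projective_lifting_property f LinearMap.id hf
  have hs' : ∀ x, f (s x) = x := fun x => LinearMap.congr_fun hs x
  have h1 := h r (s.comp f) (fun y => by simp [hs'])
  have e : P ≃ₗ[T] LinearMap.range (s.comp f) :=
    LinearEquiv.ofBijective (s.codRestrict _ (fun x => by
      obtain ⟨y, rfl⟩ := hf x
      exact ⟨y, rfl⟩)) (by
      constructor
      · intro x y hxy
        have h2 : s x = s y := congrArg Subtype.val hxy
        have h3 := congrArg f h2
        rwa [hs', hs'] at h3
      · rintro ⟨_, y, rfl⟩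
        exact ⟨f y, rfl⟩)
  exact FR.FFR.stFree (h1.of_equiv e.symm)

end Crest.Agent.R181.VT
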