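import Crest.Agent.R181.VA980c

/-! R181, V-chain, V2a (A3): concrete triples inside a `DD`-module, `Θ = OO(1)`, `OO(-m)`, `P0`. -/

set_option autoImplicit false
set_option linter.unusedSectionVars false

open MulOpposite

namespace Crest.Agent.R181.VA

open LK V868

universe u

section Tr

variable {DD : Type u} [Ring DD] (L : Line DD)

/-- three copies of a `DD`-module, as a `Lam L`-module -/
@[nolint unusedArguments]
def Tr (_ : Line DD) (C : Type*) : Type _ := C × C × C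

variable (C : Type*) [AddCommGroup C] [Module DD C]

instance : AddCommGroup (Tr L C) := inferInstanceAs (AddCommGroup (C × C × C))

/-- the action of the triangular ring on triples -/
instance : Module (Lam L) (Tr L C) where
  smul m y := ((m : Matrix (Fin 3) (Fin 3) DD) 0 0 • y.1, (m : Matrix (Fin 3) (Fin 3) DD) 1 1 • y.2.1,
    (m : Matrix (Fin 3) (Fin 3) DD) 2 0 • y.1 + (m : Matrix (Fin 3) (Fin 3) DD) 2 1 • y.2.1 +
      (m : Matrix (Fin 3) (Fin 3) DD) 2 2 • y.2.2)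
  one_smul y := by
    show (((1 : Matrix (Fin 3) (Fin 3) DD) 0 0 • y.1, (1 : Matrix (Fin 3) (Fin 3) DD) 1 1 • y.2.1,
      (1 : Matrix (Fin 3) (Fin 3) DD) 2 0 • y.1 + (1 : Matrix (Fin 3) (Fin 3) DD) 2 1 • y.2.1 +
      (1 : Matrix (Fin 3) (Fin 3) DD) 2 2 • y.2.2) : C × C × C) = y
    simp
  mul_smul a b y := by
    obtain ⟨a, h1, h2, h3, h4, h5, h6⟩ := a
    obtain ⟨b, k1, k2, k3, k4, k5, k6⟩ := b
    show (((a * b) 0 0 • y.1, (a * b) 1 1 • y.2.1,
      (a * b) 2 0 • y.1 + (a * b) 2 1 • y.2.1 + (a * b) 2 2 • y.2.2) : C × C × C) =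
      (a 0 0 • b 0 0 • y.1, a 1 1 • b 1 1 • y.2.1, a 2 0 • b 0 0 • y.1 + a 2 1 • b 1 1 • y.2.1 +
        a 2 2 • (b 2 0 • y.1 + b 2 1 • y.2.1 + b 2 2 • y.2.2))
    simp only [Matrix.mul_apply, Fin.sum_univ_three, h3, h4, h5, h6, k3, k4, k5, k6, zero_mul,
      mul_zero, add_zero, zero_add, add_smul, mul_smul, smul_add]
    refine Prod.ext rfl (Prod.ext rfl ?_)
    show _ = _
    abel
  smul_zero a := by
    show ((_ • (0 : C), _ • (0 : C), _ • (0 : C) + _ • (0 : C) + _ • (0 : C)) : C × C × C) = 0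
    simp
  smul_add a x y := by
    show ((_ • (x.1 + y.1), _ • (x.2.1 + y.2.1), _ • (x.1 + y.1) + _ • (x.2.1 + y.2.1) +
      _ • (x.2.2 + y.2.2)) : C × C × C) = (_ • x.1 + _ • y.1, _ • x.2.1 + _ • y.2.1,
        (_ • x.1 + _ • x.2.1 + _ • x.2.2) + (_ • y.1 + _ • y.2.1 + _ • y.2.2))
    simp only [smul_add]
    refine Prod.ext rfl (Prod.ext rfl ?_)
    show _ = _
    abel
  add_smul a b y := by
    obtain ⟨a, h1, h2, h3, h4, h5, h6⟩ := a
    obtain ⟨b, k1, k2, k3, k4, k5, k6⟩ := b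
    show (((a + b) 0 0 • y.1, (a + b) 1 1 • y.2.1,
      (a + b) 2 0 • y.1 + (a + b) 2 1 • y.2.1 + (a + b) 2 2 • y.2.2) : C × C × C) =
      (a 0 0 • y.1 + b 0 0 • y.1, a 1 1 • y.2.1 + b 1 1 • y.2.1,
        (a 2 0 • y.1 + a 2 1 • y.2.1 + a 2 2 • y.2.2) +
        (b 2 0 • y.1 + b 2 1 • y.2.1 + b 2 2 • y.2.2))
    simp only [Matrix.add_apply, add_smul]
    refine Prod.ext rfl (Prod.ext rfl ?_)
    show _ = _
    abel
  zero_smul y := by
    show (((0 : Matrix (Fin 3) (Fin 3) DD) 0 0 • y.1, (0 : Matrix (Fin 3) (Fin 3) DD) 1 1 • y.2.1,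
      (0 : Matrix (Fin 3) (Fin 3) DD) 2 0 • y.1 + (0 : Matrix (Fin 3) (Fin 3) DD) 2 1 • y.2.1 +
      (0 : Matrix (Fin 3) (Fin 3) DD) 2 2 • y.2.2) : C × C × C) = 0
    simp

variable {C}

theorem Tr_smul (m : Lam L) (y : Tr L C) : m • y =
    ((m : Matrix (Fin 3) (Fin 3) DD) 0 0 • y.1, (m : Matrix (Fin 3) (Fin 3) DD) 1 1 • y.2.1,
    (m : Matrix (Fin 3) (Fin 3) DD) 2 0 • y.1 + (m : Matrix (Fin 3) (Fin 3) DD) 2 1 • y.2.1 +
      (m : Matrix (Fin 3) (Fin 3) DD) 2 2 • y.2.2) := rfl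

theorem Tr_iA (v : L.V) (y : Tr L C) : iA L v • y = (((v : DD) • y.1, 0, 0) : C × C × C) := by
  rw [Tr_smul]
  show (((v : DD) • y.1, (0 : DD) • y.2.1, (0 : DD) • y.1 + (0 : DD) • y.2.1 + (0 : DD) • y.2.2) :
    C × C × C) = _
  simp

theorem Tr_iB (v : L.O) (y : Tr L C) : iB L v • y = ((0, (v : DD) • y.2.1, 0) : C × C × C) := by
  rw [Tr_smul]
  show (((0 : DD) • y.1, (v : DD) • y.2.1, (0 : DD) • y.1 + (0 : DD) • y.2.1 + (0 : DD) • y.2.2) :
    C × C × C) = _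
  simp

theorem Tr_iC (v : DD) (y : Tr L C) : iC L v • y = ((0, 0, v • y.2.2) : C × C × C) := by
  rw [Tr_smul]
  show (((0 : DD) • y.1, (0 : DD) • y.2.1, (0 : DD) • y.1 + (0 : DD) • y.2.1 + v • y.2.2) :
    C × C × C) = _
  simp

theorem Tr_tA (y : Tr L C) : tA L • y = ((0, 0, y.1) : C × C × C) := by
  rw [Tr_smul]
  show (((0 : DD) • y.1, (0 : DD) • y.2.1, (1 : DD) • y.1 + (0 : DD) • y.2.1 + (0 : DD) • y.2.2) :
    C × C × C) = _
  simp

theorem Tr_tB (y : Tr L C) : tB L • y = ((0, 0, y.2.1) : C × C × C) := by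
  rw [Tr_smul]
  show (((0 : DD) • y.1, (0 : DD) • y.2.1, (0 : DD) • y.1 + (1 : DD) • y.2.1 + (0 : DD) • y.2.2) :
    C × C × C) = _
  simp

@[simp] theorem Tr_add_1 (x y : Tr L C) : (x + y).1 = x.1 + y.1 := rfl
@[simp] theorem Tr_add_2 (x y : Tr L C) : (x + y).2.1 = x.2.1 + y.2.1 := rfl
@[simp] theorem Tr_add_3 (x y : Tr L C) : (x + y).2.2 = x.2.2 + y.2.2 := rfl
@[simp] theorem Tr_zero_1 : (0 : Tr L C).1 = 0 := rfl
@[simp] theorem Tr_zero_2 : (0 : Tr L C).2.1 = 0 := rfl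
@[simp] theorem Tr_zero_3 : (0 : Tr L C).2.2 = 0 := rfl

theorem Tr_ext {x y : Tr L C} (h1 : x.1 = y.1) (h2 : x.2.1 = y.2.1) (h3 : x.2.2 = y.2.2) : x = y :=
  Prod.ext h1 (Prod.ext h2 h3)

variable {L}

/-- the triple `(A, B, D)` of subgroups of a `DD`-module -/
def tri (A : Submodule L.V C) (B : Submodule L.O C) (D : Submodule DD C)
    (hA : ∀ a ∈ A, a ∈ D) (hB : ∀ b ∈ B, b ∈ D) : Submodule (Lam L) (Tr L C) where
  carrier := {y | y.1 ∈ A ∧ y.2.1 ∈ B ∧ y.2.2 ∈ D}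
  add_mem' := fun ha hb => ⟨A.add_mem ha.1 hb.1, B.add_mem ha.2.1 hb.2.1, D.add_mem ha.2.2 hb.2.2⟩
  zero_mem' := ⟨A.zero_mem, B.zero_mem, D.zero_mem⟩
  smul_mem' := by
    rintro ⟨m, h1, h2, h3, h4, h5, h6⟩ y ⟨k1, k2, k3⟩
    exact ⟨A.smul_mem ⟨_, h1⟩ k1, B.smul_mem ⟨_, h2⟩ k2,
      D.add_mem (D.add_mem (D.smul_mem _ (hA _ k1)) (D.smul_mem _ (hB _ k2))) (D.smul_mem _ k3)⟩

theorem mem_tri {A : Submodule L.V C} {B : Submodule L.O C} {D : Submodule DD C}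
    {hA : ∀ a ∈ A, a ∈ D} {hB : ∀ b ∈ B, b ∈ D} {y : Tr L C} :
    y ∈ tri A B D hA hB ↔ y.1 ∈ A ∧ y.2.1 ∈ B ∧ y.2.2 ∈ D := Iff.rfl

end Tr

section Std

variable {DD : Type u} [Ring DD] (L : Line DD)

/-- `E = V ∩ O` -/
abbrev EE : Subring DD := L.V ⊓ L.O

/-- `V` as a submodule of `DD` -/
def Vs : Submodule L.V DD where
  carrier := L.V
  add_mem' := L.V.add_mem
  zero_mem' := L.V.zero_mem
  smul_mem' := fun v _ hx => L.V.mul_mem v.2 hx

/-- `x O = {y | p y ∈ O}` -/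
def Ox : Submodule L.O DD where
  carrier := {y | L.p * y ∈ L.O}
  add_mem' := fun {a b} ha hb => by
    show L.p * (a + b) ∈ L.O
    rw [mul_add]; exact L.O.add_mem ha hb
  zero_mem' := by show L.p * 0 ∈ L.O; rw [mul_zero]; exact L.O.zero_mem
  smul_mem' := fun v y hx => by
    show L.p * ((v : DD) * y) ∈ L.O
    rw [← mul_assoc, L.pc, mul_assoc]; exact L.O.mul_mem v.2 hx

/-- `p^m O` -/
def Op (m : ℕ) : Submodule L.O DD where
  carrier := {y | ∃ o ∈ L.O, y = L.p ^ m * o}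
  add_mem' := by
    rintro _ _ ⟨a, ha, rfl⟩ ⟨b, hb, rfl⟩
    exact ⟨a + b, L.O.add_mem ha hb, by rw [mul_add]⟩
  zero_mem' := ⟨0, L.O.zero_mem, by rw [mul_zero]⟩
  smul_mem' := by
    rintro v _ ⟨a, ha, rfl⟩
    refine ⟨v * a, L.O.mul_mem v.2 ha, ?_⟩
    show (v : DD) * (L.p ^ m * a) = L.p ^ m * (v * a)
    rw [← mul_assoc, ← mul_assoc, (Commute.pow_left (show Commute L.p (v : DD) from L.pc v) m).eq]

theorem mem_Vs {y : DD} : y ∈ Vs L ↔ y ∈ L.V := Iff.rfl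
theorem mem_Ox {y : DD} : y ∈ Ox L ↔ L.p * y ∈ L.O := Iff.rfl
theorem mem_Op {m : ℕ} {y : DD} : y ∈ Op L m ↔ ∃ o ∈ L.O, y = L.p ^ m * o := Iff.rfl
theorem mem_Op_zero {y : DD} : y ∈ Op L 0 ↔ y ∈ L.O := by
  rw [mem_Op]
  constructor
  · rintro ⟨o, ho, rfl⟩; simpa using ho
  · intro h; exact ⟨y, h, by simp⟩

/-- `Θ = OO(1) = (V, xO, DD)` -/
def TT : Submodule (Lam L) (Tr L DD) := tri (Vs L) (Ox L) ⊤ (fun _ _ => Submodule.mem_top)
    (fun _ _ => Submodule.mem_top)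

/-- `OO(-m) = (V, p^m O, DD)` -/
def OO (m : ℕ) : Submodule (Lam L) (Tr L DD) :=
  tri (Vs L) (Op L m) ⊤ (fun _ _ => Submodule.mem_top) (fun _ _ => Submodule.mem_top)

/-- `P0 = (V, 0, DD)` -/
def P0 : Submodule (Lam L) (Tr L DD) := tri (Vs L) ⊥ ⊤ (fun _ _ => Submodule.mem_top)
    (fun _ _ => Submodule.mem_top)

theorem mem_TT {y : Tr L DD} : y ∈ TT L ↔ y.1 ∈ L.V ∧ L.p * y.2.1 ∈ L.O :=
  ⟨fun h => ⟨h.1, h.2.1⟩, fun h => ⟨h.1, h.2, trivial⟩⟩

theorem mem_OO {m : ℕ} {y : Tr L DD} : y ∈ OO L m ↔ y.1 ∈ L.V ∧ y.2.1 ∈ Op L m :=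
  ⟨fun h => ⟨h.1, h.2.1⟩, fun h => ⟨h.1, h.2, trivial⟩⟩

theorem mem_P0 {y : Tr L DD} : y ∈ P0 L ↔ y.1 ∈ L.V ∧ y.2.1 = 0 :=
  ⟨fun h => ⟨h.1, (Submodule.mem_bot L.O).1 h.2.1⟩, fun h => ⟨h.1, (Submodule.mem_bot L.O).2 h.2, trivial⟩⟩

theorem OO_le_TT : OO L 0 ≤ TT L := by
  intro y hy
  rw [mem_OO, mem_Op_zero] at hy
  exact (mem_TT L).2 ⟨hy.1, L.O.mul_mem L.pO hy.2⟩

/-- right multiplication by an element of `DD` -/
instance trOp : SMul DDᵐᵒᵖ (Tr L DD) := ⟨fun e y => ((y.1 * unop e, y.2.1 * unop e, y.2.2 * unop e) :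
  DD × DD × DD)⟩

theorem Tr_op (e : DD) (y : Tr L DD) : op e • y = ((y.1 * e, y.2.1 * e, y.2.2 * e) : DD × DD × DD) :=
  rfl

instance trOpMod : Module DDᵐᵒᵖ (Tr L DD) where
  one_smul y := by show ((_ * 1, _ * 1, _ * 1) : DD × DD × DD) = y; simp
  mul_smul a b y := by
    show ((_ * (unop b * unop a), _ * (unop b * unop a), _ * (unop b * unop a)) : DD × DD × DD) =
      (_ * unop b * unop a, _ * unop b * unop a, _ * unop b * unop a)
    simp only [mul_assoc]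
  smul_zero a := by
    show ((0 * unop a, 0 * unop a, 0 * unop a) : DD × DD × DD) = 0
    simp
  smul_add a x y := by
    show (((x.1 + y.1) * unop a, (x.2.1 + y.2.1) * unop a, (x.2.2 + y.2.2) * unop a) :
      DD × DD × DD) = (x.1 * unop a + y.1 * unop a, x.2.1 * unop a + y.2.1 * unop a,
        x.2.2 * unop a + y.2.2 * unop a)
    simp only [add_mul]
  add_smul a b x := by
    show ((x.1 * (unop a + unop b), x.2.1 * (unop a + unop b), x.2.2 * (unop a + unop b)) :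
      DD × DD × DD) = (x.1 * unop a + x.1 * unop b, x.2.1 * unop a + x.2.1 * unop b,
        x.2.2 * unop a + x.2.2 * unop b)
    simp only [mul_add]
  zero_smul x := by
    show ((x.1 * 0, x.2.1 * 0, x.2.2 * 0) : DD × DD × DD) = 0
    simp

instance trOpComm : SMulCommClass (Lam L) DDᵐᵒᵖ (Tr L DD) where
  smul_comm m e y := by
    rw [Tr_smul]
    show ((_ * (y.1 * unop e), _ * (y.2.1 * unop e), _ * (y.1 * unop e) + _ * (y.2.1 * unop e) +
      _ * (y.2.2 * unop e)) : DD × DD × DD) =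
      ((_ * y.1) * unop e, (_ * y.2.1) * unop e, (_ * y.1 + _ * y.2.1 + _ * y.2.2) * unop e)
    simp only [mul_assoc, add_mul]

/-- a submodule of `Tr L DD` stable under right multiplication by `E` -/
def EStable (S : Submodule (Lam L) (Tr L DD)) : Prop := ∀ e ∈ EE L, ∀ y ∈ S, op e • y ∈ S

variable {L}

/-- the right `E`-module structure of an `E`-stable submodule -/
@[reducible] def eMod (S : Submodule (Lam L) (Tr L DD)) (hS : EStable L S) :
    Module (EE L)ᵐᵒᵖ S where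
  smul e y := ⟨op ((unop e : EE L) : DD) • (y : Tr L DD), hS _ (unop e).2 _ y.2⟩
  one_smul y := Subtype.ext (one_smul DDᵐᵒᵖ (y : Tr L DD))
  mul_smul a b y := Subtype.ext (by
    show op (((unop b : EE L) : DD) * ((unop a : EE L) : DD)) • (y : Tr L DD) = _
    rw [op_mul, mul_smul]; rfl)
  smul_zero a := Subtype.ext (smul_zero _)
  smul_add a x y := Subtype.ext (smul_add _ _ _)
  add_smul a b y := Subtype.ext (by
    show op (((unop a : EE L) : DD) + ((unop b : EE L) : DD)) • (y : Tr L DD) = _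
    rw [op_add, add_smul]; rfl)
  zero_smul y := Subtype.ext (by
    show op (0 : DD) • (y : Tr L DD) = 0
    rw [op_zero, zero_smul])

variable (L)

theorem eStable_TT : EStable L (TT L) := by
  intro e he y hy
  rw [mem_TT] at hy ⊢
  exact ⟨L.V.mul_mem hy.1 he.1, by
    show L.p * (y.2.1 * e) ∈ L.O
    rw [← mul_assoc]; exact L.O.mul_mem hy.2 he.2⟩

theorem eStable_OO (m : ℕ) : EStable L (OO L m) := by
  intro e he y hy
  rw [mem_OO] at hy ⊢
  obtain ⟨h1, o, ho, h2⟩ := hy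
  exact ⟨L.V.mul_mem h1 he.1, o * e, L.O.mul_mem ho he.2, by
    show y.2.1 * e = L.p ^ m * (o * e)
    rw [h2, mul_assoc]⟩

theorem eStable_P0 : EStable L (P0 L) := by
  intro e he y hy
  rw [mem_P0] at hy ⊢
  exact ⟨L.V.mul_mem hy.1 he.1, by
    show y.2.1 * e = 0
    rw [hy.2, zero_mul]⟩

instance : Module (EE L)ᵐᵒᵖ (TT L) := eMod _ (eStable_TT L)
instance (m : ℕ) : Module (EE L)ᵐᵒᵖ (OO L m) := eMod _ (eStable_OO L m)
instance : Module (EE L)ᵐᵒᵖ (P0 L) := eMod _ (eStable_P0 L)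

theorem coe_op_TT (e : EE L) (y : TT L) : ((op e • y : TT L) : Tr L DD) = op (e : DD) • (y : Tr L DD) :=
  rfl
theorem coe_op_OO (m : ℕ) (e : EE L) (y : OO L m) :
    ((op e • y : OO L m) : Tr L DD) = op (e : DD) • (y : Tr L DD) := rfl
theorem coe_op_P0 (e : EE L) (y : P0 L) : ((op e • y : P0 L) : Tr L DD) = op (e : DD) • (y : Tr L DD) :=
  rfl

instance : SMulCommClass (Lam L) (EE L)ᵐᵒᵖ (TT L) :=
  ⟨fun m e y => Subtype.ext (smul_comm m (op ((unop e : EE L) : DD)) (y : Tr L DD))⟩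
instance (m : ℕ) : SMulCommClass (Lam L) (EE L)ᵐᵒᵖ (OO L m) :=
  ⟨fun m e y => Subtype.ext (smul_comm m (op ((unop e : EE L) : DD)) (y : Tr L DD))⟩
instance : SMulCommClass (Lam L) (EE L)ᵐᵒᵖ (P0 L) :=
  ⟨fun m e y => Subtype.ext (smul_comm m (op ((unop e : EE L) : DD)) (y : Tr L DD))⟩

end Std

/-! ### components of concrete triples -/

section TriComp

variable {DD : Type u} [Ring DD] {L : Line DD} {C : Type*} [AddCommGroup C] [Module DD C]
variable {A : Submodule L.V C} {B : Submodule L.O C} {D : Submodule DD C}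
    {hA : ∀ a ∈ A, a ∈ D} {hB : ∀ b ∈ B, b ∈ D}

/-- the `V`-component of a concrete triple -/
def cA_tri : cA L (tri A B D hA hB) ≃ₗ[L.V] A where
  toFun y := ⟨((y : tri A B D hA hB) : Tr L C).1, (y : tri A B D hA hB).2.1⟩
  invFun a := ⟨⟨(((a : C), 0, 0) : C × C × C), a.2, B.zero_mem, D.zero_mem⟩, by
    rw [mem_Cmp]
    apply Subtype.ext
    show iA L 1 • (_ : Tr L C) = _
    rw [Tr_iA]; simp⟩
  map_add' _ _ := rfl
  map_smul' v y := Subtype.ext (by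
    show (iA L v • ((y : tri A B D hA hB) : Tr L C)).1 = _
    rw [Tr_iA]; rfl)
  left_inv y := Subtype.ext (Subtype.ext (by
    have h : iA L 1 • ((y : tri A B D hA hB) : Tr L C) = ((y : tri A B D hA hB) : Tr L C) :=
      congrArg Subtype.val y.2
    rw [Tr_iA] at h
    rw [← h]
    simp))
  right_inv a := rfl

/-- the `O`-component of a concrete triple -/
def cB_tri : cB L (tri A B D hA hB) ≃ₗ[L.O] B where
  toFun y := ⟨((y : tri A B D hA hB) : Tr L C).2.1, (y : tri A B D hA hB).2.2.1⟩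
  invFun a := ⟨⟨((0, (a : C), 0) : C × C × C), A.zero_mem, a.2, D.zero_mem⟩, by
    rw [mem_Cmp]
    apply Subtype.ext
    show iB L 1 • (_ : Tr L C) = _
    rw [Tr_iB]; simp⟩
  map_add' _ _ := rfl
  map_smul' v y := Subtype.ext (by
    show (iB L v • ((y : tri A B D hA hB) : Tr L C)).2.1 = _
    rw [Tr_iB]; rfl)
  left_inv y := Subtype.ext (Subtype.ext (by
    have h : iB L 1 • ((y : tri A B D hA hB) : Tr L C) = ((y : tri A B D hA hB) : Tr L C) :=
      congrArg Subtype.val y.2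
    rw [Tr_iB] at h
    rw [← h]
    simp))
  right_inv a := rfl

/-- the `DD`-component of a concrete triple -/
def cC_tri : cC L (tri A B D hA hB) ≃ₗ[DD] D where
  toFun y := ⟨((y : tri A B D hA hB) : Tr L C).2.2, (y : tri A B D hA hB).2.2.2⟩
  invFun a := ⟨⟨((0, 0, (a : C)) : C × C × C), A.zero_mem, B.zero_mem, a.2⟩, by
    rw [mem_Cmp]
    apply Subtype.ext
    show iC L 1 • (_ : Tr L C) = _
    rw [Tr_iC]; simp⟩
  map_add' _ _ := rfl
  map_smul' v y := Subtype.ext (by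
    show (iC L v • ((y : tri A B D hA hB) : Tr L C)).2.2 = _
    rw [Tr_iC]; rfl)
  left_inv y := Subtype.ext (Subtype.ext (by
    have h : iC L 1 • ((y : tri A B D hA hB) : Tr L C) = ((y : tri A B D hA hB) : Tr L C) :=
      congrArg Subtype.val y.2
    rw [Tr_iC] at h
    rw [← h]
    simp))
  right_inv a := rfl

theorem coe_cC_tri_al (y : cA L (tri A B D hA hB)) :
    (cC_tri (al L y) : C) = (cA_tri y : C) := by
  show (tA L • ((y : tri A B D hA hB) : Tr L C)).2.2 = _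
  rw [Tr_tA]; rfl

theorem coe_cC_tri_be (y : cB L (tri A B D hA hB)) :
    (cC_tri (be L y) : C) = (cB_tri y : C) := by
  show (tB L • ((y : tri A B D hA hB) : Tr L C)).2.2 = _
  rw [Tr_tB]; rfl

theorem al_cA_tri_symm (a : A) : al L ((cA_tri (B := B) (hA := hA) (hB := hB)).symm a) =
    cC_tri.symm ⟨(a : C), hA _ a.2⟩ := by
  apply cC_tri.injective
  apply Subtype.ext
  rw [coe_cC_tri_al, LinearEquiv.apply_symm_apply, LinearEquiv.apply_symm_apply]

theorem be_cB_tri_symm (a : B) : be L ((cB_tri (A := A) (hA := hA) (hB := hB)).symm a) =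
    cC_tri.symm ⟨(a : C), hB _ a.2⟩ := by
  apply cC_tri.injective
  apply Subtype.ext
  rw [coe_cC_tri_be, LinearEquiv.apply_symm_apply, LinearEquiv.apply_symm_apply]

end TriComp

end Crest.Agent.R181.VA
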