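import Crest.Agent.R181.VT495b
import Crest.Agent.R181.VA980d

/-!
# R181, V-chain, block V2: `Θ = OO(1)` is flat and full over `E`

* `flat_TT`, `flat_P0 : VA.Flat (Lam L) (EE L) _`
* `full_TT : VA.Full (Lam L) (EE L) (TT L)`
-/

set_option autoImplicit false
set_option linter.unusedSectionVars false

namespace Crest.Agent.R181.VT

open V868 VA MulOpposite

universe u

variable {DD : Type u} [Ring DD] {L : Line DD}

/-- `xO` as an additive subgroup -/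
def xO (L : Line DD) : AddSubgroup DD where
  carrier := {y | L.p * y ∈ L.O}
  add_mem' := fun {a b} ha hb => by
    show L.p * (a + b) ∈ L.O
    rw [mul_add]; exact L.O.add_mem ha hb
  zero_mem' := by show L.p * 0 ∈ L.O; rw [mul_zero]; exact L.O.zero_mem
  neg_mem' := fun {a} ha => by
    show L.p * (-a) ∈ L.O
    rw [mul_neg]; exact L.O.neg_mem ha

theorem flat_xO (h : FlatIn (EE L) L.O.toAddSubgroup) : FlatIn (EE L) (xO L) :=
  FlatIn.mul_unit (M := L.O.toAddSubgroup) (x := L.x) (p := L.p) L.xp L.px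
    (fun m hm => by
      show L.p * (L.x * m) ∈ L.O
      rw [← mul_assoc, L.px, one_mul]; exact hm)
    (fun m hm => hm) h

section Coord

variable {S : Submodule (Lam L) (Tr L DD)}

theorem sum_coe_1 {κ : Type} [Fintype κ] (f : κ → Tr L DD) : (∑ i, f i).1 = ∑ i, (f i).1 := by
  classical
  exact map_sum (⟨⟨fun y : Tr L DD => y.1, rfl⟩, fun _ _ => rfl⟩ : Tr L DD →+ DD) f _

theorem sum_coe_2 {κ : Type} [Fintype κ] (f : κ → Tr L DD) : (∑ i, f i).2.1 = ∑ i, (f i).2.1 := by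
  classical
  exact map_sum (⟨⟨fun y : Tr L DD => y.2.1, rfl⟩, fun _ _ => rfl⟩ : Tr L DD →+ DD) f _

theorem sum_coe_3 {κ : Type} [Fintype κ] (f : κ → Tr L DD) : (∑ i, f i).2.2 = ∑ i, (f i).2.2 := by
  classical
  exact map_sum (⟨⟨fun y : Tr L DD => y.2.2, rfl⟩, fun _ _ => rfl⟩ : Tr L DD →+ DD) f _

end Coord

section Comps

variable {C : Type*} [AddCommGroup C] [Module DD C]

/-- constructor for triples -/
def mk3 (L : Line DD) (a b c : C) : Tr L C := (a, b, c)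

@[simp] theorem mk3_1 (a b c : C) : (mk3 L a b c).1 = a := rfl
@[simp] theorem mk3_2 (a b c : C) : (mk3 L a b c).2.1 = b := rfl
@[simp] theorem mk3_3 (a b c : C) : (mk3 L a b c).2.2 = c := rfl

theorem iA_1 (v : L.V) (y : Tr L C) : (iA L v • y).1 = (v : DD) • y.1 := by rw [Tr_iA]
theorem iA_2 (v : L.V) (y : Tr L C) : (iA L v • y).2.1 = 0 := by rw [Tr_iA]
theorem iA_3 (v : L.V) (y : Tr L C) : (iA L v • y).2.2 = 0 := by rw [Tr_iA]
theorem iB_1 (v : L.O) (y : Tr L C) : (iB L v • y).1 = 0 := by rw [Tr_iB]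
theorem iB_2 (v : L.O) (y : Tr L C) : (iB L v • y).2.1 = (v : DD) • y.2.1 := by rw [Tr_iB]
theorem iB_3 (v : L.O) (y : Tr L C) : (iB L v • y).2.2 = 0 := by rw [Tr_iB]
theorem iC_1 (v : DD) (y : Tr L C) : (iC L v • y).1 = 0 := by rw [Tr_iC]
theorem iC_2 (v : DD) (y : Tr L C) : (iC L v • y).2.1 = 0 := by rw [Tr_iC]
theorem iC_3 (v : DD) (y : Tr L C) : (iC L v • y).2.2 = v • y.2.2 := by rw [Tr_iC]
theorem tA_1 (y : Tr L C) : (tA L • y).1 = 0 := by rw [Tr_tA]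
theorem tA_2 (y : Tr L C) : (tA L • y).2.1 = 0 := by rw [Tr_tA]
theorem tA_3 (y : Tr L C) : (tA L • y).2.2 = y.1 := by rw [Tr_tA]
theorem tB_1 (y : Tr L C) : (tB L • y).1 = 0 := by rw [Tr_tB]
theorem tB_2 (y : Tr L C) : (tB L • y).2.1 = 0 := by rw [Tr_tB]
theorem tB_3 (y : Tr L C) : (tB L • y).2.2 = y.2.1 := by rw [Tr_tB]
theorem sub_1 (x y : Tr L C) : (x - y).1 = x.1 - y.1 := rfl
theorem sub_2 (x y : Tr L C) : (x - y).2.1 = x.2.1 - y.2.1 := rfl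
theorem sub_3 (x y : Tr L C) : (x - y).2.2 = x.2.2 - y.2.2 := rfl
theorem op_1 (e : DD) (y : Tr L DD) : (op e • y).1 = y.1 * e := rfl
theorem op_2 (e : DD) (y : Tr L DD) : (op e • y).2.1 = y.2.1 * e := rfl
theorem op_3 (e : DD) (y : Tr L DD) : (op e • y).2.2 = y.2.2 * e := rfl

end Comps

section TT

variable {ι κ μ : Type} [Fintype ι] [Fintype κ] [Fintype μ]

theorem mR_TT_coe (A : Matrix ι κ (EE L)) (v : ι → TT L) (j : κ) :
    ((mR (Lam L) (TT L) A v j : TT L) : Tr L DD) = ∑ i, op (A i j : DD) • (v i : Tr L DD) := by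
  rw [mR_apply]
  rw [AddSubmonoidClass.coe_finsetSum]
  rfl

theorem mR_TT_1 (A : Matrix ι κ (EE L)) (v : ι → TT L) (j : κ) :
    ((mR (Lam L) (TT L) A v j : TT L) : Tr L DD).1 = ∑ i, (v i : Tr L DD).1 * (A i j : DD) := by
  rw [mR_TT_coe, sum_coe_1]; rfl

theorem mR_TT_2 (A : Matrix ι κ (EE L)) (v : ι → TT L) (j : κ) :
    ((mR (Lam L) (TT L) A v j : TT L) : Tr L DD).2.1 = ∑ i, (v i : Tr L DD).2.1 * (A i j : DD) := by
  rw [mR_TT_coe, sum_coe_2]; rfl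

theorem mR_TT_3 (A : Matrix ι κ (EE L)) (v : ι → TT L) (j : κ) :
    ((mR (Lam L) (TT L) A v j : TT L) : Tr L DD).2.2 = ∑ i, (v i : Tr L DD).2.2 * (A i j : DD) := by
  rw [mR_TT_coe, sum_coe_3]; rfl

theorem mR_P0_coe (A : Matrix ι κ (EE L)) (v : ι → P0 L) (j : κ) :
    ((mR (Lam L) (P0 L) A v j : P0 L) : Tr L DD) = ∑ i, op (A i j : DD) • (v i : Tr L DD) := by
  rw [mR_apply]
  rw [AddSubmonoidClass.coe_finsetSum]
  rfl

theorem mR_P0_1 (A : Matrix ι κ (EE L)) (v : ι → P0 L) (j : κ) :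
    ((mR (Lam L) (P0 L) A v j : P0 L) : Tr L DD).1 = ∑ i, (v i : Tr L DD).1 * (A i j : DD) := by
  rw [mR_P0_coe, sum_coe_1]; rfl

theorem mR_P0_3 (A : Matrix ι κ (EE L)) (v : ι → P0 L) (j : κ) :
    ((mR (Lam L) (P0 L) A v j : P0 L) : Tr L DD).2.2 = ∑ i, (v i : Tr L DD).2.2 * (A i j : DD) := by
  rw [mR_P0_coe, sum_coe_3]; rfl

end TT

theorem flat_TT (hV : FlatIn (EE L) L.V.toAddSubgroup) (hO : FlatIn (EE L) L.O.toAddSubgroup)
    (hD : FlatIn (EE L) (⊤ : AddSubgroup DD)) : VA.Flat (Lam L) (EE L) (TT L) := by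
  intro ι κ μ _ _ _ A B hAB v hv
  have hv' : ∀ j, ((mR (Lam L) (TT L) B v j : TT L) : Tr L DD) = 0 := fun j => by
    rw [hv]; rfl
  obtain ⟨w1, hw1, h1⟩ := hV ι κ μ A B hAB (fun i => (v i : Tr L DD).1)
    (fun i => ((mem_TT L).1 (v i).2).1) (fun j => by
      rw [← mR_TT_1, hv' j]; rfl)
  obtain ⟨w2, hw2, h2⟩ := flat_xO hO ι κ μ A B hAB (fun i => (v i : Tr L DD).2.1)
    (fun i => ((mem_TT L).1 (v i).2).2) (fun j => by
      rw [← mR_TT_2, hv' j]; rfl)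
  obtain ⟨w3, hw3, h3⟩ := hD ι κ μ A B hAB (fun i => (v i : Tr L DD).2.2)
    (fun i => trivial) (fun j => by
      rw [← mR_TT_3, hv' j]; rfl)
  refine ⟨fun i => ⟨(w1 i, w2 i, w3 i), (mem_TT L).2 ⟨hw1 i, hw2 i⟩⟩, ?_⟩
  funext j
  apply Subtype.ext
  apply Tr_ext
  · rw [mR_TT_1]; exact h1 j
  · rw [mR_TT_2]; exact h2 j
  · rw [mR_TT_3]; exact h3 j

theorem flat_P0 (hV : FlatIn (EE L) L.V.toAddSubgroup)
    (hD : FlatIn (EE L) (⊤ : AddSubgroup DD)) : VA.Flat (Lam L) (EE L) (P0 L) := by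
  intro ι κ μ _ _ _ A B hAB v hv
  have hv' : ∀ j, ((mR (Lam L) (P0 L) B v j : P0 L) : Tr L DD) = 0 := fun j => by
    rw [hv]; rfl
  obtain ⟨w1, hw1, h1⟩ := hV ι κ μ A B hAB (fun i => (v i : Tr L DD).1)
    (fun i => ((mem_P0 L).1 (v i).2).1) (fun j => by
      rw [← mR_P0_1, hv' j]; rfl)
  obtain ⟨w3, hw3, h3⟩ := hD ι κ μ A B hAB (fun i => (v i : Tr L DD).2.2)
    (fun i => trivial) (fun j => by
      rw [← mR_P0_3, hv' j]; rfl)
  refine ⟨fun i => ⟨(w1 i, 0, w3 i), (mem_P0 L).2 ⟨hw1 i, rfl⟩⟩, ?_⟩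
  funext j
  apply Subtype.ext
  apply Tr_ext
  · rw [mR_P0_1]; exact h1 j
  · rw [mR_P0_coe, sum_coe_2, ((mem_P0 L).1 (v j).2).2]
    refine Finset.sum_eq_zero fun i _ => ?_
    show (0 : DD) * _ = 0
    rw [zero_mul]
  · rw [mR_P0_3]; exact h3 j

/-! ### fullness -/

/-- `1_A` -/
def oneA (L : Line DD) : TT L := ⟨mk3 L 1 0 0, (mem_TT L).2 ⟨L.V.one_mem, by
  rw [mk3_2, mul_zero]; exact L.O.zero_mem⟩⟩

/-- `x_B` -/
def xB (L : Line DD) : TT L := ⟨mk3 L 0 L.x 0, (mem_TT L).2 ⟨L.V.zero_mem, by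
  rw [mk3_2, L.px]; exact L.O.one_mem⟩⟩

theorem oneA_coe : (oneA L : Tr L DD) = mk3 L 1 0 0 := rfl
theorem xB_coe : (xB L : Tr L DD) = mk3 L 0 L.x 0 := rfl

theorem eq_gen (θ : TT L) : θ = iA L ⟨(θ : Tr L DD).1, ((mem_TT L).1 θ.2).1⟩ • oneA L +
    iB L ⟨L.p * (θ : Tr L DD).2.1, ((mem_TT L).1 θ.2).2⟩ • xB L +
    iC L (θ : Tr L DD).2.2 • tA L • oneA L := by
  apply Subtype.ext
  show (θ : Tr L DD) = iA L ⟨(θ : Tr L DD).1, ((mem_TT L).1 θ.2).1⟩ • (oneA L : Tr L DD) +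
    iB L ⟨L.p * (θ : Tr L DD).2.1, ((mem_TT L).1 θ.2).2⟩ • (xB L : Tr L DD) +
    iC L (θ : Tr L DD).2.2 • tA L • (oneA L : Tr L DD)
  have h1 : (L.p * (θ : Tr L DD).2.1) * L.x = (θ : Tr L DD).2.1 := by
    rw [mul_assoc, ← L.xc, ← mul_assoc, L.px, one_mul]
  apply Tr_ext
  · rw [Tr_add_1, Tr_add_1, iA_1, iB_1, iC_1, oneA_coe, mk3_1, smul_eq_mul, mul_one, add_zero,
      add_zero]
  · rw [Tr_add_2, Tr_add_2, iA_2, iB_2, iC_2, xB_coe, mk3_2, smul_eq_mul, zero_add, add_zero, h1]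
  · rw [Tr_add_3, Tr_add_3, iA_3, iB_3, iC_3, tA_3, oneA_coe, mk3_1, smul_eq_mul, mul_one, zero_add,
      zero_add]

section Full

variable {ι κ : Type} [Fintype ι] [Fintype κ] (C : Matrix ι κ (EE L))

/-- the quotient map -/
abbrev qC : (κ → TT L) →ₗ[Lam L] ((κ → TT L) ⧸ LinearMap.range (mR (Lam L) (TT L) C)) :=
  (LinearMap.range (mR (Lam L) (TT L) C)).mkQ

theorem qC_zero_iff (x : κ → TT L) : qC C x = 0 ↔ ∃ w, mR (Lam L) (TT L) C w = x :=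
  mkQ_eq_zero_iff (M := TT L) C x

/-- `θ ↦ θ g` -/
def mg (g : κ → EE L) : TT L →ₗ[Lam L] (κ → TT L) where
  toFun θ j := op (g j) • θ
  map_add' s t := by funext j; exact smul_add _ _ _
  map_smul' m t := by
    funext j
    exact (smul_comm m (op (g j)) t).symm

theorem mg_apply (g : κ → EE L) (θ : TT L) (j : κ) : mg g θ j = op (g j) • θ := rfl

theorem eq_mg (f : TT L →ₗ[Lam L] ((κ → TT L) ⧸ LinearMap.range (mR (Lam L) (TT L) C)))
    (g : κ → EE L) (h1 : f (oneA L) = qC C (mg g (oneA L))) (h2 : f (xB L) = qC C (mg g (xB L)))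
    (θ : TT L) : f θ = qC C (mg g θ) := by
  rw [eq_gen θ]
  simp only [map_add, map_smul, h1, h2]

theorem hA1 : iA L 1 • oneA L = oneA L := Subtype.ext (by
  show iA L 1 • (oneA L : Tr L DD) = _
  apply Tr_ext
  · rw [iA_1]; exact one_mul _
  · rw [iA_2]; rfl
  · rw [iA_3]; rfl)

theorem hB1 : iB L 1 • xB L = xB L := Subtype.ext (by
  show iB L 1 • (xB L : Tr L DD) = _
  apply Tr_ext
  · rw [iB_1]; rfl
  · rw [iB_2]; exact one_mul _
  · rw [iB_3]; rfl)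

theorem hrel : iC L L.x • tA L • oneA L = tB L • xB L := Subtype.ext (by
  show iC L L.x • tA L • (oneA L : Tr L DD) = tB L • (xB L : Tr L DD)
  apply Tr_ext
  · rw [iC_1, tB_1]
  · rw [iC_2, tB_2]
  · rw [iC_3, tB_3, tA_3, oneA_coe, xB_coe, mk3_1, mk3_2, smul_eq_mul, mul_one])

/-- agreement on `1_A` -/
theorem agree_A (a' : κ → TT L) (g : κ → EE L) (v : ι → DD) (hv : ∀ i, v i ∈ L.V)
    (h1 : ∀ j, (a' j : Tr L DD).1 = g j + ∑ i, v i * (C i j : DD)) :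
    iA L 1 • qC C a' = qC C (mg g (oneA L)) := by
  rw [← map_smul, ← sub_eq_zero, ← map_sub, qC_zero_iff]
  refine ⟨fun i => ⟨mk3 L (v i) 0 0, (mem_TT L).2 ⟨hv i, by
    rw [mk3_2, mul_zero]; exact L.O.zero_mem⟩⟩, ?_⟩
  funext j
  apply Subtype.ext
  have hR : (((iA L 1 • a' - mg g (oneA L)) j : TT L) : Tr L DD) =
      iA L 1 • (a' j : Tr L DD) - op (g j : DD) • mk3 L 1 0 0 := rfl
  rw [hR]
  apply Tr_ext
  · rw [mR_TT_1, sub_1, iA_1, op_1, mk3_1, one_mul]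
    show ∑ i, v i * (C i j : DD) = (1 : DD) * (a' j : Tr L DD).1 - (g j : DD)
    rw [one_mul, h1 j]; abel
  · rw [mR_TT_2, sub_2, iA_2, op_2, mk3_2, zero_mul, sub_zero]
    exact Finset.sum_eq_zero fun i _ => zero_mul _
  · rw [mR_TT_3, sub_3, iA_3, op_3, mk3_3, zero_mul, sub_zero]
    exact Finset.sum_eq_zero fun i _ => zero_mul _

/-- agreement on `x_B` -/
theorem agree_B (b' : κ → TT L) (g : κ → EE L) (o : ι → DD) (ho : ∀ i, o i ∈ L.O)
    (h2 : ∀ j, L.p * (b' j : Tr L DD).2.1 = g j + ∑ i, o i * (C i j : DD)) :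
    iB L 1 • qC C b' = qC C (mg g (xB L)) := by
  rw [← map_smul, ← sub_eq_zero, ← map_sub, qC_zero_iff]
  refine ⟨fun i => ⟨mk3 L 0 (L.x * o i) 0, (mem_TT L).2 ⟨L.V.zero_mem, by
    rw [mk3_2, ← mul_assoc, L.px, one_mul]; exact ho i⟩⟩, ?_⟩
  funext j
  apply Subtype.ext
  have hR : (((iB L 1 • b' - mg g (xB L)) j : TT L) : Tr L DD) =
      iB L 1 • (b' j : Tr L DD) - op (g j : DD) • mk3 L 0 L.x 0 := rfl
  rw [hR]
  apply Tr_ext
  · rw [mR_TT_1, sub_1, iB_1, op_1, mk3_1, zero_mul, sub_zero]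
    exact Finset.sum_eq_zero fun i _ => zero_mul _
  · rw [mR_TT_2, sub_2, iB_2, op_2, mk3_2]
    show ∑ i, L.x * o i * (C i j : DD) = (1 : DD) * (b' j : Tr L DD).2.1 - L.x * (g j : DD)
    simp only [mul_assoc, ← Finset.mul_sum]
    have h3 : (b' j : Tr L DD).2.1 = L.x * (L.p * (b' j : Tr L DD).2.1) := by
      rw [← mul_assoc, L.xp, one_mul]
    rw [one_mul, h3, h2 j, mul_add]; abel
  · rw [mR_TT_3, sub_3, iB_3, op_3, mk3_3, zero_mul, sub_zero]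
    exact Finset.sum_eq_zero fun i _ => zero_mul _

end Full

theorem full_TT (B : RG L.V L.O) : VA.Full (Lam L) (EE L) (TT L) := by
  intro ι κ _ _ C f
  obtain ⟨a', ha'⟩ := Submodule.mkQ_surjective _ (f (oneA L))
  obtain ⟨b', hb'⟩ := Submodule.mkQ_surjective _ (f (xB L))
  have ha'' : qC C a' = f (oneA L) := ha'
  have hb'' : qC C b' = f (xB L) := hb'
  have hrel2 : qC C (iC L L.x • tA L • a' - tB L • b') = 0 := by
    rw [map_sub, map_smul, map_smul, map_smul, ha'', hb'', ← map_smul, ← map_smul, ← map_smul, hrel,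
      sub_self]
  rw [qC_zero_iff] at hrel2
  obtain ⟨w, hw⟩ := hrel2
  have hk : ∀ j, L.x * (a' j : Tr L DD).1 - (b' j : Tr L DD).2.1 =
      ∑ i, (w i : Tr L DD).2.2 * (C i j : DD) := by
    intro j
    rw [← mR_TT_3, hw]
    have hR : (((iC L L.x • tA L • a' - tB L • b') j : TT L) : Tr L DD) =
      iC L L.x • tA L • (a' j : Tr L DD) - tB L • (b' j : Tr L DD) := rfl
    rw [hR, sub_3, iC_3, tA_3, tB_3]; rfl
  obtain ⟨g, v, o, hv, ho, h1, h2⟩ := B.full_aux C (fun j => (a' j : Tr L DD).1)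
    (fun j => L.p * (b' j : Tr L DD).2.1) (fun j => ((mem_TT L).1 (a' j).2).1)
    (fun j => ((mem_TT L).1 (b' j).2).2) (fun i => L.p * (w i : Tr L DD).2.2) (fun j => by
      simp only [mul_assoc, ← Finset.mul_sum]
      rw [← hk j, mul_sub, ← mul_assoc, L.px, one_mul])
  refine ⟨g, fun θ => ?_⟩
  refine eq_mg C f g ?_ ?_ θ
  · rw [← agree_A C a' g v hv h1, ha'', ← map_smul, hA1]
  · rw [← agree_B C b' g o ho h2, hb'', ← map_smul, hB1]

end Crest.Agent.R181.VT
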