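import Crest.Agent.R181.VT495g
import Crest.Agent.R181.VT495d
import Crest.Agent.R181.VT495c
import Crest.Agent.R181.RO789b
import Crest.Agent.R181.VB789f
import Crest.Agent.R181.FR459b
import Crest.Agent.R181.FFR776b

/-!
# R181, V-chain, block V2: `V2abs`
-/

set_option autoImplicit false
set_option linter.unusedSectionVars false

namespace Crest.Agent.R181.VT

open V868 VA VB LK MulOpposite

universe u

section rg

variable {DD : Type u} [Ring DD] {L : Line DD}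

theorem unop_sum_left {J : Type u} (c : J →₀ DDᵐᵒᵖ) (g : J → DDᵐᵒᵖ) :
    (c.sum fun i e => e * g i).unop = (RB963.unopf c).sum fun i e => (g i).unop * e := by
  rw [RB963.unopf, Finsupp.sum_mapRange_index (fun _ => mul_zero _), Finsupp.sum, Finsupp.sum,
    Finset.unop_sum]
  rfl

/-- the right basis of `DD/(V+O)` from a left basis for the opposite line -/
def rgOf (B : LB L.op) : RG L.V L.O where
  I0 := B.I0
  g0 i := (B.g0 i).unop
  span0 d := by
    obtain ⟨c, hc, v, hv, o, ho, h⟩ := B.span0 (op d)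
    refine ⟨RB963.unopf c, fun i => hc i, v.unop, hv, o.unop, ho, ?_⟩
    rw [← unop_sum_left, ← unop_add, ← unop_add, ← h, unop_op]
  ind0 c hc v hv o ho h := by
    have h1 := B.ind0 (RB963.opf c) (fun i => hc i) (op v) hv (op o) ho (by
      apply unop_injective
      rw [unop_sum_left, RB963.unopf_opf]
      exact h)
    rw [← RB963.unopf_opf c, h1]
    ext i; rfl

end rg

section noeth

variable {DD : Type u} [Ring DD] {L : Line DD}

theorem coe_pO_pow (n : ℕ) : ((VB.pO L ^ n : L.O) : DD) = L.p ^ n := by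
  rw [Subring.coe_pow]; rfl

theorem noeth_O (hsep : ∀ d : DD, (∀ n : ℕ, ∃ o ∈ L.O, d = L.p ^ n * o) → d = 0)
    (hsum : ∀ a : ℕ → DD, (∀ n, a n ∈ L.O) → ∃ s ∈ L.O, ∀ N : ℕ, ∃ r ∈ L.O,
      s = ∑ n ∈ Finset.range N, L.p ^ n * a n + L.p ^ N * r)
    {Δ : Type u} [Ring Δ] [IsNoetherianRing Δ] (q : L.O →+* Δ) (hq : Function.Surjective q)
    (hqk : ∀ o, q o = 0 → ∃ o' ∈ L.O, (o : DD) = L.p * o') : IsNoetherianRing L.O := by
  refine RO.noeth_of_complete (VB.pO L) (fun r => Subtype.ext (L.pc _).symm) q hq ?_ ?_ ?_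
  · intro r hr
    obtain ⟨o', ho', h⟩ := hqk r hr
    exact ⟨⟨o', ho'⟩, Subtype.ext h⟩
  · intro a
    obtain ⟨s, hs, h⟩ := hsum (fun n => a n) (fun n => (a n).2)
    refine ⟨⟨s, hs⟩, fun N => ?_⟩
    obtain ⟨r, hr, h1⟩ := h N
    refine ⟨⟨r, hr⟩, Subtype.ext ?_⟩
    rw [Subring.coe_add, Subring.coe_mul, coe_pO_pow, AddSubmonoidClass.coe_finsetSum]
    simp only [Subring.coe_mul, coe_pO_pow]
    exact h1
  · intro f hf
    apply Subtype.ext
    apply hsep
    intro n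
    obtain ⟨r, hr⟩ := hf n
    refine ⟨r, r.2, ?_⟩
    have := congrArg Subtype.val hr
    rw [Subring.coe_mul, coe_pO_pow] at this
    exact this

end noeth

section abs

/-- **V2, abstract form**, from Step 5 -/
theorem V2abs_of (hS : ∀ {DD : Type} [Ring DD] (L : Line DD) {T : Type} [Ring T] (U : UnivT L T)
      (R : RB U), IsNoetherianRing L.O → (∀ (B : Type) [AddCommGroup B] [Module L.O B],
        Module.Finite L.O B → (∃ s : ℕ, ∀ b : B, VB.pO L ^ s • b = 0) → FR.FFR T (Fr R.ρO B)) →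
      Step5 R)
    {DD : Type} [Ring DD] (L : Line DD) {T : Type} [Ring T] (U : UnivT L T)
    (B : LB L) (B' : LB L.op)
    (hsep : ∀ d : DD, (∀ n : ℕ, ∃ o ∈ L.O, d = L.p ^ n * o) → d = 0)
    (hsum : ∀ a : ℕ → DD, (∀ n, a n ∈ L.O) → ∃ s ∈ L.O, ∀ N : ℕ, ∃ r ∈ L.O,
      s = ∑ n ∈ Finset.range N, L.p ^ n * a n + L.p ^ N * r)
    {Δ : Type} [Ring Δ] (q : L.O →+* Δ) (hq : Function.Surjective q)
    (hqk : ∀ o, q o = 0 → ∃ o' ∈ L.O, (o : DD) = L.p * o')
    (hqp : q ⟨L.p, L.pO⟩ = 0)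
    (hE : FFR.AllFFR ↥(L.V ⊓ L.O)) (hΔ : FFR.AllFFR Δ)
    (hVb : ∃ (J : Type) (j0 : J) (c : J → DD), c j0 = 1 ∧ (∀ j, c j ∈ L.V) ∧
      (∀ v ∈ L.V, ∃ e : J →₀ DD, (∀ j, e j ∈ L.V ⊓ L.O) ∧ v = e.sum fun j r => c j * r) ∧
      ∀ e : J →₀ DD, (∀ j, e j ∈ L.V ⊓ L.O) → (e.sum fun j r => c j * r) = 0 → e = 0)
    (hOb : ∃ (J : Type) (j0 : J) (c : J → DD), c j0 = 1 ∧ (∀ j, c j ∈ L.O) ∧
      (∀ o ∈ L.O, ∃ e : J →₀ DD, (∀ j, e j ∈ L.V ⊓ L.O) ∧
        ∃ o' ∈ L.O, o = (e.sum fun j r => c j * r) + L.p * o') ∧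
      ∀ e : J →₀ DD, (∀ j, e j ∈ L.V ⊓ L.O) → ∀ o' ∈ L.O,
        (e.sum fun j r => c j * r) = L.p * o' → e = 0)
    (hV : TW.AllSF L.V) : TW.AllSF T := by
  classical
  have : IsNoetherianRing (EE L) := hE.noeth
  have : IsNoetherianRing Δ := hΔ.noeth
  have hO : IsNoetherianRing L.O := noeth_O hsep hsum q hq hqk
  let R : RB U := RB963.ofOp U B' hsep
  have hinj : Function.Injective (B.φ U) := B.φ_injective U hsep
  -- flatness
  obtain ⟨J, -, c, -, hcV, hsV, hiV⟩ := hVb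
  obtain ⟨J', -, c', -, hcO, hsO, hiO⟩ := hOb
  have fV : FlatIn (EE L) L.V.toAddSubgroup :=
    FlatIn.of_basis c (fun j e he => L.V.mul_mem (hcV j) he.1) hsV hiV
  have preg : ∀ d : DD, L.p * d = 0 → d = 0 := fun d hd => by
    rw [← one_mul d, ← L.xp, mul_assoc, hd, mul_zero]
  have fO : FlatIn (EE L) L.O.toAddSubgroup :=
    FlatIn.of_complete (p := L.p) inf_le_right L.pO L.pc preg c' hcO hsO hiO hsum
      (fun f _ hf => hsep f (fun n => by
        obtain ⟨r, hr, h⟩ := hf n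
        exact ⟨r, hr, h⟩))
  have fD : FlatIn (EE L) (⊤ : AddSubgroup DD) := FlatIn.of_exhaust L.pc L.xp L.pO L.exh fO
  have hF : Flat (Lam L) (EE L) (TT L) := flat_TT fV fO fD
  have hH : Full (Lam L) (EE L) (TT L) := full_TT (rgOf B')
  -- torsion modules
  have hker : ∀ o : L.O, q o = 0 ↔ ∃ o', o = VB.pO L * o' := by
    intro o
    constructor
    · intro h
      obtain ⟨o', ho', h'⟩ := hqk o h
      exact ⟨⟨o', ho'⟩, Subtype.ext h'⟩
    · rintro ⟨o', rfl⟩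
      rw [map_mul]
      have : q (VB.pO L) = 0 := hqp
      rw [this, zero_mul]
  have hΔ' : ∀ (Y : Type) [AddCommGroup Y] [Module Δ Y], Module.Finite Δ Y → FR.FFR Δ Y :=
    fun Y _ _ hY => FR.ffr_iff.2 (hΔ.ffr Y hY)
  have h5 : Step5 R := hS L U R hO (fun B _ _ hfin ⟨s, hs⟩ => ffr_tors R hq hker hΔ' s B hfin hs)
  refine allSF_of_idem fun r e he => ?_
  let E : Matrix (Fin r) (Fin r) T := fun i j => e (Pi.single i 1) j
  have hEe : e = Matrix.vecMulLinear E := by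
    refine LinearMap.pi_ext' fun i => ?_
    refine LinearMap.ext_ring ?_
    show e (Pi.single i 1) = Matrix.vecMul (Pi.single i 1) E
    rw [Matrix.single_one_vecMul]
    rfl
  have hEE : E * E = E := by
    have h1 : ∀ y, Matrix.vecMul (Matrix.vecMul y E) E = Matrix.vecMul y E := by
      intro y
      have := he y
      rw [hEe] at this
      exact this
    ext i j
    have h2 := congrFun (h1 (Pi.single i 1)) j
    rw [Matrix.vecMul_vecMul] at h2
    simpa [Matrix.single_one_vecMul] using h2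
  rw [hEe]
  exact core R B hinj h5 hF hH (fun M _ _ hM => FR.ffr_iff.2 (hE.ffr M hM)) hV r E hEE

end abs

end Crest.Agent.R181.VT
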