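import Crest.Agent.R181.S5836b
import Crest.Agent.R181.VT495z
import Crest.Agent.R181.VP836h

/-!
R181 (helper836): the abstract V2, and S0271 from the lift theorem.
-/

set_option autoImplicit false

namespace Crest.Agent.R181.S5

open Crest.Agent.R181.TW

/-- **V2, abstract form** -/
theorem v2abs : VP.V2Abs := by
  intro DD _ L T _ U B B' hsep hsum Δ _ q hq hqk hqp hE hΔ hVb hOb hV
  refine VT.V2abs_of ?_ L U B B' hsep hsum q hq hqk hqp hE hΔ hVb hOb hV
  intro DD _ L T _ U R hn hT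
  exact step5Z R hn hT

/-- **S0271 from the lift theorem.** -/
theorem main_of_lift
    (hPO : ∀ {r : ℕ} (a : Fin (r + 1) → ℕ) (f : Fin (r + 1) → MvPolynomial (Fin (r + 1)) ℂ)
      (ha : Monotone a) (ha2 : ∀ i, 2 ≤ a i) (hf : ∀ i, (f i).IsHomogeneous (a i)),
      LiftStmt (AS.dat a f ha ha2 hf))
    (n : ℕ) (hn : 1 ≤ n) (a : Fin n → ℕ)
    (ha : Monotone a) (ha2 : ∀ i, 2 ≤ a i) (I : Ideal (MvPolynomial (Fin n) ℂ))
    (hI : ∀ g ∈ I, ∀ d : ℕ, MvPolynomial.homogeneousComponent d g ∈ I)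
    (f : Fin n → MvPolynomial (Fin n) ℂ) (hf : ∀ i, (f i).IsHomogeneous (a i)) (hfI : ∀ i, f i ∈ I)
    (hreg : RingTheory.Sequence.IsRegular (MvPolynomial (Fin n) ℂ) (List.ofFn f)) :
    KL.Concl n a I :=
  VP.main_of v2abs hPO n hn a ha ha2 I hI f hf hfI hreg

end Crest.Agent.R181.S5
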