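import Crest.Agent.R181.FR459a
import Crest.Agent.R181.PR980a

/-!
# R181 (V2x): transfer of "projectives are stably free" from `V` to summands of powers of `P`

`P` an `R`-module, `ρ : Vᵐᵒᵖ ≃+* Module.End R P`.  If every f.g. projective `V`-module is stably
free then every direct summand of a power of `P` is stably `P`-free.
-/

namespace Crest.Agent.R181.SF

open MulOpposite

universe u

section Hom

variable {R : Type u} [Ring R] {P : Type u} [AddCommGroup P] [Module R P] {V : Type u} [Ring V]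
  (ρ : Vᵐᵒᵖ ≃+* Module.End R P)

/-- `Hom_R(P, M)` as a left `V`-module -/
def HomP (_ρ : Vᵐᵒᵖ ≃+* Module.End R P) (M : Type u) [AddCommGroup M] [Module R M] : Type u :=
  P →ₗ[R] M

variable {M N : Type u} [AddCommGroup M] [Module R M] [AddCommGroup N] [Module R N]

instance : AddCommGroup (HomP ρ M) := inferInstanceAs (AddCommGroup (P →ₗ[R] M))

/-- to linear maps -/
def toL (f : HomP ρ M) : P →ₗ[R] M := f

/-- from linear maps -/
def ofL (f : P →ₗ[R] M) : HomP ρ M := f

@[simp] theorem toL_ofL (f : P →ₗ[R] M) : toL ρ (ofL ρ f) = f := rfl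
@[simp] theorem ofL_toL (f : HomP ρ M) : ofL ρ (toL ρ f) = f := rfl
@[simp] theorem toL_add (f g : HomP ρ M) : toL ρ (f + g) = toL ρ f + toL ρ g := rfl
@[simp] theorem toL_zero : toL ρ (0 : HomP ρ M) = 0 := rfl
theorem toL_sum {ι : Type*} (s : Finset ι) (F : ι → HomP ρ M) :
    toL ρ (∑ i ∈ s, F i) = ∑ i ∈ s, toL ρ (F i) := by
  classical
  induction s using Finset.induction_on with
  | empty => rfl
  | insert a s ha ih => rw [Finset.sum_insert ha, Finset.sum_insert ha, toL_add, ih]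

theorem toL_inj {f g : HomP ρ M} (h : toL ρ f = toL ρ g) : f = g := h

instance : SMul V (HomP ρ M) where
  smul v f := ofL ρ ((toL ρ f).comp (ρ (op v)))

@[simp] theorem toL_smul (v : V) (f : HomP ρ M) : toL ρ (v • f) = (toL ρ f).comp (ρ (op v)) := rfl

instance : Module V (HomP ρ M) where
  one_smul f := by
    apply toL_inj
    rw [toL_smul, op_one, map_one]; rfl
  mul_smul v w f := by
    apply toL_inj
    rw [toL_smul, toL_smul, toL_smul, op_mul, map_mul, LinearMap.comp_assoc]; rfl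
  smul_zero v := by
    apply toL_inj
    rw [toL_smul, toL_zero, LinearMap.zero_comp]
  smul_add v f g := by
    apply toL_inj
    rw [toL_smul, toL_add, LinearMap.add_comp]; rfl
  add_smul v w f := by
    apply toL_inj
    rw [toL_smul, toL_add, toL_smul, toL_smul, op_add, map_add, LinearMap.comp_add]
  zero_smul f := by
    apply toL_inj
    rw [toL_smul, op_zero, map_zero, LinearMap.comp_zero, toL_zero]

/-- functoriality -/
def mapP (g : M →ₗ[R] N) : HomP ρ M →ₗ[V] HomP ρ N where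
  toFun f := ofL ρ (g.comp (toL ρ f))
  map_add' f f' := by apply toL_inj; simp [LinearMap.comp_add]
  map_smul' v f := by apply toL_inj; simp [LinearMap.comp_assoc]

@[simp] theorem toL_mapP (g : M →ₗ[R] N) (f : HomP ρ M) : toL ρ (mapP ρ g f) = g.comp (toL ρ f) := rfl

/-- isomorphisms -/
def mapPEquiv (e : M ≃ₗ[R] N) : HomP ρ M ≃ₗ[V] HomP ρ N :=
  LinearEquiv.ofLinearMap (mapP ρ e.toLinearMap) (mapP ρ e.symm.toLinearMap)
    (by ext f; apply toL_inj; ext x; simp)
    (by ext f; apply toL_inj; ext x; simp)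

/-- products -/
def prodP : HomP ρ (M × N) ≃ₗ[V] (HomP ρ M × HomP ρ N) where
  toFun f := (ofL ρ ((LinearMap.fst R M N).comp (toL ρ f)), ofL ρ ((LinearMap.snd R M N).comp (toL ρ f)))
  map_add' f f' := by
    apply Prod.ext <;> apply toL_inj <;> simp [LinearMap.comp_add]
  map_smul' v f := by
    apply Prod.ext <;> apply toL_inj <;> simp [LinearMap.comp_assoc]
  invFun f := ofL ρ ((toL ρ f.1).prod (toL ρ f.2))
  left_inv f := by
    apply toL_inj; ext x <;> simp
  right_inv f := by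
    apply Prod.ext <;> apply toL_inj <;> ext x <;> simp

/-- `Hom(P, P^k) = V^k` -/
def powP (k : ℕ) : HomP ρ (Fin k → P) ≃ₗ[V] (Fin k → V) where
  toFun f := fun j => unop (ρ.symm ((LinearMap.proj j).comp (toL ρ f)))
  map_add' f f' := by
    ext j
    simp [LinearMap.comp_add]
  map_smul' v f := by
    ext j
    have h1 : (LinearMap.proj j : (Fin k → P) →ₗ[R] P).comp ((toL ρ f).comp (ρ (op v))) =
        ((LinearMap.proj j).comp (toL ρ f) : Module.End R P) * ρ (op v) := rfl
    rw [toL_smul, h1, map_mul, RingEquiv.symm_apply_apply, unop_mul]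
    rfl
  invFun v := ofL ρ (LinearMap.pi fun j => ρ (op (v j)))
  left_inv f := by
    apply toL_inj
    ext x j
    simp
  right_inv v := by
    ext j
    have h1 : (LinearMap.proj j : (Fin k → P) →ₗ[R] P).comp
        (LinearMap.pi fun j => (ρ (op (v j)) : P →ₗ[R] P)) = ρ (op (v j)) := by
      ext x; simp
    simp only [toL_ofL]
    rw [h1, RingEquiv.symm_apply_apply, unop_op]

/-- every `V`-linear map `Hom(P,X) → Hom(P,Y)` comes from `X → Y` if `X` is a summand of `P^k` -/
theorem exists_map {X Y X' : Type u} [AddCommGroup X] [Module R X] [AddCommGroup Y] [Module R Y]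
    [AddCommGroup X'] [Module R X'] {k : ℕ} (e : (X × X') ≃ₗ[R] (Fin k → P))
    (α : HomP ρ X →ₗ[V] HomP ρ Y) : ∃ g : X →ₗ[R] Y, ∀ f, toL ρ (α f) = g.comp (toL ρ f) := by
  classical
  let i : Fin k → X →ₗ[R] P := fun j =>
    (LinearMap.proj j).comp (e.toLinearMap.comp (LinearMap.inl R X X'))
  let p : Fin k → P →ₗ[R] X := fun j =>
    (LinearMap.fst R X X').comp (e.symm.toLinearMap.comp (LinearMap.single R (fun _ => P) j))
  have hpi : ∀ x : X, ∑ j, p j (i j x) = x := by
    intro x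
    have h1 : ∑ j, Pi.single (M := fun _ : Fin k => P) j (e (x, 0) j) = e (x, 0) :=
      Finset.univ_sum_single _
    have h2 : ∑ j, p j (i j x) = (e.symm (∑ j, Pi.single (M := fun _ : Fin k => P) j (e (x, 0) j))).1 := by
      rw [map_sum, Prod.fst_sum]
      rfl
    rw [h2, h1, LinearEquiv.symm_apply_apply]
  refine ⟨∑ j, (toL ρ (α (ofL ρ (p j)))).comp (i j), ?_⟩
  intro f
  have h1 : f = ∑ j, (unop (ρ.symm ((i j).comp (toL ρ f)))) • ofL ρ (p j) := by
    apply toL_inj
    have h2 : toL ρ (∑ j, (unop (ρ.symm ((i j).comp (toL ρ f)))) • ofL ρ (p j)) =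
        ∑ j, toL ρ ((unop (ρ.symm ((i j).comp (toL ρ f)))) • ofL ρ (p j)) :=
      toL_sum ρ _ _
    rw [h2]
    ext x
    rw [LinearMap.sum_apply]
    conv_lhs => rw [← hpi (toL ρ f x)]
    apply Finset.sum_congr rfl
    intro j _
    rw [toL_smul, op_unop, RingEquiv.apply_symm_apply]
    rfl
  conv_lhs => rw [h1]
  rw [map_sum]
  have h2 : toL ρ (∑ j, α ((unop (ρ.symm ((i j).comp (toL ρ f)))) • ofL ρ (p j))) =
      ∑ j, toL ρ (α ((unop (ρ.symm ((i j).comp (toL ρ f)))) • ofL ρ (p j))) :=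
    toL_sum ρ _ _
  rw [h2]
  ext x
  rw [LinearMap.sum_apply, LinearMap.comp_apply, LinearMap.sum_apply]
  apply Finset.sum_congr rfl
  intro j _
  rw [map_smul, toL_smul, op_unop, RingEquiv.apply_symm_apply]
  rfl

/-- `Hom(P, -)` is faithful on summands of powers of `P` -/
theorem eq_of_comp {X Y X' : Type u} [AddCommGroup X] [Module R X] [AddCommGroup Y] [Module R Y]
    [AddCommGroup X'] [Module R X'] {k : ℕ} (e : (X × X') ≃ₗ[R] (Fin k → P))
    {g g' : X →ₗ[R] Y} (h : ∀ f : P →ₗ[R] X, g.comp f = g'.comp f) : g = g' := by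
  classical
  ext x
  have h1 : ∑ j, Pi.single (M := fun _ : Fin k => P) j (e (x, 0) j) = e (x, 0) :=
    Finset.univ_sum_single _
  have h2 : x = ∑ j, (LinearMap.fst R X X').comp (e.symm.toLinearMap.comp
      (LinearMap.single R (fun _ => P) j)) (e (x, 0) j) := by
    have h3 : (∑ j, (LinearMap.fst R X X').comp (e.symm.toLinearMap.comp
        (LinearMap.single R (fun _ => P) j)) (e (x, 0) j)) =
        (e.symm (∑ j, Pi.single (M := fun _ : Fin k => P) j (e (x, 0) j))).1 := by
      rw [map_sum, Prod.fst_sum]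
      rfl
    rw [h3, h1, LinearEquiv.symm_apply_apply]
  rw [h2, map_sum, map_sum]
  apply Finset.sum_congr rfl
  intro j _
  exact LinearMap.congr_fun (h _) _

/-- `Hom(P, -)` reflects isomorphisms on summands of powers of `P` -/
theorem exists_equiv {X Y X' Y' : Type u} [AddCommGroup X] [Module R X] [AddCommGroup Y]
    [Module R Y] [AddCommGroup X'] [Module R X'] [AddCommGroup Y'] [Module R Y'] {k l : ℕ}
    (e : (X × X') ≃ₗ[R] (Fin k → P)) (e' : (Y × Y') ≃ₗ[R] (Fin l → P))
    (α : HomP ρ X ≃ₗ[V] HomP ρ Y) : Nonempty (X ≃ₗ[R] Y) := by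
  obtain ⟨g, hg⟩ := exists_map ρ e α.toLinearMap
  obtain ⟨h, hh⟩ := exists_map ρ e' α.symm.toLinearMap
  refine ⟨LinearEquiv.ofLinearMap g h ?_ ?_⟩
  · apply eq_of_comp e'
    intro f
    have h1 := hh (ofL ρ f)
    have h2 := hg (α.symm (ofL ρ f))
    simp only [LinearEquiv.coe_coe, LinearEquiv.apply_symm_apply, toL_ofL] at h1 h2
    rw [LinearMap.comp_assoc, ← h1, ← h2]
    rfl
  · apply eq_of_comp e
    intro f
    have h1 := hg (ofL ρ f)
    have h2 := hh (α (ofL ρ f))
    simp only [LinearEquiv.coe_coe, LinearEquiv.symm_apply_apply, toL_ofL] at h1 h2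
    rw [LinearMap.comp_assoc, ← h1, ← h2]
    rfl

end Hom

/-- **(V2x)** -/
theorem sumFree {R : Type u} [Ring R] {P : Type u} [AddCommGroup P] [Module R P] {V : Type u}
    [Ring V] (ρ : Vᵐᵒᵖ ≃+* Module.End R P)
    (hV : ∀ (Q : Type u) [AddCommGroup Q] [Module V Q], Module.Finite V Q →
      Module.Projective V Q → FR.StFree V Q) : PR.SumFree R P := by
  intro M N _ _ _ _ k ⟨e⟩
  have e1 : (HomP ρ M × HomP ρ N) ≃ₗ[V] (Fin k → V) :=
    (prodP ρ).symm.trans ((mapPEquiv ρ e).trans (powP ρ k))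
  have hfin : Module.Finite V (HomP ρ M) :=
    Module.Finite.of_surjective ((LinearMap.fst V (HomP ρ M) (HomP ρ N)).comp e1.symm.toLinearMap)
      (fun x => ⟨e1 (x, 0), by simp⟩)
  have hproj : Module.Projective V (HomP ρ M) :=
    Module.Projective.of_split
      (e1.toLinearMap.comp (LinearMap.inl V (HomP ρ M) (HomP ρ N)))
      ((LinearMap.fst V (HomP ρ M) (HomP ρ N)).comp e1.symm.toLinearMap) (by ext x; simp)
  obtain ⟨m, n, ⟨f⟩⟩ := hV _ hfin hproj
  refine ⟨m, n, ?_⟩
  have e2 : HomP ρ (M × (Fin m → P)) ≃ₗ[V] HomP ρ (Fin n → P) := by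
    have a1 : (HomP ρ M × HomP ρ (Fin m → P)) ≃ₗ[V] (HomP ρ M × (Fin m → V)) :=
      LinearEquiv.prodCongr (LinearEquiv.refl V _) (powP ρ m)
    exact (prodP ρ).trans (a1.trans (f.trans (powP ρ n).symm))
  have e3 : ((M × (Fin m → P)) × N) ≃ₗ[R] (Fin (k + m) → P) := by
    have a1 : ((M × (Fin m → P)) × N) ≃ₗ[R] ((M × N) × (Fin m → P)) :=
      { toFun := fun x => ((x.1.1, x.2), x.1.2)
        invFun := fun x => ((x.1.1, x.2), x.1.2)
        map_add' := fun _ _ => rfl
        map_smul' := fun _ _ => rfl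
        left_inv := fun _ => rfl
        right_inv := fun _ => rfl }
    have a2 : ((M × N) × (Fin m → P)) ≃ₗ[R] ((Fin k → P) × (Fin m → P)) :=
      LinearEquiv.prodCongr e (LinearEquiv.refl R _)
    exact a1.trans (a2.trans (PR.powProd R P k m))
  have e4 : ((Fin n → P) × (Fin 0 → P)) ≃ₗ[R] (Fin (n + 0) → P) := PR.powProd R P n 0
  exact exists_equiv ρ e3 e4 e2

end Crest.Agent.R181.SF
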