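import Crest.Agent.R181.TW825a
import Crest.Agent.R181.MKS659a
import Crest.Agent.R181.FFR776c
import Crest.Agent.R181.FR459b
import Crest.Agent.R181.V3386a

/-!
R181 (helper681): transport of module properties along an isomorphism of rings `e : R ≃+* S`.
-/

set_option autoImplicit false
set_option linter.unusedSectionVars false

namespace Crest.Agent.R181.SM

variable {R S : Type} [Ring R] [Ring S] (e : R ≃+* S)

section Basic

variable {M N : Type} [AddCommGroup M] [Module R M] [AddCommGroup N] [Module S N]

/-- the semilinear map of a compatible additive map -/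
def semiMap (φ : M →+ N) (hφ : ∀ (r : R) (m : M), φ (r • m) = e r • φ m) :
    M →ₛₗ[(e : R →+* S)] N :=
  { φ with map_smul' := fun r m => hφ r m }

theorem finite_of (φ : M ≃+ N) (hφ : ∀ (r : R) (m : M), φ (r • m) = e r • φ m)
    (h : Module.Finite R M) : Module.Finite S N :=
  Module.Finite.of_surjective (semiMap e (φ : M →+ N) hφ) φ.surjective

theorem projective_of (φ : M ≃+ N) (hφ : ∀ (r : R) (m : M), φ (r • m) = e r • φ m)
    (h : Module.Projective R M) : Module.Projective S N := by
  haveI := RingHomInvPair.of_ringEquiv e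
  haveI := RingHomInvPair.of_ringEquiv e.symm
  let φ' : M ≃ₛₗ[(e : R →+* S)] N := { φ with map_smul' := fun r m => hφ r m }
  exact Module.Projective.of_equiv φ'

theorem stFree_of (φ : M ≃+ N) (hφ : ∀ (r : R) (m : M), φ (r • m) = e r • φ m)
    (h : FR.StFree R M) : FR.StFree S N :=
  FR.stFree_iff.2 (FFR.StFree.transport e φ hφ (FR.stFree_iff.1 h))

theorem ffr_of (φ : M ≃+ N) (hφ : ∀ (r : R) (m : M), φ (r • m) = e r • φ m)
    (h : FR.FFR R M) : FR.FFR S N :=
  FR.ffr_iff.2 (FFR.FFR.transport e φ hφ (FR.ffr_iff.1 h))

/-- **transport principle**: to prove a statement about all `S`-modules -/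
theorem exists_back (N : Type) [AddCommGroup N] [Module S N] :
    ∃ (_ : Module R N), ∀ (r : R) (m : N), r • m = e r • m :=
  ⟨Module.compHom N (e : R →+* S), fun _ _ => rfl⟩

end Basic

include e in
theorem AllSF.congr (h : TW.AllSF R) : TW.AllSF S := by
  intro P _ _ hf hp
  obtain ⟨_, hs⟩ := exists_back e P
  have hs' : ∀ (s : S) (m : P), AddEquiv.refl P (s • m) = e.symm s • AddEquiv.refl P m := by
    intro s m
    show s • m = e.symm s • m
    rw [hs, e.apply_symm_apply]
  exact stFree_of e (AddEquiv.refl P) hs
    (h P (finite_of e.symm (AddEquiv.refl P) hs' hf) (projective_of e.symm (AddEquiv.refl P) hs' hp))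

include e in
theorem AllStFree.congr (h : MKS.AllStFree R) : MKS.AllStFree S :=
  AllSF.congr e h

include e in
theorem Good.congr (h : V3.Good R) : V3.Good S := by
  intro P _ _ hf
  obtain ⟨_, hs⟩ := exists_back e P
  have hs' : ∀ (s : S) (m : P), AddEquiv.refl P (s • m) = e.symm s • AddEquiv.refl P m := by
    intro s m
    show s • m = e.symm s • m
    rw [hs, e.apply_symm_apply]
  have := finite_of e.symm (AddEquiv.refl P) hs' hf
  exact ffr_of e (AddEquiv.refl P) hs (h P)

include e in
/-- transport of a submodule of a free module -/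
theorem Hered.congr (h : TW.Hered R) : TW.Hered S := by
  intro k N
  let φ : (Fin k → R) ≃+ (Fin k → S) := AddEquiv.piCongrRight fun _ => e.toAddEquiv
  have hφ : ∀ (r : R) (m : Fin k → R), φ (r • m) = e r • φ m := by
    intro r m
    funext i
    show e (r * m i) = e r * e (m i)
    rw [map_mul]
  let N' : Submodule R (Fin k → R) := N.comap (semiMap e (φ : (Fin k → R) →+ (Fin k → S)) hφ)
  let ψ : N' ≃+ N :=
    { toFun := fun x => ⟨φ x.1, x.2⟩
      invFun := fun x => ⟨φ.symm x.1, by
        show φ (φ.symm x.1) ∈ N
        rw [φ.apply_symm_apply]; exact x.2⟩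
      left_inv := fun x => Subtype.ext (φ.symm_apply_apply _)
      right_inv := fun x => Subtype.ext (φ.apply_symm_apply _)
      map_add' := fun x y => Subtype.ext (map_add φ _ _) }
  exact projective_of e ψ (fun r m => Subtype.ext (hφ r m.1)) (h k N')

include e in
theorem PosModel.congr (h : TW.PosModel R) : TW.PosModel S := by
  obtain ⟨s, E, _, ψ, hs, hψ⟩ := h
  refine ⟨s, E, _, ψ.comp (e.symm : S →+* R), hs, fun m A hA h0 => ?_⟩
  have h1 := hψ m (A.map (e.symm : S →+* R)) (by
    rw [← Matrix.map_mul, hA]) (by
    rw [Matrix.map_map]; exact h0)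
  ext i j
  have := congrFun (congrFun h1 i) j
  exact (map_eq_zero_iff _ e.symm.injective).1 this

theorem UnivLoc.congr {D : Type} [Ring D] {φ : R →+* D} (h : TW.UnivLoc φ) :
    TW.UnivLoc (φ.comp (e.symm : S →+* R)) where
  lift := by
    intro X _ ψ hψ
    obtain ⟨f, hf⟩ := h.lift (ψ.comp (e : R →+* S)) (by
      intro m A hA
      have := hψ m (A.map (e : R →+* S)) (by
        convert hA using 1
        ext i j
        simp)
      rw [Matrix.map_map] at this
      exact this)
    refine ⟨f, ?_⟩
    rw [← RingHom.comp_assoc, hf]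
    ext x
    simp
  ext := by
    intro X _ f g hfg
    refine h.ext f g ?_
    ext x
    have := RingHom.congr_fun hfg (e x)
    simpa using this

include e in
theorem isStablyFiniteRing_congr (h : IsStablyFiniteRing R) : IsStablyFiniteRing S :=
  IsStablyFiniteRing.of_injective e.symm e.symm.injective

include e in
theorem isNoetherianRing_congr (h : IsNoetherianRing R) : IsNoetherianRing S :=
  isNoetherianRing_of_ringEquiv R e

end Crest.Agent.R181.SM
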