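import Crest.Agent.R181.UR396b

/-!
# R181, V-chain, START of the induction (level 0)

`U` with no variables (`σ` empty, `D = F`): `U` is commutative and every regular element of `L`
is regular on `U` (in particular `X` on `T₁^h`, `L = F[X]`), `L → U` is injective.
-/

set_option autoImplicit false
set_option linter.unusedSectionVars false

namespace Crest.Agent.R181.ST

open AddMonoidAlgebra Crest.Agent.R181.UR

noncomputable section

/-! ## the tower of monic extensions -/

section Tower

variable {L I : Type} [CommRing L] [Fintype I] [LinearOrder I]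

/-- universal commutative `L`-algebra with roots of the triangular relations indexed by `S` -/
structure Stage (a : I → ℕ) (c : I → L) (t : I → I → L) (S : Finset I) where
  B : Type
  [ring : CommRing B]
  τ : L →+* B
  e : I → B
  rel : ∀ l ∈ S, e l ^ a l = τ (c l) + ∑ m ∈ S, τ (t l m) * e m ^ a l
  reg : ∀ x : L, x ∈ nonZeroDivisors L → τ x ∈ nonZeroDivisors B
  inj : Function.Injective τ
  univ : ∀ (C : Type) [CommRing C] (ψ : L →+* C) (e' : I → C),
    (∀ l ∈ S, e' l ^ a l = ψ (c l) + ∑ m ∈ S, ψ (t l m) * e' m ^ a l) →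
    ∃ f : B →+* C, (∀ x, f (τ x) = ψ x) ∧ ∀ l ∈ S, f (e l) = e' l

attribute [instance] Stage.ring

theorem of_mem_nonZeroDivisors_adjoinRoot {B : Type} [CommRing B] (f : Polynomial B)
    (hf : f.Monic) (x : B) (hx : x ∈ nonZeroDivisors B) :
    AdjoinRoot.of f x ∈ nonZeroDivisors (AdjoinRoot f) := by
  rw [mem_nonZeroDivisors_iff_right]
  intro y hy
  let b := (AdjoinRoot.powerBasis' hf).basis
  apply b.repr.injective
  rw [map_zero]
  ext i
  have h1 : x • y = 0 := by
    rw [Algebra.smul_def, AdjoinRoot.algebraMap_eq, mul_comm]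
    exact hy
  have h2 := DFunLike.congr_fun (congrArg b.repr h1) i
  rw [map_smul, map_zero, Finsupp.smul_apply, smul_eq_mul] at h2
  have h3 := (mem_nonZeroDivisors_iff_right.1 hx) (b.repr y i) (by rw [mul_comm]; exact h2)
  rw [h3]; rfl

theorem of_injective_adjoinRoot {B : Type} [CommRing B] (f : Polynomial B)
    (hf : f.Monic) (hd : f.natDegree ≠ 0) : Function.Injective (AdjoinRoot.of f) := by
  rw [injective_iff_map_eq_zero]
  intro x hx
  have h1 : (AdjoinRoot.mk f) (Polynomial.C x) = 0 := hx
  rw [AdjoinRoot.mk_eq_zero] at h1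
  by_contra hne
  refine hf.not_dvd_of_natDegree_lt (q := Polynomial.C x) (by simpa using hne) ?_ h1
  rw [Polynomial.natDegree_C]
  omega

theorem exists_stage (a : I → ℕ) (ha : ∀ i, a i ≠ 0) (c : I → L) (t : I → I → L)
    (ht : ∀ i l, ¬ i < l → t i l = 0) (S : Finset I) : Nonempty (Stage a c t S) := by
  classical
  refine Finset.induction_on_min S ?_ ?_
  · exact ⟨{ B := L, τ := RingHom.id L, e := fun _ => 0, rel := by simp, reg := fun x hx => hx,
             inj := Function.injective_id,
             univ := fun C _ ψ e' _ => ⟨ψ, fun _ => rfl, by simp⟩ }⟩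
  · intro i S hi ih
    obtain ⟨st⟩ := ih
    have hiS : i ∉ S := fun h => lt_irrefl _ (hi i h)
    let p : Polynomial st.B := Polynomial.X ^ a i -
      Polynomial.C (st.τ (c i) + ∑ m ∈ S, st.τ (t i m) * st.e m ^ a i)
    have hp : p.Monic := Polynomial.monic_X_pow_sub_C _ (ha i)
    have hdeg : ∀ [Nontrivial st.B], p.natDegree = a i := fun {_} =>
      Polynomial.natDegree_X_pow_sub_C
    let e' : I → AdjoinRoot p := fun l => if l = i then AdjoinRoot.root p else AdjoinRoot.of p (st.e l)
    have he'i : e' i = AdjoinRoot.root p := if_pos rfl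
    have he'S : ∀ l ∈ S, e' l = AdjoinRoot.of p (st.e l) := fun l hl =>
      if_neg fun (h : l = i) => hiS (h ▸ hl)
    have hroot : AdjoinRoot.root p ^ a i =
        AdjoinRoot.of p (st.τ (c i) + ∑ m ∈ S, st.τ (t i m) * st.e m ^ a i) := by
      have h1 : Polynomial.eval₂ (AdjoinRoot.of p) (AdjoinRoot.root p) p = 0 :=
        AdjoinRoot.eval₂_root p
      simp only [p, Polynomial.eval₂_sub, Polynomial.eval₂_pow, Polynomial.eval₂_X,
        Polynomial.eval₂_C] at h1
      exact sub_eq_zero.1 h1
    refine ⟨{ B := AdjoinRoot p, τ := (AdjoinRoot.of p).comp st.τ, e := e', rel := ?_, reg := ?_,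
              inj := ?_, univ := ?_ }⟩
    · intro l hl
      rcases Finset.mem_insert.1 hl with rfl | hl
      · rw [he'i, hroot, Finset.sum_insert hiS, ht l l (lt_irrefl _), map_zero, zero_mul, zero_add,
          map_add, map_sum]
        congr 1
        refine Finset.sum_congr rfl fun m hm => ?_
        rw [he'S m hm, map_mul, map_pow]; rfl
      · rw [he'S l hl, Finset.sum_insert hiS, ht l i (not_lt.2 (hi l hl).le), map_zero, zero_mul,
          zero_add, ← map_pow, st.rel l hl, map_add, map_sum]
        congr 1
        refine Finset.sum_congr rfl fun m hm => ?_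
        rw [he'S m hm, map_mul, map_pow]; rfl
    · intro x hx
      exact of_mem_nonZeroDivisors_adjoinRoot p hp _ (st.reg x hx)
    · rcases subsingleton_or_nontrivial st.B with h | h
      · have : Subsingleton L := st.inj.subsingleton
        exact Function.injective_of_subsingleton _
      · exact (of_injective_adjoinRoot p hp (by rw [hdeg]; exact ha i)).comp st.inj
    · intro C _ ψ e'' hrel
      obtain ⟨f, hf1, hf2⟩ := st.univ C ψ e'' (fun l hl => by
        have := hrel l (Finset.mem_insert_of_mem hl)
        rwa [Finset.sum_insert hiS, ht l i (not_lt.2 (hi l hl).le), map_zero, zero_mul,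
          zero_add] at this)
      have hev : Polynomial.eval₂ f (e'' i) p = 0 := by
        simp only [p, Polynomial.eval₂_sub, Polynomial.eval₂_pow, Polynomial.eval₂_X,
          Polynomial.eval₂_C]
        have := hrel i (Finset.mem_insert_self _ _)
        rw [Finset.sum_insert hiS, ht i i (lt_irrefl _), map_zero, zero_mul, zero_add] at this
        rw [this, map_add, hf1, map_sum, sub_eq_zero]
        congr 1
        refine Finset.sum_congr rfl fun m hm => ?_
        rw [map_mul, map_pow, hf1, hf2 m hm]
      refine ⟨AdjoinRoot.lift f (e'' i) hev, fun x => ?_, fun l hl => ?_⟩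
      · show AdjoinRoot.lift f (e'' i) hev (AdjoinRoot.of p (st.τ x)) = _
        rw [AdjoinRoot.lift_of, hf1]
      · rcases Finset.mem_insert.1 hl with rfl | hl
        · rw [he'i, AdjoinRoot.lift_root]
        · rw [he'S l hl, AdjoinRoot.lift_of, hf2 l hl]

end Tower

end

end Crest.Agent.R181.ST
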