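import Crest.Agent.R181.QL68
import Crest.Agent.R181.AS6
import Crest.Agent.R181.LC598a

/-!
# The parameters of the tower over the concrete field: coaction, twists, roots of unity

`AS.twD`: `Fld (r + 1)` is the field of fractions of `Λ = ℂ[c, cc, θ]`, with the coaction
`θ_il ↦ θ_il X_l ^ a_i`.
-/

set_option autoImplicit false
set_option linter.unusedSectionVars false

namespace Crest.Agent.R181.AS

open Crest.Agent.R181.QL

noncomputable section

variable {r : ℕ}

/-- the primitive root of unity of order `a (l + 1)` in `ℂ` -/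
def zC (a : Fin (r + 1) → ℕ) (l : Fin r) : ℂ := Complex.exp (2 * Real.pi * Complex.I / a l.succ)

theorem isPrimitiveRoot_zC (a : Fin (r + 1) → ℕ) (ha2 : ∀ i, 2 ≤ a i) (l : Fin r) :
    IsPrimitiveRoot (zC a l) (a l.succ) :=
  Complex.isPrimitiveRoot_exp _ (by have := ha2 l.succ; omega)

/-- the roots of unity in the field -/
def om (a : Fin (r + 1) → ℕ) (l : Fin r) : Fld (r + 1) := algebraMap ℂ (Fld (r + 1)) (zC a l)

theorem isPrimitiveRoot_om (a : Fin (r + 1) → ℕ) (ha2 : ∀ i, 2 ≤ a i) (l : Fin r) :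
    IsPrimitiveRoot (om a l) (a l.succ) :=
  (isPrimitiveRoot_zC a ha2 l).map_of_injective (algebraMap ℂ (Fld (r + 1))).injective

theorem om_pow (a : Fin (r + 1) → ℕ) (ha2 : ∀ i, 2 ≤ a i) (l : Fin r) :
    om a l ^ a l.succ = 1 := (isPrimitiveRoot_om a ha2 l).pow_eq_one

/-- the monomial of `θ_il` -/
def mon (a : Fin (r + 1) → ℕ) (i l : Fin (r + 1)) : MvPolynomial (Fin r) (Lam (r + 1)) :=
  Fin.cases 1 (fun l => MvPolynomial.X l ^ a i) l

@[simp] theorem mon_succ (a : Fin (r + 1) → ℕ) (i : Fin (r + 1)) (l : Fin r) :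
    mon a i l.succ = MvPolynomial.X l ^ a i := rfl

@[simp] theorem mon_zero (a : Fin (r + 1) → ℕ) (i : Fin (r + 1)) : mon a i 0 = 1 := rfl

/-- the coaction -/
def coΔ (a : Fin (r + 1) → ℕ) : Lam (r + 1) →+* MvPolynomial (Fin r) (Lam (r + 1)) :=
  MvPolynomial.eval₂Hom (MvPolynomial.C.comp MvPolynomial.C)
    (Sum.elim (fun i => MvPolynomial.C (MvPolynomial.X (Sum.inl i)))
      (Sum.elim (fun p => MvPolynomial.C (MvPolynomial.X (Sum.inr (Sum.inl p))))
        (fun q => MvPolynomial.C (MvPolynomial.X (Sum.inr (Sum.inr q))) * mon a q.1 q.2)))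

theorem coΔ_C (a : Fin (r + 1) → ℕ) (z : ℂ) :
    coΔ a (MvPolynomial.C z) = MvPolynomial.C (MvPolynomial.C z) := by
  simp [coΔ]

theorem coΔ_cL (a : Fin (r + 1) → ℕ) (i : Fin (r + 1)) : coΔ a (cL i) = MvPolynomial.C (cL i) := by
  simp [coΔ, cL]

theorem coΔ_ccL (a : Fin (r + 1) → ℕ) (i j v : Fin (r + 1)) :
    coΔ a (ccL i j v) = MvPolynomial.C (ccL i j v) := by
  simp [coΔ, ccL]

theorem coΔ_thL (a : Fin (r + 1) → ℕ) (i l : Fin (r + 1)) :
    coΔ a (thL i l) = MvPolynomial.C (thL i l) * mon a i l := by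
  unfold thL
  split
  · simp [coΔ]
  · simp

/-- the twist of `Λ` by roots of unity is the coaction evaluated -/
theorem algebraMap_tw (a : Fin (r + 1) → ℕ) (e : Fin r → ℂ) (x : Lam (r + 1)) :
    algebraMap (Lam (r + 1)) (Fld (r + 1)) (tw (fun i l => Fin.cases 1 (fun l => e l ^ a i) l) x) =
      MvPolynomial.eval (fun l => algebraMap ℂ (Fld (r + 1)) (e l))
        (MvPolynomial.map (algebraMap (Lam (r + 1)) (Fld (r + 1))) (coΔ a x)) := by
  induction x using MvPolynomial.induction_on with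
  | C z =>
    rw [coΔ_C, MvPolynomial.map_C, MvPolynomial.eval_C]
    congr 1
    exact AlgHom.commutes _ z
  | add p q hp hq => simp only [map_add, hp, hq]
  | mul_X p w hp =>
    rw [map_mul, map_mul, map_mul, map_mul, map_mul, hp]
    congr 1
    rcases w with i | p | ⟨i, l⟩
    · simp [tw, coΔ]
    · simp [tw, coΔ]
    · refine Fin.cases ?_ (fun l => ?_) l
      · simp [tw, coΔ]
      · simp only [tw, MvPolynomial.aeval_X, Sum.elim_inr, Fin.cases_succ, map_mul, map_pow, coΔ,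
          MvPolynomial.coe_eval₂Hom, MvPolynomial.eval₂_X, mon_succ, MvPolynomial.map_C,
          MvPolynomial.map_X, MvPolynomial.eval_C, MvPolynomial.eval_X]
        rw [mul_comm]
        congr 2

theorem eval_coΔ_X (a : Fin (r + 1) → ℕ) (w : Par (r + 1)) :
    MvPolynomial.eval (fun _ => (1 : Lam (r + 1))) (coΔ a (MvPolynomial.X w)) =
      MvPolynomial.X w := by
  rcases w with i | p | ⟨i, l⟩
  · rw [coΔ, MvPolynomial.coe_eval₂Hom, MvPolynomial.eval₂_X, Sum.elim_inl, MvPolynomial.eval_C]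
  · rw [coΔ, MvPolynomial.coe_eval₂Hom, MvPolynomial.eval₂_X, Sum.elim_inr, Sum.elim_inl,
      MvPolynomial.eval_C]
  · rw [coΔ, MvPolynomial.coe_eval₂Hom, MvPolynomial.eval₂_X, Sum.elim_inr, Sum.elim_inr,
      map_mul, MvPolynomial.eval_C]
    have h : MvPolynomial.eval (fun _ => (1 : Lam (r + 1))) (mon a i l) = 1 := by
      refine Fin.cases ?_ (fun l => ?_) l
      · rw [mon_zero, map_one]
      · rw [mon_succ, map_pow, MvPolynomial.eval_X, one_pow]
    rw [h, mul_one]

theorem eval_coΔ (a : Fin (r + 1) → ℕ) (x : Lam (r + 1)) :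
    MvPolynomial.eval (fun _ => (1 : Lam (r + 1))) (coΔ a x) = x := by
  have h : ((MvPolynomial.eval (fun _ => (1 : Lam (r + 1)))).comp (coΔ a)) =
      RingHom.id (Lam (r + 1)) := by
    refine MvPolynomial.ringHom_ext (fun z => ?_) (fun w => ?_)
    · rw [RingHom.comp_apply, coΔ_C, MvPolynomial.eval_C]
      rfl
    · rw [RingHom.comp_apply, eval_coΔ_X]
      rfl
  exact RingHom.congr_fun h x

variable (a : Fin (r + 1) → ℕ) (f : Fin (r + 1) → MvPolynomial (Fin (r + 1)) ℂ)
  (ha : Monotone a) (ha2 : ∀ i, 2 ≤ a i) (hf : ∀ i, (f i).IsHomogeneous (a i))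

/-- **the parameter data** -/
def twD : PO.TwD (dat a f ha ha2 hf).a (dat a f ha ha2 hf).th (om a) where
  Lam := Lam (r + 1)
  Δ := coΔ a
  hth i l := ⟨thL i.succ l.succ, algebraMap_thL _ _, coΔ_thL a _ _⟩
  counit x := eval_coΔ a x
  auto e := by
    have hne : ∀ l, (zC a l ^ e l)⁻¹ ≠ 0 := fun l =>
      inv_ne_zero (pow_ne_zero _ ((isPrimitiveRoot_zC a ha2 l).ne_zero (by
        have := ha2 l.succ; omega)))
    refine ⟨twF (fun i l => Fin.cases 1 (fun l => ((zC a l ^ e l)⁻¹) ^ a i) l) ?_, fun x => ?_⟩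
    · intro i l
      refine Fin.cases one_ne_zero (fun l => pow_ne_zero _ (hne l)) l
    · rw [twF_algebraMap, algebraMap_tw a (fun l => (zC a l ^ e l)⁻¹)]
      congr 2
      funext l
      rw [map_inv₀, map_pow]
      rfl

theorem map_coΔ_QLam (i : Fin (r + 1)) : MvPolynomial.map (coΔ a) (QLam a f i) =
    MvPolynomial.map MvPolynomial.C (QLam a f i) := by
  have hfL : ∀ j, MvPolynomial.map (coΔ a) (fL f j) = MvPolynomial.map MvPolynomial.C (fL f j) := by
    intro j
    unfold fL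
    have h : (coΔ a).comp (algebraMap ℂ (Lam (r + 1))) =
        (MvPolynomial.C : Lam (r + 1) →+* MvPolynomial (Fin r) (Lam (r + 1))).comp
          (algebraMap ℂ (Lam (r + 1))) := RingHom.ext fun z => coΔ_C a z
    rw [MvPolynomial.map_map, MvPolynomial.map_map, h]
  unfold QLam
  simp only [map_add, map_mul, map_sum, map_pow, MvPolynomial.map_C, MvPolynomial.map_X, hfL,
    coΔ_cL, coΔ_ccL]

/-- **the coefficients of the forms are fixed** -/
theorem coeff_mem_fixed (l : Fin r) (m : Fin (r + 1) →₀ ℕ) :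
    ((dat a f ha ha2 hf).Q l).coeff m ∈ (twD a f ha ha2 hf).fixed := by
  refine ⟨(QLam a f l.succ).coeff m, ?_, ?_⟩
  · show coΔ a _ = MvPolynomial.C _
    have h := congrArg (fun p => MvPolynomial.coeff m p) (map_coΔ_QLam a f l.succ)
    simp only [MvPolynomial.coeff_map] at h
    exact h
  · show algebraMap (Lam (r + 1)) (Fld (r + 1)) _ = (QF a f l.succ).coeff m
    rw [← map_QLam, MvPolynomial.coeff_map]
    rfl

end

end Crest.Agent.R181.AS
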