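import Mathlib

/-!
# A homogeneous regular sequence of length `n` in `n` variables contains powers of the variables
-/

set_option autoImplicit false

namespace Crest.Agent.R181.TOP

open RingTheory.Sequence Module

universe u v

attribute [local instance] MvPolynomial.gradedAlgebra

theorem supportDim_le {R : Type u} [CommRing R] [IsNoetherianRing R] (rs : List R) :
    ∀ (M : Type v) [AddCommGroup M] [Module R M] [Module.Finite R M], IsWeaklyRegular M rs →
      supportDim R (M ⧸ Ideal.ofList rs • (⊤ : Submodule R M)) + rs.length ≤ supportDim R M := by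
  induction rs with
  | nil =>
    intro M _ _ _ _
    rw [Ideal.ofList_nil, Submodule.bot_smul]
    have h := supportDim_eq_of_equiv (Submodule.quotEquivOfEqBot (⊥ : Submodule R M) rfl)
    simp [h]
  | cons x rs ih =>
    intro M _ _ _ h
    have h1 := (isWeaklyRegular_cons_iff M x rs).1 h
    have h2 := ih (QuotSMulTop x M) h1.2
    have h3 : supportDim R (QuotSMulTop x M) + 1 ≤ supportDim R M :=
      supportDim_quotSMulTop_succ_le_of_notMem_minimalPrimes
        (fun _ => h1.1.notMem_of_mem_minimalPrimes)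
    have h4 := supportDim_eq_of_equiv (Submodule.quotOfListConsSMulTopEquivQuotSMulTopInner M x rs)
    rw [h4, List.length_cons, Nat.cast_add, Nat.cast_one, ← add_assoc]
    exact (add_le_add_left h2 1).trans h3

theorem ringKrullDim_le_zero (n : ℕ) (rs : List (MvPolynomial (Fin n) ℂ)) (hl : rs.length = n)
    (hreg : IsWeaklyRegular (MvPolynomial (Fin n) ℂ) rs) :
    ringKrullDim (MvPolynomial (Fin n) ℂ ⧸ Ideal.ofList rs) ≤ 0 := by
  have h1 := supportDim_le rs (MvPolynomial (Fin n) ℂ) hreg
  have h2 : Ideal.ofList rs • (⊤ : Submodule (MvPolynomial (Fin n) ℂ) (MvPolynomial (Fin n) ℂ)) =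
      Ideal.ofList rs := by simp
  rw [h2, supportDim_quotient_eq_ringKrullDim, supportDim_self_eq_ringKrullDim, hl,
    MvPolynomial.ringKrullDim_of_isNoetherianRing] at h1
  simp only [Nat.card_eq_fintype_card, Fintype.card_fin, ringKrullDim_eq_zero_of_field,
    zero_add] at h1
  generalize ringKrullDim (MvPolynomial (Fin n) ℂ ⧸ Ideal.ofList rs) = x at h1
  induction x using WithBot.recBotCoe with
  | bot => exact bot_le
  | coe x =>
    induction x using ENat.recTopCoe with
    | top =>
      exfalso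
      have : ((⊤ : ℕ∞) : WithBot ℕ∞) + (n : WithBot ℕ∞) = ((⊤ : ℕ∞) : WithBot ℕ∞) := by
        rw [← WithBot.coe_natCast, ← WithBot.coe_add, top_add]
      rw [this] at h1
      have h5 : (⊤ : ℕ∞) ≤ (n : ℕ∞) := by exact_mod_cast h1
      exact absurd (top_le_iff.1 h5) (ENat.natCast_ne_top n)
    | coe x =>
      have h3 : ((x + n : ℕ) : WithBot ℕ∞) ≤ (n : ℕ) := by exact_mod_cast h1
      have h4 : x + n ≤ n := by exact_mod_cast h3
      have h5 : x = 0 := by omega
      rw [h5]
      simp

theorem exists_pow_mem (n : ℕ) (a : Fin n → ℕ) (f : Fin n → MvPolynomial (Fin n) ℂ)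
    (hf : ∀ i, (f i).IsHomogeneous (a i))
    (hreg : IsRegular (MvPolynomial (Fin n) ℂ) (List.ofFn f)) (i : Fin n) :
    ∃ e : ℕ, (MvPolynomial.X i : MvPolynomial (Fin n) ℂ) ^ e ∈ Ideal.span (Set.range f) := by
  classical
  set I : Ideal (MvPolynomial (Fin n) ℂ) := Ideal.span (Set.range f) with hI
  have hlist : Ideal.ofList (List.ofFn f) = I := by
    rw [hI]
    unfold Ideal.ofList
    congr 1
    ext x
    simp [List.mem_ofFn]
  have hdim : ringKrullDim (MvPolynomial (Fin n) ℂ ⧸ I) ≤ 0 := by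
    rw [← hlist]
    exact ringKrullDim_le_zero n _ (List.length_ofFn) hreg.toIsWeaklyRegular
  have hIhom : I.IsHomogeneous (MvPolynomial.homogeneousSubmodule (Fin n) ℂ) := by
    apply Ideal.homogeneous_span
    rintro _ ⟨j, rfl⟩
    exact ⟨a j, (MvPolynomial.mem_homogeneousSubmodule _ _).2 (hf j)⟩
  by_contra hcon
  have hrad : (MvPolynomial.X i : MvPolynomial (Fin n) ℂ) ∉ I.radical := fun h => hcon h
  rw [Ideal.radical_eq_sInf, Ideal.mem_sInf] at hrad
  push Not at hrad
  obtain ⟨P, ⟨hIP, hP⟩, hXP⟩ := hrad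
  set Q : Ideal (MvPolynomial (Fin n) ℂ) :=
    (P.homogeneousCore (MvPolynomial.homogeneousSubmodule (Fin n) ℂ)).toIdeal with hQ
  have hQprime : Q.IsPrime := hP.homogeneousCore
  have hQP : Q ≤ P := Ideal.toIdeal_homogeneousCore_le _ _
  have hIQ : I ≤ Q := by
    rw [← hIhom.toIdeal_homogeneousCore_eq_self]
    exact Ideal.homogeneousCore_mono _ hIP
  have hXQ : (MvPolynomial.X i : MvPolynomial (Fin n) ℂ) ∉ Q := fun h => hXP (hQP h)
  set m : Ideal (MvPolynomial (Fin n) ℂ) := RingHom.ker (MvPolynomial.constantCoeff) with hm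
  have hmprime : m.IsPrime := RingHom.ker_isPrime _
  have hQm : Q ≤ m := by
    intro g hg
    rw [hm, RingHom.mem_ker]
    by_contra hne
    have h1 : MvPolynomial.homogeneousComponent 0 g ∈ Q :=
      MvPolynomial.homogeneousComponent_mem_of_mem
        (P.homogeneousCore (MvPolynomial.homogeneousSubmodule (Fin n) ℂ)).isHomogeneous hg 0
    rw [MvPolynomial.homogeneousComponent_zero] at h1
    have h2 : MvPolynomial.coeff 0 g ≠ 0 := hne
    apply hQprime.ne_top
    rw [Ideal.eq_top_iff_one]
    have h3 := Q.mul_mem_left (MvPolynomial.C (MvPolynomial.coeff 0 g)⁻¹) h1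
    rwa [← map_mul, inv_mul_cancel₀ h2, map_one] at h3
  have hXm : (MvPolynomial.X i : MvPolynomial (Fin n) ℂ) ∈ m := by
    rw [hm, RingHom.mem_ker, MvPolynomial.constantCoeff_X]
  have hlt : Q < m := lt_of_le_of_ne hQm (fun h => hXQ (h ▸ hXm))
  have hk : Ring.KrullDimLE 0 (MvPolynomial (Fin n) ℂ ⧸ I) := by
    rw [Ring.krullDimLE_iff]
    exact_mod_cast hdim
  have hQmax : Q.IsMaximal := by
    have h1 : (Q.map (Ideal.Quotient.mk I)).IsPrime :=
      Ideal.map_isPrime_of_surjective Ideal.Quotient.mk_surjective (by rwa [Ideal.mk_ker])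
    have h2 : (Q.map (Ideal.Quotient.mk I)).IsMaximal := h1.isMaximal'
    have h3 : Q = (Q.map (Ideal.Quotient.mk I)).comap (Ideal.Quotient.mk I) := by
      rw [Ideal.comap_map_of_surjective _ Ideal.Quotient.mk_surjective, ← RingHom.ker_eq_comap_bot,
        Ideal.mk_ker, sup_eq_left.2 hIQ]
    rw [h3]
    exact Ideal.comap_isMaximal_of_surjective _ Ideal.Quotient.mk_surjective
  exact absurd (hQmax.eq_of_le hmprime.ne_top hlt.le) hlt.ne

/-- All monomials of large degree lie in the ideal. -/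
theorem exists_monomial_mem (n : ℕ) (a : Fin n → ℕ) (f : Fin n → MvPolynomial (Fin n) ℂ)
    (hf : ∀ i, (f i).IsHomogeneous (a i))
    (hreg : IsRegular (MvPolynomial (Fin n) ℂ) (List.ofFn f)) :
    ∃ N : ℕ, ∀ m : Fin n →₀ ℕ, N ≤ m.degree →
      (MvPolynomial.monomial m (1 : ℂ)) ∈ Ideal.span (Set.range f) := by
  classical
  choose e he using exists_pow_mem n a f hf hreg
  refine ⟨∑ i, e i + 1, fun m hm => ?_⟩
  have h1 : ∃ i, e i ≤ m i := by
    by_contra hcon
    push Not at hcon
    have h2 : m.degree ≤ ∑ i, e i := by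
      rw [Finsupp.degree_eq_sum]
      exact Finset.sum_le_sum fun i _ => (hcon i).le
    omega
  obtain ⟨i, hi⟩ := h1
  have h2 : m = (m - Finsupp.single i (e i)) + Finsupp.single i (e i) := by
    rw [tsub_add_cancel_of_le]
    rwa [Finsupp.single_le_iff]
  rw [h2, MvPolynomial.monomial_add_single]
  exact Ideal.mul_mem_left _ _ (he i)

end Crest.Agent.R181.TOP
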