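import Crest.Agent.R181.UR396c

/-!
R181 (helper396): change of the central ring `L` in `U`; the kernel of `L → L / (t)`; the
coaction (grading).
-/

set_option autoImplicit false
set_option linter.unusedSectionVars false

namespace Crest.Agent.R181.UR

open AddMonoidAlgebra

theorem exists_quot {R : Type} [Ring R] (c : R) (hc : ∀ y, c * y = y * c) :
    ∃ (S : Type) (_ : Ring S) (mk : R →+* S), Function.Surjective mk ∧
      ∀ y, mk y = 0 ↔ ∃ u, y = c * u := by
  let J : Ideal R := Ideal.span {c}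
  have hJ : ∀ y : R, y ∈ J ↔ ∃ u, y = c * u := by
    intro y
    rw [Ideal.mem_span_singleton']
    constructor
    · rintro ⟨u, rfl⟩; exact ⟨u, (hc u).symm⟩
    · rintro ⟨u, rfl⟩; exact ⟨u, (hc u).symm⟩
  have hJ2 : J.IsTwoSided := ⟨by
    intro b y hb
    obtain ⟨u, rfl⟩ := (hJ _).1 hb
    exact (hJ _).2 ⟨u * y, by rw [mul_assoc]⟩⟩
  refine ⟨R ⧸ J, inferInstance, Ideal.Quotient.mk J, Ideal.Quotient.mk_surjective, fun y => ?_⟩
  rw [← hJ]
  exact Ideal.Quotient.eq_zero_iff_mem

section Umap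

variable {F D L L' L'' I σ : Type} [CommRing F] [Ring D] [Algebra F D] [CommRing L] [Algebra F L]
  [CommRing L'] [Algebra F L'] [CommRing L''] [Algebra F L''] [Fintype I] [Fintype σ]
  (a : I → ℕ) (th : I → I → F) (w : I → σ → D)
  {Q : I → MvPolynomial (Option σ) L} {Q' : I → MvPolynomial (Option σ) L'}
  {Q'' : I → MvPolynomial (Option σ) L''}

theorem isTuple_map_iff {A : Type*} [Ring A] {σ' : Type*} [Fintype σ']
    {Q : I → MvPolynomial σ' L} {Q' : I → MvPolynomial σ' L'}
    (g : L →+* L') (hg : ∀ c : F, g (algebraMap F L c) = algebraMap F L' c)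
    (hQ : ∀ i, Q' i = mp σ' g (Q i)) (τ' : L' →+* A) (u : I → σ' → A) :
    IsTuple a th Q' τ' u ↔ IsTuple a th Q (τ'.comp g) u := by
  have e : ∀ i, mp σ' τ' (Q' i) + ∑ l, cst σ' (τ' (algebraMap F L' (th i l))) * lf (u l) ^ a i =
      mp σ' (τ'.comp g) (Q i) +
        ∑ l, cst σ' ((τ'.comp g) (algebraMap F L (th i l))) * lf (u l) ^ a i := by
    intro i
    rw [hQ, mp_comp]
    simp [hg]
  constructor
  · intro h
    exact ⟨h.comm, fun i => (h.rel i).trans (e i)⟩
  · intro h
    exact ⟨h.comm, fun i => (h.rel i).trans (e i).symm⟩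

/-- Change of the central ring. -/
theorem exists_Umap (g : L →+* L') (hg : ∀ c : F, g (algebraMap F L c) = algebraMap F L' c)
    (hQ : ∀ i, Q' i = mp (Option σ) g (Q i)) :
    ∃ f : U a th Q w →+* U a th Q' w, (∀ d, f (iD a th Q w d) = iD a th Q' w d) ∧
      (∀ x, f (iL a th Q w x) = iL a th Q' w (g x)) ∧
      ∀ i, f (eta a th Q w i) = eta a th Q' w i := by
  refine exists_lift (a := a) (th := th) (Q := Q) (w := w) (iD a th Q' w)
    ((iL a th Q' w).comp g) (eta a th Q' w) ?_ ?_ ?_ ?_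
  · intro c
    rw [iD_base, RingHom.comp_apply, hg]
  · intro x d
    exact iL_comm a th Q' w _ _
  · intro x i
    exact iL_comm a th Q' w _ _
  · exact (isTuple_map_iff (Q := Q) (Q' := Q') a th g hg hQ (iL a th Q' w)
      (wU a th Q' w)).1 (isTuple_wU a th Q' w)

/-- Change of the central ring. -/
noncomputable def Umap (g : L →+* L') (hg : ∀ c : F, g (algebraMap F L c) = algebraMap F L' c)
    (hQ : ∀ i, Q' i = mp (Option σ) g (Q i)) : U a th Q w →+* U a th Q' w :=
  (exists_Umap a th w g hg hQ).choose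

section

variable (g : L →+* L') (hg : ∀ c : F, g (algebraMap F L c) = algebraMap F L' c)
    (hQ : ∀ i, Q' i = mp (Option σ) g (Q i))

@[simp] theorem Umap_iD (d : D) : Umap a th w g hg hQ (iD a th Q w d) = iD a th Q' w d :=
  (exists_Umap a th w g hg hQ).choose_spec.1 d

@[simp] theorem Umap_iL (x : L) : Umap a th w g hg hQ (iL a th Q w x) = iL a th Q' w (g x) :=
  (exists_Umap a th w g hg hQ).choose_spec.2.1 x

@[simp] theorem Umap_eta (i : I) : Umap a th w g hg hQ (eta a th Q w i) = eta a th Q' w i :=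
  (exists_Umap a th w g hg hQ).choose_spec.2.2 i

theorem Umap_surjective (hs : Function.Surjective g) :
    Function.Surjective (Umap a th w g hg hQ) := by
  intro z
  refine generation a th Q' w (fun z => ∃ y, Umap a th w g hg hQ y = z) ?_ ?_ ?_ ?_ ?_ z
  · intro d; exact ⟨_, Umap_iD a th w g hg hQ d⟩
  · intro x
    obtain ⟨y, rfl⟩ := hs x
    exact ⟨_, Umap_iL a th w g hg hQ y⟩
  · intro i; exact ⟨_, Umap_eta a th w g hg hQ i⟩
  · rintro x y ⟨x', rfl⟩ ⟨y', rfl⟩; exact ⟨x' + y', map_add _ _ _⟩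
  · rintro x y ⟨x', rfl⟩ ⟨y', rfl⟩; exact ⟨x' * y', map_mul _ _ _⟩

theorem Umap_Umap (g' : L' →+* L'') (hg' : ∀ c : F, g' (algebraMap F L' c) = algebraMap F L'' c)
    (hQ' : ∀ i, Q'' i = mp (Option σ) g' (Q' i)) (g'' : L →+* L'')
    (hg'' : ∀ c : F, g'' (algebraMap F L c) = algebraMap F L'' c)
    (hQ'' : ∀ i, Q'' i = mp (Option σ) g'' (Q i)) (h : g'.comp g = g'') (z : U a th Q w) :
    Umap a th w g' hg' hQ' (Umap a th w g hg hQ z) = Umap a th w g'' hg'' hQ'' z := by
  have : (Umap a th w g' hg' hQ').comp (Umap a th w g hg hQ) = Umap a th w g'' hg'' hQ'' := by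
    refine hom_ext' (A := U a th Q'' w) a th Q w (fun d => ?_) (fun d => ?_) (fun d => ?_) <;> simp [← h]
  exact RingHom.congr_fun this z

/-- The kernel of the change of the central ring `L → L/(t)`. -/
theorem Umap_ker (hs : Function.Surjective g) (t : L)
    (hker : ∀ x, g x = 0 → ∃ y, x = t * y) (z : U a th Q w)
    (hz : Umap a th w g hg hQ z = 0) : ∃ y, z = iL a th Q w t * y := by
  obtain ⟨S, _, mk, hmks, hmk⟩ := exists_quot (iL a th Q w t)
    (fun y => (iL_comm a th Q w t y).eq)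
  have hle : RingHom.ker g ≤ RingHom.ker (mk.comp (iL a th Q w)) := by
    intro x hx
    obtain ⟨y, rfl⟩ := hker x hx
    show mk (iL a th Q w (t * y)) = 0
    rw [hmk, map_mul]
    exact ⟨_, rfl⟩
  let τ' : L' →+* S := RingHom.liftOfSurjective g hs ⟨mk.comp (iL a th Q w), hle⟩
  have hτ : ∀ x, τ' (g x) = mk (iL a th Q w x) := fun x =>
    RingHom.liftOfRightInverse_comp_apply g _ _ ⟨mk.comp (iL a th Q w), hle⟩ x
  have hτ' : τ'.comp g = mk.comp (iL a th Q w) := RingHom.ext hτ
  have hcen : ∀ x y, Commute (τ' x) y := by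
    intro x y
    obtain ⟨x, rfl⟩ := hs x
    obtain ⟨y, rfl⟩ := hmks y
    rw [hτ]
    exact (iL_comm a th Q w x y).map mk
  obtain ⟨ψ, h1, h2, h3⟩ := exists_lift (a := a) (th := th) (Q := Q') (w := w)
    (mk.comp (iD a th Q w)) τ' (fun i => mk (eta a th Q w i)) (by
      intro c
      rw [RingHom.comp_apply, iD_base, ← hg, hτ]) (fun _ _ => hcen _ _) (fun _ _ => hcen _ _) (by
      rw [isTuple_map_iff (Q := Q) (Q' := Q') a th g hg hQ, hτ']
      have := (isTuple_wU a th Q w).map mk
      have e : ∀ i, (fun v => mk (wU a th Q w i v)) =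
          ext' (fun i v => (mk.comp (iD a th Q w)) (w i v)) (fun i => mk (eta a th Q w i)) i := by
        intro i
        rw [wU, map_ext']
        rfl
      rw [show (fun i v => mk (wU a th Q w i v)) = fun i => ext' (fun i v =>
        (mk.comp (iD a th Q w)) (w i v)) (fun i => mk (eta a th Q w i)) i from funext e] at this
      exact this)
  have hψ : ψ.comp (Umap a th w g hg hQ) = mk := by
    apply hom_ext' a th Q w
    · intro d; rw [RingHom.comp_apply, Umap_iD, h1]; rfl
    · intro x; rw [RingHom.comp_apply, Umap_iL, h2, hτ]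
    · intro i; rw [RingHom.comp_apply, Umap_eta, h3]
  have : mk z = 0 := by rw [← hψ, RingHom.comp_apply, hz, map_zero]
  exact (hmk z).1 this

end

end Umap

end Crest.Agent.R181.UR
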