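import Crest.Agent.R181.TW825d
import Crest.Agent.R181.KL279b

/-!
R181 (helper825): the conclusion of S0271 from the four blocks H9, V2, V3, PO for `KL.dat P`.
-/

set_option autoImplicit false
set_option linter.unusedSectionVars false

namespace Crest.Agent.R181.TW

open UR HT

theorem nonempty_top {F I : Type} [Field F] [Fintype I] {n : ℕ} {d : Dat F I n}
    (h9 : H9Stmt d) (h2 : V2Stmt d) (h3 : V3Stmt d) (hP : POStmt d) : Nonempty (Lvl d n) := by
  obtain ⟨X, -⟩ := exists_tower h9 h2 h3 hP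
  exact ⟨X⟩

/-- **S0271 from the four blocks.** -/
theorem final
    (hblocks : ∀ (r : ℕ) (F : Type) [Field F] [Algebra ℂ F] (P : H.Prm r F),
      H9Stmt (KL.dat P) ∧ V2Stmt (KL.dat P) ∧ V3Stmt (KL.dat P) ∧ POStmt (KL.dat P))
    (n : ℕ) (hn : 1 ≤ n) (a : Fin n → ℕ)
    (ha : Monotone a) (ha2 : ∀ i, 2 ≤ a i) (I : Ideal (MvPolynomial (Fin n) ℂ))
    (hI : ∀ g ∈ I, ∀ d : ℕ, MvPolynomial.homogeneousComponent d g ∈ I)
    (f : Fin n → MvPolynomial (Fin n) ℂ) (hf : ∀ i, (f i).IsHomogeneous (a i)) (hfI : ∀ i, f i ∈ I)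
    (hreg : RingTheory.Sequence.IsRegular (MvPolynomial (Fin n) ℂ) (List.ofFn f)) :
    KL.Concl n a I :=
  KL.result_of_tower (fun r F _ _ P => by
    obtain ⟨h9, h2, h3, hP⟩ := hblocks r F P
    exact nonempty_top h9 h2 h3 hP) n hn a ha ha2 I hI f hf hfI hreg

end Crest.Agent.R181.TW
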