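import Mathlib
import Crest.Agent.R181.V3386a

/-!
R181, V3 base: universal quotient-localisations of a polynomial ring; the key isomorphism
`(R/h)[t] ≃ R` for a unimodular affine-linear equation.
-/

namespace Crest.Agent.R181.V3

open MvPolynomial

/-- `ρ : G → R` is universal among the ring homs killing `H` and inverting `U`. -/
structure IsUniv {G R : Type} [CommRing G] [CommRing R] (H U : Set G) (ρ : G →+* R) : Prop where
  kill : ∀ h ∈ H, ρ h = 0
  inv : ∀ u ∈ U, IsUnit (ρ u)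
  lift : ∀ (T : Type) [CommRing T] (φ : G →+* T), (∀ h ∈ H, φ h = 0) → (∀ u ∈ U, IsUnit (φ u)) →
    ∃ ψ : R →+* T, ψ.comp ρ = φ
  ext : ∀ (T : Type) [CommRing T] (ψ₁ ψ₂ : R →+* T), ψ₁.comp ρ = ψ₂.comp ρ → ψ₁ = ψ₂

section general

variable {G R : Type} [CommRing G] [CommRing R] {H U : Set G} {ρ : G →+* R}

theorem IsUniv.id (G : Type) [CommRing G] : IsUniv (∅ : Set G) ∅ (RingHom.id G) where
  kill := by simp
  inv := by simp
  lift := fun T _ φ _ _ => ⟨φ, by simp⟩
  ext := fun T _ ψ₁ ψ₂ h => by simpa using h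

theorem IsUniv.quot (h : IsUniv H U ρ) (x : G) :
    IsUniv (insert x H) U ((Ideal.Quotient.mk (Ideal.span {ρ x})).comp ρ) where
  kill := by
    rintro y (rfl | hy)
    · simp only [RingHom.comp_apply]
      exact Ideal.Quotient.eq_zero_iff_mem.2 (Ideal.subset_span rfl)
    · simp [h.kill y hy]
  inv := fun u hu => (h.inv u hu).map (Ideal.Quotient.mk (Ideal.span {ρ x}))
  lift := fun T _ φ h1 h2 => by
    obtain ⟨ψ, hψ⟩ := h.lift T φ (fun y hy => h1 y (Set.mem_insert_of_mem _ hy)) h2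
    refine ⟨Ideal.Quotient.lift _ ψ ?_, ?_⟩
    · intro a ha
      have : Ideal.span {ρ x} ≤ RingHom.ker ψ := by
        rw [Ideal.span_le]
        rintro _ rfl
        change ψ (ρ x) = 0
        rw [← RingHom.comp_apply, hψ]
        exact h1 x (Set.mem_insert _ _)
      exact this ha
    · exact hψ
  ext := fun T _ ψ₁ ψ₂ h' => by
    apply Ideal.Quotient.ringHom_ext
    exact h.ext T _ _ h'

theorem IsUniv.loc (h : IsUniv H U ρ) (V : Set G) :
    IsUniv H (U ∪ V)
      ((algebraMap R (Localization (Submonoid.closure (ρ '' V)))).comp ρ) where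
  kill := fun y hy => by simp [h.kill y hy]
  inv := by
    rintro u (hu | hu)
    · exact (h.inv u hu).map (algebraMap R (Localization (Submonoid.closure (ρ '' V))))
    · exact IsLocalization.map_units (Localization (Submonoid.closure (ρ '' V)))
        (⟨ρ u, Submonoid.subset_closure ⟨u, hu, rfl⟩⟩ : Submonoid.closure (ρ '' V))
  lift := fun T _ φ h1 h2 => by
    obtain ⟨ψ, hψ⟩ := h.lift T φ h1 (fun u hu => h2 u (Or.inl hu))
    have hM : ∀ y : Submonoid.closure (ρ '' V), IsUnit (ψ y) := by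
      rintro ⟨y, hy⟩
      have : Submonoid.closure (ρ '' V) ≤ (IsUnit.submonoid T).comap ψ.toMonoidHom := by
        rw [Submonoid.closure_le]
        rintro _ ⟨v, hv, rfl⟩
        change IsUnit (ψ (ρ v))
        rw [← RingHom.comp_apply, hψ]
        exact h2 v (Or.inr hv)
      exact this hy
    refine ⟨IsLocalization.lift (M := Submonoid.closure (ρ '' V)) hM, ?_⟩
    ext y
    simp [← hψ]
  ext := fun T _ ψ₁ ψ₂ h' => by
    apply IsLocalization.ringHom_ext (Submonoid.closure (ρ '' V))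
    exact h.ext T _ _ h'

theorem IsUniv.nonempty_equiv (h : IsUniv H U ρ) {R' : Type} [CommRing R'] {ρ' : G →+* R'}
    (h' : IsUniv H U ρ') : Nonempty (R ≃+* R') := by
  obtain ⟨α, hα⟩ := h.lift R' ρ' h'.kill h'.inv
  obtain ⟨β, hβ⟩ := h'.lift R ρ h.kill h.inv
  refine ⟨RingEquiv.ofRingHom α β ?_ ?_⟩
  · apply h'.ext
    rw [RingHom.comp_assoc, hβ, hα, RingHom.id_comp]
  · apply h.ext
    rw [RingHom.comp_assoc, hα, hβ, RingHom.id_comp]

end general

section key

variable {k W : Type} [CommRing k] [DecidableEq W]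

/-- set the variables of `Y` to zero -/
noncomputable def kz (k : Type) [CommRing k] (Y : Finset W) : MvPolynomial W k →+* MvPolynomial W k :=
  eval₂Hom C (fun w => if w ∈ Y then 0 else X w)

@[simp] theorem kz_C (Y : Finset W) (a : k) : kz k Y (C a) = C a := by simp [kz]

@[simp] theorem kz_X (Y : Finset W) (w : W) :
    kz k Y (X w) = if w ∈ Y then 0 else X w := by simp [kz]

theorem kz_agree {T : Type} [CommRing T] (Y : Finset W) (φ φ' : MvPolynomial W k →+* T)
    (hC : ∀ a, φ (C a) = φ' (C a)) (hX : ∀ w, w ∉ Y → φ (X w) = φ' (X w))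
    (p : MvPolynomial W k) (hp : kz k Y p = p) : φ p = φ' p := by
  have : φ.comp (kz k Y) = φ'.comp (kz k Y) := by
    apply ringHom_ext
    · intro a; simp [hC]
    · intro w
      by_cases hw : w ∈ Y
      · simp [hw]
      · simp [hw, hX w hw]
  rw [← hp, ← RingHom.comp_apply, this, RingHom.comp_apply]

theorem key_equiv {R : Type} [CommRing R] {H U : Set (MvPolynomial W k)}
    {ρ : MvPolynomial W k →+* R} (h : IsUniv H U ρ) (Y : Finset W)
    (hH : ∀ p ∈ H, kz k Y p = p) (hU : ∀ p ∈ U, kz k Y p = p)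
    (b : MvPolynomial W k) (g : W → MvPolynomial W k)
    (hb : kz k Y b = b) (hg : ∀ w ∈ Y, kz k Y (g w) = g w)
    (v : W → R) (hv : ∑ w ∈ Y, v w * ρ (g w) = 1)
    (x : MvPolynomial W k) (hx : x = b - ∑ w ∈ Y, X w * g w) :
    Nonempty (R ≃+* Polynomial (R ⧸ Ideal.span {ρ x})) := by
  classical
  let B := R ⧸ Ideal.span {ρ x}
  let π : R →+* B := Ideal.Quotient.mk (Ideal.span {ρ x})
  have hπx : π (ρ x) = 0 := Ideal.Quotient.eq_zero_iff_mem.2 (Ideal.subset_span rfl)
  -- the retraction σ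
  obtain ⟨σ, hσ⟩ := h.lift R (ρ.comp (kz k Y))
    (fun p hp => by rw [RingHom.comp_apply, hH p hp, h.kill p hp])
    (fun p hp => by rw [RingHom.comp_apply, hU p hp]; exact h.inv p hp)
  have hσ' : ∀ p, σ (ρ p) = ρ (kz k Y p) := fun p => by
    rw [← RingHom.comp_apply, hσ]; rfl
  let v' : W → R := fun w => σ (v w)
  have hv' : ∑ w ∈ Y, v' w * ρ (g w) = 1 := by
    have := congrArg σ hv
    rw [map_sum, map_one] at this
    rw [← this]
    refine Finset.sum_congr rfl fun w hw => ?_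
    rw [map_mul, hσ', hg w hw]
  have hσσ : ∀ p, kz k Y (kz k Y p) = kz k Y p := by
    intro p
    have : (kz k Y).comp (kz k Y) = kz k Y := by
      apply ringHom_ext
      · intro a; simp
      · intro w
        by_cases hw : w ∈ Y <;> simp [hw]
    rw [← RingHom.comp_apply, this]
  -- Φ
  let Φ₀ : MvPolynomial W k →+* Polynomial B :=
    eval₂Hom (((Polynomial.C.comp π).comp ρ).comp C)
      (fun w => Polynomial.C (π (ρ (X w))) + if w ∈ Y then Polynomial.C (π (v' w)) * Polynomial.X else 0)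
  have hΦ₀C : ∀ a, Φ₀ (C a) = Polynomial.C (π (ρ (C a))) := fun a => by simp [Φ₀]
  have hΦ₀X : ∀ w, Φ₀ (X w) = Polynomial.C (π (ρ (X w))) +
      if w ∈ Y then Polynomial.C (π (v' w)) * Polynomial.X else 0 := fun w => by simp [Φ₀]
  have hΦ₀ : ∀ p, kz k Y p = p → Φ₀ p = Polynomial.C (π (ρ p)) := by
    intro p hp
    exact kz_agree Y Φ₀ ((Polynomial.C.comp π).comp ρ) hΦ₀C
      (fun w hw => by rw [hΦ₀X, if_neg hw, add_zero]; rfl) p hp
  obtain ⟨Φ, hΦ⟩ := h.lift (Polynomial B) Φ₀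
    (fun p hp => by rw [hΦ₀ p (hH p hp), h.kill p hp, map_zero, map_zero])
    (fun p hp => by rw [hΦ₀ p (hU p hp)]; exact ((h.inv p hp).map π).map _)
  have hΦ' : ∀ p, Φ (ρ p) = Φ₀ p := fun p => by rw [← RingHom.comp_apply, hΦ]
  have hΦσ : ∀ r, Φ (σ r) = Polynomial.C (π (σ r)) := by
    intro r
    have : Φ.comp σ = (Polynomial.C.comp π).comp σ := by
      apply h.ext
      apply RingHom.ext
      intro p
      simp only [RingHom.comp_apply]
      rw [hσ', hΦ', hΦ₀ _ (hσσ p)]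
    exact RingHom.congr_fun this r
  have hΦx : Φ (ρ x) = - Polynomial.X := by
    have h1 : Φ₀ x = Polynomial.C (π (ρ x)) - Polynomial.X := by
      have h0 : ρ x = ρ b - ρ (∑ w ∈ Y, X w * g w) := by rw [← map_sub, ← hx]
      have h0' : Φ₀ x = Φ₀ b - ∑ w ∈ Y, Φ₀ (X w * g w) := by
        have := congrArg Φ₀ hx
        rw [map_sub, map_sum] at this
        exact this
      have h0'' : π (ρ x) = π (ρ b) - π (ρ (∑ w ∈ Y, X w * g w)) := by
        have := congrArg π h0
        rw [map_sub] at this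
        exact this
      rw [h0', hΦ₀ b hb, h0'']
      have : ∑ w ∈ Y, Φ₀ (X w * g w) =
          Polynomial.C (π (ρ (∑ w ∈ Y, X w * g w))) + Polynomial.X := by
        have h2 : ∀ w ∈ Y, Φ₀ (X w * g w) = Polynomial.C (π (ρ (X w * g w))) +
            Polynomial.C (π (v' w * ρ (g w))) * Polynomial.X := by
          intro w hw
          rw [map_mul, hΦ₀X, if_pos hw, hΦ₀ _ (hg w hw)]
          simp only [map_mul]
          ring
        rw [Finset.sum_congr rfl h2, Finset.sum_add_distrib, ← Finset.sum_mul]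
        simp only [← map_sum]
        rw [hv']
        simp
      rw [this]
      simp only [map_sub]
      ring
    rw [hΦ', h1, hπx, map_zero, zero_sub]
  -- Ψ
  let τ : R := - ρ x
  let Ψ₀ : MvPolynomial W k →+* R :=
    eval₂Hom (ρ.comp C) (fun w => ρ (X w) - if w ∈ Y then v' w * τ else 0)
  have hΨ₀C : ∀ a, Ψ₀ (C a) = ρ (C a) := fun a => by simp [Ψ₀]
  have hΨ₀X : ∀ w, Ψ₀ (X w) = ρ (X w) - if w ∈ Y then v' w * τ else 0 := fun w => by simp [Ψ₀]
  have hΨ₀ : ∀ p, kz k Y p = p → Ψ₀ p = ρ p := by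
    intro p hp
    exact kz_agree Y Ψ₀ ρ hΨ₀C (fun w hw => by rw [hΨ₀X, if_neg hw, sub_zero]) p hp
  obtain ⟨Ψ₁, hΨ₁⟩ := h.lift R Ψ₀
    (fun p hp => by rw [hΨ₀ p (hH p hp), h.kill p hp])
    (fun p hp => by rw [hΨ₀ p (hU p hp)]; exact h.inv p hp)
  have hΨ₁' : ∀ p, Ψ₁ (ρ p) = Ψ₀ p := fun p => by rw [← RingHom.comp_apply, hΨ₁]
  have hΨσ : ∀ r, Ψ₁ (σ r) = σ r := by
    intro r
    have : Ψ₁.comp σ = σ := by
      apply h.ext
      apply RingHom.ext
      intro p
      simp only [RingHom.comp_apply]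
      rw [hσ', hΨ₁', hΨ₀ _ (hσσ p)]
    exact RingHom.congr_fun this r
  have hΨx : Ψ₁ (ρ x) = 0 := by
    rw [hΨ₁']
    have h2 : ∀ w ∈ Y, Ψ₀ (X w * g w) = ρ (X w * g w) - (v' w * ρ (g w)) * τ := by
      intro w hw
      rw [map_mul, hΨ₀X, if_pos hw, hΨ₀ _ (hg w hw), map_mul]
      ring
    have h1 : Ψ₀ x = ρ x + τ := by
      have h0 : ρ x = ρ b - ρ (∑ w ∈ Y, X w * g w) := by rw [← map_sub, ← hx]
      have h0' : Ψ₀ x = Ψ₀ b - ∑ w ∈ Y, Ψ₀ (X w * g w) := by
        have := congrArg Ψ₀ hx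
        rw [map_sub, map_sum] at this
        exact this
      rw [h0', hΨ₀ b hb, Finset.sum_congr rfl h2, Finset.sum_sub_distrib,
        ← Finset.sum_mul, hv', ← map_sum, h0]
      ring
    rw [h1]; simp [τ]
  let Ψ_B : B →+* R := Ideal.Quotient.lift (Ideal.span {ρ x}) Ψ₁ (by
    intro a ha
    have : Ideal.span {ρ x} ≤ RingHom.ker Ψ₁ := by
      rw [Ideal.span_le]
      rintro _ rfl
      exact hΨx
    exact this ha)
  have hΨB : ∀ r, Ψ_B (π r) = Ψ₁ r := fun r => rfl
  let Ψ : Polynomial B →+* R := Polynomial.eval₂RingHom Ψ_B τ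
  have hΨC : ∀ r, Ψ (Polynomial.C (π r)) = Ψ₁ r := fun r => by simp [Ψ, hΨB]
  have hΨX : Ψ Polynomial.X = τ := by simp [Ψ]
  refine ⟨RingEquiv.ofRingHom Φ Ψ ?_ ?_⟩
  · -- Φ ∘ Ψ = id
    apply Polynomial.ringHom_ext
    · intro a
      obtain ⟨r, rfl⟩ := Ideal.Quotient.mk_surjective a
      change Φ (Ψ (Polynomial.C (π r))) = Polynomial.C (π r)
      rw [hΨC]
      have : Φ.comp Ψ₁ = Polynomial.C.comp π := by
        apply h.ext
        apply ringHom_ext
        · intro a
          simp only [RingHom.comp_apply]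
          rw [hΨ₁', hΨ₀C, hΦ', hΦ₀C]
        · intro w
          simp only [RingHom.comp_apply]
          rw [hΨ₁', hΨ₀X, map_sub, hΦ', hΦ₀X]
          by_cases hw : w ∈ Y
          · simp only [hw, if_true, map_mul, τ, map_neg, hΦx, v', hΦσ]
            ring
          · simp [hw]
      exact RingHom.congr_fun this r
    · change Φ (Ψ Polynomial.X) = Polynomial.X
      rw [hΨX]
      simp [τ, hΦx]
  · -- Ψ ∘ Φ = id
    apply h.ext
    apply ringHom_ext
    · intro a
      simp only [RingHom.comp_apply, RingHom.id_apply]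
      rw [hΦ', hΦ₀C, hΨC, hΨ₁', hΨ₀C]
    · intro w
      simp only [RingHom.comp_apply, RingHom.id_apply]
      rw [hΦ', hΦ₀X, map_add, hΨC, hΨ₁', hΨ₀X]
      by_cases hw : w ∈ Y
      · simp only [hw, if_true, map_mul, hΨX, hΨC, v', hΨσ]
        ring
      · simp [hw]

end key

end Crest.Agent.R181.V3
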