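import Mathlib
import Crest.Agent.R181.V3386b

/-!
R181, V3 base: the tower.  Polynomial rings modulo a triangular family of equations which are
affine linear in their own (transcendental) parameters with unimodular coefficient rows.
-/

namespace Crest.Agent.R181.V3

open MvPolynomial

section tower

variable {k : Type} [Field k] {Z Q : Type} [Fintype Z] [Fintype Q] [DecidableEq Z] [DecidableEq Q]
  {r : ℕ} (eq : Q → ℕ) (b : Fin r → MvPolynomial Z k) (g : Q → MvPolynomial Z k)

/-- the `s`-th equation in the big polynomial ring -/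
noncomputable def eqG (s : Fin r) : MvPolynomial (Z ⊕ Q) k :=
  rename Sum.inl (b s) - ∑ q with eq q = (s : ℕ), X (Sum.inr q) * rename Sum.inl (g q)

/-- unimodularity of the coefficient rows (at all field valued points) -/
def UM : Prop :=
  ∀ (s : Fin r) (K : Type) [Field K] (c : k →+* K) (z : Z → K) (y : Q → K),
    (∀ q, eq q < (s : ℕ) → y q ≠ 0) →
    (∀ l, l < s → eval₂ c z (b l) = ∑ q with eq q = (l : ℕ), y q * eval₂ c z (g q)) →
    ∃ q, eq q = (s : ℕ) ∧ eval₂ c z (g q) ≠ 0

omit [Fintype Z] [Fintype Q] in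
theorem kz_rename_inl (Y : Finset (Z ⊕ Q)) (hY : ∀ z, Sum.inl z ∉ Y) (p : MvPolynomial Z k) :
    kz k Y (rename Sum.inl p) = rename Sum.inl p := by
  have : (kz k Y).comp (rename (R := k) (Sum.inl : Z → Z ⊕ Q)).toRingHom =
      (rename (R := k) (Sum.inl : Z → Z ⊕ Q)).toRingHom := by
    apply ringHom_ext
    · intro a
      change kz k Y (rename Sum.inl (C a)) = rename Sum.inl (C a)
      simp
    · intro i
      change kz k Y (rename Sum.inl (X i)) = rename Sum.inl (X i)
      simp [hY i]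
  exact RingHom.congr_fun this p

theorem tower_step (hUM : UM eq b g) (s : Fin r) {R : Type} [CommRing R]
    {ρ : MvPolynomial (Z ⊕ Q) k →+* R}
    (h : IsUniv {p | ∃ l, l < s ∧ p = eqG eq b g l} {p | ∃ q, eq q < (s : ℕ) ∧ p = X (Sum.inr q)} ρ)
    (hR : Good R) : Good (R ⧸ Ideal.span {ρ (eqG eq b g s)}) := by
  classical
  -- unimodularity in R
  have htop : Ideal.span (Set.range fun q : {q : Q // eq q = s} =>
      ρ (rename Sum.inl (g q.1))) = ⊤ := by
    by_contra hne
    obtain ⟨m, hm, hle⟩ := Ideal.exists_le_maximal _ hne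
    let _ : Field (R ⧸ m) := Ideal.Quotient.field m
    let c : MvPolynomial (Z ⊕ Q) k →+* R ⧸ m := (Ideal.Quotient.mk m).comp ρ
    have hev : ∀ p : MvPolynomial Z k, c (rename Sum.inl p) =
        eval₂ (c.comp C) (fun z => c (X (Sum.inl z))) p := by
      intro p
      have : c.comp (rename (R := k) (Sum.inl : Z → Z ⊕ Q)).toRingHom =
          eval₂Hom (c.comp C) (fun z => c (X (Sum.inl z))) := by
        apply ringHom_ext
        · intro a
          change c (rename Sum.inl (C a)) = _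
          simp
        · intro i
          change c (rename Sum.inl (X i)) = _
          simp
      exact RingHom.congr_fun this p
    obtain ⟨q, hq, hne⟩ := hUM s (R ⧸ m) (c.comp C) (fun z => c (X (Sum.inl z)))
      (fun q => c (X (Sum.inr q)))
      (fun q hq => by
        have := (h.inv (X (Sum.inr q)) ⟨q, hq, rfl⟩).map (Ideal.Quotient.mk m)
        exact this.ne_zero)
      (fun l hl => by
        have h1 : c (eqG eq b g l) = 0 := by
          change Ideal.Quotient.mk m (ρ (eqG eq b g l)) = 0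
          rw [h.kill _ ⟨l, hl, rfl⟩, map_zero]
        rw [eqG, map_sub, sub_eq_zero, hev, map_sum] at h1
        rw [h1]
        refine Finset.sum_congr rfl fun q _ => ?_
        rw [map_mul, hev])
    apply hne
    rw [← hev]
    exact Ideal.Quotient.eq_zero_iff_mem.2 (hle (Ideal.subset_span ⟨⟨q, hq⟩, rfl⟩))
  obtain ⟨v₀, hv₀⟩ := (Ideal.mem_span_range_iff_exists_fun).1
    ((Ideal.eq_top_iff_one _).1 htop)
  let Y : Finset (Z ⊕ Q) := Finset.univ.filter fun w => ∃ q, eq q = s ∧ w = Sum.inr q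
  have hYl : ∀ z, (Sum.inl z : Z ⊕ Q) ∉ Y := by simp [Y]
  have hYr : ∀ q, (Sum.inr q : Z ⊕ Q) ∈ Y ↔ eq q = s := by simp [Y]
  let g' : Z ⊕ Q → MvPolynomial (Z ⊕ Q) k := Sum.elim (fun _ => 0) (fun q => rename Sum.inl (g q))
  let v : Z ⊕ Q → R := Sum.elim (fun _ => 0) (fun q => if hq : eq q = s then v₀ ⟨q, hq⟩ else 0)
  have hsumY : ∀ {T : Type} [AddCommMonoid T] (f : Z ⊕ Q → T),
      ∑ w ∈ Y, f w = ∑ q with eq q = s, f (Sum.inr q) := by
    intro T _ f
    have : Y = (Finset.univ.filter fun q => eq q = s).map ⟨Sum.inr, Sum.inr_injective⟩ := by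
      ext w
      rcases w with z | q <;> simp [Y]
    rw [this, Finset.sum_map]
    rfl
  have key := key_equiv (k := k) h Y ?_ ?_ (rename Sum.inl (b s)) g' ?_ ?_ v ?_ (eqG eq b g s) ?_
  · obtain ⟨e⟩ := key
    exact Good.of_polynomial (Good.of_equiv e hR)
  · rintro p ⟨l, hl, rfl⟩
    rw [eqG, map_sub, map_sum, kz_rename_inl Y hYl]
    congr 1
    refine Finset.sum_congr rfl fun q hq => ?_
    have hq' : eq q = l := (Finset.mem_filter.1 hq).2
    have : (Sum.inr q : Z ⊕ Q) ∉ Y := by
      rw [hYr]; intro h2; rw [h2] at hq'; exact (ne_of_lt hl) (Fin.ext hq'.symm)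
    rw [map_mul, kz_rename_inl Y hYl, kz_X, if_neg this]
  · rintro p ⟨q, hq, rfl⟩
    have : (Sum.inr q : Z ⊕ Q) ∉ Y := by
      rw [hYr]; exact ne_of_lt hq
    rw [kz_X, if_neg this]
  · exact kz_rename_inl Y hYl _
  · intro w hw
    rcases w with z | q
    · exact absurd hw (hYl z)
    · exact kz_rename_inl Y hYl _
  · rw [hsumY]
    have h1 : ∀ q ∈ Finset.univ.filter (fun q => eq q = s), v (Sum.inr q) * ρ (g' (Sum.inr q)) =
        if hq : eq q = s then v₀ ⟨q, hq⟩ * ρ (rename Sum.inl (g q)) else 0 := by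
      intro q hq
      have hq' : eq q = s := (Finset.mem_filter.1 hq).2
      simp [v, g', hq']
    rw [Finset.sum_congr rfl h1, ← hv₀,
      Finset.sum_subtype (Finset.univ.filter fun q => eq q = s) (p := fun q => eq q = s) (by simp)]
    refine Finset.sum_congr rfl fun q _ => ?_
    rw [dif_pos q.2]
  · rw [eqG, hsumY]
    rfl

theorem tower (hUM : UM eq b g) (hG : Good (MvPolynomial (Z ⊕ Q) k)) :
    ∀ s : ℕ, s ≤ r → ∃ (R : Type) (_ : CommRing R) (ρ : MvPolynomial (Z ⊕ Q) k →+* R),
      IsUniv {p | ∃ l : Fin r, (l : ℕ) < s ∧ p = eqG eq b g l}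
        {p | ∃ q, eq q < s ∧ p = X (Sum.inr q)} ρ ∧ Good R := by
  intro s
  induction s with
  | zero =>
    intro _
    refine ⟨MvPolynomial (Z ⊕ Q) k, inferInstance, RingHom.id _, ?_, hG⟩
    have h1 : {p : MvPolynomial (Z ⊕ Q) k | ∃ l : Fin r, (l : ℕ) < 0 ∧ p = eqG eq b g l} = ∅ := by
      ext p; simp
    have h2 : {p : MvPolynomial (Z ⊕ Q) k | ∃ q, eq q < 0 ∧ p = X (Sum.inr q)} = ∅ := by
      ext p; simp
    rw [h1, h2]
    exact IsUniv.id _
  | succ s ih =>
    intro hs
    obtain ⟨R, _, ρ, hρ, hR⟩ := ih (Nat.le_of_succ_le hs)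
    let s' : Fin r := ⟨s, hs⟩
    have h1 : Good (R ⧸ Ideal.span {ρ (eqG eq b g s')}) := tower_step eq b g hUM s' hρ hR
    have h2 := (hρ.quot (eqG eq b g s')).loc {p | ∃ q, eq q = (s' : ℕ) ∧ p = X (Sum.inr q)}
    refine ⟨Localization (Submonoid.closure (((Ideal.Quotient.mk
      (Ideal.span {ρ (eqG eq b g s')})).comp ρ) '' {p | ∃ q, eq q = (s' : ℕ) ∧ p = X (Sum.inr q)})),
      inferInstance, (algebraMap _ _).comp ((Ideal.Quotient.mk
      (Ideal.span {ρ (eqG eq b g s')})).comp ρ), ?_, Good.of_isLocalization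
      (Submonoid.closure (((Ideal.Quotient.mk
      (Ideal.span {ρ (eqG eq b g s')})).comp ρ) '' {p | ∃ q, eq q = (s' : ℕ) ∧ p = X (Sum.inr q)})) h1⟩
    have e1 : {p : MvPolynomial (Z ⊕ Q) k | ∃ l : Fin r, (l : ℕ) < s + 1 ∧ p = eqG eq b g l} =
        insert (eqG eq b g s') {p | ∃ l : Fin r, (l : ℕ) < s ∧ p = eqG eq b g l} := by
      ext p
      simp only [Set.mem_ofPred_eq, Set.mem_insert_iff]
      constructor
      · rintro ⟨l, hl, rfl⟩
        rcases Nat.lt_succ_iff_lt_or_eq.1 hl with h | h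
        · exact Or.inr ⟨l, h, rfl⟩
        · left
          congr 1
          exact Fin.ext h
      · rintro (rfl | ⟨l, hl, rfl⟩)
        · exact ⟨s', Nat.lt_succ_self s, rfl⟩
        · exact ⟨l, Nat.lt_succ_of_lt hl, rfl⟩
    have e2 : {p : MvPolynomial (Z ⊕ Q) k | ∃ q, eq q < s + 1 ∧ p = X (Sum.inr q)} =
        {p | ∃ q, eq q < s ∧ p = X (Sum.inr q)} ∪ {p | ∃ q, eq q = (s' : ℕ) ∧ p = X (Sum.inr q)} := by
      ext p
      simp only [Set.mem_ofPred_eq, Set.mem_union]
      constructor
      · rintro ⟨q, hq, rfl⟩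
        rcases Nat.lt_succ_iff_lt_or_eq.1 hq with h | h
        · exact Or.inl ⟨q, h, rfl⟩
        · exact Or.inr ⟨q, h, rfl⟩
      · rintro (⟨q, hq, rfl⟩ | ⟨q, hq, rfl⟩)
        · exact ⟨q, Nat.lt_succ_of_lt hq, rfl⟩
        · exact ⟨q, by rw [hq]; exact Nat.lt_succ_self s, rfl⟩
    rw [e1, e2]
    exact h2

section final

variable (F : Type) [Field F] [Algebra (MvPolynomial Q k) F] [IsFractionRing (MvPolynomial Q k) F]

/-- the coefficient map `k → F` -/
noncomputable def kF (k Q F : Type) [Field k] [Field F] [Algebra (MvPolynomial Q k) F] : k →+* F :=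
  (algebraMap (MvPolynomial Q k) F).comp C

/-- the equation over the field `F` -/
noncomputable def eqF (s : Fin r) : MvPolynomial Z F :=
  map (kF k Q F) (b s) -
    ∑ q with eq q = s, C (algebraMap (MvPolynomial Q k) F (X q)) * map (kF k Q F) (g q)

/-- the commutative base ring -/
abbrev AF : Type := MvPolynomial Z F ⧸ Ideal.span (Set.range (eqF eq b g F))

/-- structure map of the base ring -/
noncomputable def rhoF : MvPolynomial (Z ⊕ Q) k →+* MvPolynomial Z F :=
  eval₂Hom (C.comp (kF k Q F))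
    (Sum.elim X (fun q => C (algebraMap (MvPolynomial Q k) F (X q))))

omit [Fintype Z] [Fintype Q] [DecidableEq Z] [DecidableEq Q]
  [IsFractionRing (MvPolynomial Q k) F] in
theorem rhoF_inl (p : MvPolynomial Z k) :
    rhoF (k := k) (Z := Z) (Q := Q) F (rename Sum.inl p) = map (kF k Q F) p := by
  have : (rhoF (k := k) (Z := Z) (Q := Q) F).comp (rename (R := k) (Sum.inl : Z → Z ⊕ Q)).toRingHom =
      map (kF k Q F) := by
    apply ringHom_ext
    · intro a
      change rhoF F (rename Sum.inl (C a)) = _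
      simp [rhoF]
    · intro i
      change rhoF F (rename Sum.inl (X i)) = _
      simp [rhoF]
  exact RingHom.congr_fun this p

omit [Fintype Z] [Fintype Q] [DecidableEq Z] [DecidableEq Q]
  [IsFractionRing (MvPolynomial Q k) F] in
theorem rhoF_inr (p : MvPolynomial Q k) :
    rhoF (k := k) (Z := Z) (Q := Q) F (rename Sum.inr p) = C (algebraMap (MvPolynomial Q k) F p) := by
  have : (rhoF (k := k) (Z := Z) (Q := Q) F).comp (rename (R := k) (Sum.inr : Q → Z ⊕ Q)).toRingHom =
      (C : F →+* MvPolynomial Z F).comp (algebraMap (MvPolynomial Q k) F) := by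
    apply ringHom_ext
    · intro a
      change rhoF F (rename Sum.inr (C a)) = _
      simp [rhoF, kF]
    · intro i
      change rhoF F (rename Sum.inr (X i)) = _
      simp [rhoF]
  exact RingHom.congr_fun this p

omit [Fintype Z] [DecidableEq Z] [DecidableEq Q]
  [IsFractionRing (MvPolynomial Q k) F] in
theorem rhoF_eqG (s : Fin r) : rhoF F (eqG eq b g s) = eqF eq b g F s := by
  rw [eqG, eqF, map_sub, map_sum, rhoF_inl]
  congr 1
  refine Finset.sum_congr rfl fun q _ => ?_
  rw [map_mul, rhoF_inl]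
  congr 1
  have := rhoF_inr (k := k) (Z := Z) (Q := Q) F (X q)
  rwa [rename_X] at this

omit [Fintype Z] [DecidableEq Z] [DecidableEq Q] in
theorem isUniv_AF :
    IsUniv {p | ∃ l : Fin r, (l : ℕ) < r ∧ p = eqG eq b g l}
      ({p | ∃ q, eq q < r ∧ p = X (Sum.inr q)} ∪
        {p | ∃ p' : MvPolynomial Q k, p' ≠ 0 ∧ p = rename Sum.inr p'})
      ((Ideal.Quotient.mk (Ideal.span (Set.range (eqF eq b g F)))).comp (rhoF F)) where
  kill := by
    rintro _ ⟨l, -, rfl⟩
    rw [RingHom.comp_apply, rhoF_eqG]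
    exact Ideal.Quotient.eq_zero_iff_mem.2 (Ideal.subset_span ⟨l, rfl⟩)
  inv := by
    have key : ∀ p' : MvPolynomial Q k, p' ≠ 0 →
        IsUnit (((Ideal.Quotient.mk (Ideal.span (Set.range (eqF eq b g F)))).comp (rhoF F))
          (rename Sum.inr p')) := by
      intro p' hp'
      rw [RingHom.comp_apply, rhoF_inr]
      have h1 : IsUnit (algebraMap (MvPolynomial Q k) F p') := by
        rw [isUnit_iff_ne_zero]
        intro h
        exact hp' ((IsFractionRing.injective (MvPolynomial Q k) F) (by rw [h, map_zero]))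
      exact (h1.map (C : F →+* MvPolynomial Z F)).map _
    rintro _ (⟨q, -, rfl⟩ | ⟨p', hp', rfl⟩)
    · have := key (X q) (X_ne_zero q)
      rwa [rename_X] at this
    · exact key p' hp'
  lift := fun T _ φ h1 h2 => by
    have hinv : ∀ y : nonZeroDivisors (MvPolynomial Q k),
        IsUnit ((φ.comp (rename (R := k) (Sum.inr : Q → Z ⊕ Q)).toRingHom) y) := by
      rintro ⟨y, hy⟩
      exact h2 _ (Or.inr ⟨y, nonZeroDivisors.ne_zero hy, rfl⟩)
    let c : F →+* T := IsLocalization.lift (M := nonZeroDivisors (MvPolynomial Q k)) hinv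
    have hc : ∀ p, c (algebraMap (MvPolynomial Q k) F p) = φ (rename Sum.inr p) := fun p => by
      simp only [c, IsLocalization.lift_eq]
      rfl
    let ψ₀ : MvPolynomial Z F →+* T := eval₂Hom c (fun z => φ (X (Sum.inl z)))
    have hψ₀ : ψ₀.comp (rhoF F) = φ := by
      apply ringHom_ext
      · intro a
        simp only [RingHom.comp_apply, rhoF, coe_eval₂Hom, eval₂_C, ψ₀]
        rw [kF, RingHom.comp_apply, hc, rename_C]
      · rintro (z | q)
        · simp [rhoF, ψ₀]
        · simp only [RingHom.comp_apply, rhoF, coe_eval₂Hom, eval₂_X, Sum.elim_inr, eval₂_C, ψ₀]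
          rw [hc, rename_X]
    have hk : ∀ a ∈ Ideal.span (Set.range (eqF eq b g F)), ψ₀ a = 0 := by
      have : Ideal.span (Set.range (eqF eq b g F)) ≤ RingHom.ker ψ₀ := by
        rw [Ideal.span_le]
        rintro _ ⟨l, rfl⟩
        change ψ₀ (eqF eq b g F l) = 0
        rw [← rhoF_eqG, ← RingHom.comp_apply, hψ₀]
        exact h1 _ ⟨l, l.2, rfl⟩
      exact fun a ha => this ha
    exact ⟨Ideal.Quotient.lift _ ψ₀ hk, hψ₀⟩
  ext := fun T _ ψ₁ ψ₂ h => by
    apply Ideal.Quotient.ringHom_ext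
    have h' : ∀ p, ψ₁ (Ideal.Quotient.mk _ (rhoF F p)) = ψ₂ (Ideal.Quotient.mk _ (rhoF F p)) :=
      fun p => RingHom.congr_fun h p
    apply ringHom_ext
    · intro a
      have : (ψ₁.comp (Ideal.Quotient.mk (Ideal.span (Set.range (eqF eq b g F))))).comp
          (C : F →+* MvPolynomial Z F) =
          (ψ₂.comp (Ideal.Quotient.mk (Ideal.span (Set.range (eqF eq b g F))))).comp
          (C : F →+* MvPolynomial Z F) := by
        apply IsLocalization.ringHom_ext (nonZeroDivisors (MvPolynomial Q k))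
        apply RingHom.ext
        intro p
        have := h' (rename Sum.inr p)
        rw [rhoF_inr] at this
        exact this
      exact RingHom.congr_fun this a
    · intro z
      have := h' (X (Sum.inl z))
      have h3 : rhoF (k := k) (Z := Z) (Q := Q) F (X (Sum.inl z)) = X z := by simp [rhoF]
      rw [h3] at this
      exact this

/-- **V3 (commutative base)**, given that polynomial rings over `k` are good. -/
theorem good_AF_of (hUM : UM eq b g) (hG : Good (MvPolynomial (Z ⊕ Q) k)) :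
    Good (AF eq b g F) := by
  obtain ⟨R, _, ρ, hρ, hR⟩ := tower eq b g hUM hG r le_rfl
  have h2 := hρ.loc {p | ∃ p' : MvPolynomial Q k, p' ≠ 0 ∧ p = rename Sum.inr p'}
  have h3 : Good (Localization (Submonoid.closure (ρ '' {p | ∃ p' : MvPolynomial Q k,
      p' ≠ 0 ∧ p = rename Sum.inr p'}))) := Good.of_isLocalization (Submonoid.closure (ρ ''
      {p | ∃ p' : MvPolynomial Q k, p' ≠ 0 ∧ p = rename Sum.inr p'})) hR
  obtain ⟨e⟩ := h2.nonempty_equiv (isUniv_AF eq b g F)
  exact Good.of_equiv e h3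

end final

end tower

end Crest.Agent.R181.V3
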