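import Mathlib
import Crest.Agent.R181.V3386c
import Crest.Agent.R181.AS4

/-!
R181, V3 base for the concrete parameter system of AS4 (operators `i.succ`, `i : Fin r`,
`n = r + 1` variables): unimodularity of the coefficient rows, identification of the equations.
-/

namespace Crest.Agent.R181.V3

open MvPolynomial Crest.Agent.R181.AS

section concrete

variable {r : ℕ} {X' : Type} [Fintype X'] [DecidableEq X']
  (a : Fin (r + 1) → ℕ) (f : Fin (r + 1) → MvPolynomial (Fin (r + 1)) ℂ)
  (lam : Fin (r + 1) → MvPolynomial X' ℂ)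

/-- the operator to whose equation a parameter belongs -/
def opOf {n : ℕ} : Par n → Fin n := Sum.elim id (Sum.elim (fun p => p.1) (fun p => p.1))

/-- the equation (highest operator first) to which a parameter belongs -/
def eqOf (q : Par (r + 1)) : ℕ := r - (opOf q : ℕ)

theorem eqOf_eq_iff (q : Par (r + 1)) (s : Fin r) :
    eqOf q = (s : ℕ) ↔ opOf q = (Fin.rev s).succ := by
  rw [eqOf, Fin.ext_iff, Fin.val_succ, Fin.val_rev]
  have := s.2
  have := (opOf q).2
  omega

theorem eqOf_lt_iff (q : Par (r + 1)) (s : Fin r) :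
    eqOf q < (s : ℕ) ↔ (Fin.rev s).succ < opOf q := by
  rw [eqOf, Fin.lt_def, Fin.val_succ, Fin.val_rev]
  have := s.2
  have := (opOf q).2
  omega

/-- the operator variable of index `l` (`0` for `l = 0`) -/
noncomputable def wv (l : Fin (r + 1)) : MvPolynomial (X' ⊕ Fin r) ℂ :=
  Fin.cases 0 (fun l' => X (Sum.inr l')) l

omit [Fintype X'] [DecidableEq X'] in
@[simp] theorem wv_succ (l : Fin r) : wv (X' := X') l.succ = X (Sum.inr l) := rfl

/-- the parameter free part -/
noncomputable def bC (s : Fin r) : MvPolynomial (X' ⊕ Fin r) ℂ :=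
  X (Sum.inr (Fin.rev s)) ^ a (Fin.rev s).succ

/-- the coefficients of the parameters -/
noncomputable def gC : Par (r + 1) → MvPolynomial (X' ⊕ Fin r) ℂ :=
  Sum.elim (fun i => rename Sum.inl (aeval lam (f i)))
    (Sum.elim (fun p => if p.2.1 < p.1 then
        rename Sum.inl (aeval lam (f p.2.1) * lam p.2.2 ^ (a p.1 - a p.2.1)) else 0)
      (fun p => if p.1 < p.2 then wv p.2 ^ a p.1 else 0))

omit [Fintype X'] [DecidableEq X'] in
theorem um_concrete (ha : ∀ i, 1 ≤ a i) (t0 : Fin (r + 1)) (hlam : lam t0 = 1)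
    (hN : ∃ N : ℕ, (X t0 : MvPolynomial (Fin (r + 1)) ℂ) ^ N ∈ Ideal.span (Set.range f)) :
    UM (eqOf (r := r)) (bC (X' := X') a) (gC a f lam) := by
  intro s K _ c z y hy hrel
  by_contra hcon
  push Not at hcon
  let i : Fin (r + 1) := (Fin.rev s).succ
  -- evaluation point
  let x : Fin (r + 1) → K := fun v => eval₂ c (fun t => z (Sum.inl t)) (lam v)
  have hx0 : x t0 = 1 := by simp [x, hlam]
  have hev : ∀ p : MvPolynomial (Fin (r + 1)) ℂ,
      eval₂ c z (rename (Sum.inl : X' → X' ⊕ Fin r) (aeval lam p)) = eval₂ c x p := by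
    intro p
    have h1 : ((eval₂Hom c z).comp (rename (R := ℂ) (Sum.inl : X' → X' ⊕ Fin r)).toRingHom).comp
        (aeval lam : MvPolynomial (Fin (r + 1)) ℂ →ₐ[ℂ] MvPolynomial X' ℂ).toRingHom =
        eval₂Hom c x := by
      apply ringHom_ext
      · intro r
        change eval₂Hom c z (rename Sum.inl (aeval lam (C r))) = _
        simp
      · intro v
        change eval₂Hom c z (rename Sum.inl (aeval lam (X v))) = _
        simp only [aeval_X, coe_eval₂Hom, eval₂_X, x]
        rw [eval₂_rename]
        rfl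
    exact RingHom.congr_fun h1 p
  have hevl : ∀ v, eval₂ c z (rename (Sum.inl : X' → X' ⊕ Fin r) (lam v)) = x v := by
    intro v
    have := hev (X v)
    simpa using this
  let φ : Fin (r + 1) → K := fun j => eval₂ c x (f j)
  -- the coefficients vanish
  have h1 : ∀ j, j ≤ i → φ j = 0 := by
    intro j hj
    rcases hj.lt_or_eq with h | h
    · have := hcon (Sum.inr (Sum.inl (i, j, t0))) (by rw [eqOf_eq_iff]; rfl)
      simp only [gC, Sum.elim_inr, Sum.elim_inl, h, if_true] at this
      rw [map_mul, eval₂_mul, hev, map_pow, eval₂_pow, hevl, hx0, one_pow, mul_one] at this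
      exact this
    · have := hcon (Sum.inl i) (by rw [eqOf_eq_iff]; rfl)
      simp only [gC, Sum.elim_inl] at this
      rw [hev] at this
      rw [h]
      exact this
  have h2 : ∀ l : Fin (r + 1), i < l → eval₂ c z (wv l) = 0 := by
    intro l hl
    have := hcon (Sum.inr (Sum.inr (i, l))) (by rw [eqOf_eq_iff]; rfl)
    simp only [gC, Sum.elim_inr, hl, if_true] at this
    rw [eval₂_pow] at this
    exact pow_eq_zero_iff (by have := ha i; omega) |>.1 this
  -- the equations of the higher operators kill all forms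
  have h3 : ∀ k : ℕ, ∀ l : Fin (r + 1), l.1 ≤ k → φ l = 0 := by
    intro k
    induction k with
    | zero =>
      intro l hl
      apply h1
      rw [Fin.le_def]
      omega
    | succ k ih =>
      intro l hl
      by_cases hli : l ≤ i
      · exact h1 l hli
      · push Not at hli
        have hl0 : l ≠ 0 := by
          rintro rfl
          exact absurd hli (by simp [Fin.lt_def])
        obtain ⟨l', rfl⟩ := Fin.exists_succ_eq.2 hl0
        have hls : Fin.rev l' < s := by
          have h := hli
          rw [Fin.lt_def] at h ⊢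
          simp only [i, Fin.val_succ, Fin.val_rev] at h ⊢
          have := l'.2
          have := s.2
          omega
        have h4 := hrel (Fin.rev l') hls
        have hb : eval₂ c z (bC (X' := X') a (Fin.rev l')) = 0 := by
          have h5 := h2 l'.succ hli
          rw [wv_succ, eval₂_X] at h5
          simp only [bC, Fin.rev_rev, eval₂_pow, eval₂_X, h5]
          exact zero_pow (by have := ha l'.succ; omega)
        rw [hb] at h4
        have h5 : ∀ q ∈ Finset.univ.filter (fun q : Par (r + 1) => eqOf q = (Fin.rev l' : ℕ)),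
            y q * eval₂ c z (gC a f lam q) =
            if q = Sum.inl l'.succ then y (Sum.inl l'.succ) * φ l'.succ else 0 := by
          intro q hq
          have hq' : opOf q = l'.succ := by
            have := (eqOf_eq_iff q (Fin.rev l')).1 (Finset.mem_filter.1 hq).2
            rwa [Fin.rev_rev] at this
          rcases q with j | ⟨j, j', v⟩ | ⟨j, m⟩
          · have : j = l'.succ := hq'
            subst this
            simp only [gC, Sum.elim_inl, if_true]
            rw [hev]
          · have : j = l'.succ := hq'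
            subst this
            simp only [gC, Sum.elim_inr, Sum.elim_inl, reduceCtorEq, if_false]
            split_ifs with hlt
            · rw [map_mul, eval₂_mul, hev]
              have : φ j' = 0 := ih j' (by rw [Fin.lt_def] at hlt; omega)
              change y _ * (φ j' * _) = 0
              rw [this]; ring
            · simp
          · have : j = l'.succ := hq'
            subst this
            simp only [gC, Sum.elim_inr, reduceCtorEq, if_false]
            split_ifs with hlt
            · rw [eval₂_pow, h2 m (hli.trans hlt), zero_pow (by have := ha l'.succ; omega)]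
              ring
            · simp
        rw [Finset.sum_congr rfl h5, Finset.sum_ite_eq' _ (Sum.inl l'.succ)] at h4
        have hmem : (Sum.inl l'.succ : Par (r + 1)) ∈
            Finset.univ.filter (fun q : Par (r + 1) => eqOf q = (Fin.rev l' : ℕ)) := by
          rw [Finset.mem_filter]
          exact ⟨Finset.mem_univ _, by rw [eqOf_eq_iff, Fin.rev_rev]; rfl⟩
        rw [if_pos hmem] at h4
        have hyl : y (Sum.inl l'.succ) ≠ 0 := hy (Sum.inl l'.succ) (by
          rw [eqOf_lt_iff]; exact hli)
        exact (mul_eq_zero.1 h4.symm).resolve_left hyl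
  obtain ⟨N, hN⟩ := hN
  have h4 : Ideal.span (Set.range f) ≤ RingHom.ker (eval₂Hom c x) := by
    rw [Ideal.span_le]
    rintro _ ⟨j, rfl⟩
    exact h3 j j le_rfl
  have h5 := h4 hN
  rw [RingHom.mem_ker, map_pow, coe_eval₂Hom, eval₂_X, hx0, one_pow] at h5
  exact one_ne_zero h5

/-- the equation of operator `i` over the parameter field -/
noncomputable def eqA (i : Fin r) : MvPolynomial (X' ⊕ Fin r) (Fld (r + 1)) :=
  X (Sum.inr i) ^ a i.succ -
    rename Sum.inl (aeval (fun v => map (algebraMap ℂ (Fld (r + 1))) (lam v)) (QF a f i.succ)) -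
    ∑ l : Fin r, C (thF i.succ l.succ) * X (Sum.inr l) ^ a i.succ

omit [Fintype X'] [DecidableEq X'] in
theorem aeval_map_map (p : MvPolynomial (Fin (r + 1)) ℂ) :
    aeval (fun v => map (algebraMap ℂ (Fld (r + 1))) (lam v))
      (map (algebraMap ℂ (Fld (r + 1))) p) =
      map (algebraMap ℂ (Fld (r + 1))) (aeval lam p) := by
  have h1 : ((aeval (fun v => map (algebraMap ℂ (Fld (r + 1))) (lam v)) :
      MvPolynomial (Fin (r + 1)) (Fld (r + 1)) →ₐ[Fld (r + 1)]
        MvPolynomial X' (Fld (r + 1))).toRingHom).comp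
      (map (algebraMap ℂ (Fld (r + 1)))) =
      (map (algebraMap ℂ (Fld (r + 1)))).comp
        (aeval lam : MvPolynomial (Fin (r + 1)) ℂ →ₐ[ℂ] MvPolynomial X' ℂ).toRingHom := by
    apply ringHom_ext
    · intro r
      change aeval _ (map _ (C r)) = map _ (aeval lam (C r))
      simp only [map_C, algebraMap_eq, algHom_C]
    · intro v
      change aeval _ (map _ (X v)) = map _ (aeval lam (X v))
      simp
  exact RingHom.congr_fun h1 p

theorem kF_eq (n : ℕ) : kF ℂ (Par n) (Fld n) = algebraMap ℂ (Fld n) := by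
  apply RingHom.ext
  intro r
  rw [kF, RingHom.comp_apply, IsScalarTower.algebraMap_apply ℂ (MvPolynomial (Par n) ℂ) (Fld n)]
  rfl

omit [Fintype X'] [DecidableEq X'] in
theorem eqF_eq_eqA (s : Fin r) :
    eqF (eqOf (r := r)) (bC (X' := X') a) (gC a f lam) (Fld (r + 1)) s =
      eqA a f lam (Fin.rev s) := by
  obtain ⟨i, rfl⟩ : ∃ i, s = Fin.rev i := ⟨Fin.rev s, (Fin.rev_rev s).symm⟩
  rw [Fin.rev_rev, eqF, eqA, kF_eq, Finset.sum_filter, Fintype.sum_sum_type, Fintype.sum_sum_type,
    Fintype.sum_prod_type, Fintype.sum_prod_type]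
  simp only [eqOf_eq_iff, Fin.rev_rev]
  have e1 : map (algebraMap ℂ (Fld (r + 1))) (bC (X' := X') a (Fin.rev i)) =
      X (Sum.inr i) ^ a i.succ := by
    simp [bC]
  have hpar : ∀ q : Par (r + 1),
      algebraMap (MvPolynomial (Par (r + 1)) ℂ) (Fld (r + 1)) (X q) = par q := fun q => rfl
  have hmr : ∀ p : MvPolynomial X' ℂ, map (algebraMap ℂ (Fld (r + 1)))
      (rename (Sum.inl : X' → X' ⊕ Fin r) p) =
      rename Sum.inl (map (algebraMap ℂ (Fld (r + 1))) p) := fun p => by rw [map_rename]
  have e2 : ∑ x : Fin (r + 1), (if opOf (Sum.inl x : Par (r + 1)) = i.succ then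
      C (algebraMap (MvPolynomial (Par (r + 1)) ℂ) (Fld (r + 1)) (X (Sum.inl x))) *
        map (algebraMap ℂ (Fld (r + 1))) (gC a f lam (Sum.inl x)) else 0) =
      C (cF i.succ) * rename Sum.inl (map (algebraMap ℂ (Fld (r + 1))) (aeval lam (f i.succ))) := by
    rw [Finset.sum_eq_single i.succ]
    · rw [if_pos (by rfl), hpar]
      simp only [gC, Sum.elim_inl]
      rw [hmr]
      rfl
    · intro j _ hj
      rw [if_neg]
      simpa [opOf] using hj
    · simp
  have e3 : ∑ x : Fin (r + 1), ∑ y : Fin (r + 1) × Fin (r + 1),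
      (if opOf (Sum.inr (Sum.inl (x, y)) : Par (r + 1)) = i.succ
      then C (algebraMap (MvPolynomial (Par (r + 1)) ℂ) (Fld (r + 1))
          (X (Sum.inr (Sum.inl (x, y))))) *
        map (algebraMap ℂ (Fld (r + 1))) (gC a f lam (Sum.inr (Sum.inl (x, y)))) else 0) =
      ∑ j ∈ Finset.univ.filter (fun j => j < i.succ), ∑ v, C (ccF i.succ j v) *
        (rename Sum.inl (map (algebraMap ℂ (Fld (r + 1))) (aeval lam (f j))) *
          rename Sum.inl (map (algebraMap ℂ (Fld (r + 1))) (lam v)) ^ (a i.succ - a j)) := by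
    rw [Finset.sum_eq_single i.succ]
    · rw [Fintype.sum_prod_type, Finset.sum_filter]
      refine Finset.sum_congr rfl fun j _ => ?_
      by_cases hj : j < i.succ
      · rw [if_pos hj]
        refine Finset.sum_congr rfl fun v _ => ?_
        rw [if_pos (by rfl), hpar]
        simp only [gC, Sum.elim_inr, Sum.elim_inl, hj, if_true]
        rw [hmr, map_mul, map_mul, map_pow, map_pow]
        rfl
      · rw [if_neg hj]
        refine Finset.sum_eq_zero fun v _ => ?_
        rw [if_pos (by rfl)]
        simp [gC, hj]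
    · intro j _ hj
      refine Finset.sum_eq_zero fun v _ => ?_
      rw [if_neg]
      simpa [opOf] using hj
    · simp
  have e4 : ∑ x : Fin (r + 1), ∑ y : Fin (r + 1),
      (if opOf (Sum.inr (Sum.inr (x, y)) : Par (r + 1)) = i.succ
      then C (algebraMap (MvPolynomial (Par (r + 1)) ℂ) (Fld (r + 1))
          (X (Sum.inr (Sum.inr (x, y))))) *
        map (algebraMap ℂ (Fld (r + 1))) (gC a f lam (Sum.inr (Sum.inr (x, y)))) else 0) =
      ∑ l : Fin r, C (thF i.succ l.succ) * X (Sum.inr l) ^ a i.succ := by
    rw [Finset.sum_eq_single i.succ]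
    · rw [Fin.sum_univ_succ]
      have h0 : (if opOf (Sum.inr (Sum.inr (i.succ, 0)) : Par (r + 1)) = i.succ
          then C (algebraMap (MvPolynomial (Par (r + 1)) ℂ) (Fld (r + 1))
            (X (Sum.inr (Sum.inr (i.succ, 0))))) *
            map (algebraMap ℂ (Fld (r + 1)))
              (gC a f lam (Sum.inr (Sum.inr (i.succ, 0)))) else 0) = 0 := by
        simp [gC]
      rw [h0, zero_add]
      refine Finset.sum_congr rfl fun l _ => ?_
      rw [if_pos (by rfl), hpar]
      by_cases hl : i.succ < l.succ
      · simp only [gC, Sum.elim_inr, hl, if_true, thF, wv_succ]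
        rw [map_pow, map_X]
      · simp only [gC, Sum.elim_inr, hl, if_false, thF, map_zero, mul_zero, zero_mul]
    · intro j _ hj
      refine Finset.sum_eq_zero fun v _ => ?_
      rw [if_neg]
      simpa [opOf] using hj
    · simp
  have e5 : rename (Sum.inl : X' → X' ⊕ Fin r)
      (aeval (fun v => map (algebraMap ℂ (Fld (r + 1))) (lam v)) (QF a f i.succ)) =
      C (cF i.succ) *
        rename Sum.inl (map (algebraMap ℂ (Fld (r + 1))) (aeval lam (f i.succ))) +
      ∑ j ∈ Finset.univ.filter (fun j => j < i.succ), ∑ v, C (ccF i.succ j v) *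
        (rename Sum.inl (map (algebraMap ℂ (Fld (r + 1))) (aeval lam (f j))) *
          rename Sum.inl (map (algebraMap ℂ (Fld (r + 1))) (lam v)) ^ (a i.succ - a j)) := by
    unfold QF
    rw [map_add, map_add, map_mul, map_mul]
    simp only [map_sum, map_mul, map_pow, aeval_X, algHom_C, algebraMap_eq, fF,
      aeval_map_map]
  rw [e1, e2, e3, e4, e5]
  ring

/-- **V3 for the concrete parameter system**, given that complex polynomial rings are good. -/
theorem good_base_of (ha : ∀ i, 1 ≤ a i) (t0 : Fin (r + 1)) (hlam : lam t0 = 1)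
    (hN : ∃ N : ℕ, (X t0 : MvPolynomial (Fin (r + 1)) ℂ) ^ N ∈ Ideal.span (Set.range f))
    (hG : Good (MvPolynomial ((X' ⊕ Fin r) ⊕ Par (r + 1)) ℂ)) :
    Good (MvPolynomial (X' ⊕ Fin r) (Fld (r + 1)) ⧸
      Ideal.span (Set.range (eqA a f lam))) := by
  have h := good_AF_of (eqOf (r := r)) (bC (X' := X') a) (gC a f lam) (Fld (r + 1))
    (um_concrete a f lam ha t0 hlam hN) hG
  have hset : Set.range (eqF (eqOf (r := r)) (bC (X' := X') a) (gC a f lam) (Fld (r + 1))) =
      Set.range (eqA a f lam) := by
    ext p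
    constructor
    · rintro ⟨s, rfl⟩
      exact ⟨Fin.rev s, (eqF_eq_eqA a f lam s).symm⟩
    · rintro ⟨i, rfl⟩
      exact ⟨Fin.rev i, by rw [eqF_eq_eqA, Fin.rev_rev]⟩
  change Good (MvPolynomial (X' ⊕ Fin r) (Fld (r + 1)) ⧸ Ideal.span (Set.range
    (eqF (eqOf (r := r)) (bC (X' := X') a) (gC a f lam) (Fld (r + 1))))) at h
  rw [hset] at h
  exact h

end concrete

end Crest.Agent.R181.V3
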