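import Mathlib
import Crest.Agent.R181.V3386d
import Crest.Agent.R181.FR459b
import Crest.Agent.R181.FFR776c
import Crest.Agent.R181.TW825b
import Crest.Agent.R181.ST963b
import Crest.Agent.R181.SM681a

/-!
R181, V3 base, final form over the contract TW825b.
-/

namespace Crest.Agent.R181.V3

open MvPolynomial Crest.Agent.R181.FFR

theorem Good.of_allFFR {R : Type} [Ring R] (h : AllFFR R) : Good R := fun M _ _ hM =>
  Crest.Agent.R181.FR.ffr_iff.2 (h.ffr M hM)

theorem Good.allFFR {R : Type} [Ring R] [IsNoetherianRing R] (h : Good R) : AllFFR R :=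
  ⟨inferInstance, fun M _ _ _ => Crest.Agent.R181.FR.ffr_iff.1 (h M)⟩

theorem good_mvPolynomial (k : Type) [Field k] (σ : Type) [Finite σ] : Good (MvPolynomial σ k) :=
  Good.of_allFFR ((AllFFR.of_divisionRing k).mvPolynomial σ)

theorem Good.allSF {R : Type} [Ring R] (h : Good R) : TW.AllSF R := fun P _ _ _ _ =>
  (h P).stFree

section split

variable {F : Type} [Field F] {I X' : Type}

/-- `F[X' ⊕ I] ≃ F[X'][I]` -/
noncomputable def splitE (F I X' : Type) [Field F] :
    MvPolynomial (X' ⊕ I) F ≃+* MvPolynomial I (MvPolynomial X' F) :=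
  ((renameEquiv F (Equiv.sumComm X' I)).trans (sumAlgEquiv F I X')).toRingEquiv

theorem splitE_X_inr (i : I) : splitE F I X' (X (Sum.inr i)) = X i := by
  change sumAlgEquiv F I X' (rename (Equiv.sumComm X' I) (X (Sum.inr i))) = X i
  rw [rename_X]
  exact sumAlgEquiv_X_inl F I X' i

theorem splitE_C (c : F) : splitE F I X' (C c) = C (C c) := by
  change sumAlgEquiv F I X' (rename (Equiv.sumComm X' I) (C c)) = _
  rw [rename_C]
  exact sumAlgEquiv_C_inl F I X' c

theorem splitE_inl (p : MvPolynomial X' F) : splitE F I X' (rename Sum.inl p) = C p := by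
  have : (splitE F I X').toRingHom.comp (rename (R := F) (Sum.inl : X' → X' ⊕ I)).toRingHom =
      (C : MvPolynomial X' F →+* MvPolynomial I (MvPolynomial X' F)) := by
    apply ringHom_ext
    · intro c
      change splitE F I X' (rename Sum.inl (C c)) = _
      rw [rename_C, splitE_C]
    · intro t
      change sumAlgEquiv F I X' (rename (Equiv.sumComm X' I) (rename Sum.inl (X t))) = _
      rw [rename_X, rename_X]
      exact sumAlgEquiv_X_inr F I X' t
  exact RingHom.congr_fun this p

/-- the equations in all variables -/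
noncomputable def eqs [Fintype I] (a : I → ℕ) (th : I → I → F) (c : I → MvPolynomial X' F) (i : I) :
    MvPolynomial (X' ⊕ I) F :=
  X (Sum.inr i) ^ a i - rename Sum.inl (c i) - ∑ l, C (th i l) * X (Sum.inr l) ^ a i

theorem splitE_eqs [Fintype I] (a : I → ℕ) (th : I → I → F) (c : I → MvPolynomial X' F) (i : I) :
    splitE F I X' (eqs a th c i) = X i ^ a i - (C (c i) +
      ∑ l, C (algebraMap F (MvPolynomial X' F) (th i l)) * X l ^ a i) := by
  have h1 : ∀ l, splitE F I X' (C (th i l) * X (Sum.inr l) ^ a i) =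
      C (algebraMap F (MvPolynomial X' F) (th i l)) * X l ^ a i := by
    intro l
    rw [map_mul, splitE_C, map_pow, splitE_X_inr]
    rfl
  rw [eqs, map_sub, map_sub, map_pow, splitE_X_inr, splitE_inl, map_sum,
    Finset.sum_congr rfl fun l _ => h1 l, sub_sub]

theorem exists_equiv_eqs [Fintype I] (a : I → ℕ) (th : I → I → F) (c : I → MvPolynomial X' F) :
    Nonempty ((MvPolynomial (X' ⊕ I) F ⧸ Ideal.span (Set.range (eqs a th c))) ≃+*
      (MvPolynomial I (MvPolynomial X' F) ⧸ ST.relIdeal a th c)) := by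
  have h : Ideal.map (splitE F I X' : MvPolynomial (X' ⊕ I) F →+* MvPolynomial I (MvPolynomial X' F))
      (Ideal.span (Set.range (eqs a th c))) = ST.relIdeal a th c := by
    rw [Ideal.map_span, ← Set.range_comp]
    have hfun : ((splitE F I X' : MvPolynomial (X' ⊕ I) F →+*
        MvPolynomial I (MvPolynomial X' F)) ∘ eqs a th c) = fun i => X i ^ a i - (C (c i) +
      ∑ l, C (algebraMap F (MvPolynomial X' F) (th i l)) * X l ^ a i) :=
      funext fun i => splitE_eqs a th c i
    rw [hfun]
  exact ⟨Ideal.quotientEquiv _ _ (splitE F I X') h.symm⟩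

theorem good_U_of [Fintype I] {D σ : Type} [Ring D] [Algebra F D] [Fintype σ] [IsEmpty σ]
    (hF' : Function.Bijective (algebraMap F D))
    (a : I → ℕ) (th : I → I → F) (c : I → MvPolynomial X' F)
    (Q : I → MvPolynomial (Option σ) (MvPolynomial X' F)) (w : I → σ → D)
    (hQ : ST.Mono a Q c)
    (h : Good (MvPolynomial (X' ⊕ I) F ⧸ Ideal.span (Set.range (eqs a th c)))) :
    Good (UR.U a th Q w) := by
  obtain ⟨f, -⟩ := ST.exists_equiv_quot th w hF' hQ
  obtain ⟨g⟩ := exists_equiv_eqs a th c
  exact SM.Good.congr (g.trans f.symm) h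

end split

section Ql

variable {F : Type} [Field F] {n : ℕ} {X' : Type}

theorem aeval_smul_X {L σ : Type} [CommRing L] [Algebra F L] (lam : Fin n → L)
    (p : MvPolynomial (Fin n) F) {m : ℕ} (hp : p.IsHomogeneous m) :
    aeval (fun t => (C (lam t) * X none : MvPolynomial (Option σ) L)) p =
      monomial (Finsupp.single none m) (aeval lam p) := by
  classical
  rw [aeval_def, aeval_def, eval₂_eq', eval₂_eq']
  have h1 : ∀ α ∈ p.support, (algebraMap F (MvPolynomial (Option σ) L)) (coeff α p) *
      ∏ i, (C (lam i) * X none : MvPolynomial (Option σ) L) ^ α i =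
      monomial (Finsupp.single none m) (algebraMap F L (coeff α p) * ∏ i, lam i ^ α i) := by
    intro α hα
    have h2 : ∑ i, α i = m := by
      have := hp (mem_support_iff.1 hα)
      rw [Finsupp.weight_apply, Finsupp.sum_fintype _ _ (by simp)] at this
      simpa using this
    have h3 : ∏ i, (C (lam i) * X none : MvPolynomial (Option σ) L) ^ α i =
        C (∏ i, lam i ^ α i) * X none ^ m := by
      simp only [mul_pow]
      rw [Finset.prod_mul_distrib, Finset.prod_pow_eq_pow_sum, h2, map_prod]
      simp only [map_pow]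
    rw [h3, X_pow_eq_monomial, ← mul_assoc, IsScalarTower.algebraMap_apply F L, algebraMap_eq,
      ← map_mul, C_mul_monomial, mul_one]
  rw [Finset.sum_congr rfl h1, ← map_sum]

theorem mono_Ql {I : Type} [Fintype I] (d : TW.Dat F I n) {L : Type} [CommRing L] [Algebra F L]
    (lam : Fin n → L) : ST.Mono d.a (d.Ql 0 lam) (fun i => aeval lam (d.Q i)) := by
  intro i
  have h : (TW.lvars 0 lam : Fin n → MvPolynomial (Option (TW.Vr 0)) L) =
      fun t => C (lam t) * X none := by
    funext t
    rw [TW.lvars, if_neg (Nat.not_lt_zero _)]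
  rw [TW.Dat.Ql, h]
  exact aeval_smul_X lam (d.Q i) (d.hQ i)

/-- the base ring of the V-chain, generic data -/
theorem good_lvl0_U {I : Type} [Fintype I] (d : TW.Dat F I n)
    (lam : Fin n → MvPolynomial X' F)
    (h : Good (MvPolynomial (X' ⊕ I) F ⧸
      Ideal.span (Set.range (eqs d.a d.th fun i => aeval lam (d.Q i))))) :
    Good ((TW.lvl0 d).U lam) :=
  good_U_of (σ := TW.Vr 0) (D := F) Function.bijective_id d.a d.th _ _ _ (mono_Ql d lam) h

end Ql

end Crest.Agent.R181.V3
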