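import Mathlib
import Crest.Agent.R181.V3386e

/-!
R181, V3: the statement of the contract TW825b for the concrete data
(`I = Fin r`, `n = r + 1`, `F = AS.Fld (r + 1)`, `AS.thF`, `AS.QF`, operators `i.succ`).
-/

namespace Crest.Agent.R181.V3

open MvPolynomial Crest.Agent.R181.AS Crest.Agent.R181.TW

section

variable {r : ℕ} (a : Fin (r + 1) → ℕ) (f : Fin (r + 1) → MvPolynomial (Fin (r + 1)) ℂ)
  (d : Dat (Fld (r + 1)) (Fin r) (r + 1))

/-- the point `(x_0, .., x_{k-1}, 1, 0, ..)` -/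
noncomputable def pt (K : Type) [CommRing K] (n k : ℕ) (t : Fin n) : MvPolynomial (Fin k) K :=
  if h : (t : ℕ) < k then X ⟨t, h⟩ else if (t : ℕ) = k then 1 else 0

theorem good_V3 (hda : ∀ i, d.a i = a i.succ) (hdth : ∀ i l, d.th i l = thF i.succ l.succ)
    (hdQ : ∀ i, d.Q i = QF a f i.succ) (ha : ∀ i, 1 ≤ a i)
    (hN : ∀ t, ∃ N : ℕ, (X t : MvPolynomial (Fin (r + 1)) ℂ) ^ N ∈ Ideal.span (Set.range f))
    (k : ℕ) (hk : k < r + 1) : Good ((lvl0 d).U (pt (Fld (r + 1)) (r + 1) k)) := by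
  apply good_lvl0_U
  have h := good_base_of (X' := Fin k) a f (pt ℂ (r + 1) k) ha ⟨k, hk⟩ (by simp [pt]) (hN ⟨k, hk⟩)
    (good_mvPolynomial ℂ _)
  have hpt : ∀ t, map (algebraMap ℂ (Fld (r + 1))) (pt ℂ (r + 1) k t) =
      pt (Fld (r + 1)) (r + 1) k t := by
    intro t
    rw [pt, pt]
    split_ifs
    · rw [map_X]
    · rw [map_one]
    · rw [map_zero]
  have he : eqs d.a d.th (fun i => aeval (pt (Fld (r + 1)) (r + 1) k) (d.Q i)) =
      eqA a f (pt ℂ (r + 1) k) := by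
    funext i
    rw [eqs, eqA, hda, hdQ]
    simp only [hdth, hpt]
  rw [he]
  exact h

/-- **[V3]** of the contract TW825b. -/
theorem allSF_V3 (hda : ∀ i, d.a i = a i.succ) (hdth : ∀ i l, d.th i l = thF i.succ l.succ)
    (hdQ : ∀ i, d.Q i = QF a f i.succ) (ha : ∀ i, 1 ≤ a i)
    (hN : ∀ t, ∃ N : ℕ, (X t : MvPolynomial (Fin (r + 1)) ℂ) ^ N ∈ Ideal.span (Set.range f))
    (k : ℕ) (hk : k < r + 1) :
    AllSF ((lvl0 d).U (fun t : Fin (r + 1) =>
      if h : (t : ℕ) < k then (MvPolynomial.X ⟨t, h⟩ : MvPolynomial (Fin k) (Fld (r + 1)))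
      else if (t : ℕ) = k then 1 else 0)) :=
  (good_V3 a f d hda hdth hdQ ha hN k hk).allSF

end

end Crest.Agent.R181.V3
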