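import Crest.Agent.R181.TW825e
import Crest.Agent.R181.V3386f
import Crest.Agent.R181.HL776c
import Crest.Agent.R181.KL279c

/-!
R181 (helper825): THE CONCRETE DATA.  `S : Inp r` = the input of S0271 in `n = r + 1` variables,
`S.prm : H.Prm r (AS.Fld (r + 1))`, all parameters being variables of
`MvPolynomial (AS.Par (r + 1)) ℂ`; `S.dt := KL.dat S.prm` and `final'` = S0271 from the blocks V2
and PO for `S.dt` only (H9 = 776 + 279 and V3 = 386 are plugged in).
-/

set_option autoImplicit false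
set_option linter.unusedSectionVars false

namespace Crest.Agent.R181.TW

open UR HT

/-- The input of S0271. -/
structure Inp (r : ℕ) where
  a : Fin (r + 1) → ℕ
  f : Fin (r + 1) → MvPolynomial (Fin (r + 1)) ℂ
  ha : ∀ i, 2 ≤ a i
  mono : Monotone a
  hom : ∀ i, (f i).IsHomogeneous (a i)
  hf : ∀ t, ∃ M : ℕ, (MvPolynomial.X t : MvPolynomial (Fin (r + 1)) ℂ) ^ M ∈
      Ideal.span (Set.range f)

/-- the concrete parameters -/
noncomputable def Inp.prm {r : ℕ} (S : Inp r) : H.Prm r (AS.Fld (r + 1)) where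
  a := S.a
  f := S.f
  c i := AS.cF i.succ
  cc i j l := AS.ccF i.succ j l
  θ i m := AS.par (Sum.inr (Sum.inr (i.succ, m.succ)))
  ha := S.ha
  mono := S.mono
  hom := S.hom
  hf := S.hf
  hc i := AS.cF_ne_zero _
  dc i := by
    obtain ⟨d, h1, h2⟩ := H.exists_der (AS.Par (r + 1)) (Sum.inl i.succ)
    exact ⟨d, ⟨h1, fun i' h => h2 _ fun h' => h (Fin.succ_injective _ (Sum.inl_injective h'))⟩,
      fun i' j l => h2 _ (by simp), fun i' m => h2 _ (by simp)⟩
  dcc i j l := by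
    obtain ⟨d, h1, h2⟩ := H.exists_der (AS.Par (r + 1)) (Sum.inr (Sum.inl (i.succ, j, l)))
    refine ⟨d, fun i' => h2 _ (by simp), ⟨h1, fun i' j' l' h => h2 _ fun h' => h ?_⟩,
      fun i' m => h2 _ fun h' => Sum.inr_ne_inl (Sum.inr_injective h')⟩
    have h3 := Sum.inl_injective (Sum.inr_injective h')
    simp only [Prod.mk.injEq] at h3 ⊢
    exact ⟨Fin.succ_injective _ h3.1, h3.2⟩
  dθ i m := by
    obtain ⟨d, h1, h2⟩ := H.exists_der (AS.Par (r + 1)) (Sum.inr (Sum.inr (i.succ, m.succ)))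
    refine ⟨d, fun i' => h2 _ (by simp), fun i' j' l' => h2 _ fun h' =>
      Sum.inl_ne_inr (Sum.inr_injective h'), h1, fun i' m' h => h2 _ fun h' => h ?_⟩
    have h3 := Sum.inr_injective (Sum.inr_injective h')
    simp only [Prod.mk.injEq] at h3 ⊢
    exact ⟨Fin.succ_injective _ h3.1, Fin.succ_injective _ h3.2⟩

/-- **the data of the tower of S0271** -/
noncomputable def Inp.dt {r : ℕ} (S : Inp r) : Dat (AS.Fld (r + 1)) (Fin r) (r + 1) :=
  KL.dat S.prm

section

variable {r : ℕ} (S : Inp r)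

theorem Inp.dt_a (i : Fin r) : S.dt.a i = S.a i.succ := rfl

theorem Inp.dt_th (i l : Fin r) : S.dt.th i l = AS.thF i.succ l.succ := by
  show (if i < l then AS.par (Sum.inr (Sum.inr (i.succ, l.succ))) else 0) = AS.thF i.succ l.succ
  rw [AS.thF]
  simp only [Fin.succ_lt_succ_iff]

theorem Inp.dt_Q (i : Fin r) : S.dt.Q i = AS.QF S.a S.f i.succ := by
  show MvPolynomial.C (AS.cF i.succ) * AS.fF S.f i.succ +
    ∑ j ∈ Finset.univ.filter (fun j => j ≤ i.castSucc), ∑ l,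
      MvPolynomial.C (AS.ccF i.succ j l) *
        (MvPolynomial.X l ^ (S.a i.succ - S.a j) * AS.fF S.f j) = _
  rw [AS.QF]
  congr 1
  have h : Finset.univ.filter (fun j : Fin (r + 1) => j ≤ i.castSucc) =
      Finset.univ.filter (fun j => j < i.succ) := by
    ext j
    simp only [Finset.mem_filter, Finset.mem_univ, true_and, Fin.le_def, Fin.lt_def,
      Fin.val_castSucc, Fin.val_succ]
    omega
  rw [h]
  refine Finset.sum_congr rfl fun j _ => Finset.sum_congr rfl fun l _ => ?_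
  rw [mul_comm (MvPolynomial.X l ^ _)]

/-- block V3 (386) -/
theorem Inp.v3 : V3Stmt S.dt := fun k hk =>
  V3.allSF_V3 S.a S.f S.dt S.dt_a S.dt_th S.dt_Q (fun i => by have := S.ha i; omega) S.hf k hk

/-- block H9 (776, 279, 788) -/
theorem Inp.h9 : H9Stmt S.dt := HL.h9Stmt_of_kill fun _ hi => KL.kill_HL S.prm hi

end

/-- **S0271 from the blocks V2 and PO, for the concrete data.** -/
theorem final'
    (hblocks : ∀ (r : ℕ) (S : Inp r), V2Stmt S.dt ∧ POStmt S.dt)
    (n : ℕ) (hn : 1 ≤ n) (a : Fin n → ℕ)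
    (ha : Monotone a) (ha2 : ∀ i, 2 ≤ a i) (I : Ideal (MvPolynomial (Fin n) ℂ))
    (hI : ∀ g ∈ I, ∀ d : ℕ, MvPolynomial.homogeneousComponent d g ∈ I)
    (f : Fin n → MvPolynomial (Fin n) ℂ) (hf : ∀ i, (f i).IsHomogeneous (a i)) (hfI : ∀ i, f i ∈ I)
    (hreg : RingTheory.Sequence.IsRegular (MvPolynomial (Fin n) ℂ) (List.ofFn f)) :
    KL.Concl n a I := by
  obtain ⟨r, rfl⟩ : ∃ r, n = r + 1 := ⟨n - 1, by omega⟩
  obtain ⟨N, hN⟩ := AS.exists_X_pow_mem f a hf hreg
  let S : Inp r := ⟨a, f, ha2, ha, hf, fun t => ⟨N, hN t⟩⟩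
  obtain ⟨h2, hP⟩ := hblocks r S
  obtain ⟨X⟩ := nonempty_top S.h9 h2 S.v3 hP
  exact KL.result_of_lvl S.prm I hI hfI hreg X

end Crest.Agent.R181.TW
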