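import Crest.Agent.R181.TW825d
import Crest.Agent.R181.AS7
import Crest.Agent.R181.V3386f
import Crest.Agent.R181.HL776c

/-!
R181 (helper825): **S0271 from the blocks V2 and PO for 279's `AS.dat`** (H9 = 776 + 279 + 788 and
V3 = 386 are plugged in).
-/

set_option autoImplicit false
set_option linter.unusedSectionVars false

namespace Crest.Agent.R181.TW

open UR HT

section

variable {r : ℕ} (a : Fin (r + 1) → ℕ) (f : Fin (r + 1) → MvPolynomial (Fin (r + 1)) ℂ)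
  (ha : Monotone a) (ha2 : ∀ i, 2 ≤ a i) (hf : ∀ i, (f i).IsHomogeneous (a i))
  (hX : ∀ t, ∃ M : ℕ, (MvPolynomial.X t : MvPolynomial (Fin (r + 1)) ℂ) ^ M ∈
      Ideal.span (Set.range f))

include hX

/-- block V3 (386) -/
theorem v3_dat : V3Stmt (AS.dat a f ha ha2 hf) := fun k hk =>
  V3.allSF_V3 a f (AS.dat a f ha ha2 hf) (fun _ => rfl) (fun _ _ => rfl) (fun _ => rfl)
    (fun i => by have := ha2 i; omega) hX k hk

/-- block H9 (776, 279, 788) -/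
theorem h9_dat : H9Stmt (AS.dat a f ha ha2 hf) :=
  HL.h9Stmt_of_kill fun _ hi => AS.kill a f ha ha2 hf hX hi

end

/-- **S0271 from the blocks V2 and PO.** -/
theorem main
    (hblocks : ∀ (r : ℕ) (a : Fin (r + 1) → ℕ) (f : Fin (r + 1) → MvPolynomial (Fin (r + 1)) ℂ)
      (ha : Monotone a) (ha2 : ∀ i, 2 ≤ a i) (hf : ∀ i, (f i).IsHomogeneous (a i)),
      V2Stmt (AS.dat a f ha ha2 hf) ∧ POStmt (AS.dat a f ha ha2 hf))
    (n : ℕ) (hn : 1 ≤ n) (a : Fin n → ℕ)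
    (ha : Monotone a) (ha2 : ∀ i, 2 ≤ a i) (I : Ideal (MvPolynomial (Fin n) ℂ))
    (hI : ∀ g ∈ I, ∀ d : ℕ, MvPolynomial.homogeneousComponent d g ∈ I)
    (f : Fin n → MvPolynomial (Fin n) ℂ) (hf : ∀ i, (f i).IsHomogeneous (a i)) (hfI : ∀ i, f i ∈ I)
    (hreg : RingTheory.Sequence.IsRegular (MvPolynomial (Fin n) ℂ) (List.ofFn f)) :
    KL.Concl n a I := by
  refine AS.result_of_dat (fun r a f ha ha2 hf hN => ?_) n hn a ha ha2 I hI f hf hfI hreg
  obtain ⟨N, hN⟩ := hN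
  obtain ⟨h2, hP⟩ := hblocks r a f ha ha2 hf
  exact exists_tuple (h9_dat a f ha ha2 hf fun t => ⟨N, hN t⟩) h2
    (v3_dat a f ha ha2 hf fun t => ⟨N, hN t⟩) hP

end Crest.Agent.R181.TW
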