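import Crest.Agent.R181.UR396f

/-!
R181 (helper396): the Rees ring `RR` of the chain ring `V'`, the filtration of `V'` and its
associated graded ring.
-/

set_option autoImplicit false
set_option linter.unusedSectionVars false

namespace Crest.Agent.R181.UR

open AddMonoidAlgebra
open scoped Polynomial

section GrPoly

theorem coassoc_add {R : Type*} [Ring R] {Δ : R →+* R[X]} {x y : R}
    (hx : ∀ n, Δ ((Δ x).coeff n) = Polynomial.monomial n ((Δ x).coeff n))
    (hy : ∀ n, Δ ((Δ y).coeff n) = Polynomial.monomial n ((Δ y).coeff n)) (n : ℕ) :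
    Δ ((Δ (x + y)).coeff n) = Polynomial.monomial n ((Δ (x + y)).coeff n) := by
  rw [map_add, Polynomial.coeff_add, map_add, hx n, hy n, map_add]

theorem coassoc_mul {R : Type*} [Ring R] {Δ : R →+* R[X]} {x y : R}
    (hx : ∀ n, Δ ((Δ x).coeff n) = Polynomial.monomial n ((Δ x).coeff n))
    (hy : ∀ n, Δ ((Δ y).coeff n) = Polynomial.monomial n ((Δ y).coeff n)) (n : ℕ) :
    Δ ((Δ (x * y)).coeff n) = Polynomial.monomial n ((Δ (x * y)).coeff n) := by
  rw [map_mul, Polynomial.coeff_mul, map_sum, map_sum]
  refine Finset.sum_congr rfl fun p hp => ?_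
  rw [map_mul, hx, hy, Polynomial.monomial_mul_monomial,
    Finset.HasAntidiagonal.mem_antidiagonal.1 hp]

variable {R : Type*} [CommRing R]

/-- the trivial grading -/
theorem gr_C : Gr (Polynomial.C : R →+* R[X]) where
  counit r := by rw [Polynomial.sum_C_index rfl]
  coassoc r n := by
    rw [Polynomial.coeff_C]
    split_ifs with h
    · subst h; rfl
    · simp

/-- the grading of `R[X]` with `X` in degree `m` -/
noncomputable def polyGr (Δ : R →+* R[X]) (m : ℕ) : R[X] →+* R[X][X] :=
  Polynomial.eval₂RingHom ((Polynomial.mapRingHom Polynomial.C).comp Δ)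
    (Polynomial.monomial m Polynomial.X)

@[simp] theorem polyGr_C (Δ : R →+* R[X]) (m : ℕ) (r : R) :
    polyGr Δ m (Polynomial.C r) = Polynomial.map Polynomial.C (Δ r) := by
  simp [polyGr]

@[simp] theorem polyGr_X (Δ : R →+* R[X]) (m : ℕ) :
    polyGr Δ m Polynomial.X = Polynomial.monomial m Polynomial.X := by
  simp [polyGr]

theorem Gr.poly {Δ : R →+* R[X]} (h : Gr Δ) (m : ℕ) : Gr (polyGr Δ m) where
  counit r := by
    have hs : ∀ p : R[X][X], p.sum (fun _ a => a) = Polynomial.evalRingHom 1 p := by
      intro p; rw [Polynomial.coe_evalRingHom, Polynomial.eval_eq_sum]; simp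
    have he : (Polynomial.evalRingHom 1).comp (polyGr Δ m) = RingHom.id _ := by
      apply Polynomial.ringHom_ext
      · intro r
        have h1 := h.counit r
        have hs' : (Δ r).sum (fun _ a => a) = (Δ r).eval 1 := by
          rw [Polynomial.eval_eq_sum]; simp
        rw [hs'] at h1
        rw [RingHom.comp_apply, polyGr_C, Polynomial.coe_evalRingHom, RingHom.id_apply]
        conv_rhs => rw [← h1]
        rw [← map_one (Polynomial.C : R →+* R[X]), Polynomial.eval_map,
          Polynomial.eval₂_at_apply]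
      · rw [RingHom.comp_apply, polyGr_X, Polynomial.coe_evalRingHom]
        simp
    rw [hs]
    exact RingHom.congr_fun he r
  coassoc r := by
    induction r using Polynomial.induction_on' with
    | add p q hp hq => exact coassoc_add hp hq
    | monomial n c =>
      rw [← Polynomial.C_mul_X_pow_eq_monomial]
      apply coassoc_mul
      · intro k
        rw [polyGr_C, Polynomial.coeff_map, polyGr_C, h.coassoc, Polynomial.map_monomial]
      · induction n with
        | zero =>
          intro k
          rw [pow_zero, map_one, Polynomial.coeff_one]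
          split_ifs with hk
          · subst hk; rw [map_one]; rfl
          · simp
        | succ n ih =>
          rw [pow_succ]
          apply coassoc_mul ih
          intro k
          rw [polyGr_X, Polynomial.coeff_monomial]
          split_ifs with hk
          · subst hk; rw [polyGr_X]
          · simp

theorem C_mem_hom {Δ : R →+* R[X]} (m : ℕ) {n : ℕ} {r : R} (hr : r ∈ hom Δ n) :
    Polynomial.C r ∈ hom (polyGr Δ m) n := by
  rw [mem_hom, polyGr_C, mem_hom.1 hr, Polynomial.map_monomial]

theorem X_mem_hom (Δ : R →+* R[X]) (m : ℕ) : Polynomial.X ∈ hom (polyGr Δ m) m := by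
  rw [mem_hom, polyGr_X]

theorem mem_hom_C (r : R) : r ∈ hom (Polynomial.C : R →+* R[X]) 0 := by
  rw [mem_hom]; rfl

end GrPoly

section Rees

variable {F D L L' L'' I σ : Type} [CommRing F] [Ring D] [Algebra F D]
  [CommRing L] [Algebra F L] [CommRing L'] [Algebra F L'] [CommRing L''] [Algebra F L'']
  [Fintype I] [Fintype σ] [DecidableEq σ]
  (a : I → ℕ) (th : I → I → F)
  (Q : I → MvPolynomial (Option (Option σ)) L) (w : I → σ → D)

theorem subL_subL {σ₁ σ₂ σ₃ : Type} [Fintype σ₁] [Fintype σ₂] [Fintype σ₃] (g : L →+* L')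
    (X : σ₁ → σ₂ → L') (g' : L' →+* L'') (X' : σ₂ → σ₃ → L'') (q : MvPolynomial σ₁ L) :
    subL g' X' (subL g X q) =
      subL (g'.comp g) (fun v v'' => ∑ v', g' (X v v') * X' v' v'') q := by
  have h : (subL g' X').comp (subL g X) =
      subL (g'.comp g) (fun v v'' => ∑ v', g' (X v v') * X' v' v'') := by
    apply MvPolynomial.ringHom_ext
    · intro c
      rw [RingHom.comp_apply, subL_C, subL_C, subL_C]
      rfl
    · intro v
      rw [RingHom.comp_apply, subL_X, subL_X, map_sum]
      simp only [map_mul, subL_C, subL_X, map_sum, Finset.mul_sum, Finset.sum_mul]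
      rw [Finset.sum_comm]
      refine Finset.sum_congr rfl fun v'' _ => Finset.sum_congr rfl fun v' _ => ?_
      rw [mul_assoc]
  exact RingHom.congr_fun h q

/-- homogeneity of the chain data -/
theorem hmg_Qs (g : L →+* L') (α β : L') (δ : L' →+* L'[X]) (hδ : Gr δ)
    (hF : ∀ c : F, δ (algebraMap F L' c) = Polynomial.C (algebraMap F L' c))
    (hg : ∀ x, δ (g x) = Polynomial.C (g x)) (hα : α ∈ hom δ 1) (hβ : β ∈ hom δ 1) :
    Hmg (F := F) (Qs Q g α β) δ where
  toGr := hδ
  base := hF
  Q_eq i := by
    rw [mp_Qs, Qs, Qs, subL_subL]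
    have e1 : δ.comp g = (Polynomial.C).comp g := RingHom.ext hg
    have e2 : (fun v v'' => ∑ v', Polynomial.C (Xm (σ := σ) α β v v') *
        Xz Polynomial.X v' v'') = Xm (δ α) (δ β) := by
      rw [mem_hom.1 hα, mem_hom.1 hβ]
      funext v v''
      rw [Fintype.sum_option]
      rcases v with _ | _ | v <;> rcases v'' with _ | v'' <;>
        simp [Xm, Xz, Polynomial.C_mul_X_eq_monomial]
    rw [e1, e2]

/-- `T^h ⊗ L` -/
abbrev Th : Type := Us a th Q w (Polynomial.C : L →+* L[X]) 0 Polynomial.X

/-- `T_{i+1} ⊗ L` -/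
abbrev T1 : Type := Us a th Q w (RingHom.id L) 0 1

/-- the Rees ring, over `L[x][t]` -/
abbrev RR : Type := Us a th Q w ((Polynomial.C : L[X] →+* L[X][X]).comp Polynomial.C)
  Polynomial.X (Polynomial.C Polynomial.X)

/-- the gradings of `L[x]` and `L[x][t]` -/
noncomputable abbrev δ₁ (L : Type) [CommRing L] : L[X] →+* L[X][X] := polyGr Polynomial.C 1

noncomputable abbrev δ₂ (L : Type) [CommRing L] : L[X][X] →+* L[X][X][X] := polyGr (δ₁ L) 1

theorem hmg_Th : Hmg (F := F) (Qs Q (Polynomial.C : L →+* L[X]) 0 Polynomial.X) (δ₁ L) :=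
  hmg_Qs Q _ _ _ (δ₁ L) (gr_C.poly 1)
    (fun c => by
      show polyGr _ _ (Polynomial.C (algebraMap F L c)) = Polynomial.C (Polynomial.C _)
      rw [polyGr_C, Polynomial.map_C])
    (fun x => by rw [polyGr_C, Polynomial.map_C]) (zero_mem _) (X_mem_hom _ _)

theorem hmg_RR : Hmg (F := F) (Qs Q ((Polynomial.C : L[X] →+* L[X][X]).comp Polynomial.C)
    Polynomial.X (Polynomial.C Polynomial.X)) (δ₂ L) :=
  hmg_Qs Q _ _ _ (δ₂ L) ((gr_C.poly 1).poly 1)
    (fun c => by
      show polyGr _ _ (Polynomial.C (Polynomial.C (algebraMap F L c))) =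
        Polynomial.C (Polynomial.C (Polynomial.C _))
      rw [polyGr_C, polyGr_C, Polynomial.map_C, Polynomial.map_C])
    (fun x => by
      rw [RingHom.comp_apply, polyGr_C, polyGr_C, Polynomial.map_C, Polynomial.map_C])
    (X_mem_hom _ _) (C_mem_hom _ (X_mem_hom _ _))

/-- coaction of the Rees ring -/
noncomputable def ΔR : RR a th Q w →+* (RR a th Q w)[X] := coact a th w (hmg_RR Q)

/-- coaction of `T^h ⊗ L` -/
noncomputable def Δh : Th a th Q w →+* (Th a th Q w)[X] := coact a th w (hmg_Th Q)

theorem gr_ΔR : Gr (ΔR a th Q w) := gr_coact a th w (hmg_RR Q)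

theorem gr_Δh : Gr (Δh a th Q w) := gr_coact a th w (hmg_Th Q)

/-- `RR → V'`, `t ↦ 1` -/
noncomputable def RtoV : RR a th Q w →+* Vp a th Q w :=
  Umap a th w (Polynomial.evalRingHom (1 : L[X]))
    (fun c => by
      show Polynomial.eval 1 (Polynomial.C (Polynomial.C (algebraMap F L c))) = _
      rw [Polynomial.eval_C]; rfl)
    (fun i => by
      rw [mp_Qs]
      congr 1
      · ext x; simp
      · simp
      · simp)

/-- `RR → V^∞`, `t ↦ π`, `x ↦ 1` -/
noncomputable def RtoI : RR a th Q w →+* Vinf a th Q w :=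
  Umap a th w (Polynomial.mapRingHom (Polynomial.evalRingHom (1 : L)))
    (fun c => by
      show Polynomial.map _ (Polynomial.C (Polynomial.C (algebraMap F L c))) = _
      rw [Polynomial.map_C]; simp)
    (fun i => by
      rw [mp_Qs]
      congr 1
      · ext x; simp
      · simp
      · simp)

/-- `RR → T^h ⊗ L`, `t ↦ 0` -/
noncomputable def Rtoh : RR a th Q w →+* Th a th Q w :=
  Umap a th w (Polynomial.evalRingHom (0 : L[X]))
    (fun c => by
      show Polynomial.eval 0 (Polynomial.C (Polynomial.C (algebraMap F L c))) = _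
      rw [Polynomial.eval_C]; rfl)
    (fun i => by
      rw [mp_Qs]
      congr 1
      · ext x; simp
      · simp
      · simp)

/-- `T^h ⊗ L → T_{i+1} ⊗ L`, `x ↦ 1` -/
noncomputable def hto1 : Th a th Q w →+* T1 a th Q w :=
  Umap a th w (Polynomial.evalRingHom (1 : L))
    (fun c => by
      show Polynomial.eval 1 (Polynomial.C (algebraMap F L c)) = _
      rw [Polynomial.eval_C])
    (fun i => by
      rw [mp_Qs]
      congr 1
      · ext x; simp
      · simp
      · simp)

/-- `V^∞ → T_{i+1} ⊗ L`, `π ↦ 0` -/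
noncomputable def Ito1 : Vinf a th Q w →+* T1 a th Q w :=
  Umap a th w (Polynomial.evalRingHom (0 : L))
    (fun c => by
      show Polynomial.eval 0 (Polynomial.C (algebraMap F L c)) = _
      rw [Polynomial.eval_C])
    (fun i => by
      rw [mp_Qs]
      congr 1
      · ext x; simp
      · simp
      · simp)

end Rees

end Crest.Agent.R181.UR
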