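import Crest.Agent.R181.UR396f

/-!
# R181, V-chain, block B4 (helper773): universality of the concrete rings
-/

set_option autoImplicit false
set_option linter.unusedSectionVars false

namespace Crest.Agent.R181.UT

open AddMonoidAlgebra Crest.Agent.R181.UR

section inj

variable {σ : Type} {L' : Type} [CommRing L']

variable [Fintype σ] [DecidableEq σ]

theorem sum_Xs_none (al be : L') :
    ∑ v', MvPolynomial.C (Xm (σ := σ) al be none v') * MvPolynomial.X v' =
      (MvPolynomial.C al * MvPolynomial.X none : MvPolynomial (Option σ) L') := by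
  classical
  rw [Finset.sum_eq_single none]
  · simp [Xm]
  · intro b _ hb
    rcases b with _ | b
    · first | exact absurd rfl hb | simp [Xm]
    · first | (simp [Xm]; done) | (have : ¬ v = b := fun h => hb (by rw [h]); simp [Xm, this])
  · simp

theorem sum_Xs_some_none (al be : L') :
    ∑ v', MvPolynomial.C (Xm (σ := σ) al be (some none) v') * MvPolynomial.X v' =
      (MvPolynomial.C be * MvPolynomial.X none : MvPolynomial (Option σ) L') := by
  classical
  rw [Finset.sum_eq_single none]
  · simp [Xm]
  · intro b _ hb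
    rcases b with _ | b
    · first | exact absurd rfl hb | simp [Xm]
    · first | (simp [Xm]; done) | (have : ¬ v = b := fun h => hb (by rw [h]); simp [Xm, this])
  · simp

theorem sum_Xs_some_some (al be : L') (v : σ) :
    ∑ v', MvPolynomial.C (Xm (σ := σ) al be (some (some v)) v') * MvPolynomial.X v' =
      (MvPolynomial.X (some v) : MvPolynomial (Option σ) L') := by
  classical
  rw [Finset.sum_eq_single (some v)]
  · simp [Xm]
  · intro b _ hb
    rcases b with _ | b
    · first | exact absurd rfl hb | simp [Xm]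
    · first | (simp [Xm]; done) | (have : ¬ v = b := fun h => hb (by rw [h]); simp [Xm, this])
  · simp

/-- `(α, p, q) ↦ (α, p + q)` -/
noncomputable def bt (α : Option (Option σ) →₀ ℕ) : Option σ →₀ ℕ :=
  Finsupp.equivFunOnFinite.symm fun v => match v with
    | none => α none + α (some none)
    | some v => α (some (some v))

@[simp] theorem bt_none (α : Option (Option σ) →₀ ℕ) : bt α none = α none + α (some none) := rfl
@[simp] theorem bt_some (α : Option (Option σ) →₀ ℕ) (v : σ) : bt α (some v) = α (some (some v)) :=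
  rfl

theorem bt_inj {α α' : Option (Option σ) →₀ ℕ} (h : bt α = bt α') (h' : α none = α' none) :
    α = α' := by
  ext v
  rcases v with _ | _ | v
  · exact h'
  · have := DFunLike.congr_fun h none
    simp only [bt_none] at this
    omega
  · exact DFunLike.congr_fun h (some v)

theorem prod_Xs (al : L') (α : Option (Option σ) →₀ ℕ) :
    ∏ v, (∑ v', MvPolynomial.C (Xm (σ := σ) al 1 v v') * MvPolynomial.X v') ^ α v =
      (MvPolynomial.monomial (bt α) (al ^ α none) : MvPolynomial (Option σ) L') := by
  classical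
  rw [Fintype.prod_option, Fintype.prod_option, sum_Xs_none, sum_Xs_some_none]
  simp only [sum_Xs_some_some]
  rw [MvPolynomial.monomial_eq, Finsupp.prod_fintype _ _ (fun i => by simp), Fintype.prod_option]
  simp only [bt_none, bt_some, map_one, one_mul, mul_pow, pow_add, map_pow]
  ring

variable {A : Type*} [Ring A] (τ' : L' →+* PowerSeries A) (hτ' : ∀ x y, Commute (τ' x) y) (al : L')

theorem subA_single_eq (hal : τ' al = PowerSeries.X) (α : Option (Option σ) →₀ ℕ) (c : A) :
    subA (PowerSeries.C (R := A)) τ' hτ' (Xm (σ := σ) al 1) (single α c) =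
      single (bt α) (PowerSeries.C c * PowerSeries.X ^ α none) := by
  rw [subA_single, prod_Xs]
  have : mp (Option σ) τ' (MvPolynomial.monomial (bt α) (al ^ α none)) =
      single (bt α) (PowerSeries.X ^ α none) := by
    show mp (Option σ) τ' (single (bt α) (al ^ α none)) = _
    rw [mp_single, map_pow, hal]
  rw [this, cst_apply, single_mul_single, zero_add]

theorem subA_injective (hal : τ' al = PowerSeries.X) :
    Function.Injective (subA (PowerSeries.C (R := A)) τ' hτ' (Xm (σ := σ) al 1)) := by
  classical
  have key : ∀ (z : PA A (Option (Option σ))) (α : Option (Option σ) →₀ ℕ),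
      PowerSeries.coeff (α none)
        ((subA (PowerSeries.C (R := A)) τ' hτ' (Xm (σ := σ) al 1) z).coeff (bt α)) = z.coeff α := by
    intro z α
    induction z using AddMonoidAlgebra.induction_linear with
    | zero => simp
    | add x y hx hy => simp only [map_add, AddMonoidAlgebra.coeff_add, Finsupp.add_apply, hx, hy]
    | single α' c =>
      rw [subA_single_eq τ' hτ' al hal]
      by_cases h : α' = α
      · subst h
        simp
      · by_cases h1 : bt α' = bt α
        · have h2 : ¬ (α none = α' none) := fun h2 => h (bt_inj h1 h2.symm)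
          simp [h1, h, h2, PowerSeries.coeff_X_pow]
        · simp [h, h1]
  intro x y hxy
  ext α
  rw [← key x α, ← key y α, hxy]

end inj


section hom

variable {F D D1 L I σ : Type} [CommRing F] [Ring D] [Algebra F D] [Ring D1] [Algebra F D1]
  [CommRing L] [Algebra F L] [Fintype I] [Fintype σ] [DecidableEq σ]
  {a : I → ℕ} {th : I → I → F} {Q : I → MvPolynomial (Option (Option σ)) L}
  {w : I → σ → D} {kap : D →+* D1} {w1 : I → Option σ → D1}

/-- the relations of `V^∞`: `x_i ↦ s`, `s ↦ π s` -/
noncomputable abbrev Qinf (Q : I → MvPolynomial (Option (Option σ)) L) :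
    I → MvPolynomial (Option σ) (Polynomial L) :=
  Qs Q (Polynomial.C : L →+* Polynomial L) Polynomial.X 1

theorem central_of {A : Type*} [Ring A] (τ' : Polynomial L →+* PowerSeries A)
    (hX : τ' Polynomial.X = PowerSeries.X)
    (hC : ∀ x : L, ∃ c : A, (∀ y, Commute c y) ∧ τ' (Polynomial.C x) = PowerSeries.C c)
    (x : Polynomial L) (y : PowerSeries A) : Commute (τ' x) y := by
  induction x using Polynomial.induction_on with
  | C c =>
    obtain ⟨c', h1, h2⟩ := hC c
    rw [h2]
    show _ * _ = _ * _
    ext n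
    rw [PowerSeries.coeff_C_mul, PowerSeries.coeff_mul_C]
    exact h1 _
  | add p q hp hq => rw [map_add]; exact hp.add_left hq
  | monomial n c hc =>
    rw [pow_succ, ← mul_assoc, map_mul, hX]
    exact hc.mul_left (PowerSeries.commute_X y).symm

/-- **Lemma 4**: the relations of `T = U a th Q w1` in `A` from those of `V^∞` in `A⟦X⟧`. -/
theorem exists_hom {A : Type*} [Ring A]
    (ψ : U a th (Qinf Q) w →+* PowerSeries A)
    (ρ : D1 →+* A) (τ : L →+* A) (η : I → A)
    (hw : ∀ i v, w1 i (some v) = kap (w i v))
    (hX : ψ (iL a th (Qinf Q) w Polynomial.X) = PowerSeries.X)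
    (h1 : ∀ d, ψ (iD a th (Qinf Q) w d) = PowerSeries.C (ρ (kap d)))
    (h2 : ∀ x, ψ (iL a th (Qinf Q) w (Polynomial.C x)) = PowerSeries.C (τ x))
    (h3 : ∀ i, ψ (eta a th (Qinf Q) w i) =
      PowerSeries.C (ρ (w1 i none)) + PowerSeries.X * PowerSeries.C (η i))
    (hb : ∀ c : F, ρ (algebraMap F D1 c) = τ (algebraMap F L c))
    (hD : ∀ x d, Commute (τ x) (ρ d)) (hI : ∀ x i, Commute (τ x) (η i)) :
    ∃ f : U a th Q w1 →+* A, (∀ d, f (iD a th Q w1 d) = ρ d) ∧
      (∀ x, f (iL a th Q w1 x) = τ x) ∧ ∀ i, f (eta a th Q w1 i) = η i := by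
  classical
  apply exists_lift ρ τ η hb hD hI
  -- the centralizer of `τ L`
  let A₁ := Subring.centralizer (Set.range τ)
  have hρ : ∀ d, ρ d ∈ A₁ := fun d => Subring.mem_centralizer_iff.2 (by
    rintro _ ⟨x, rfl⟩; exact hD x d)
  have hη : ∀ i, η i ∈ A₁ := fun i => Subring.mem_centralizer_iff.2 (by
    rintro _ ⟨x, rfl⟩; exact hI x i)
  have hτ : ∀ x, τ x ∈ A₁ := fun x => Subring.mem_centralizer_iff.2 (by
    rintro _ ⟨y, rfl⟩; exact (Commute.all y x).map τ)
  let ρ₁ : D1 →+* A₁ := ρ.codRestrict A₁ hρ
  let τ₁ : L →+* A₁ := τ.codRestrict A₁ hτ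
  let η₁ : I → A₁ := fun i => ⟨η i, hη i⟩
  have hcen : ∀ (x : L) (y : A₁), Commute (τ₁ x) y := fun x y =>
    Subtype.ext (Subring.mem_centralizer_iff.1 y.2 (τ x) ⟨x, rfl⟩)
  -- the tuple over `A₁`
  suffices h : IsTuple a th Q τ₁ (ext' (fun i v => ρ₁ (w1 i v)) η₁) by
    have h' := h.map A₁.subtype
    have e1 : A₁.subtype.comp τ₁ = τ := RingHom.ext fun _ => rfl
    rw [e1] at h'
    have e2 : (fun (i : I) (v : Option (Option σ)) => A₁.subtype
        (ext' (fun i v => ρ₁ (w1 i v)) η₁ i v)) = ext' (fun i v => ρ (w1 i v)) η := by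
      funext i v
      cases v <;> rfl
    rwa [e2] at h'
  let τ' : Polynomial L →+* PowerSeries A₁ :=
    Polynomial.eval₂RingHom' ((PowerSeries.C (R := A₁)).comp τ₁) PowerSeries.X
      (fun x => (PowerSeries.commute_X _))
  have hτX : τ' Polynomial.X = PowerSeries.X := by
    simp [τ']
  have hτC : ∀ x : L, τ' (Polynomial.C x) = PowerSeries.C (τ₁ x) := fun x => by
    simp [τ']
  have hτ' : ∀ x y, Commute (τ' x) y :=
    central_of τ' hτX fun x => ⟨τ₁ x, hcen x, hτC x⟩
  refine IsTuple.of_subst (F := F) (PowerSeries.C (R := A₁)) (Polynomial.C) τ₁ τ' hτ'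
    (Xm Polynomial.X 1) (subA_injective τ' hτ' _ hτX) ?_ (fun c => rfl) ?_
  · exact RingHom.ext fun x => (hτC x).symm
  · -- compare with the tuple of `V^∞`
    have hinj : Function.Injective (PowerSeries.map A₁.subtype) := by
      intro f g hfg
      ext n
      have := congrArg (PowerSeries.coeff n) hfg
      simpa using this
    refine IsTuple.of_injective (PowerSeries.map A₁.subtype) hinj ?_
    have h0 : IsTuple a th (fun i => subL (Polynomial.C : L →+* Polynomial L)
        (Xm Polynomial.X 1) (Q i)) _ _ := (isTuple_wU a th (Qinf Q) w).map ψ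
    have e1 : ψ.comp (iL a th (Qinf Q) w) = (PowerSeries.map A₁.subtype).comp τ' := by
      apply Polynomial.ringHom_ext
      · intro x
        simp only [RingHom.comp_apply, h2, hτC]
        simp [τ₁]
      · simp only [RingHom.comp_apply, hX, hτX]
        simp
    rw [e1] at h0
    convert h0 using 1
    funext i v'
    rw [map_sum, Fintype.sum_option, Fintype.sum_option]
    rcases v' with _ | v'
    · have e3 : wU a th (Qinf Q) w i none = eta a th (Qinf Q) w i := rfl
      rw [e3, h3, Finset.sum_eq_zero]
      · simp [Xm, hτX, ρ₁, η₁, ext', PowerSeries.X_mul, add_comm]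
      · intro v _
        simp [Xm]
    · have e3 : wU a th (Qinf Q) w i (some v') = iD a th (Qinf Q) w (w i v') := rfl
      rw [e3, h1, Finset.sum_eq_single v']
      · simp [Xm, ρ₁, ext', hw]
      · intro v _ hv
        simp [Xm, hv]
      · simp

end hom

end Crest.Agent.R181.UT
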