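import Crest.Agent.R181.V868a

/-!
# R181, V-chain, block V1: the module `N = G_aff ∩ G_inf`, the ring map `θN`
-/

namespace Crest.Agent.R181.V868

universe u

section EndAux
variable {A : Type*} [AddCommGroup A]

theorem end_ext {f g : AddMonoid.End A} (h : ∀ m, f m = g m) : f = g := AddMonoidHom.ext h

/-- evaluation -/
def ev (m : A) : AddMonoid.End A →+ A where
  toFun f := f m
  map_zero' := rfl
  map_add' _ _ := rfl

theorem ev_apply (m : A) (f : AddMonoid.End A) : ev m f = f m := rfl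

theorem end_mul_apply (f g : AddMonoid.End A) (m : A) : (f * g) m = f (g m) := rfl
theorem end_one_apply (m : A) : (1 : AddMonoid.End A) m = m := rfl
theorem end_zero_apply (m : A) : (0 : AddMonoid.End A) m = 0 := rfl
theorem end_add_apply (f g : AddMonoid.End A) (m : A) : (f + g) m = f m + g m := rfl
end EndAux

namespace Line

variable {DD : Type u} [Ring DD] (L : Line DD)

/-- `x` as a unit -/
def ux : DDˣ := ⟨L.x, L.p, L.xp, L.px⟩

/-- integer powers of `x` -/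
def xz (n : ℤ) : DD := ((L.ux ^ n : DDˣ) : DD)

@[simp] lemma xz_zero : L.xz 0 = 1 := by simp [xz]
@[simp] lemma xz_one : L.xz 1 = L.x := by simp [xz, ux]
@[simp] lemma xz_neg_one : L.xz (-1) = L.p := by simp [xz, ux]
lemma xz_add (m n : ℤ) : L.xz (m + n) = L.xz m * L.xz n := by simp [xz, zpow_add]
lemma xz_nat (n : ℕ) : L.xz (n : ℤ) = L.x ^ n := by simp [xz, ux]
lemma xz_neg_nat (n : ℕ) : L.xz (-(n : ℤ)) = L.p ^ n := by simp [xz, ux]

lemma x_pow_comm (n : ℕ) (d : DD) : L.x ^ n * d = d * L.x ^ n := by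
  induction n with
  | zero => simp
  | succ k ih => rw [pow_succ, mul_assoc, L.xc, ← mul_assoc, ih, mul_assoc]

lemma p_pow_comm (n : ℕ) (d : DD) : L.p ^ n * d = d * L.p ^ n := by
  induction n with
  | zero => simp
  | succ k ih => rw [pow_succ, mul_assoc, L.pc, ← mul_assoc, ih, mul_assoc]

lemma xz_comm (n : ℤ) (d : DD) : L.xz n * d = d * L.xz n := by
  rcases Int.eq_nat_or_neg n with ⟨k, rfl | rfl⟩
  · rw [xz_nat]; exact L.x_pow_comm k d
  · rw [xz_neg_nat]; exact L.p_pow_comm k d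

lemma xz_V (n : ℕ) : L.xz (n : ℤ) ∈ L.V := by
  rw [xz_nat]; exact L.V.pow_mem L.xV n

lemma xz_O (n : ℕ) : L.xz (-(n : ℤ)) ∈ L.O := by
  rw [xz_neg_nat]; exact L.O.pow_mem L.pO n

lemma exh' (d : DD) : ∃ (m : ℕ) (o : DD), o ∈ L.O ∧ d = L.xz m * o := by
  obtain ⟨m, hm⟩ := L.exh d
  refine ⟨m, _, hm, ?_⟩
  rw [← mul_assoc, ← L.xz_neg_nat, ← xz_add]
  simp

end Line

namespace LB

variable {DD : Type u} [Ring DD] {L : Line DD} (B : LB L)

/-- induction along words -/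
theorem MM_induction {C : B.MM → Prop} (h0 : C 0) (hadd : ∀ a b, C a → C b → C (a + b))
    (hroot : ∀ d, C (Finsupp.single none d))
    (hstep : ∀ κ, (∀ d, C (Finsupp.single (B.par κ) d)) → ∀ d, C (Finsupp.single (some κ) d))
    (m : B.MM) : C m := by
  have hw : ∀ w : B.W, ∀ d, C (Finsupp.single w d) := by
    intro w
    rcases w with _ | ⟨l, j⟩
    · exact hroot
    · induction l with
      | nil => exact hstep ([], j) hroot
      | cons i l ih => exact hstep (i :: l, j) ih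
  induction m using Finsupp.induction_linear with
  | zero => exact h0
  | add a b ha hb => exact hadd a b ha hb
  | single w d => exact hw w d

lemma Gaff_smul {v : DD} (hv : v ∈ L.V) {m : B.MM} (hm : m ∈ B.Gaff) : v • m ∈ B.Gaff := fun w => by
  rw [Finsupp.smul_apply]; exact L.V.mul_mem hv (hm w)

lemma H_smul {o : DD} (ho : o ∈ L.O) {f : B.MM} (hf : f ∈ B.H) : o • f ∈ B.H := by
  obtain ⟨⟨o', ho', h1⟩, h2⟩ := hf
  refine ⟨⟨o * o', L.O.mul_mem ho ho', ?_⟩, fun κ => ?_⟩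
  · rw [Finsupp.smul_apply, h1, smul_eq_mul, ← mul_assoc, ← L.pc, mul_assoc]
  · rw [Finsupp.smul_apply]; exact L.O.mul_mem ho (h2 κ)

lemma mem_BB {m : B.MM} : m ∈ B.BB ↔ ∃ f ∈ B.H, B.dP f = m := by
  simp only [BB, Submodule.mem_map, LinearMap.coe_restrictScalars]

lemma BB_smul {o : DD} (ho : o ∈ L.O) {m : B.MM} (hm : m ∈ B.BB) : o • m ∈ B.BB := by
  rw [mem_BB] at hm ⊢
  obtain ⟨f, hf, rfl⟩ := hm
  exact ⟨o • f, B.H_smul ho hf, by rw [map_smul]⟩

lemma dP_single (w : B.W) (d : DD) : B.dP (Finsupp.single w d) = d • B.vec w := by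
  simp [dP, Finsupp.linearCombination_single]

lemma smul_vec_some (κ : B.Wd) (d : DD) : d • B.vec (some κ) =
    Finsupp.single (some κ) d - Finsupp.single (B.par κ) (d * B.lab κ) := by
  simp [vec, smul_sub, Finsupp.smul_single]

lemma smul_vec_none (d : DD) : d • B.vec none = Finsupp.single none d := by
  simp [vec, Finsupp.smul_single]

lemma single_none_mem_BB {o : DD} (ho : o ∈ L.O) :
    (Finsupp.single none (L.p * o) : B.MM) ∈ B.BB := by
  rw [mem_BB]
  refine ⟨Finsupp.single none (L.p * o), ⟨⟨o, ho, by simp⟩, fun κ => by simp⟩, ?_⟩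
  rw [dP_single, smul_vec_none]

lemma smul_vec_mem_BB {o : DD} (ho : o ∈ L.O) (κ : B.Wd) : o • B.vec (some κ) ∈ B.BB := by
  rw [mem_BB]
  refine ⟨Finsupp.single (some κ) o, ⟨⟨0, L.O.zero_mem, by simp⟩, fun κ' => ?_⟩, ?_⟩
  · by_cases h : κ = κ'
    · subst h; simpa using ho
    · rw [Finsupp.single_eq_of_ne (by simpa using fun h' => h h'.symm)]; exact L.O.zero_mem
  · rw [dP_single]

lemma exh_BB (m : B.MM) : ∃ l : ℕ, L.p ^ l • m ∈ B.BB := by
  induction m using B.MM_induction with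
  | h0 => exact ⟨0, by simp⟩
  | hadd a b ha hb =>
    obtain ⟨l, hl⟩ := ha
    obtain ⟨l', hl'⟩ := hb
    refine ⟨l + l', ?_⟩
    rw [smul_add]
    refine B.BB.add_mem ?_ ?_
    · rw [add_comm, pow_add, mul_smul]; exact B.BB_smul (L.O.pow_mem L.pO _) hl
    · rw [pow_add, mul_smul]; exact B.BB_smul (L.O.pow_mem L.pO _) hl'
  | hroot d =>
    obtain ⟨l, hl⟩ := L.exh d
    refine ⟨l + 1, ?_⟩
    rw [Finsupp.smul_single, smul_eq_mul, pow_succ', mul_assoc]
    exact B.single_none_mem_BB hl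
  | hstep κ h d =>
    obtain ⟨l, hl⟩ := h (d * B.lab κ)
    obtain ⟨l', hl'⟩ := L.exh d
    refine ⟨l + l', ?_⟩
    have e : (Finsupp.single (some κ) d : B.MM) =
        d • B.vec (some κ) + Finsupp.single (B.par κ) (d * B.lab κ) := by
      rw [smul_vec_some]; abel
    rw [e, smul_add]
    refine B.BB.add_mem ?_ ?_
    · rw [pow_add, mul_smul, smul_smul (L.p ^ l') d]
      exact B.BB_smul (L.O.pow_mem L.pO _) (B.smul_vec_mem_BB hl' κ)
    · rw [add_comm, pow_add, mul_smul]; exact B.BB_smul (L.O.pow_mem L.pO _) hl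

/-- `G_inf` -/
noncomputable def Ginf : Submodule ℤ B.MM where
  carrier := {m | L.p • m ∈ B.BB}
  add_mem' := fun {a b} ha hb => by
    show L.p • (a + b) ∈ B.BB
    rw [smul_add]; exact B.BB.add_mem ha hb
  zero_mem' := by
    show L.p • (0 : B.MM) ∈ B.BB
    rw [smul_zero]; exact B.BB.zero_mem
  smul_mem' := fun n f hf => by
    show L.p • (n • f) ∈ B.BB
    rw [smul_comm]; exact B.BB.smul_mem n hf

lemma mem_Ginf {m : B.MM} : m ∈ B.Ginf ↔ L.p • m ∈ B.BB := Iff.rfl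

lemma BB_le_Ginf {m : B.MM} (hm : m ∈ B.BB) : m ∈ B.Ginf := B.BB_smul L.pO hm

lemma Ginf_smul {o : DD} (ho : o ∈ L.O) {m : B.MM} (hm : m ∈ B.Ginf) : o • m ∈ B.Ginf := by
  rw [mem_Ginf] at *
  rw [smul_smul, L.pc, mul_smul]; exact B.BB_smul ho hm

lemma xz_neg_Ginf {n : ℤ} (hn : n < 0) {m : B.MM} (hm : m ∈ B.Ginf) : L.xz n • m ∈ B.BB := by
  obtain ⟨k, hk⟩ : ∃ k : ℕ, n = -(k : ℤ) + (-1) := ⟨(-n - 1).toNat, by omega⟩
  rw [hk, L.xz_add, L.xz_neg_one, mul_smul]
  exact B.BB_smul (L.xz_O k) hm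

/-- `N = G_aff ∩ G_inf` -/
noncomputable def N : Submodule ℤ B.MM := B.Gaff ⊓ B.Ginf

lemma one_mem_N : (Finsupp.single none 1 : B.MM) ∈ B.N := by
  refine ⟨fun w => ?_, ?_⟩
  · rcases w with _ | κ
    · simp
    · simp
  · show L.p • (Finsupp.single none 1 : B.MM) ∈ B.BB
    rw [Finsupp.smul_single, smul_eq_mul]; exact B.single_none_mem_BB L.O.one_mem

section
variable (hc : IsCompl B.Gaff B.BB)

/-- the projection to `G_aff` along `p G_inf` -/
noncomputable def pr : B.MM →ₗ[ℤ] B.MM := B.Gaff.projection B.BB hc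

lemma pr_mem (y : B.MM) : B.pr hc y ∈ B.Gaff := Submodule.projection_apply_mem hc y
lemma pr_of_Gaff {y : B.MM} (hy : y ∈ B.Gaff) : B.pr hc y = y :=
  Submodule.projection_apply_of_mem_left hc hy
lemma pr_of_BB {y : B.MM} (hy : y ∈ B.BB) : B.pr hc y = 0 :=
  (Submodule.projection_apply_eq_zero_iff hc).2 hy
lemma pr_eq_zero_iff {y : B.MM} : B.pr hc y = 0 ↔ y ∈ B.BB :=
  Submodule.projection_apply_eq_zero_iff hc
lemma sub_pr_mem (y : B.MM) : y - B.pr hc y ∈ B.BB := by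
  rw [← B.pr_eq_zero_iff hc, map_sub, B.pr_of_Gaff hc (B.pr_mem hc y), sub_self]

/-- residue, before corestriction -/
noncomputable def r0 : B.MM →+ B.MM :=
  AddMonoidHom.mk' (fun y => B.pr hc y - L.x • B.pr hc (L.p • y)) (fun a b => by
    simp only [smul_add, map_add]; abel)

lemma r0_apply (y : B.MM) : B.r0 hc y = B.pr hc y - L.x • B.pr hc (L.p • y) := rfl

lemma r0_mem (y : B.MM) : B.r0 hc y ∈ B.N := by
  refine ⟨?_, ?_⟩
  · exact B.Gaff.sub_mem (B.pr_mem hc y) (B.Gaff_smul L.xV (B.pr_mem hc _))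
  · show L.p • B.r0 hc y ∈ B.BB
    rw [r0_apply, smul_sub, smul_smul L.p L.x, L.px, one_smul]
    have e : L.p • B.pr hc y - B.pr hc (L.p • y) =
        (L.p • y - B.pr hc (L.p • y)) - L.p • (y - B.pr hc y) := by
      rw [smul_sub]; abel
    rw [e]
    exact B.BB.sub_mem (B.sub_pr_mem hc _) (B.BB_smul L.pO (B.sub_pr_mem hc _))

/-- residue `r(y) = P(y) - x P(p y)` -/
noncomputable def r : B.MM →+ B.N :=
  AddMonoidHom.mk' (fun y => ⟨B.r0 hc y, B.r0_mem hc y⟩) (fun a b => by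
    ext1; simp [map_add])

lemma coe_r (y : B.MM) : ((B.r hc y : B.N) : B.MM) = B.pr hc y - L.x • B.pr hc (L.p • y) := rfl

lemma r_N (n : B.N) : B.r hc (n : B.MM) = n := by
  ext1
  rw [coe_r, B.pr_of_Gaff hc n.2.1, B.pr_of_BB hc n.2.2, smul_zero, sub_zero]

lemma r_BB {y : B.MM} (hy : y ∈ B.BB) : B.r hc y = 0 := by
  ext1
  rw [coe_r, B.pr_of_BB hc hy, B.pr_of_BB hc (B.BB_smul L.pO hy), smul_zero, sub_zero]; rfl

lemma r_x_Gaff {y : B.MM} (hy : y ∈ B.Gaff) : B.r hc (L.x • y) = 0 := by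
  ext1
  rw [coe_r, B.pr_of_Gaff hc (B.Gaff_smul L.xV hy), smul_smul, L.px, one_smul,
    B.pr_of_Gaff hc hy, sub_self]; rfl

lemma r_xz_Gaff {n : ℤ} (hn : 0 < n) {y : B.MM} (hy : y ∈ B.Gaff) : B.r hc (L.xz n • y) = 0 := by
  obtain ⟨k, hk⟩ : ∃ k : ℕ, n = 1 + (k : ℤ) := ⟨(n - 1).toNat, by omega⟩
  rw [hk, L.xz_add, L.xz_one, mul_smul]
  exact B.r_x_Gaff hc (B.Gaff_smul (L.xz_V k) hy)

lemma r_xz_neg_Ginf {n : ℤ} (hn : n < 0) {y : B.MM} (hy : y ∈ B.Ginf) :
    B.r hc (L.xz n • y) = 0 := B.r_BB hc (B.xz_neg_Ginf hn hy)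

lemma coe_r_Ginf {g : B.MM} (hg : g ∈ B.Ginf) : ((B.r hc g : B.N) : B.MM) = B.pr hc g := by
  rw [coe_r, B.pr_of_BB hc hg, smul_zero, sub_zero]

lemma sub_r_mem {g : B.MM} (hg : g ∈ B.Ginf) : g - (B.r hc g : B.MM) ∈ B.BB := by
  rw [B.coe_r_Ginf hc hg]; exact B.sub_pr_mem hc g

/-- the Taylor formula -/
theorem taylor (n : ℕ) : ∀ (o : DD), o ∈ L.O → ∀ g : B.MM, g ∈ B.Ginf →
    B.r hc (L.xz n • o • g) =
      ∑ q ∈ Finset.HasAntidiagonal.antidiagonal n,
        B.r hc (L.xz (q.1 : ℤ) • o • ((B.r hc (L.xz (q.2 : ℤ) • g) : B.N) : B.MM)) := by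
  induction n with
  | zero =>
    intro o ho g hg
    simp only [Nat.cast_zero, L.xz_zero, one_smul, Finset.HasAntidiagonal.antidiagonal_zero,
      Finset.sum_singleton]
    rw [← sub_eq_zero, ← map_sub, ← smul_sub]
    exact B.r_BB hc (B.BB_smul ho (B.sub_r_mem hc hg))
  | succ n ih =>
    intro o ho g hg
    set g1 : B.MM := L.x • (g - (B.r hc g : B.MM)) with hg1
    have hpg1 : L.p • g1 = g - (B.r hc g : B.MM) := by
      rw [hg1, smul_smul, L.px, one_smul]
    have hg1' : g1 ∈ B.Ginf := by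
      rw [mem_Ginf, hpg1]; exact B.sub_r_mem hc hg
    have h1 : L.xz ((n + 1 : ℕ) : ℤ) • o • g =
        L.xz ((n + 1 : ℕ) : ℤ) • o • (B.r hc g : B.MM) + L.xz (n : ℤ) • o • g1 := by
      have : g = (B.r hc g : B.MM) + L.p • g1 := by rw [hpg1]; abel
      conv_lhs => rw [this]
      rw [smul_add, smul_add]
      congr 1
      rw [smul_smul o, ← L.pc, mul_smul, smul_smul, ← L.xz_neg_one, ← L.xz_add]
      congr 2
      push_cast; ring
    have h2 : ∀ j : ℕ, B.r hc (L.xz (j : ℤ) • g1) = B.r hc (L.xz ((j + 1 : ℕ) : ℤ) • g) := by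
      intro j
      rw [hg1, ← L.xz_one, smul_smul, ← L.xz_add, smul_sub, map_sub,
        B.r_xz_Gaff hc (by positivity) (B.r hc g).2.1, sub_zero]
      congr 2
    rw [h1, map_add, ih o ho g1 hg1', Finset.Nat.sum_antidiagonal_succ']
    simp only [h2]
    rw [Nat.cast_zero, L.xz_zero, one_smul, add_comm]

/-- the action of `o ∈ O` on `N`, coefficient `n` -/
noncomputable def act (n : ℤ) (d : DD) : AddMonoid.End B.N :=
  AddMonoidHom.mk' (fun m => B.r hc (L.xz n • d • (m : B.MM))) (fun a b => by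
    simp only [Submodule.coe_add, smul_add, map_add])

lemma act_apply (n : ℤ) (d : DD) (m : B.N) :
    B.act hc n d m = B.r hc (L.xz n • d • (m : B.MM)) := rfl

/-- `θN : O → End(N)[[X]]` -/
noncomputable def θN : L.O →+* PowerSeries (AddMonoid.End B.N) where
  toFun o := PowerSeries.mk fun n => B.act hc (n : ℤ) (o : DD)
  map_one' := by
    ext n : 1; refine end_ext fun m => ?_
    rw [PowerSeries.coeff_mk, PowerSeries.coeff_one, act_apply, OneMemClass.coe_one, one_smul]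
    by_cases hn : n = 0
    · subst hn; simp [B.r_N hc, end_one_apply]
    · rw [if_neg hn, B.r_xz_Gaff hc (by omega) m.2.1, end_zero_apply]
  map_mul' a b := by
    ext n : 1; refine end_ext fun m => ?_
    rw [PowerSeries.coeff_mk, PowerSeries.coeff_mul, act_apply, MulMemClass.coe_mul, mul_smul,
      B.taylor hc n a a.2 _ (B.Ginf_smul b.2 m.2.2)]
    simp only [PowerSeries.coeff_mk]
    rw [← ev_apply m, map_sum]
    rfl
  map_zero' := by
    ext n : 1; refine end_ext fun m => ?_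
    rw [PowerSeries.coeff_mk, act_apply, map_zero, end_zero_apply, ZeroMemClass.coe_zero,
      zero_smul, smul_zero, map_zero]
  map_add' a b := by
    ext n : 1; refine end_ext fun m => ?_
    rw [map_add, PowerSeries.coeff_mk, PowerSeries.coeff_mk, PowerSeries.coeff_mk, act_apply,
      AddMemClass.coe_add, add_smul, smul_add, map_add, end_add_apply, act_apply, act_apply]

lemma coeff_θN (o : L.O) (n : ℕ) : PowerSeries.coeff n (B.θN hc o) = B.act hc n (o : DD) := by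
  simp [θN]

lemma θN_p : B.θN hc ⟨L.p, L.pO⟩ = PowerSeries.X := by
  ext n : 1; refine end_ext fun m => ?_
  rw [coeff_θN, PowerSeries.coeff_X, act_apply]
  show B.r hc (L.xz n • L.p • (m : B.MM)) = _
  rw [← L.xz_neg_one, smul_smul, ← L.xz_add]
  rcases lt_trichotomy ((n : ℤ) + -1) 0 with h | h | h
  · rw [if_neg (by omega), B.r_xz_neg_Ginf hc h m.2.2, end_zero_apply]
  · rw [if_pos (by omega), h, L.xz_zero, one_smul, B.r_N hc, end_one_apply]
  · rw [if_neg (by omega), B.r_xz_Gaff hc h m.2.1, end_zero_apply]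

lemma θN_V (v : DD) (hv : v ∈ L.V) (l n : ℕ) (h : L.p ^ l * v ∈ L.O) (hln : l < n) :
    PowerSeries.coeff n (B.θN hc ⟨L.p ^ l * v, h⟩) = 0 := by
  refine end_ext fun m => ?_
  rw [coeff_θN, act_apply, end_zero_apply]
  show (B.r hc (L.xz n • (L.p ^ l * v) • (m : B.MM)) : B.N) = _
  rw [mul_smul, ← L.xz_neg_nat, smul_smul, ← L.xz_add,
    B.r_xz_Gaff hc (by omega) (B.Gaff_smul hv m.2.1)]

end

end LB

end Crest.Agent.R181.V868
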