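import Crest.Agent.R181.V868b

/-!
# R181, V-chain, block V1: `φ : MM → T((p))` and `T = N`
-/

namespace Crest.Agent.R181.V868

universe u

section Laurent
variable {T : Type u} [Ring T]

lemma mul_coeff_pos {a b : LaurentSeries T} (ha : ∀ n : ℤ, 0 < n → a.coeff n = 0)
    (hb : ∀ n : ℤ, 0 < n → b.coeff n = 0) (n : ℤ) (hn : 0 < n) : (a * b).coeff n = 0 := by
  rw [HahnSeries.coeff_mul]
  refine Finset.sum_eq_zero fun ij hij => ?_
  rw [Finset.mem_antidiagonal] at hij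
  obtain ⟨-, -, h⟩ := hij
  by_cases h1 : 0 < ij.1
  · rw [ha _ h1, zero_mul]
  · rw [hb ij.2 (by omega), mul_zero]

lemma mul_coeff_neg {a b : LaurentSeries T} (ha : ∀ n : ℤ, n < 0 → a.coeff n = 0)
    (hb : ∀ n : ℤ, n < 0 → b.coeff n = 0) (n : ℤ) (hn : n < 0) : (a * b).coeff n = 0 := by
  rw [HahnSeries.coeff_mul]
  refine Finset.sum_eq_zero fun ij hij => ?_
  rw [Finset.mem_antidiagonal] at hij
  obtain ⟨-, -, h⟩ := hij
  by_cases h1 : ij.1 < 0
  · rw [ha _ h1, zero_mul]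
  · rw [hb ij.2 (by omega), mul_zero]

lemma mul_coeff_nonpos {a b : LaurentSeries T} (ha : ∀ n : ℤ, n < 0 → a.coeff n = 0)
    (hb : ∀ n : ℤ, n ≤ 0 → b.coeff n = 0) (n : ℤ) (hn : n ≤ 0) : (a * b).coeff n = 0 := by
  rw [HahnSeries.coeff_mul]
  refine Finset.sum_eq_zero fun ij hij => ?_
  rw [Finset.mem_antidiagonal] at hij
  obtain ⟨-, -, h⟩ := hij
  by_cases h1 : ij.1 < 0
  · rw [ha _ h1, zero_mul]
  · rw [hb ij.2 (by omega), mul_zero]

lemma mul_coeff_zero {a b : LaurentSeries T} (ha : ∀ n : ℤ, n < 0 → a.coeff n = 0)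
    (hb : ∀ n : ℤ, n < 0 → b.coeff n = 0) : (a * b).coeff 0 = a.coeff 0 * b.coeff 0 := by
  rw [HahnSeries.coeff_mul]
  by_cases h : a.coeff 0 = 0 ∨ b.coeff 0 = 0
  · have h' : a.coeff 0 * b.coeff 0 = 0 := by
      rcases h with h | h
      · rw [h, zero_mul]
      · rw [h, mul_zero]
    rw [h']
    refine Finset.sum_eq_zero fun ij hij => ?_
    rw [Finset.mem_antidiagonal] at hij
    obtain ⟨-, -, h1⟩ := hij
    rcases lt_trichotomy ij.1 0 with h2 | h2 | h2
    · rw [ha _ h2, zero_mul]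
    · have h3 : ij.2 = 0 := by omega
      rw [h2, h3, h']
    · rw [hb ij.2 (by omega), mul_zero]
  · push Not at h
    rw [Finset.sum_eq_single (0, 0)]
    · intro ij hij hne
      rw [Finset.mem_antidiagonal] at hij
      obtain ⟨-, -, h1⟩ := hij
      rcases lt_trichotomy ij.1 0 with h2 | h2 | h2
      · rw [ha _ h2, zero_mul]
      · exfalso; apply hne; ext <;> simp <;> omega
      · rw [hb ij.2 (by omega), mul_zero]
    · intro h1
      exfalso; apply h1
      rw [Finset.mem_antidiagonal]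
      exact ⟨h.1, h.2, by simp⟩

/-- truncation: keep the coefficients `n ≤ 0` (the polynomial part in `x = p⁻¹`) -/
def tr (z : LaurentSeries T) : LaurentSeries T where
  coeff n := if n ≤ 0 then z.coeff n else 0
  isPWO_support' := z.isPWO_support.mono (fun n hn => by
    rw [Function.mem_support] at hn
    rw [HahnSeries.mem_support]
    intro h; apply hn; simp [h])

lemma tr_coeff (z : LaurentSeries T) (n : ℤ) : (tr z).coeff n = if n ≤ 0 then z.coeff n else 0 := rfl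

end Laurent

namespace UnivT

variable {DD : Type u} [Ring DD] {L : Line DD} {T : Type u} [Ring T] (U : UnivT L T)

lemma Θp : U.Θ L.p = HahnSeries.single 1 1 := by
  have h1 : U.Θ L.x * U.Θ L.p = 1 := by rw [← map_mul, L.xp, map_one]
  rw [U.Θx] at h1
  have h2 : (HahnSeries.single (1 : ℤ) (1 : T)) * (HahnSeries.single (-1 : ℤ) (1 : T) * U.Θ L.p) =
      HahnSeries.single 1 1 := by rw [h1, mul_one]
  rwa [← mul_assoc, HahnSeries.single_mul_single, add_neg_cancel, mul_one,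
    HahnSeries.single_zero_one, one_mul] at h2

lemma Θx_pow (n : ℕ) : U.Θ (L.x ^ n) = HahnSeries.single (-(n : ℤ)) 1 := by
  induction n with
  | zero => simp
  | succ k ih =>
    rw [pow_succ, map_mul, ih, U.Θx, HahnSeries.single_mul_single, mul_one,
      show (-(k : ℤ) + -1) = -((k + 1 : ℕ) : ℤ) by push_cast; ring]

lemma Θp_pow (n : ℕ) : U.Θ (L.p ^ n) = HahnSeries.single (n : ℤ) 1 := by
  induction n with
  | zero => simp
  | succ k ih =>
    rw [pow_succ, map_mul, ih, U.Θp, HahnSeries.single_mul_single, mul_one,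
      show ((k : ℤ) + 1) = ((k + 1 : ℕ) : ℤ) by push_cast; ring]

lemma Θxz (n : ℤ) : U.Θ (L.xz n) = HahnSeries.single (-n) 1 := by
  rcases Int.eq_nat_or_neg n with ⟨k, rfl | rfl⟩
  · rw [L.xz_nat, U.Θx_pow]
  · rw [L.xz_neg_nat, U.Θp_pow, neg_neg]

lemma coeff_xz_mul (k n : ℤ) (z : LaurentSeries T) :
    (U.Θ (L.xz k) * z).coeff n = z.coeff (n + k) := by
  rw [U.Θxz, HahnSeries.coeff_single_mul, one_mul, sub_neg_eq_add]

lemma coeff_xz (k n : ℤ) (d : DD) : (U.Θ (L.xz k * d)).coeff n = (U.Θ d).coeff (n + k) := by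
  rw [map_mul, U.coeff_xz_mul]

end UnivT

namespace LB

variable {DD : Type u} [Ring DD] {L : Line DD} (B : LB L) {T : Type u} [Ring T] (U : UnivT L T)

/-- the words in `T[x]`, auxiliary -/
noncomputable def bw : List B.I0 → B.I1 → LaurentSeries T
  | [], j => tr (U.Θ (B.g1 j))
  | i :: l, j => tr (U.Θ (B.g0 i) * bw l j)

/-- the words in `T[x]` -/
noncomputable def b : B.W → LaurentSeries T
  | none => 1
  | some κ => B.bw U κ.1 κ.2

@[simp] lemma b_none : B.b U none = 1 := rfl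

lemma b_some (κ : B.Wd) : B.b U (some κ) = tr (U.Θ (B.lab κ) * B.b U (B.par κ)) := by
  rcases κ with ⟨_ | ⟨i, l⟩, j⟩
  · simp [b, bw, lab, par]
  · simp [b, bw, lab, par]

lemma b_pos (w : B.W) (n : ℤ) (hn : 0 < n) : (B.b U w).coeff n = 0 := by
  rcases w with _ | κ
  · rw [b_none]
    rw [HahnSeries.coeff_one, if_neg (by omega)]
  · rw [b_some, tr_coeff, if_neg (by omega)]

/-- `φ : MM → T((p))` -/
noncomputable def φ : B.MM →+ LaurentSeries T :=
  Finsupp.liftAddHom fun w => (AddMonoidHom.mulRight (B.b U w)).comp (U.Θ : DD →+ LaurentSeries T)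

lemma φ_single (w : B.W) (d : DD) : B.φ U (Finsupp.single w d) = U.Θ d * B.b U w := by
  simp [φ]

lemma φ_apply (m : B.MM) : B.φ U m = m.sum fun w d => U.Θ d * B.b U w := by
  simp only [φ, Finsupp.liftAddHom_apply]
  rfl

lemma φ_smul (d : DD) (m : B.MM) : B.φ U (d • m) = U.Θ d * B.φ U m := by
  induction m using Finsupp.induction_linear with
  | zero => simp
  | add a b ha hb => rw [smul_add, map_add, map_add, ha, hb, mul_add]
  | single w e => rw [Finsupp.smul_single, smul_eq_mul, φ_single, φ_single, map_mul, mul_assoc]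

lemma φ_Gaff {m : B.MM} (hm : m ∈ B.Gaff) (n : ℤ) (hn : 0 < n) : (B.φ U m).coeff n = 0 := by
  rw [φ_apply, Finsupp.sum]
  rw [HahnSeries.coeff_sum]
  refine Finset.sum_eq_zero fun w _ => ?_
  exact mul_coeff_pos (U.ΘV _ (hm w)) (B.b_pos U w) n hn

lemma φ_vec_some (κ : B.Wd) (n : ℤ) (hn : n ≤ 0) : (B.φ U (B.vec (some κ))).coeff n = 0 := by
  simp only [vec, map_sub, φ_single, map_one, one_mul]
  rw [HahnSeries.coeff_sub, b_some, tr_coeff, if_pos hn, sub_self]

lemma φ_BB {m : B.MM} (hm : m ∈ B.BB) (n : ℤ) (hn : n ≤ 0) : (B.φ U m).coeff n = 0 := by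
  rw [mem_BB] at hm
  obtain ⟨f, ⟨⟨o, ho, h1⟩, h2⟩, rfl⟩ := hm
  have e : B.φ U (B.dP f) = f.sum fun w d => U.Θ d * B.φ U (B.vec w) := by
    rw [dP, Finsupp.linearCombination_apply, Finsupp.sum, map_sum, Finsupp.sum]
    simp only [φ_smul]
  rw [e, Finsupp.sum, HahnSeries.coeff_sum]
  refine Finset.sum_eq_zero fun w _ => ?_
  rcases w with _ | κ
  · rw [h1]
    show (U.Θ (L.p * o) * B.φ U (Finsupp.single none 1)).coeff n = 0
    rw [φ_single, b_none, map_one, mul_one, mul_one, ← L.xz_neg_one, U.coeff_xz]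
    exact U.ΘO o ho _ (by omega)
  · exact mul_coeff_nonpos (U.ΘO _ (h2 κ)) (B.φ_vec_some U κ) n hn

lemma φ_Ginf {m : B.MM} (hm : m ∈ B.Ginf) (n : ℤ) (hn : n < 0) : (B.φ U m).coeff n = 0 := by
  have h := B.φ_BB U hm (n + 1) (by omega)
  rw [φ_smul, ← L.xz_neg_one, U.coeff_xz_mul] at h
  simpa using h

/-- `ψ : N → T` -/
noncomputable def ψ : B.N →+ T where
  toFun n := (B.φ U (n : B.MM)).coeff 0
  map_zero' := by simp
  map_add' a b := by simp [map_add]

/-- `1 ∈ N` -/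
noncomputable def e1 : B.N := ⟨_, B.one_mem_N⟩

lemma ψ_e1 : B.ψ U B.e1 = 1 := by
  show (B.φ U (Finsupp.single none 1)).coeff 0 = 1
  rw [φ_single]; simp

section
variable (hc : IsCompl B.Gaff B.BB)
include hc

lemma φ_pr (m : B.MM) (n : ℤ) :
    (B.φ U (B.pr hc m)).coeff n = if n ≤ 0 then (B.φ U m).coeff n else 0 := by
  split_ifs with h
  · have := B.φ_BB U (B.sub_pr_mem hc m) n h
    rw [map_sub, HahnSeries.coeff_sub, sub_eq_zero] at this
    exact this.symm
  · exact B.φ_Gaff U (B.pr_mem hc m) n (by omega)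

lemma φ_r (y : B.MM) : B.φ U (B.r hc y : B.MM) = HahnSeries.single 0 ((B.φ U y).coeff 0) := by
  ext n
  rw [coe_r, map_sub, φ_smul, HahnSeries.coeff_sub, φ_pr, ← L.xz_one, U.coeff_xz_mul, φ_pr,
    φ_smul, ← L.xz_neg_one, U.coeff_xz_mul]
  rcases lt_trichotomy n 0 with h | h | h
  · rw [if_pos h.le, if_pos (by omega), HahnSeries.coeff_single_of_ne (by omega)]
    simp
  · subst h
    rw [if_pos le_rfl, if_neg (by omega)]; simp
  · rw [if_neg (by omega), if_neg (by omega), HahnSeries.coeff_single_of_ne (by omega)]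
    simp

lemma φ_N (n : B.N) : B.φ U (n : B.MM) = HahnSeries.single 0 (B.ψ U n) := by
  have := B.φ_r U hc (n : B.MM)
  rwa [B.r_N hc] at this

lemma ψ_r (y : B.MM) : B.ψ U (B.r hc y) = (B.φ U y).coeff 0 := by
  show (B.φ U (B.r hc y : B.MM)).coeff 0 = _
  rw [B.φ_r U hc]; simp

/-- the ring map `T → End N` -/
theorem exists_f : ∃ f : T →+* AddMonoid.End B.N, ∀ (o : L.O) (n : ℕ),
    B.act hc n (o : DD) = f ((U.Θ (o : DD)).coeff (n : ℤ)) := by
  obtain ⟨f, hf⟩ := U.univ (AddMonoid.End B.N) (B.θN hc) (B.θN_p hc) (B.θN_V hc)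
  exact ⟨f, fun o n => by rw [← hf, coeff_θN]⟩

/-- the ring map `T → End N` -/
noncomputable def f : T →+* AddMonoid.End B.N := (B.exists_f U hc).choose

lemma f_O (o : DD) (ho : o ∈ L.O) (n : ℕ) :
    B.act hc n o = B.f U hc ((U.Θ o).coeff (n : ℤ)) := (B.exists_f U hc).choose_spec ⟨o, ho⟩ n

lemma f_coeff (d : DD) (n : ℤ) (m : B.N) :
    B.f U hc ((U.Θ d).coeff n) m = B.r hc (L.xz n • d • (m : B.MM)) := by
  obtain ⟨k, o, ho, rfl⟩ := L.exh' d
  rw [U.coeff_xz, mul_smul, smul_smul, ← L.xz_add]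
  rcases lt_or_ge (n + k) 0 with h | h
  · rw [U.ΘO o ho _ h, map_zero, B.r_xz_neg_Ginf hc h (B.Ginf_smul ho m.2.2)]; rfl
  · obtain ⟨j, hj⟩ := Int.eq_ofNat_of_zero_le h
    rw [hj, ← B.f_O U hc o ho, act_apply]

lemma ψ_f_coeff (d : DD) (n : ℤ) (m : B.N) :
    B.ψ U (B.f U hc ((U.Θ d).coeff n) m) = (U.Θ d).coeff n * B.ψ U m := by
  rw [f_coeff, B.ψ_r U hc, smul_smul, φ_smul, B.φ_N U hc, HahnSeries.coeff_mul_single_zero,
    U.coeff_xz, zero_add]

lemma ψ_f (t : T) : ∀ (m : B.N), B.ψ U (B.f U hc t m) = t * B.ψ U m := by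
  have ht : t ∈ Subring.closure {t : T | ∃ (d : DD) (n : ℤ), t = (U.Θ d).coeff n} := by
    rw [U.gen]; trivial
  induction ht using Subring.closure_induction with
  | mem x hx => obtain ⟨d, n, rfl⟩ := hx; exact B.ψ_f_coeff U hc d n
  | zero => intro m; rw [map_zero, end_zero_apply, map_zero, zero_mul]
  | one => intro m; rw [map_one, end_one_apply, one_mul]
  | add a b _ _ ha hb => intro m; rw [map_add, end_add_apply, map_add, ha, hb, add_mul]
  | neg a _ ha =>
    intro m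
    have : B.f U hc (-a) m = - (B.f U hc a m) := by rw [map_neg]; rfl
    rw [this, map_neg, ha, neg_mul]
  | mul a b _ _ ha hb => intro m; rw [map_mul, end_mul_apply, ha, hb, mul_assoc]

lemma ψ_f_e1 (t : T) : B.ψ U (B.f U hc t B.e1) = t := by
  rw [ψ_f, ψ_e1, mul_one]

/-- `C(m)`: all the coefficients of `m` lie in `T • 1` -/
def Cof (m : B.MM) : Prop := ∀ n : ℤ, ∃ t : T, B.r hc (L.xz n • m) = B.f U hc t B.e1

variable {U}

lemma Cof.add {a b : B.MM} (ha : B.Cof U hc a) (hb : B.Cof U hc b) : B.Cof U hc (a + b) := by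
  intro n
  obtain ⟨s, hs⟩ := ha n
  obtain ⟨t, ht⟩ := hb n
  exact ⟨s + t, by rw [smul_add, map_add, hs, ht, map_add, end_add_apply]⟩

lemma Cof.one : B.Cof U hc (Finsupp.single none 1) := by
  intro n
  rcases lt_trichotomy n 0 with h | h | h
  · exact ⟨0, by rw [B.r_xz_neg_Ginf hc h B.one_mem_N.2, map_zero, end_zero_apply]⟩
  · exact ⟨1, by
      rw [h, L.xz_zero, one_smul, map_one, end_one_apply]; exact B.r_N hc B.e1⟩
  · exact ⟨0, by rw [B.r_xz_Gaff hc h B.one_mem_N.1, map_zero, end_zero_apply]⟩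

lemma Cof.pr {m : B.MM} (hm : B.Cof U hc m) : B.Cof U hc (B.pr hc m) := by
  intro n
  rcases lt_or_ge 0 n with h | h
  · exact ⟨0, by rw [B.r_xz_Gaff hc h (B.pr_mem hc m), map_zero, end_zero_apply]⟩
  · obtain ⟨t, ht⟩ := hm n
    refine ⟨t, ?_⟩
    rw [← ht, eq_comm, ← sub_eq_zero, ← map_sub, ← smul_sub]
    obtain ⟨k, rfl⟩ : ∃ k : ℕ, n = -(k : ℤ) := ⟨(-n).toNat, by omega⟩
    exact B.r_BB hc (B.BB_smul (L.xz_O k) (B.sub_pr_mem hc m))

lemma Cof.sum {ι : Type*} (s : Finset ι) (g : ι → B.N)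
    (hg : ∀ i ∈ s, ∃ t : T, g i = B.f U hc t B.e1) : ∃ t : T, ∑ i ∈ s, g i = B.f U hc t B.e1 := by
  classical
  induction s using Finset.induction_on with
  | empty => exact ⟨0, by rw [map_zero, end_zero_apply, Finset.sum_empty]⟩
  | insert i s hi ih =>
    obtain ⟨t, ht⟩ := hg i (Finset.mem_insert_self _ _)
    obtain ⟨t', ht'⟩ := ih (fun j hj => hg j (Finset.mem_insert_of_mem hj))
    exact ⟨t + t', by rw [Finset.sum_insert hi, ht, ht', map_add, end_add_apply]⟩

lemma Cof.smul {m : B.MM} (hm : B.Cof U hc m) (d : DD) : B.Cof U hc (d • m) := by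
  obtain ⟨k, o, ho, rfl⟩ := L.exh' d
  obtain ⟨l, hl⟩ := B.exh_BB m
  set g : B.MM := L.p ^ l • m with hg
  have hgG : g ∈ B.Ginf := B.BB_le_Ginf hl
  have hmg : m = L.xz l • g := by
    rw [hg, smul_smul, ← L.xz_neg_nat, ← L.xz_add]; simp
  intro n
  have e : L.xz n • (L.xz k * o) • m = L.xz (n + k + l) • o • g := by
    conv_lhs => rw [hmg]
    simp only [smul_smul, L.xz_add]
    simp only [mul_assoc]
    rw [← L.xz_comm l o]
  rw [e]
  rcases lt_or_ge (n + k + l) 0 with h | h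
  · exact ⟨0, by rw [B.r_xz_neg_Ginf hc h (B.Ginf_smul ho hgG), map_zero, end_zero_apply]⟩
  · obtain ⟨j, hj⟩ := Int.eq_ofNat_of_zero_le h
    rw [hj, B.taylor hc j o ho g hgG]
    refine Cof.sum B hc _ _ fun q _ => ?_
    obtain ⟨t, ht⟩ := hm ((q.2 : ℤ) + -(l : ℤ))
    have e2 : L.xz (q.2 : ℤ) • g = L.xz ((q.2 : ℤ) + -(l : ℤ)) • m := by
      rw [hg, smul_smul, ← L.xz_neg_nat, ← L.xz_add]
    rw [e2, ht]
    refine ⟨(U.Θ o).coeff (q.1 : ℤ) * t, ?_⟩
    rw [map_mul, end_mul_apply, f_coeff]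

lemma Cof.all (m : B.MM) : B.Cof U hc m := by
  have h1 : ∀ w : B.W, B.Cof U hc (Finsupp.single w 1) := by
    have key : ∀ κ : B.Wd, B.Cof U hc (Finsupp.single (B.par κ) 1) →
        B.Cof U hc (Finsupp.single (some κ) 1) := by
      intro κ h
      have h2 := (h.smul B hc (B.lab κ)).pr B hc
      rw [Finsupp.smul_single, smul_eq_mul, mul_one] at h2
      have e : B.pr hc (Finsupp.single (B.par κ) (B.lab κ)) = Finsupp.single (some κ) 1 := by
        have hG : (Finsupp.single (some κ) 1 : B.MM) ∈ B.Gaff := by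
          intro w
          by_cases hw : some κ = w
          · subst hw; simp
          · rw [Finsupp.single_eq_of_ne (fun h' => hw h'.symm)]; exact L.V.zero_mem
        have hv : B.vec (some κ) ∈ B.BB := by
          simpa using B.smul_vec_mem_BB L.O.one_mem κ
        have hh := B.pr_of_BB hc hv
        rw [show B.vec (some κ) = Finsupp.single (some κ) 1 - Finsupp.single (B.par κ) (B.lab κ)
          from rfl, map_sub, B.pr_of_Gaff hc hG, sub_eq_zero] at hh
        exact hh.symm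
      rwa [e] at h2
    rintro (_ | ⟨l, j⟩)
    · exact Cof.one B hc
    · induction l with
      | nil => exact key ([], j) (Cof.one B hc)
      | cons i l ih => exact key (i :: l, j) ih
  induction m using Finsupp.induction_linear with
  | zero =>
    intro n
    exact ⟨0, by rw [smul_zero, map_zero, map_zero, end_zero_apply]⟩
  | add a b ha hb => exact ha.add B hc hb
  | single w d =>
    have := (h1 w).smul B hc d
    rwa [Finsupp.smul_single, smul_eq_mul, mul_one] at this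

variable (U)

lemma f_ψ (m : B.N) : B.f U hc (B.ψ U m) B.e1 = m := by
  obtain ⟨t, ht⟩ := Cof.all (U := U) B hc (m : B.MM) 0
  rw [L.xz_zero, one_smul, B.r_N hc] at ht
  rw [ht, ψ_f_e1]

lemma ψ_injective : Function.Injective (B.ψ U) := fun a b h => by
  rw [← B.f_ψ U hc a, ← B.f_ψ U hc b, h]

lemma ψ_surjective : Function.Surjective (B.ψ U) := fun t => ⟨_, B.ψ_f_e1 U hc t⟩

lemma r_eq_zero_of_φ {m : B.MM} {n : ℤ} (h : (B.φ U m).coeff n = 0) :
    B.r hc (L.xz n • m) = 0 := by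
  apply B.ψ_injective U hc
  rw [B.ψ_r U hc, φ_smul, U.coeff_xz_mul, zero_add, h, map_zero]

/-- if the coefficients of `φ m` vanish for `n < k`, then `x^(k-1) m ∈ BB` -/
lemma mem_BB_of_φ {m : B.MM} {k : ℤ} (h : ∀ n : ℤ, n < k → (B.φ U m).coeff n = 0) :
    L.xz (k - 1) • m ∈ B.BB := by
  obtain ⟨l, hl⟩ := B.exh_BB m
  have step : ∀ n : ℤ, n < k → L.xz (n - 1) • m ∈ B.BB → L.xz n • m ∈ B.BB := by
    intro n hn h1
    have h2 := B.r_eq_zero_of_φ U hc (h n hn)
    have h3 : B.pr hc (L.xz n • m) - L.x • B.pr hc (L.p • L.xz n • m) = 0 := by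
      rw [← coe_r, h2]; rfl
    rw [← L.xz_neg_one, smul_smul, ← L.xz_add, add_comm (-1) n, ← sub_eq_add_neg,
      B.pr_of_BB hc h1, smul_zero, sub_zero, pr_eq_zero_iff] at h3
    exact h3
  have all : ∀ j : ℕ, ∀ n : ℤ, n = -(l : ℤ) + j → n < k → L.xz n • m ∈ B.BB := by
    intro j
    induction j with
    | zero =>
      intro n hn _
      rw [hn, Nat.cast_zero, add_zero, L.xz_neg_nat]; exact hl
    | succ j ih =>
      intro n hn hk
      exact step n hk (ih (n - 1) (by push_cast at hn; omega) (by omega))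
  rcases lt_or_ge (k - 1) (-(l : ℤ)) with h1 | h1
  · have : L.xz (k - 1) • m = L.xz (-(((-(l : ℤ)) - (k - 1)).toNat : ℤ)) • L.p ^ l • m := by
      rw [← L.xz_neg_nat, smul_smul, ← L.xz_add]
      congr 2
      omega
    rw [this]
    exact B.BB_smul (L.xz_O _) hl
  · exact all ((k - 1 + l).toNat) (k - 1) (by omega) (by omega)

lemma mem_BB_iff_φ {m : B.MM} : m ∈ B.BB ↔ ∀ n : ℤ, n ≤ 0 → (B.φ U m).coeff n = 0 := by
  refine ⟨fun h => B.φ_BB U h, fun h => ?_⟩
  have := B.mem_BB_of_φ U hc (k := 1) (m := m) (fun n hn => h n (by omega))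
  simpa using this

lemma mem_Ginf_iff_φ {m : B.MM} : m ∈ B.Ginf ↔ ∀ n : ℤ, n < 0 → (B.φ U m).coeff n = 0 := by
  refine ⟨fun h => B.φ_Ginf U h, fun h => ?_⟩
  rw [mem_Ginf, B.mem_BB_iff_φ U hc]
  intro n hn
  rw [φ_smul, ← L.xz_neg_one, U.coeff_xz_mul]
  exact h _ (by omega)

lemma φ_injOn_Gaff {m : B.MM} (hm : m ∈ B.Gaff) (h : B.φ U m = 0) : m = 0 := by
  have h1 : m ∈ B.BB := (B.mem_BB_iff_φ U hc).2 (fun n _ => by rw [h]; simp)
  rw [← B.pr_of_Gaff hc hm, B.pr_of_BB hc h1]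

lemma φ_f_e1 (t : T) : B.φ U (B.f U hc t B.e1 : B.MM) = HahnSeries.single 0 t := by
  rw [B.φ_N U hc, ψ_f_e1]

lemma exists_Gaff_of_bdd (K : ℕ) : ∀ z : LaurentSeries T, (∀ n : ℤ, 0 < n → z.coeff n = 0) →
    (∀ n : ℤ, n < -(K : ℤ) → z.coeff n = 0) → ∃ m ∈ B.Gaff, B.φ U m = z := by
  induction K with
  | zero =>
    intro z h1 h2
    refine ⟨_, (B.f U hc (z.coeff 0) B.e1).2.1, ?_⟩
    rw [φ_f_e1]
    ext n
    rcases lt_trichotomy n 0 with h | h | h
    · rw [HahnSeries.coeff_single_of_ne (by omega), h2 n (by simpa using h)]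
    · rw [h]; simp
    · rw [HahnSeries.coeff_single_of_ne (by omega), h1 n h]
  | succ K ih =>
    intro z h1 h2
    obtain ⟨m, hm, hm'⟩ := ih (z - HahnSeries.single (-((K : ℤ) + 1)) (z.coeff (-((K : ℤ) + 1))))
      (fun n hn => by
        rw [HahnSeries.coeff_sub, h1 n hn, HahnSeries.coeff_single_of_ne (by omega), sub_zero])
      (fun n hn => by
        rw [HahnSeries.coeff_sub]
        by_cases h : n = -((K : ℤ) + 1)
        · subst h; simp
        · rw [HahnSeries.coeff_single_of_ne h, sub_zero]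
          exact h2 n (by push_cast; omega))
    refine ⟨m + L.xz ((K + 1 : ℕ) : ℤ) •
      (B.f U hc (z.coeff (-((K : ℤ) + 1))) B.e1 : B.MM),
      B.Gaff.add_mem hm (B.Gaff_smul (L.xz_V _) (B.f U hc _ B.e1).2.1), ?_⟩
    rw [map_add, hm', φ_smul, φ_f_e1, U.Θxz, HahnSeries.single_mul_single, add_zero, one_mul]
    push_cast
    abel

/-- surjectivity onto `T[x]` -/
theorem exists_Gaff (z : LaurentSeries T) (hz : ∀ n : ℤ, 0 < n → z.coeff n = 0) :
    ∃ m ∈ B.Gaff, B.φ U m = z :=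
  B.exists_Gaff_of_bdd U hc (-z.order).toNat z hz (fun n hn =>
    HahnSeries.coeff_eq_zero_of_lt_order (by omega))

end

end LB

end Crest.Agent.R181.V868
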