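import Crest.Agent.R181.V868d

/-!
# R181, V-chain, V2 Step 1 (LT), plain part: right `T`-action on `MM`, lattices
-/

namespace Crest.Agent.R181.V868

universe u

namespace LB

variable {DD : Type u} [Ring DD] {L : Line DD} (B : LB L) {T : Type u} [Ring T] (U : UnivT L T)

section Rt
variable (hinj : Function.Injective (B.φ U))

lemma exists_Rt (t : T) (m : B.MM) : ∃ m', B.φ U m' = B.φ U m * HahnSeries.single 0 t := by
  have : B.φ U m * HahnSeries.single 0 t ∈ B.MMT U :=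
    B.MMT_mul U ⟨m, rfl⟩ (fun n hn => HahnSeries.coeff_single_of_ne (by omega))
  exact this

/-- auxiliary -/
noncomputable def Rt0 (t : T) (m : B.MM) : B.MM := (B.exists_Rt U t m).choose

lemma φ_Rt0 (t : T) (m : B.MM) : B.φ U (B.Rt0 U t m) = B.φ U m * HahnSeries.single 0 t :=
  (B.exists_Rt U t m).choose_spec

/-- the right `T`-action on `MM` -/
noncomputable def Rt (t : T) : B.MM →ₗ[DD] B.MM where
  toFun m := B.Rt0 U t m
  map_add' a b := by
    apply hinj
    rw [map_add, φ_Rt0, φ_Rt0, φ_Rt0, map_add, add_mul]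
  map_smul' d a := by
    apply hinj
    rw [RingHom.id_apply, φ_smul, φ_Rt0, φ_Rt0, φ_smul, mul_assoc]

lemma φ_Rt (t : T) (m : B.MM) : B.φ U (B.Rt U hinj t m) = B.φ U m * HahnSeries.single 0 t :=
  B.φ_Rt0 U t m

lemma Rt_one : B.Rt U hinj 1 = LinearMap.id := by
  ext1; ext1
  apply hinj
  rw [LinearMap.comp_apply, LinearMap.comp_apply, φ_Rt, HahnSeries.single_zero_one, mul_one]
  rfl

lemma Rt_mul (s t : T) : B.Rt U hinj (s * t) = (B.Rt U hinj t).comp (B.Rt U hinj s) := by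
  refine LinearMap.ext fun m => hinj ?_
  rw [LinearMap.comp_apply, φ_Rt, φ_Rt, φ_Rt, mul_assoc, HahnSeries.single_mul_single, add_zero]

lemma Rt_add (s t : T) : B.Rt U hinj (s + t) = B.Rt U hinj s + B.Rt U hinj t := by
  refine LinearMap.ext fun m => hinj ?_
  rw [LinearMap.add_apply, map_add, φ_Rt, φ_Rt, φ_Rt, ← mul_add, HahnSeries.single_add]

lemma Rt_zero : B.Rt U hinj 0 = 0 := by
  refine LinearMap.ext fun m => hinj ?_
  rw [φ_Rt]; simp

lemma single_pos (t : T) (n : ℤ) (hn : 0 < n) :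
    (HahnSeries.single (0 : ℤ) t).coeff n = 0 := HahnSeries.coeff_single_of_ne (by omega)

lemma single_neg (t : T) (n : ℤ) (hn : n < 0) :
    (HahnSeries.single (0 : ℤ) t).coeff n = 0 := HahnSeries.coeff_single_of_ne (by omega)

lemma Rt_Gaff (t : T) {m : B.MM} (hm : m ∈ B.Gaff) : B.Rt U hinj t m ∈ B.Gaff := by
  rw [B.mem_Gaff_iff_φ U hinj, φ_Rt]
  exact mul_coeff_pos (B.φ_Gaff U hm) (single_pos t)

lemma Rt_Ginf (t : T) {m : B.MM} (hm : m ∈ B.Ginf) : B.Rt U hinj t m ∈ B.Ginf := by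
  rw [B.mem_Ginf_iff_φ U B.isCompl, φ_Rt]
  exact mul_coeff_neg (B.φ_Ginf U hm) (single_neg t)

end Rt

/-! ### lattices -/

/-- closed under parents -/
def Cl (S : Finset B.Wd) : Prop := ∀ κ ∈ S, ∀ κ', B.par κ = some κ' → κ' ∈ S

/-- functions supported in `S ∪ root` -/
def LC (S : Finset B.Wd) : Submodule DD B.MM where
  carrier := {f | ∀ κ, κ ∉ S → f (some κ) = 0}
  add_mem' := fun {a b} ha hb κ hκ => by rw [Finsupp.add_apply, ha κ hκ, hb κ hκ, add_zero]
  zero_mem' := fun κ _ => rfl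
  smul_mem' := fun d f hf κ hκ => by rw [Finsupp.smul_apply, hf κ hκ, smul_zero]

/-- the `V`-part -/
def LA (S : Finset B.Wd) : Submodule L.V B.MM where
  carrier := {f | f ∈ B.Gaff ∧ f ∈ B.LC S}
  add_mem' := fun ha hb => ⟨B.Gaff.add_mem ha.1 hb.1, (B.LC S).add_mem ha.2 hb.2⟩
  zero_mem' := ⟨B.Gaff.zero_mem, (B.LC S).zero_mem⟩
  smul_mem' := fun d _ hf => ⟨B.Gaff_smul d.2 hf.1, (B.LC S).smul_mem (d : DD) hf.2⟩

/-- the `O`-part -/
noncomputable def LBn (S : Finset B.Wd) : Submodule L.O B.MM where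
  carrier := {f | f ∈ B.Ginf ∧ f ∈ B.LC S}
  add_mem' := fun ha hb => ⟨B.Ginf.add_mem ha.1 hb.1, (B.LC S).add_mem ha.2 hb.2⟩
  zero_mem' := ⟨B.Ginf.zero_mem, (B.LC S).zero_mem⟩
  smul_mem' := fun d _ hf => ⟨B.Ginf_smul d.2 hf.1, (B.LC S).smul_mem (d : DD) hf.2⟩

lemma mem_LC {S : Finset B.Wd} {f : B.MM} : f ∈ B.LC S ↔ ∀ κ, κ ∉ S → f (some κ) = 0 := Iff.rfl
lemma mem_LA {S : Finset B.Wd} {f : B.MM} : f ∈ B.LA S ↔ f ∈ B.Gaff ∧ f ∈ B.LC S := Iff.rfl
lemma mem_LBn {S : Finset B.Wd} {f : B.MM} : f ∈ B.LBn S ↔ f ∈ B.Ginf ∧ f ∈ B.LC S := Iff.rfl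

lemma LC_mono {S S' : Finset B.Wd} (h : S ⊆ S') : B.LC S ≤ B.LC S' :=
  fun _ hf κ hκ => hf κ (fun h' => hκ (h h'))
lemma LA_mono {S S' : Finset B.Wd} (h : S ⊆ S') : B.LA S ≤ B.LA S' :=
  fun _ hf => ⟨hf.1, B.LC_mono h hf.2⟩
lemma LBn_mono {S S' : Finset B.Wd} (h : S ⊆ S') : B.LBn S ≤ B.LBn S' :=
  fun _ hf => ⟨hf.1, B.LC_mono h hf.2⟩

variable {B}

/-- if `dP c` is supported in `S ∪ root`, so is `c` -/
lemma supp_of_dP {S : Finset B.Wd} (hS : B.Cl S) {c : B.MM} (h : B.dP c ∈ B.LC S) :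
    c ∈ B.LC S := by
  obtain ⟨m, hm⟩ := VL.exists_lev c
  have key : ∀ k : ℕ, ∀ κ : B.Wd, κ ∉ S → m < B.lev (some κ) + k → c (some κ) = 0 := by
    intro k
    induction k with
    | zero => intro κ _ h1; exact hm _ (by simpa using h1)
    | succ k ih =>
      intro κ hκ h1
      have h2 := VL.dP_apply_some c κ
      rw [h κ hκ] at h2
      have h3 : VL.kid0 κ c = 0 := by
        ext i
        rw [VL.kid0_apply]
        refine ih (i :: κ.1, κ.2) (fun h4 => hκ (hS _ h4 κ rfl)) ?_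
        simp only [lev, List.length_cons] at h1 ⊢
        omega
      rw [h3] at h2
      simpa using h2.symm
  intro κ hκ
  exact key (m + 1) κ hκ (by omega)

/-- `Cl` for adding a leaf -/
lemma Cl.insert {S : Finset B.Wd} (hS : B.Cl S) {κ : B.Wd}
    (hκ : ∀ κ', B.par κ = some κ' → κ' ∈ S) [DecidableEq B.Wd] : B.Cl (Insert.insert κ S) := by
  intro κ1 h1 κ' h2
  rcases Finset.mem_insert.1 h1 with rfl | h1
  · exact Finset.mem_insert_of_mem (hκ κ' h2)
  · exact Finset.mem_insert_of_mem (hS κ1 h1 κ' h2)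

section insert
variable [DecidableEq B.Wd] {S : Finset B.Wd} (hS : B.Cl S) {κ : B.Wd} (hκS : κ ∉ S)
  (hκ : ∀ κ', B.par κ = some κ' → κ' ∈ S)
include hS hκS hκ

lemma coord_Ginf {f : B.MM} (hf : f ∈ B.LBn (insert κ S)) : ∃ o ∈ L.O, f (some κ) = L.x * o := by
  obtain ⟨c, hc, h1⟩ := B.mem_BB.1 hf.1
  have h2 : c ∈ B.LC (insert κ S) := by
    refine supp_of_dP (hS.insert hκ) ?_
    rw [h1]
    exact (B.LC _).smul_mem _ hf.2
  have h3 := VL.dP_apply_some c κ
  have h4 : VL.kid0 κ c = 0 := by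
    ext i
    rw [VL.kid0_apply]
    refine h2 _ (fun h5 => ?_)
    rcases Finset.mem_insert.1 h5 with h5 | h5
    · have := congrArg (fun y : B.Wd => y.1.length) h5
      simp at this
    · exact hκS (hS _ h5 κ rfl)
  rw [h4, h1] at h3
  refine ⟨c (some κ), hc.2 κ, ?_⟩
  have h5 : L.p * f (some κ) = c (some κ) := by simpa using h3
  rw [← h5, ← mul_assoc, L.xp, one_mul]

omit hS hκS in
lemma bi_mem_LC : B.bi (some κ) ∈ B.LC (insert κ S) := by
  rw [bi_some]
  refine (B.LC _).smul_mem _ ?_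
  intro κ1 h1
  have h2 : κ ≠ κ1 := fun h => h1 (h ▸ Finset.mem_insert_self κ S)
  have h3 : B.par κ ≠ some κ1 := fun h => h1 (Finset.mem_insert_of_mem (hκ κ1 h))
  show (Finsupp.single (some κ) (1 : DD) - Finsupp.single (B.par κ) (B.lab κ)) (some κ1) = 0
  rw [Finsupp.sub_apply, Finsupp.single_eq_of_ne (by simpa using h2.symm),
    Finsupp.single_eq_of_ne (fun h => h3 h.symm), sub_zero]

omit hS hκS hκ [DecidableEq B.Wd] in
lemma bi_coord : B.bi (some κ) (some κ) = L.x := by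
  have h3 : B.par κ ≠ some κ := by
    rcases κ with ⟨_ | ⟨i, l⟩, j⟩
    · simp [par]
    · simp only [par, ne_eq, Option.some.injEq, Prod.mk.injEq, and_true]
      intro h
      have := congrArg List.length h
      simp at this
  rw [bi_some]
  show L.x • ((Finsupp.single (some κ) (1 : DD) - Finsupp.single (B.par κ) (B.lab κ)) (some κ)) = _
  rw [Finsupp.sub_apply, Finsupp.single_eq_same, Finsupp.single_eq_of_ne (fun h => h3 h.symm),
    sub_zero, smul_eq_mul, mul_one]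

omit hS hκS in
/-- surjectivity of the coordinate on the `O`-parts -/
lemma exists_LBn {o : DD} (ho : o ∈ L.O) : ∃ f ∈ B.LBn (insert κ S), f (some κ) = L.x * o := by
  refine ⟨o • B.bi (some κ), ⟨B.Ginf_smul ho (B.bi_mem _), (B.LC _).smul_mem _ (bi_mem_LC hκ)⟩, ?_⟩
  rw [Finsupp.smul_apply, bi_coord, smul_eq_mul, L.xc]

omit hS hκS hκ in
lemma exists_LA {v : DD} (hv : v ∈ L.V) : ∃ f ∈ B.LA (insert κ S), f (some κ) = v := by
  refine ⟨Finsupp.single (some κ) v, ⟨fun w => ?_, fun κ1 h1 => ?_⟩, by simp⟩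
  · by_cases h : some κ = w
    · subst h; simpa using hv
    · rw [Finsupp.single_eq_of_ne (fun h' => h h'.symm)]; exact L.V.zero_mem
  · rw [Finsupp.single_eq_of_ne]
    intro h
    exact h1 (Finset.mem_insert.2 (Or.inl (by simpa using h)))

omit hS hκS hκ in
lemma exists_LC (v : DD) : ∃ f ∈ B.LC (insert κ S), f (some κ) = v := by
  refine ⟨Finsupp.single (some κ) v, fun κ1 h1 => ?_, by simp⟩
  rw [Finsupp.single_eq_of_ne]
  intro h
  exact h1 (Finset.mem_insert.2 (Or.inl (by simpa using h)))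

omit hS hκ in
/-- kernel of the coordinate -/
lemma mem_LC_iff_coord {f : B.MM} (hf : f ∈ B.LC (insert κ S)) :
    f ∈ B.LC S ↔ f (some κ) = 0 := by
  refine ⟨fun h => h κ hκS, fun h κ1 h1 => ?_⟩
  by_cases h2 : κ1 = κ
  · rw [h2]; exact h
  · exact hf κ1 (fun h3 => by
      rcases Finset.mem_insert.1 h3 with h3 | h3
      · exact h2 h3
      · exact h1 h3)

end insert

/-- the ancestors of a word, including itself -/
def anc : List B.I0 → B.I1 → List B.Wd
  | [], j => [([], j)]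
  | i :: l, j => (i :: l, j) :: anc l j

lemma self_mem_anc (κ : B.Wd) : κ ∈ anc κ.1 κ.2 := by
  rcases κ with ⟨_ | ⟨i, l⟩, j⟩ <;> simp [anc]

lemma anc_closed (l : List B.I0) (j : B.I1) : ∀ κ ∈ anc l j, ∀ κ' : B.Wd, B.par κ = some κ' →
    κ' ∈ anc l j := by
  induction l with
  | nil =>
    intro κ h κ' h'
    simp only [anc, List.mem_singleton] at h
    subst h
    simp [par] at h'
  | cons i l ih =>
    intro κ h κ' h'
    simp only [anc, List.mem_cons] at h ⊢
    rcases h with rfl | h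
    · simp only [par, Option.some.injEq] at h'
      subst h'
      exact Or.inr (self_mem_anc (B := B) (l, j))
    · exact Or.inr (ih κ h κ' h')

/-- every finite set of words lies in a closed one -/
lemma exists_closed [DecidableEq B.Wd] (S : Finset B.Wd) : ∃ S', S ⊆ S' ∧ B.Cl S' := by
  refine ⟨S.biUnion (fun κ => (anc κ.1 κ.2).toFinset), fun κ h => ?_, ?_⟩
  · rw [Finset.mem_biUnion]
    exact ⟨κ, h, by simpa using self_mem_anc κ⟩
  · intro κ h κ' h'
    rw [Finset.mem_biUnion] at h ⊢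
    obtain ⟨κ0, h0, h1⟩ := h
    refine ⟨κ0, h0, ?_⟩
    rw [List.mem_toFinset] at h1 ⊢
    exact anc_closed _ _ κ h1 κ' h'

lemma Cl.union [DecidableEq B.Wd] {S S' : Finset B.Wd} (h : B.Cl S) (h' : B.Cl S') :
    B.Cl (S ∪ S') := by
  intro κ hκ κ' hp
  rcases Finset.mem_union.1 hκ with h1 | h1
  · exact Finset.mem_union_left _ (h κ h1 κ' hp)
  · exact Finset.mem_union_right _ (h' κ h1 κ' hp)

lemma Cl.empty : B.Cl (∅ : Finset B.Wd) := fun κ h => absurd h (Finset.notMem_empty κ)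

/-- exhaustion -/
lemma exists_LC_mem [DecidableEq B.Wd] (f : B.MM) : ∃ S, B.Cl S ∧ f ∈ B.LC S := by
  obtain ⟨S, h1, h2⟩ := exists_closed (B := B)
    (f.support.preimage some (Option.some_injective _).injOn)
  refine ⟨S, h2, fun κ hκ => ?_⟩
  by_contra h
  exact hκ (h1 (by simpa using h))

/-- if `S ⊆ S'` are closed and different there is a leaf to add -/
lemma exists_leaf {S S' : Finset B.Wd} (hS' : B.Cl S') (h : S ⊆ S') (hne : S ≠ S') :
    ∃ κ ∈ S', κ ∉ S ∧ ∀ κ', B.par κ = some κ' → κ' ∈ S := by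
  classical
  have hn : (S' \ S).Nonempty := by
    rw [Finset.sdiff_nonempty]
    exact fun h' => hne (Finset.Subset.antisymm h h')
  obtain ⟨κ, h1, h2⟩ := Finset.exists_min_image (S' \ S) (fun κ => κ.1.length) hn
  rw [Finset.mem_sdiff] at h1
  refine ⟨κ, h1.1, h1.2, fun κ' hp => ?_⟩
  by_contra h3
  have h4 := h2 κ' (Finset.mem_sdiff.2 ⟨hS' κ h1.1 κ' hp, h3⟩)
  rcases κ with ⟨_ | ⟨i, l⟩, j⟩
  · simp [par] at hp
  · simp only [par, Option.some.injEq] at hp
    subst hp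
    simp at h4

variable (B)

/-- the `V`-part is spanned by the words -/
lemma LA_span (S : Finset B.Wd) {f : B.MM} (hf : f ∈ B.LA S) :
    f ∈ Submodule.span L.V (Set.range (fun w : Option S =>
      (Finsupp.single (w.map Subtype.val) 1 : B.MM))) := by
  classical
  rw [← f.sum_single, Finsupp.sum]
  refine Submodule.sum_mem _ fun w hw => ?_
  have e : (Finsupp.single w (f w) : B.MM) = (⟨f w, hf.1 w⟩ : L.V) • Finsupp.single w (1 : DD) := by
    show _ = (f w) • (Finsupp.single w (1 : DD) : B.MM)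
    rw [Finsupp.smul_single, smul_eq_mul, mul_one]
  rw [e]
  refine Submodule.smul_mem _ _ (Submodule.subset_span ?_)
  rcases w with _ | κ
  · exact ⟨none, rfl⟩
  · have : κ ∈ S := by
      by_contra h
      rw [Finsupp.mem_support_iff] at hw
      exact hw (hf.2 κ h)
    exact ⟨some ⟨κ, this⟩, rfl⟩

/-- the `DD`-part is spanned by the words -/
lemma LC_span (S : Finset B.Wd) {f : B.MM} (hf : f ∈ B.LC S) :
    f ∈ Submodule.span DD (Set.range (fun w : Option S =>
      (Finsupp.single (w.map Subtype.val) 1 : B.MM))) := by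
  classical
  rw [← f.sum_single, Finsupp.sum]
  refine Submodule.sum_mem _ fun w hw => ?_
  have e : (Finsupp.single w (f w) : B.MM) = (f w) • Finsupp.single w (1 : DD) := by
    rw [Finsupp.smul_single, smul_eq_mul, mul_one]
  rw [e]
  refine Submodule.smul_mem _ _ (Submodule.subset_span ?_)
  rcases w with _ | κ
  · exact ⟨none, rfl⟩
  · have : κ ∈ S := by
      by_contra h
      rw [Finsupp.mem_support_iff] at hw
      exact hw (hf κ h)
    exact ⟨some ⟨κ, this⟩, rfl⟩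

/-- the `O`-part is spanned by the `bi w` -/
lemma LBn_span {S : Finset B.Wd} (hS : B.Cl S) {f : B.MM} (hf : f ∈ B.LBn S) :
    f ∈ Submodule.span L.O (Set.range (fun w : Option S => B.bi (w.map Subtype.val))) := by
  classical
  obtain ⟨o, ⟨h1, h2⟩, -⟩ := B.existsUnique_Ginf f hf.1
  have h3 : B.dP (o + Finsupp.single none (L.p * o none - o none)) ∈ B.LC S := by
    rw [← smul_bi_sum, ← h2]
    exact (B.LC S).smul_mem _ hf.2
  have h4 := supp_of_dP hS h3
  have h5 : o ∈ B.LC S := fun κ hκ => by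
    have := h4 κ hκ
    simpa using this
  rw [h2, Finsupp.sum]
  refine Submodule.sum_mem _ fun w hw => ?_
  have e : o w • B.bi w = (⟨o w, h1 w⟩ : L.O) • B.bi w := rfl
  rw [e]
  refine Submodule.smul_mem _ _ (Submodule.subset_span ?_)
  rcases w with _ | κ
  · exact ⟨none, rfl⟩
  · have : κ ∈ S := by
      by_contra h
      rw [Finsupp.mem_support_iff] at hw
      exact hw (h5 κ h)
    exact ⟨some ⟨κ, this⟩, rfl⟩

lemma single_mem_LA {S : Finset B.Wd} (w : Option S) :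
    (Finsupp.single (w.map Subtype.val) 1 : B.MM) ∈ B.LA S := by
  classical
  refine ⟨VL.single_mem_Gaff L.V.one_mem, fun κ hκ => ?_⟩
  rw [Finsupp.single_eq_of_ne]
  rcases w with _ | κ1
  · simp
  · simp only [Option.map_some, ne_eq, Option.some.injEq]
    rintro rfl
    exact hκ κ1.2

lemma bi_mem_LBn {S : Finset B.Wd} (hS : B.Cl S) (w : Option S) :
    B.bi (w.map Subtype.val) ∈ B.LBn S := by
  classical
  refine ⟨B.bi_mem _, ?_⟩
  rcases w with _ | κ1
  · intro κ hκ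
    simp
  · have h := bi_mem_LC (B := B) (S := S) (κ := κ1.1) (fun κ' h => hS κ1 κ1.2 κ' h)
    rwa [Finset.insert_eq_of_mem κ1.2] at h

/-- the trivial lattice -/
lemma mem_LC_empty {f : B.MM} (hf : f ∈ B.LC ∅) : f = Finsupp.single none (f none) := by
  ext w
  rcases w with _ | κ
  · simp
  · simp [hf κ (Finset.notMem_empty κ)]

lemma mem_LA_empty {f : B.MM} : f ∈ B.LA ∅ ↔ ∃ v ∈ L.V, f = Finsupp.single none v := by
  constructor
  · intro h
    exact ⟨f none, h.1 none, B.mem_LC_empty h.2⟩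
  · rintro ⟨v, hv, rfl⟩
    exact ⟨VL.single_mem_Gaff hv, fun κ _ => by simp⟩

lemma mem_LBn_empty {f : B.MM} : f ∈ B.LBn ∅ ↔ ∃ o ∈ L.O, f = Finsupp.single none o := by
  constructor
  · intro h
    have h1 := B.mem_LC_empty h.2
    obtain ⟨c, hc, h2⟩ := B.mem_BB.1 h.1
    refine ⟨f none, ?_, h1⟩
    have h3 : c ∈ B.LC ∅ := supp_of_dP Cl.empty (by
      rw [h2]; exact (B.LC _).smul_mem _ h.2)
    have h4 := VL.dP_apply_none c
    have h5 : VL.kid1 c = 0 := by
      ext j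
      rw [VL.kid1_apply]
      exact h3 _ (Finset.notMem_empty _)
    rw [h5, h2] at h4
    obtain ⟨⟨o, ho, h6⟩, -⟩ := hc
    have h7 : L.p * f none = L.p * o := by rw [← h6]; simpa using h4
    have h8 : f none = o := by
      have := congrArg (fun y => L.x * y) h7
      simpa [← mul_assoc, L.xp] using this
    rw [h8]; exact ho
  · rintro ⟨o, ho, rfl⟩
    refine ⟨?_, fun κ _ => by simp⟩
    rw [mem_Ginf, Finsupp.smul_single, smul_eq_mul]
    exact B.single_none_mem_BB ho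

end LB

end Crest.Agent.R181.V868
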