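import Crest.Agent.R181.V868e
import Crest.Agent.R181.VA980d

/-!
# R181, V-chain, V2 Step 1 (LT): the triple `G = (G_aff, G_inf, MM)` over the triangular ring,
its lattices, its right `T`-action, and the `e`-stable lattice
-/

set_option autoImplicit false
set_option linter.unusedSectionVars false

open MulOpposite

namespace Crest.Agent.R181.V868

open VA LK

universe u

section trMap

variable {DD : Type u} [Ring DD] {L : Line DD} {C C' C'' : Type*} [AddCommGroup C] [Module DD C]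
  [AddCommGroup C'] [Module DD C'] [AddCommGroup C''] [Module DD C'']

/-- functoriality of `Tr` -/
def trMap (f : C →ₗ[DD] C') : Tr L C →ₗ[Lam L] Tr L C' where
  toFun y := ((f y.1, f y.2.1, f y.2.2) : C' × C' × C')
  map_add' x y := by
    show ((f (x.1 + y.1), f (x.2.1 + y.2.1), f (x.2.2 + y.2.2)) : C' × C' × C') =
      (f x.1 + f y.1, f x.2.1 + f y.2.1, f x.2.2 + f y.2.2)
    simp only [map_add]
  map_smul' m y := Tr_ext L (map_smul f _ _) (map_smul f _ _) (by
    show f ((m : Matrix (Fin 3) (Fin 3) DD) 2 0 • y.1 +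
      (m : Matrix (Fin 3) (Fin 3) DD) 2 1 • y.2.1 + (m : Matrix (Fin 3) (Fin 3) DD) 2 2 • y.2.2) =
      (m : Matrix (Fin 3) (Fin 3) DD) 2 0 • f y.1 +
      (m : Matrix (Fin 3) (Fin 3) DD) 2 1 • f y.2.1 +
      (m : Matrix (Fin 3) (Fin 3) DD) 2 2 • f y.2.2
    rw [map_add, map_add, map_smul, map_smul, map_smul])

@[simp] lemma trMap_1 (f : C →ₗ[DD] C') (y : Tr L C) : (trMap f y).1 = f y.1 := rfl
@[simp] lemma trMap_2 (f : C →ₗ[DD] C') (y : Tr L C) : (trMap f y).2.1 = f y.2.1 := rfl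
@[simp] lemma trMap_3 (f : C →ₗ[DD] C') (y : Tr L C) : (trMap f y).2.2 = f y.2.2 := rfl

lemma trMap_comp (f : C →ₗ[DD] C') (g : C' →ₗ[DD] C'') (y : Tr L C) :
    trMap (g.comp f) y = trMap g (trMap f y) := rfl

/-- a concrete triple is finitely generated if its components are -/
theorem tri_fg {A : Submodule L.V C} {B : Submodule L.O C} {D : Submodule DD C}
    (hA : ∀ a ∈ A, a ∈ D) (hB : ∀ b ∈ B, b ∈ D) (h1 : A.FG) (h2 : B.FG) (h3 : D.FG) :
    (tri A B D hA hB).FG := by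
  classical
  obtain ⟨s, hs⟩ := h1
  obtain ⟨t, ht⟩ := h2
  obtain ⟨u, hu⟩ := h3
  let fA : C → Tr L C := fun a => ((a, 0, 0) : C × C × C)
  let fB : C → Tr L C := fun a => ((0, a, 0) : C × C × C)
  let fC : C → Tr L C := fun a => ((0, 0, a) : C × C × C)
  let N : Submodule (Lam L) (Tr L C) := Submodule.span (Lam L)
    ((s.image fA ∪ t.image fB ∪ u.image fC : Finset (Tr L C)) : Set (Tr L C))
  have hsN : ∀ a ∈ s, fA a ∈ N := fun a ha => Submodule.subset_span (by
    simp only [Finset.coe_union, Finset.coe_image]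
    exact Or.inl (Or.inl ⟨a, ha, rfl⟩))
  have htN : ∀ a ∈ t, fB a ∈ N := fun a ha => Submodule.subset_span (by
    simp only [Finset.coe_union, Finset.coe_image]
    exact Or.inl (Or.inr ⟨a, ha, rfl⟩))
  have huN : ∀ a ∈ u, fC a ∈ N := fun a ha => Submodule.subset_span (by
    simp only [Finset.coe_union, Finset.coe_image]
    exact Or.inr ⟨a, ha, rfl⟩)
  have hAN : ∀ a ∈ A, fA a ∈ N := by
    intro a ha
    rw [← hs] at ha
    induction ha using Submodule.span_induction with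
    | mem a h => exact hsN a h
    | zero => exact N.zero_mem
    | add a b _ _ h h' =>
      have : fA (a + b) = fA a + fA b := Tr_ext L rfl (add_zero (0 : C)).symm
        (add_zero (0 : C)).symm
      rw [this]; exact N.add_mem h h'
    | smul v a _ h =>
      have : fA (v • a) = iA L v • fA a := by rw [Tr_iA]; rfl
      rw [this]; exact N.smul_mem _ h
  have hBN : ∀ a ∈ B, fB a ∈ N := by
    intro a ha
    rw [← ht] at ha
    induction ha using Submodule.span_induction with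
    | mem a h => exact htN a h
    | zero => exact N.zero_mem
    | add a b _ _ h h' =>
      have : fB (a + b) = fB a + fB b := Tr_ext L (add_zero (0 : C)).symm rfl
        (add_zero (0 : C)).symm
      rw [this]; exact N.add_mem h h'
    | smul v a _ h =>
      have : fB (v • a) = iB L v • fB a := by rw [Tr_iB]; rfl
      rw [this]; exact N.smul_mem _ h
  have hDN : ∀ a ∈ D, fC a ∈ N := by
    intro a ha
    rw [← hu] at ha
    induction ha using Submodule.span_induction with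
    | mem a h => exact huN a h
    | zero => exact N.zero_mem
    | add a b _ _ h h' =>
      have : fC (a + b) = fC a + fC b := Tr_ext L (add_zero (0 : C)).symm
        (add_zero (0 : C)).symm rfl
      rw [this]; exact N.add_mem h h'
    | smul v a _ h =>
      have : fC (v • a) = iC L v • fC a := by rw [Tr_iC]
      rw [this]; exact N.smul_mem _ h
  refine ⟨s.image fA ∪ t.image fB ∪ u.image fC, le_antisymm ?_ ?_⟩
  · rw [Submodule.span_le]
    intro y hy
    simp only [Finset.coe_union, Finset.coe_image] at hy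
    rcases hy with (⟨a, ha, rfl⟩ | ⟨a, ha, rfl⟩) | ⟨a, ha, rfl⟩
    · exact ⟨by rw [← hs]; exact Submodule.subset_span ha, B.zero_mem, D.zero_mem⟩
    · exact ⟨A.zero_mem, by rw [← ht]; exact Submodule.subset_span ha, D.zero_mem⟩
    · exact ⟨A.zero_mem, B.zero_mem, by rw [← hu]; exact Submodule.subset_span ha⟩
  · intro y hy
    have e : y = fA y.1 + fB y.2.1 + fC y.2.2 := Tr_ext L
      (show y.1 = y.1 + 0 + 0 by rw [add_zero, add_zero])
      (show y.2.1 = 0 + y.2.1 + 0 by rw [add_zero, zero_add])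
      (show y.2.2 = 0 + 0 + y.2.2 by rw [add_zero, zero_add])
    rw [e]
    exact N.add_mem (N.add_mem (hAN _ hy.1) (hBN _ hy.2.1)) (hDN _ hy.2.2)

end trMap

namespace LB

variable {DD : Type u} [Ring DD] {L : Line DD} (B : LB L) {T : Type u} [Ring T] (U : UnivT L T)

/-- `G_aff` over `V` -/
def GA : Submodule L.V B.MM where
  carrier := {f | f ∈ B.Gaff}
  add_mem' := fun ha hb => B.Gaff.add_mem ha hb
  zero_mem' := B.Gaff.zero_mem
  smul_mem' := fun d _ hf => B.Gaff_smul d.2 hf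

/-- `G_inf` over `O` -/
noncomputable def GI : Submodule L.O B.MM where
  carrier := {f | f ∈ B.Ginf}
  add_mem' := fun ha hb => B.Ginf.add_mem ha hb
  zero_mem' := B.Ginf.zero_mem
  smul_mem' := fun d _ hf => B.Ginf_smul d.2 hf

lemma mem_GA {f : B.MM} : f ∈ B.GA ↔ f ∈ B.Gaff := Iff.rfl
lemma mem_GI {f : B.MM} : f ∈ B.GI ↔ f ∈ B.Ginf := Iff.rfl

/-- the triple `G = (G_aff, G_inf, MM)` -/
noncomputable def GG : Submodule (Lam L) (Tr L B.MM) :=
  tri B.GA B.GI ⊤ (fun _ _ => trivial) (fun _ _ => trivial)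

lemma mem_GG {y : Tr L B.MM} : y ∈ B.GG ↔ y.1 ∈ B.Gaff ∧ y.2.1 ∈ B.Ginf :=
  ⟨fun h => ⟨h.1, h.2.1⟩, fun h => ⟨h.1, h.2, trivial⟩⟩

/-- the lattice of a finite set of words -/
noncomputable def LT (S : Finset B.Wd) : Submodule (Lam L) (Tr L B.MM) :=
  tri (B.LA S) (B.LBn S) (B.LC S) (fun _ h => h.2) (fun _ h => h.2)

lemma mem_LT {S : Finset B.Wd} {y : Tr L B.MM} :
    y ∈ B.LT S ↔ y.1 ∈ B.LA S ∧ y.2.1 ∈ B.LBn S ∧ y.2.2 ∈ B.LC S := Iff.rfl

lemma LT_le_GG (S : Finset B.Wd) : B.LT S ≤ B.GG := fun _ h => ⟨h.1.1, h.2.1.1, trivial⟩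

/-- the lattice inside `G` -/
noncomputable def LG (S : Finset B.Wd) : Submodule (Lam L) B.GG := (B.LT S).comap B.GG.subtype

lemma mem_LG {S : Finset B.Wd} {y : B.GG} : y ∈ B.LG S ↔ (y : Tr L B.MM) ∈ B.LT S := Iff.rfl

lemma LG_mono {S S' : Finset B.Wd} (h : S ⊆ S') : B.LG S ≤ B.LG S' :=
  fun _ hy => ⟨B.LA_mono h hy.1, B.LBn_mono h hy.2.1, B.LC_mono h hy.2.2⟩

lemma LA_fg (S : Finset B.Wd) : (B.LA S).FG := by
  classical
  refine ⟨Finset.univ.image (fun w : Option S => (Finsupp.single (w.map Subtype.val) 1 : B.MM)),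
    le_antisymm ?_ ?_⟩
  · rw [Submodule.span_le]
    intro y hy
    simp only [Finset.coe_image, Finset.coe_univ, Set.image_univ, Set.mem_range] at hy
    obtain ⟨w, rfl⟩ := hy
    exact B.single_mem_LA w
  · intro y hy
    simpa using B.LA_span S hy

lemma LC_fg (S : Finset B.Wd) : (B.LC S).FG := by
  classical
  refine ⟨Finset.univ.image (fun w : Option S => (Finsupp.single (w.map Subtype.val) 1 : B.MM)),
    le_antisymm ?_ ?_⟩
  · rw [Submodule.span_le]
    intro y hy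
    simp only [Finset.coe_image, Finset.coe_univ, Set.image_univ, Set.mem_range] at hy
    obtain ⟨w, rfl⟩ := hy
    exact (B.single_mem_LA w).2
  · intro y hy
    simpa using B.LC_span S hy

lemma LBn_fg {S : Finset B.Wd} (hS : B.Cl S) : (B.LBn S).FG := by
  classical
  refine ⟨Finset.univ.image (fun w : Option S => B.bi (w.map Subtype.val)),
    le_antisymm ?_ ?_⟩
  · rw [Submodule.span_le]
    intro y hy
    simp only [Finset.coe_image, Finset.coe_univ, Set.image_univ, Set.mem_range] at hy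
    obtain ⟨w, rfl⟩ := hy
    exact B.bi_mem_LBn hS w
  · intro y hy
    simpa using B.LBn_span hS hy

lemma LT_fg {S : Finset B.Wd} (hS : B.Cl S) : (B.LT S).FG :=
  tri_fg _ _ (B.LA_fg S) (B.LBn_fg hS) (B.LC_fg S)

theorem LG_fg {S : Finset B.Wd} (hS : B.Cl S) : (B.LG S).FG := by
  refine Submodule.fg_of_fg_map_injective B.GG.subtype (Submodule.subtype_injective _) ?_
  have : (B.LG S).map B.GG.subtype = B.LT S := by
    rw [LG, Submodule.map_comap_subtype, inf_eq_right]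
    exact B.LT_le_GG S
  rw [this]
  exact B.LT_fg hS

/-- exhaustion -/
theorem exists_mem_LG (x : B.GG) : ∃ S, B.Cl S ∧ x ∈ B.LG S := by
  classical
  obtain ⟨S1, h1, k1⟩ := exists_LC_mem (B := B) (x : Tr L B.MM).1
  obtain ⟨S2, h2, k2⟩ := exists_LC_mem (B := B) (x : Tr L B.MM).2.1
  obtain ⟨S3, h3, k3⟩ := exists_LC_mem (B := B) (x : Tr L B.MM).2.2
  refine ⟨S1 ∪ S2 ∪ S3, (h1.union h2).union h3, ⟨x.2.1, ?_⟩, ⟨x.2.2.1, ?_⟩, ?_⟩
  · exact B.LC_mono (fun _ h => Finset.mem_union_left _ (Finset.mem_union_left _ h)) k1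
  · exact B.LC_mono (fun _ h => Finset.mem_union_left _ (Finset.mem_union_right _ h)) k2
  · exact B.LC_mono (fun _ h => Finset.mem_union_right _ h) k3

/-- the coordinate at a word -/
noncomputable def coord (κ : B.Wd) : Tr L B.MM →ₗ[Lam L] Tr L DD :=
  trMap (Finsupp.lapply (some κ))

variable {B}

/-- one step -/
theorem step_mem {F : AbClass (Lam L)} (hT : F.mem (TT L)) [DecidableEq B.Wd] {S : Finset B.Wd}
    (hS : B.Cl S) {κ : B.Wd} (hκS : κ ∉ S) (hκ : ∀ κ', B.par κ = some κ' → κ' ∈ S) :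
    F.mem (SQ (B.LG (insert κ S)) (B.LG S)) := by
  let f : ↥(B.LG (insert κ S)) →ₗ[Lam L] TT L :=
    ((B.coord κ).comp (B.GG.subtype.comp (B.LG (insert κ S)).subtype)).codRestrict (TT L) (by
      intro y
      have hy := y.2
      rw [mem_LG, mem_LT] at hy
      rw [mem_TT]
      refine ⟨hy.1.1 _, ?_⟩
      obtain ⟨o, ho, h1⟩ := coord_Ginf hS hκS hκ hy.2.1
      have h2 : L.p * (((y : B.GG) : Tr L B.MM).2.1 (some κ)) = o := by
        rw [h1, ← mul_assoc, L.px, one_mul]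
      exact h2 ▸ ho)
  have hf : Function.Surjective f := by
    rintro ⟨y, hy⟩
    rw [mem_TT] at hy
    obtain ⟨a, ha, ha'⟩ := exists_LA (B := B) (S := S) (κ := κ) hy.1
    obtain ⟨b, hb, hb'⟩ := exists_LBn hκ hy.2
    obtain ⟨c, hc, hc'⟩ := exists_LC (B := B) (S := S) (κ := κ) y.2.2
    have hL : (((a, b, c) : B.MM × B.MM × B.MM) : Tr L B.MM) ∈ B.LT (insert κ S) := ⟨ha, hb, hc⟩
    refine ⟨⟨⟨(a, b, c), B.LT_le_GG _ hL⟩, hL⟩, Subtype.ext ?_⟩
    refine Tr_ext L ha' ?_ hc'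
    show b (some κ) = y.2.1
    rw [hb', ← mul_assoc, L.xp, one_mul]
  obtain ⟨e, -⟩ := exists_equiv_of_ker_eq hf
    (Submodule.mkQ_surjective (Submodule.submoduleOf (B.LG S) (B.LG (insert κ S)))) (by
      intro y
      rw [SQ_mk_eq_zero, mem_LG, mem_LT]
      have hy := y.2
      rw [mem_LG, mem_LT] at hy
      have h1 : f y = 0 ↔ ((y : B.GG) : Tr L B.MM).1 (some κ) = 0 ∧
          ((y : B.GG) : Tr L B.MM).2.1 (some κ) = 0 ∧
          ((y : B.GG) : Tr L B.MM).2.2 (some κ) = 0 := by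
        constructor
        · intro h
          have h2 : (f y : Tr L DD) = 0 := by rw [h]; rfl
          exact ⟨congrArg (fun z : Tr L DD => z.1) h2, congrArg (fun z : Tr L DD => z.2.1) h2,
            congrArg (fun z : Tr L DD => z.2.2) h2⟩
        · rintro ⟨h1, h2, h3⟩
          exact Subtype.ext (Tr_ext L h1 h2 h3)
      rw [h1, ← mem_LC_iff_coord hκS hy.1.2, ← mem_LC_iff_coord hκS hy.2.1.2,
        ← mem_LC_iff_coord hκS hy.2.2, mem_LA, mem_LBn]
      exact ⟨fun h => ⟨⟨hy.1.1, h.1⟩, ⟨hy.2.1.1, h.2.1⟩, h.2.2⟩,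
        fun h => ⟨h.1.2, h.2.1.2, h.2.2⟩⟩)
  exact F.iso e hT

/-- subquotients of lattices -/
theorem SQ_mem {F : AbClass (Lam L)} (hF : ExtClosed F) (hT : F.mem (TT L)) {S S' : Finset B.Wd}
    (hS : B.Cl S) (hS' : B.Cl S') (h : S ⊆ S') : F.mem (SQ (B.LG S') (B.LG S)) := by
  classical
  induction hn : (S' \ S).card generalizing S with
  | zero =>
    have h1 : S = S' := by
      rw [Finset.card_eq_zero, Finset.sdiff_eq_empty_iff_subset] at hn
      exact Finset.Subset.antisymm h hn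
    subst h1
    refine F.zero _ ⟨fun a b => ?_⟩
    obtain ⟨a, rfl⟩ := Submodule.mkQ_surjective _ a
    obtain ⟨b, rfl⟩ := Submodule.mkQ_surjective _ b
    rw [(SQ_mk_eq_zero a).2 a.2, (SQ_mk_eq_zero b).2 b.2]
  | succ n ih =>
    have hne : S ≠ S' := by
      rintro rfl
      simp at hn
    obtain ⟨κ, h1, h2, h3⟩ := exists_leaf hS' h hne
    have h4 : insert κ S ⊆ S' := Finset.insert_subset h1 h
    refine SQ_ext hF (B := B.LG (insert κ S)) (B.LG_mono (Finset.subset_insert κ S))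
      (B.LG_mono h4) (step_mem hT hS h2 h3) (ih (hS.insert h3) h4 ?_)
    have h5 : S' \ insert κ S = (S' \ S).erase κ := by
      ext a
      simp only [Finset.mem_sdiff, Finset.mem_insert, Finset.mem_erase, not_or]
      tauto
    rw [h5, Finset.card_erase_of_mem (Finset.mem_sdiff.2 ⟨h1, h2⟩), hn]
    rfl

/-- `LG` reflects the order -/
theorem subset_of_LG_le [Nontrivial DD] {S S' : Finset B.Wd} (h : B.LG S ≤ B.LG S') : S ⊆ S' := by
  intro κ hκ
  by_contra hn
  have h1 : (((0, 0, Finsupp.single (some κ) 1) : B.MM × B.MM × B.MM) : Tr L B.MM) ∈ B.LT S :=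
    ⟨(B.LA S).zero_mem, (B.LBn S).zero_mem, (B.single_mem_LA (S := S) (some ⟨κ, hκ⟩)).2⟩
  have h2 := (h (x := ⟨_, B.LT_le_GG _ h1⟩) h1).2.2 κ hn
  simp at h2

theorem SQ_mem' {F : AbClass (Lam L)} (hF : ExtClosed F) (hT : F.mem (TT L)) {S S' : Finset B.Wd}
    (hS : B.Cl S) (hS' : B.Cl S') (h : B.LG S ≤ B.LG S') : F.mem (SQ (B.LG S') (B.LG S)) := by
  rcases subsingleton_or_nontrivial DD with h1 | h1
  · have h2 : Subsingleton (Tr L B.MM) := inferInstanceAs (Subsingleton (B.MM × B.MM × B.MM))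
    have h3 : Subsingleton ↥(B.LG S') := inferInstance
    exact F.zero _ (Submodule.mkQ_surjective _).subsingleton
  · exact SQ_mem hF hT hS hS' (subset_of_LG_le h)

/-! ### the right `T`-action -/

section action
variable (hinj : Function.Injective (B.φ U))

/-- right multiplication by `t` on `G` -/
noncomputable def RtG (t : T) : B.GG →ₗ[Lam L] B.GG :=
  ((trMap (B.Rt U hinj t)).comp B.GG.subtype).codRestrict B.GG (fun y =>
    ⟨B.Rt_Gaff U hinj t y.2.1, B.Rt_Ginf U hinj t y.2.2.1, trivial⟩)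

lemma coe_RtG (t : T) (y : B.GG) :
    ((RtG U hinj t y : B.GG) : Tr L B.MM) = trMap (B.Rt U hinj t) (y : Tr L B.MM) := rfl

lemma RtG_one (y : B.GG) : RtG U hinj 1 y = y := Subtype.ext (by
  rw [coe_RtG, Rt_one]; rfl)

lemma RtG_zero (y : B.GG) : RtG U hinj 0 y = 0 := Subtype.ext (by
  rw [coe_RtG, Rt_zero]; rfl)

lemma RtG_mul (s t : T) (y : B.GG) : RtG U hinj (s * t) y = RtG U hinj t (RtG U hinj s y) :=
  Subtype.ext (by rw [coe_RtG, coe_RtG, coe_RtG, Rt_mul, trMap_comp])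

lemma RtG_add (s t : T) (y : B.GG) : RtG U hinj (s + t) y = RtG U hinj s y + RtG U hinj t y :=
  Subtype.ext (by rw [coe_RtG, Rt_add]; rfl)

/-- `G` as a right `T`-module -/
@[reducible] noncomputable def modT : Module Tᵐᵒᵖ B.GG where
  smul t y := RtG U hinj (unop t) y
  one_smul y := RtG_one U hinj y
  mul_smul s t y := RtG_mul U hinj (unop t) (unop s) y
  smul_zero _ := map_zero _
  smul_add _ _ _ := map_add _ _ _
  add_smul s t y := RtG_add U hinj (unop s) (unop t) y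
  zero_smul y := RtG_zero U hinj y

/-- row vectors over `G` times a matrix over `T` -/
noncomputable def mT {r s : ℕ} (e : Matrix (Fin r) (Fin s) T) :
    (Fin r → B.GG) →ₗ[Lam L] (Fin s → B.GG) :=
  LinearMap.pi fun j => ∑ i, (RtG U hinj (e i j)).comp (LinearMap.proj i)

lemma mT_apply {r s : ℕ} (e : Matrix (Fin r) (Fin s) T) (y : Fin r → B.GG) (j : Fin s) :
    mT U hinj e y j = ∑ i, RtG U hinj (e i j) (y i) := by
  simp [mT]

lemma RtG_sum {ι : Type*} (s : Finset ι) (t : ι → T) (y : B.GG) :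
    RtG U hinj (∑ i ∈ s, t i) y = ∑ i ∈ s, RtG U hinj (t i) y := by
  classical
  induction s using Finset.induction_on with
  | empty => simp [RtG_zero]
  | insert a s ha ih => rw [Finset.sum_insert ha, Finset.sum_insert ha, RtG_add, ih]

lemma mT_mul {r s k : ℕ} (e : Matrix (Fin r) (Fin s) T) (f : Matrix (Fin s) (Fin k) T)
    (y : Fin r → B.GG) : mT U hinj (e * f) y = mT U hinj f (mT U hinj e y) := by
  funext j
  simp only [mT_apply, Matrix.mul_apply, RtG_sum, RtG_mul, map_sum]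
  rw [Finset.sum_comm]

/-- V2 Step 1: the `e`-stable lattice -/
theorem exists_stable {F : AbClass (Lam L)} (hF : ExtClosed F) (hT : F.mem (TT L)) (r : ℕ)
    (e : Matrix (Fin r) (Fin r) T) (he : e * e = e) :
    ∃ (S : Finset B.Wd) (M : Submodule (Lam L) (Fin r → B.GG)), B.Cl S ∧
      Submodule.pi Set.univ (fun _ : Fin r => B.LG ∅) ≤ M ∧
      M ≤ Submodule.pi Set.univ (fun _ : Fin r => B.LG S) ∧ (∀ y ∈ M, mT U hinj e y ∈ M) ∧
      F.mem (SQ M (Submodule.pi Set.univ (fun _ : Fin r => B.LG ∅))) := by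
  classical
  obtain ⟨⟨S, hS⟩, M, h1, h2, h3, h4⟩ := exists_lattice hF
    (fun S : {S : Finset B.Wd // B.Cl S} => B.LG S.1) (B.LG ∅) (B.LG_fg Cl.empty)
    (fun S => B.LG_fg S.2) (fun S => B.LG_mono (Finset.empty_subset _)) ⟨⟨∅, Cl.empty⟩⟩
    (fun S S' => ⟨⟨S.1 ∪ S'.1, S.2.union S'.2⟩, B.LG_mono Finset.subset_union_left,
      B.LG_mono Finset.subset_union_right⟩)
    (fun x => by
      obtain ⟨S, hS, hx⟩ := B.exists_mem_LG x
      exact ⟨⟨S, hS⟩, hx⟩)
    (fun S => SQ_mem hF hT Cl.empty S.2 (Finset.empty_subset _))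
    (fun S S' h => SQ_mem' hF hT S.2 S'.2 h) r (mT U hinj e) (fun y => by
      rw [← mT_mul, he])
  exact ⟨S, M, hS, h1, h2, h3, h4⟩

end action

/-- the trivial lattice is `OO(0)` -/
theorem mem_LG_empty {y : B.GG} : y ∈ B.LG ∅ ↔ ∃ z : Tr L DD, z ∈ OO L 0 ∧
    (y : Tr L B.MM) = trMap (Finsupp.lsingle none) z := by
  rw [mem_LG, mem_LT]
  constructor
  · rintro ⟨h1, h2, h3⟩
    obtain ⟨v, hv, h4⟩ := B.mem_LA_empty.1 h1
    obtain ⟨o, ho, h5⟩ := B.mem_LBn_empty.1 h2
    refine ⟨((v, o, ((y : Tr L B.MM).2.2) none) : DD × DD × DD), ?_, Tr_ext L h4 h5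
      (B.mem_LC_empty h3)⟩
    exact (mem_OO L).2 ⟨hv, (mem_Op_zero L).2 ho⟩
  · rintro ⟨z, hz, h⟩
    rw [mem_OO, mem_Op_zero] at hz
    rw [h]
    refine ⟨B.mem_LA_empty.2 ⟨_, hz.1, rfl⟩, B.mem_LBn_empty.2 ⟨_, hz.2, rfl⟩, fun κ _ => ?_⟩
    show (Finsupp.single none z.2.2 : B.MM) (some κ) = 0
    simp

/-- the inclusion `OO(0) → G` -/
noncomputable def iOO : OO L 0 →ₗ[Lam L] B.GG :=
  ((trMap (Finsupp.lsingle none)).comp (OO L 0).subtype).codRestrict B.GG (fun z => by
    have h := z.2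
    rw [mem_OO, mem_Op_zero] at h
    exact B.LT_le_GG ∅ (show trMap (Finsupp.lsingle none) (z : Tr L DD) ∈ B.LT ∅ from
      ⟨B.mem_LA_empty.2 ⟨_, h.1, rfl⟩, B.mem_LBn_empty.2 ⟨_, h.2, rfl⟩, fun κ _ => by
        show (Finsupp.single none (z : Tr L DD).2.2 : B.MM) (some κ) = 0
        simp⟩))

lemma coe_iOO (z : OO L 0) :
    ((iOO (B := B) z : B.GG) : Tr L B.MM) = trMap (Finsupp.lsingle none) (z : Tr L DD) := rfl

lemma iOO_injective : Function.Injective (iOO (B := B)) := by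
  intro z z' h
  have h1 := congrArg (fun y : B.GG => (y : Tr L B.MM)) h
  simp only [coe_iOO] at h1
  refine Subtype.ext (Tr_ext L ?_ ?_ ?_)
  · have := congrArg (fun y : Tr L B.MM => y.1 none) h1
    simpa using this
  · have := congrArg (fun y : Tr L B.MM => y.2.1 none) h1
    simpa using this
  · have := congrArg (fun y : Tr L B.MM => y.2.2 none) h1
    simpa using this

lemma range_iOO : LinearMap.range (iOO (B := B)) = B.LG ∅ := by
  ext y
  rw [mem_LG_empty, LinearMap.mem_range]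
  constructor
  · rintro ⟨z, rfl⟩
    exact ⟨z, z.2, rfl⟩
  · rintro ⟨z, hz, h⟩
    exact ⟨⟨z, hz⟩, Subtype.ext h.symm⟩

end LB

end Crest.Agent.R181.V868
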