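import Crest.Agent.R181.VA980a

/-! R181, V-chain, V2a (A2): induction principle for the extension closure; Step 1 of V2 (an
`e`-stable finite lattice). -/

set_option autoImplicit false
set_option linter.unusedSectionVars false

namespace Crest.Agent.R181.VA

open LK

universe u

variable {R : Type u} [Ring R]

/-- a property closed under isomorphism and extensions which holds for `0` and on `W` holds on the
extension closure of `W` -/
theorem filt_induction (W : AbClass R)
    (P : ∀ (M : Type u) [AddCommGroup M] [Module R M], Prop)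
    (h0 : ∀ (M : Type u) [AddCommGroup M] [Module R M], Subsingleton M → P M)
    (hW : ∀ (M : Type u) [AddCommGroup M] [Module R M], W.mem M → P M)
    (hext : ∀ {A M B : Type u} [AddCommGroup A] [Module R A] [AddCommGroup M] [Module R M]
      [AddCommGroup B] [Module R B] (i : A →ₗ[R] M) (p : M →ₗ[R] B), SES i p → P A → P B → P M)
    {M : Type u} [AddCommGroup M] [Module R M] (h : W.filt.mem M) : P M := by
  obtain ⟨n, hn⟩ := h
  induction n generalizing M with
  | zero => exact h0 M hn
  | succ n ih =>
    obtain ⟨A, _, _, B, _, _, i, p, hs, hA, hB⟩ := AbClass.FN_succ_iff.1 hn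
    exact hext i p hs (hW A hA) (ih hB)

/-- a class closed under extensions -/
def ExtClosed (F : AbClass R) : Prop :=
  ∀ {A M B : Type u} [AddCommGroup A] [Module R A] [AddCommGroup M] [Module R M]
    [AddCommGroup B] [Module R B] {i : A →ₗ[R] M} {p : M →ₗ[R] B}, SES i p →
    F.mem A → F.mem B → F.mem M

theorem extClosed_filt (W : AbClass R) : ExtClosed W.filt := fun h hA hB =>
  AbClass.filt_ext h hA hB

variable {G : Type u} [AddCommGroup G] [Module R G]

/-- the subquotient `A / B` -/
abbrev SQ (A B : Submodule R G) : Type u := ↥A ⧸ Submodule.submoduleOf B A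

theorem mem_submoduleOf {A B : Submodule R G} (x : A) :
    x ∈ Submodule.submoduleOf B A ↔ (x : G) ∈ B := by
  simp [Submodule.submoduleOf]

theorem SQ_mk_eq_zero {A B : Submodule R G} (x : A) :
    (Submodule.submoduleOf B A).mkQ x = 0 ↔ (x : G) ∈ B := by
  rw [Submodule.mkQ_apply, Submodule.Quotient.mk_eq_zero, mem_submoduleOf]

/-- Step 1 of V2 -/
theorem step1 (F : AbClass R) (O L0 L1 : Submodule R G) (e : G →ₗ[R] G)
    (hO : O ≤ L0) (heO : ∀ y ∈ O, e y ∈ L0) (he0 : ∀ y ∈ L0, e y ∈ L1)
    (he : ∀ y, e (e y) = e y) (hm0 : F.mem (SQ L0 O)) (hm1 : F.mem (SQ L1 L0)) :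
    ∃ L : Submodule R G, O ≤ L ∧ L ≤ L0 ∧ (∀ y ∈ L, e y ∈ L) ∧ F.mem (SQ L O) := by
  let L : Submodule R G := L0 ⊓ L0.comap e
  have hOL : O ≤ L := fun y hy => ⟨hO hy, heO y hy⟩
  have hLL : L ≤ L0 := inf_le_left
  refine ⟨L, hOL, hLL, fun y hy => ⟨hy.2, ?_⟩, ?_⟩
  · change e (e y) ∈ L0
    rw [he]; exact hy.2
  · -- the map f : L0 / O → L1 / L0
    obtain ⟨f, hf⟩ := exists_desc (N := SQ L1 L0)
      (Submodule.mkQ_surjective (Submodule.submoduleOf O L0))
      ((Submodule.submoduleOf L0 L1).mkQ.comp
        ((e.comp L0.subtype).codRestrict L1 (fun y => he0 y y.2))) (by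
        intro x hx
        rw [SQ_mk_eq_zero] at hx
        rw [LinearMap.comp_apply, SQ_mk_eq_zero]
        exact heO _ hx)
    obtain ⟨i, hi⟩ := exists_desc (N := SQ L0 O)
      (Submodule.mkQ_surjective (Submodule.submoduleOf O L))
      ((Submodule.submoduleOf O L0).mkQ.comp (Submodule.inclusion hLL)) (by
        intro x hx
        rw [SQ_mk_eq_zero] at hx
        rw [LinearMap.comp_apply, SQ_mk_eq_zero]
        exact hx)
    refine F.ker' hm0 hm1 f i ?_ ?_
    · rw [injective_iff_map_eq_zero]
      intro y hy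
      obtain ⟨x, rfl⟩ := Submodule.mkQ_surjective _ y
      rw [hi, LinearMap.comp_apply, SQ_mk_eq_zero] at hy
      rw [SQ_mk_eq_zero]
      exact hy
    · intro y
      obtain ⟨x, rfl⟩ := Submodule.mkQ_surjective _ y
      rw [hf, LinearMap.comp_apply, SQ_mk_eq_zero]
      constructor
      · intro hx
        refine ⟨(Submodule.submoduleOf O L).mkQ ⟨x, ⟨x.2, hx⟩⟩, ?_⟩
        rw [hi]; rfl
      · rintro ⟨z, hz⟩
        obtain ⟨z, rfl⟩ := Submodule.mkQ_surjective _ z
        rw [hi] at hz
        have h1 : (Submodule.submoduleOf O L0).mkQ (x - Submodule.inclusion hLL z) = 0 := by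
          rw [map_sub, sub_eq_zero]; exact hz.symm
        rw [SQ_mk_eq_zero] at h1
        have h2 : (x : G) = ((x - Submodule.inclusion hLL z : L0) : G) + (z : G) := by
          simp
        change e (x : G) ∈ L0
        rw [h2, map_add]
        exact L0.add_mem (heO _ h1) z.2.2

/-- subquotients add up -/
theorem SQ_ext {F : AbClass R} (hF : ExtClosed F) {A B C : Submodule R G} (hCB : C ≤ B)
    (hBA : B ≤ A) (h1 : F.mem (SQ B C)) (h2 : F.mem (SQ A B)) : F.mem (SQ A C) := by
  obtain ⟨i, hi⟩ := exists_desc (N := SQ A C)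
    (Submodule.mkQ_surjective (Submodule.submoduleOf C B))
    ((Submodule.submoduleOf C A).mkQ.comp (Submodule.inclusion hBA)) (by
      intro x hx
      rw [SQ_mk_eq_zero] at hx
      rw [LinearMap.comp_apply, SQ_mk_eq_zero]
      exact hx)
  obtain ⟨p, hp⟩ := exists_desc (N := SQ A B)
    (Submodule.mkQ_surjective (Submodule.submoduleOf C A))
    ((Submodule.submoduleOf B A).mkQ) (by
      intro x hx
      rw [SQ_mk_eq_zero] at hx
      rw [SQ_mk_eq_zero]
      exact hCB hx)
  refine hF (i := i) (p := p) ⟨?_, ?_, ?_⟩ h1 h2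
  · rw [injective_iff_map_eq_zero]
    intro y hy
    obtain ⟨x, rfl⟩ := Submodule.mkQ_surjective _ y
    rw [hi, LinearMap.comp_apply, SQ_mk_eq_zero] at hy
    rw [SQ_mk_eq_zero]; exact hy
  · intro y
    obtain ⟨x, rfl⟩ := Submodule.mkQ_surjective _ y
    exact ⟨(Submodule.submoduleOf C A).mkQ x, hp x⟩
  · intro y
    obtain ⟨x, rfl⟩ := Submodule.mkQ_surjective _ y
    rw [hp, SQ_mk_eq_zero]
    constructor
    · intro hx
      refine ⟨(Submodule.submoduleOf C B).mkQ ⟨x, hx⟩, ?_⟩
      rw [hi]; rfl
    · rintro ⟨z, hz⟩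
      obtain ⟨z, rfl⟩ := Submodule.mkQ_surjective _ z
      rw [hi] at hz
      have h1 : (Submodule.submoduleOf C A).mkQ (x - Submodule.inclusion hBA z) = 0 := by
        rw [map_sub, sub_eq_zero]; exact hz.symm
      rw [SQ_mk_eq_zero] at h1
      have h2 : (x : G) = ((x - Submodule.inclusion hBA z : A) : G) + (z : G) := by
        simp
      rw [h2]
      exact B.add_mem (hCB h1) z.2

/-- finite powers stay in an extension closed class -/
theorem pi_mem {F : AbClass R} (hF : ExtClosed F) {M : Type u} [AddCommGroup M] [Module R M]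
    (h : F.mem M) : ∀ r : ℕ, F.mem (Fin r → M)
  | 0 => F.zero _ inferInstance
  | r + 1 => by
    have ih := pi_mem hF h r
    refine hF (A := M) (M := Fin (r + 1) → M) (B := Fin r → M)
      (i := LinearMap.single R (fun _ : Fin (r + 1) => M) 0)
      (p := { toFun := fun v j => v j.succ
              map_add' := fun _ _ => rfl
              map_smul' := fun _ _ => rfl }) ⟨?_, ?_, ?_⟩ h ih
    · intro a b h
      simpa using congrFun h 0
    · intro v
      exact ⟨Fin.cons 0 v, by funext j; simp⟩
    · intro v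
      constructor
      · intro hv
        refine ⟨v 0, ?_⟩
        funext j
        refine Fin.cases ?_ (fun j => ?_) j
        · simp
        · have := congrFun hv j
          simpa using this.symm
      · rintro ⟨a, rfl⟩
        funext j
        simp

/-- the subquotient of powers -/
theorem SQ_pi {F : AbClass R} (hF : ExtClosed F) (A B : Submodule R G) (h : F.mem (SQ A B))
    (r : ℕ) : F.mem (SQ (Submodule.pi Set.univ (fun _ : Fin r => A))
      (Submodule.pi Set.univ (fun _ : Fin r => B))) := by
  let A' : Submodule R (Fin r → G) := Submodule.pi Set.univ (fun _ : Fin r => A)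
  let B' : Submodule R (Fin r → G) := Submodule.pi Set.univ (fun _ : Fin r => B)
  have h1 := pi_mem hF h r
  let p : ↥A' →ₗ[R] (Fin r → SQ A B) :=
    { toFun := fun v j => (Submodule.submoduleOf B A).mkQ ⟨v.1 j, by
        have := v.2; rw [Submodule.mem_pi] at this; exact this j trivial⟩
      map_add' := fun v w => by
        funext j
        change (Submodule.submoduleOf B A).mkQ _ = _ + _
        rw [← map_add]; rfl
      map_smul' := fun c v => by
        funext j
        change (Submodule.submoduleOf B A).mkQ _ = c • _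
        rw [← map_smul]; rfl }
  have hp : Function.Surjective p := by
    intro w
    choose v hv using fun j => Submodule.mkQ_surjective (Submodule.submoduleOf B A) (w j)
    refine ⟨⟨fun j => (v j : G), ?_⟩, ?_⟩
    · rw [Submodule.mem_pi]; intro j _; exact (v j).2
    · funext j; exact hv j
  obtain ⟨e, -⟩ := exists_equiv_of_ker_eq hp
    (Submodule.mkQ_surjective (Submodule.submoduleOf B' A')) (by
      intro v
      rw [SQ_mk_eq_zero, Submodule.mem_pi]
      constructor
      · intro hv j _
        have := congrFun hv j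
        exact (SQ_mk_eq_zero _).1 this
      · intro hv
        funext j
        exact (SQ_mk_eq_zero _).2 (hv j trivial))
  exact F.iso e h1

/-- Step 1, family version: a directed exhaustion by finitely generated submodules whose
subquotients lie in the class, and an idempotent endomorphism of a power -/
theorem exists_lattice {F : AbClass R} (hF : ExtClosed F) {ι : Type*} (L : ι → Submodule R G)
    (O : Submodule R G) (hOfg : O.FG) (hLfg : ∀ i, (L i).FG) (hOL : ∀ i, O ≤ L i)
    (hne : Nonempty ι)
    (hdir : ∀ i j, ∃ k, L i ≤ L k ∧ L j ≤ L k) (hex : ∀ x : G, ∃ i, x ∈ L i)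
    (hO : ∀ i, F.mem (SQ (L i) O)) (hLL : ∀ i j, L i ≤ L j → F.mem (SQ (L j) (L i)))
    (r : ℕ) (e : (Fin r → G) →ₗ[R] (Fin r → G)) (he : ∀ y, e (e y) = e y) :
    ∃ (i : ι) (M : Submodule R (Fin r → G)),
      Submodule.pi Set.univ (fun _ : Fin r => O) ≤ M ∧
      M ≤ Submodule.pi Set.univ (fun _ : Fin r => L i) ∧ (∀ y ∈ M, e y ∈ M) ∧
      F.mem (SQ M (Submodule.pi Set.univ (fun _ : Fin r => O))) := by
  classical
  -- finite sets of vectors lie in some power of `L i`
  have hfin : ∀ s : Finset (Fin r → G), ∃ i, ∀ v ∈ s, v ∈ Submodule.pi Set.univ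
      (fun _ : Fin r => L i) := by
    intro s
    induction s using Finset.induction_on with
    | empty => exact ⟨hne.some, by simp⟩
    | insert v s _ ih =>
      obtain ⟨i, hi⟩ := ih
      -- a vector
      have hv : ∀ t : Finset (Fin r), ∃ k, L i ≤ L k ∧ ∀ j ∈ t, v j ∈ L k := by
        intro t
        induction t using Finset.induction_on with
        | empty => exact ⟨i, le_refl _, by simp⟩
        | insert j t _ iht =>
          obtain ⟨k, hk1, hk2⟩ := iht
          obtain ⟨m, hm⟩ := hex (v j)
          obtain ⟨n, hn1, hn2⟩ := hdir k m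
          refine ⟨n, hk1.trans hn1, ?_⟩
          intro j' hj'
          rcases Finset.mem_insert.1 hj' with rfl | hj'
          · exact hn2 hm
          · exact hn1 (hk2 j' hj')
      obtain ⟨k, hk1, hk2⟩ := hv Finset.univ
      refine ⟨k, fun w hw => ?_⟩
      rw [Submodule.mem_pi]
      intro j _
      rcases Finset.mem_insert.1 hw with rfl | hw
      · exact hk2 j (Finset.mem_univ j)
      · have := hi w hw
        rw [Submodule.mem_pi] at this
        exact hk1 (this j trivial)
  have hfg : ∀ N : Submodule R (Fin r → G), N.FG → ∃ i, N ≤ Submodule.pi Set.univ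
      (fun _ : Fin r => L i) := by
    rintro N ⟨s, rfl⟩
    obtain ⟨i, hi⟩ := hfin s
    exact ⟨i, Submodule.span_le.2 fun v hv => hi v hv⟩
  have hpifg : ∀ N : Submodule R G, N.FG → (Submodule.pi Set.univ (fun _ : Fin r => N)).FG := by
    intro N hN
    have hN' : Module.Finite R N := Module.Finite.iff_fg.2 hN
    have : Module.Finite R (Fin r → N) := inferInstance
    let f : (Fin r → N) →ₗ[R] (Fin r → G) :=
      { toFun := fun v j => (v j : G)
        map_add' := fun _ _ => rfl
        map_smul' := fun _ _ => rfl }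
    have hr : Submodule.pi Set.univ (fun _ : Fin r => N) = LinearMap.range f := by
      ext v
      rw [Submodule.mem_pi]
      constructor
      · intro hv
        exact ⟨fun j => ⟨v j, hv j trivial⟩, rfl⟩
      · rintro ⟨w, rfl⟩ j _
        exact (w j).2
    rw [hr, LinearMap.range_eq_map]
    exact Submodule.FG.map _ Module.Finite.fg_top
  have hmono : ∀ {A B : Submodule R G}, A ≤ B → Submodule.pi Set.univ (fun _ : Fin r => A) ≤
      Submodule.pi Set.univ (fun _ : Fin r => B) := by
    intro A B h v hv
    rw [Submodule.mem_pi] at hv ⊢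
    intro j _
    exact h (hv j trivial)
  obtain ⟨i, hi⟩ := hfg _ ((hpifg O hOfg).map e)
  obtain ⟨k0, hk0⟩ := hfg _ ((hpifg (L i) (hLfg i)).map e)
  obtain ⟨k, hk1, hk2⟩ := hdir i k0
  obtain ⟨M, h1, h2, h3, h4⟩ := step1 F (Submodule.pi Set.univ (fun _ : Fin r => O))
    (Submodule.pi Set.univ (fun _ : Fin r => L i)) (Submodule.pi Set.univ (fun _ : Fin r => L k))
    e (hmono (hOL i)) (fun y hy => hi (Submodule.mem_map_of_mem hy))
    (fun y hy => hmono hk2 (hk0 (Submodule.mem_map_of_mem hy))) he
    (SQ_pi hF _ _ (hO i) r) (SQ_pi hF _ _ (hLL i k hk1) r)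
  exact ⟨i, M, h1, h2, h3, h4⟩

end Crest.Agent.R181.VA
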