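import Crest.Agent.R181.V868a
import Crest.Agent.R181.VA980b

/-! R181, V-chain, V2a (A3): triples `(A, B, C; A → C ← B)` as modules over one triangular ring. -/

set_option autoImplicit false
set_option linter.unusedSectionVars false

open MulOpposite

namespace Crest.Agent.R181.VA

open LK V868

universe u

/-! ### corner components of a module -/

section Cmp

variable {R S : Type*} [Ring R] [Ring S] (ι : S →ₙ+* R)
variable (Y : Type*) [AddCommGroup Y] [Module R Y]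

/-- the component of a module at the corner `ι : S → R` -/
def Cmp : AddSubgroup Y where
  carrier := {y | ι 1 • y = y}
  add_mem' := fun {a b} ha hb => by
    have ha' : ι 1 • a = a := ha
    have hb' : ι 1 • b = b := hb
    show ι 1 • (a + b) = a + b
    rw [smul_add, ha', hb']
  zero_mem' := smul_zero _
  neg_mem' := fun {a} ha => by
    have ha' : ι 1 • a = a := ha
    show ι 1 • (-a) = -a
    rw [smul_neg, ha']

variable {Y}

theorem mem_Cmp {y : Y} : y ∈ Cmp ι Y ↔ ι 1 • y = y := Iff.rfl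

theorem smul_mem_Cmp (s : S) (y : Y) : ι s • y ∈ Cmp ι Y := by
  rw [mem_Cmp, smul_smul, ← map_mul, one_mul]

theorem one_smul_Cmp (y : Cmp ι Y) : ι 1 • (y : Y) = y := y.2

instance : SMul S (Cmp ι Y) := ⟨fun s y => ⟨ι s • (y : Y), smul_mem_Cmp ι s (y : Y)⟩⟩

@[simp] theorem coe_smul_Cmp (s : S) (y : Cmp ι Y) : ((s • y : Cmp ι Y) : Y) = ι s • (y : Y) := rfl

instance : Module S (Cmp ι Y) where
  one_smul y := Subtype.ext y.2
  mul_smul s t y := Subtype.ext (by
    show ι (s * t) • (y : Y) = ι s • ι t • (y : Y)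
    rw [map_mul, mul_smul])
  smul_zero s := Subtype.ext (smul_zero _)
  smul_add s x y := Subtype.ext (smul_add _ _ _)
  add_smul s t y := Subtype.ext (by
    show ι (s + t) • (y : Y) = ι s • (y : Y) + ι t • (y : Y)
    rw [map_add, add_smul])
  zero_smul y := Subtype.ext (by
    show ι 0 • (y : Y) = 0
    rw [map_zero, zero_smul])

/-- projection to the component -/
def Cpr : Y →+ Cmp ι Y where
  toFun y := ⟨ι 1 • y, smul_mem_Cmp ι 1 y⟩
  map_zero' := Subtype.ext (smul_zero _)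
  map_add' x y := Subtype.ext (smul_add _ _ _)

@[simp] theorem coe_Cpr (y : Y) : (Cpr ι y : Y) = ι 1 • y := rfl

theorem Cpr_coe (y : Cmp ι Y) : Cpr ι (y : Y) = y := Subtype.ext y.2

variable {Z X : Type*} [AddCommGroup Z] [Module R Z] [AddCommGroup X] [Module R X]

/-- functoriality of the component -/
def Cmap (f : Y →ₗ[R] Z) : Cmp ι Y →ₗ[S] Cmp ι Z where
  toFun y := ⟨f y, by rw [mem_Cmp, ← map_smul, one_smul_Cmp]⟩
  map_add' x y := Subtype.ext (map_add f _ _)
  map_smul' s y := Subtype.ext (by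
    show f (ι s • (y : Y)) = ι s • f (y : Y)
    rw [map_smul])

@[simp] theorem coe_Cmap (f : Y →ₗ[R] Z) (y : Cmp ι Y) : (Cmap ι f y : Z) = f y := rfl

theorem Cmap_comp (g : Z →ₗ[R] X) (f : Y →ₗ[R] Z) :
    Cmap ι (g.comp f) = (Cmap ι g).comp (Cmap ι f) := rfl

theorem Cmap_injective {f : Y →ₗ[R] Z} (hf : Function.Injective f) :
    Function.Injective (Cmap ι f) := fun _ _ h => Subtype.ext (hf (congrArg Subtype.val h))

theorem Cmap_surjective {f : Y →ₗ[R] Z} (hf : Function.Surjective f) :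
    Function.Surjective (Cmap ι f) := by
  intro z
  obtain ⟨y, hy⟩ := hf (z : Z)
  refine ⟨Cpr ι y, Subtype.ext ?_⟩
  rw [coe_Cmap, coe_Cpr, map_smul, hy, one_smul_Cmp]

theorem Cmap_exact {f : Y →ₗ[R] Z} {g : Z →ₗ[R] X} (h : Function.Exact f g) :
    Function.Exact (Cmap ι f) (Cmap ι g) := by
  intro z
  constructor
  · intro hz
    have h1 : g (z : Z) = 0 := congrArg Subtype.val hz
    obtain ⟨y, hy⟩ := (h _).1 h1
    refine ⟨Cpr ι y, Subtype.ext ?_⟩
    rw [coe_Cmap, coe_Cpr, map_smul, hy, one_smul_Cmp]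
  · rintro ⟨y, rfl⟩
    exact Subtype.ext (h.apply_apply_eq_zero _)

theorem SES.exact {A M B : Type*} [AddCommGroup A] [Module R A] [AddCommGroup M] [Module R M]
    [AddCommGroup B] [Module R B] {i : A →ₗ[R] M} {p : M →ₗ[R] B} (h : SES i p) :
    Function.Exact i p := fun x => by rw [h.ex x]; rfl

theorem SES.cmap {A M B : Type*} [AddCommGroup A] [Module R A] [AddCommGroup M] [Module R M]
    [AddCommGroup B] [Module R B] {i : A →ₗ[R] M} {p : M →ₗ[R] B} (h : SES i p) :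
    SES (Cmap ι i) (Cmap ι p) where
  inj := Cmap_injective ι h.inj
  surj := Cmap_surjective ι h.surj
  ex := fun x => by
    have := Cmap_exact ι (SES.exact h) x
    rw [this]; rfl

/-- isomorphisms of components -/
def Cequiv (e : Y ≃ₗ[R] Z) : Cmp ι Y ≃ₗ[S] Cmp ι Z :=
  { Cmap ι e.toLinearMap with
    invFun := Cmap ι e.symm.toLinearMap
    left_inv := fun y => Subtype.ext (e.symm_apply_apply _)
    right_inv := fun y => Subtype.ext (e.apply_symm_apply _) }

/-- components of powers -/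
def Cpi (κ : Type*) : Cmp ι (κ → Y) ≃ₗ[S] (κ → Cmp ι Y) where
  toFun y j := ⟨(y : κ → Y) j, congrFun y.2 j⟩
  invFun z := ⟨fun j => (z j : Y), funext fun j => (z j).2⟩
  map_add' _ _ := rfl
  map_smul' _ _ := rfl
  left_inv _ := rfl
  right_inv _ := rfl

/-- components of binary products -/
def Cprod : Cmp ι (Y × Z) ≃ₗ[S] (Cmp ι Y × Cmp ι Z) where
  toFun y := (⟨(y : Y × Z).1, congrArg Prod.fst y.2⟩, ⟨(y : Y × Z).2, congrArg Prod.snd y.2⟩)
  invFun z := ⟨((z.1 : Y), (z.2 : Z)), Prod.ext z.1.2 z.2.2⟩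
  map_add' _ _ := rfl
  map_smul' _ _ := rfl
  left_inv _ := rfl
  right_inv _ := rfl

end Cmp

/-! ### the triangular ring -/

section Lam

variable {DD : Type u} [Ring DD] (L : Line DD)

/-- the triangular ring of a line: modules over it are triples `(A, B, C; A → C ← B)` -/
def Lam : Subring (Matrix (Fin 3) (Fin 3) DD) where
  carrier := {m | m 0 0 ∈ L.V ∧ m 1 1 ∈ L.O ∧ m 0 1 = 0 ∧ m 0 2 = 0 ∧ m 1 0 = 0 ∧ m 1 2 = 0}
  mul_mem' := by
    rintro a b ⟨h1, h2, h3, h4, h5, h6⟩ ⟨k1, k2, k3, k4, k5, k6⟩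
    refine ⟨?_, ?_, ?_, ?_, ?_, ?_⟩ <;>
      simp only [Matrix.mul_apply, Fin.sum_univ_three, h3, h4, h5, h6, k3, k4, k5, k6, zero_mul,
        mul_zero, add_zero, zero_add]
    · exact L.V.mul_mem h1 k1
    · exact L.O.mul_mem h2 k2
  one_mem' := ⟨by simp [L.V.one_mem], by simp [L.O.one_mem], rfl, rfl, rfl, rfl⟩
  add_mem' := by
    rintro a b ⟨h1, h2, h3, h4, h5, h6⟩ ⟨k1, k2, k3, k4, k5, k6⟩
    refine ⟨L.V.add_mem h1 k1, L.O.add_mem h2 k2, ?_, ?_, ?_, ?_⟩ <;>
      simp [h3, h4, h5, h6, k3, k4, k5, k6]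
  zero_mem' := ⟨L.V.zero_mem, L.O.zero_mem, rfl, rfl, rfl, rfl⟩
  neg_mem' := by
    rintro a ⟨h1, h2, h3, h4, h5, h6⟩
    refine ⟨L.V.neg_mem h1, L.O.neg_mem h2, ?_, ?_, ?_, ?_⟩ <;> simp [h3, h4, h5, h6]

variable {L}

/-- the matrix with these entries -/
def mat (v o a b c : DD) : Matrix (Fin 3) (Fin 3) DD := !![v, 0, 0; 0, o, 0; a, b, c]

theorem mat_mem {v o : DD} (hv : v ∈ L.V) (ho : o ∈ L.O) (a b c : DD) : mat v o a b c ∈ Lam L :=
  ⟨hv, ho, rfl, rfl, rfl, rfl⟩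

theorem mat_mul (v o a b c v' o' a' b' c' : DD) : mat v o a b c * mat v' o' a' b' c' =
    mat (v * v') (o * o') (a * v' + c * a') (b * o' + c * b') (c * c') := by
  ext i j
  fin_cases i <;> fin_cases j <;> simp [mat, Matrix.mul_apply, Fin.sum_univ_three]

theorem mat_add (v o a b c v' o' a' b' c' : DD) : mat v o a b c + mat v' o' a' b' c' =
    mat (v + v') (o + o') (a + a') (b + b') (c + c') := by
  ext i j
  fin_cases i <;> fin_cases j <;> simp [mat]

variable (L)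

/-- the corner `V` -/
def iA : L.V →ₙ+* Lam L where
  toFun v := ⟨mat v 0 0 0 0, mat_mem v.2 L.O.zero_mem _ _ _⟩
  map_zero' := Subtype.ext (by ext i j; fin_cases i <;> fin_cases j <;> rfl)
  map_add' v w := Subtype.ext (by
    show _ = mat (v : DD) 0 0 0 0 + mat (w : DD) 0 0 0 0
    rw [mat_add]; simp)
  map_mul' v w := Subtype.ext (by
    show _ = mat (v : DD) 0 0 0 0 * mat (w : DD) 0 0 0 0
    rw [mat_mul]; simp)

/-- the corner `O` -/
def iB : L.O →ₙ+* Lam L where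
  toFun v := ⟨mat 0 v 0 0 0, mat_mem L.V.zero_mem v.2 _ _ _⟩
  map_zero' := Subtype.ext (by ext i j; fin_cases i <;> fin_cases j <;> rfl)
  map_add' v w := Subtype.ext (by
    show _ = mat 0 (v : DD) 0 0 0 + mat 0 (w : DD) 0 0 0
    rw [mat_add]; simp)
  map_mul' v w := Subtype.ext (by
    show _ = mat 0 (v : DD) 0 0 0 * mat 0 (w : DD) 0 0 0
    rw [mat_mul]; simp)

/-- the corner `DD` -/
def iC : DD →ₙ+* Lam L where
  toFun v := ⟨mat 0 0 0 0 v, mat_mem L.V.zero_mem L.O.zero_mem _ _ _⟩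
  map_zero' := Subtype.ext (by ext i j; fin_cases i <;> fin_cases j <;> rfl)
  map_add' v w := Subtype.ext (by
    show _ = mat 0 0 0 0 (v : DD) + mat 0 0 0 0 (w : DD)
    rw [mat_add]; simp)
  map_mul' v w := Subtype.ext (by
    show _ = mat 0 0 0 0 (v : DD) * mat 0 0 0 0 (w : DD)
    rw [mat_mul]; simp)

/-- the arrow `A → C` -/
def tA : Lam L := ⟨mat 0 0 1 0 0, mat_mem L.V.zero_mem L.O.zero_mem _ _ _⟩

/-- the arrow `B → C` -/
def tB : Lam L := ⟨mat 0 0 0 1 0, mat_mem L.V.zero_mem L.O.zero_mem _ _ _⟩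

theorem tA_iA (v : L.V) : tA L * iA L v = iC L v * tA L := Subtype.ext (by
  show mat 0 0 1 0 0 * mat (v : DD) 0 0 0 0 = mat 0 0 0 0 (v : DD) * mat 0 0 1 0 0
  rw [mat_mul, mat_mul]; simp)

theorem tB_iB (v : L.O) : tB L * iB L v = iC L v * tB L := Subtype.ext (by
  show mat 0 0 0 1 0 * mat 0 (v : DD) 0 0 0 = mat 0 0 0 0 (v : DD) * mat 0 0 0 1 0
  rw [mat_mul, mat_mul]; simp)

theorem iC_tA : iC L 1 * tA L = tA L := Subtype.ext (by
  show mat 0 0 0 0 1 * mat 0 0 1 0 0 = mat 0 0 1 0 0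
  rw [mat_mul]; simp)

theorem iC_tB : iC L 1 * tB L = tB L := Subtype.ext (by
  show mat 0 0 0 0 1 * mat 0 0 0 1 0 = mat 0 0 0 1 0
  rw [mat_mul]; simp)

theorem tA_iA_one : tA L * iA L 1 = tA L := Subtype.ext (by
  show mat 0 0 1 0 0 * mat 1 0 0 0 0 = mat 0 0 1 0 0
  rw [mat_mul]; simp)

theorem tB_iB_one : tB L * iB L 1 = tB L := Subtype.ext (by
  show mat 0 0 0 1 0 * mat 0 1 0 0 0 = mat 0 0 0 1 0
  rw [mat_mul]; simp)

theorem one_eq : iA L 1 + iB L 1 + iC L 1 = 1 := Subtype.ext (by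
  show mat 1 0 0 0 0 + mat 0 1 0 0 0 + mat 0 0 0 0 1 = 1
  rw [mat_add, mat_add]
  ext i j
  fin_cases i <;> fin_cases j <;> simp [mat])

theorem iA_iB (v : L.V) (o : L.O) : iA L v * iB L o = 0 := Subtype.ext (by
  show mat (v : DD) 0 0 0 0 * mat 0 (o : DD) 0 0 0 = 0
  rw [mat_mul]; ext i j; fin_cases i <;> fin_cases j <;> simp [mat])

theorem iB_iA (v : L.V) (o : L.O) : iB L o * iA L v = 0 := Subtype.ext (by
  show mat 0 (o : DD) 0 0 0 * mat (v : DD) 0 0 0 0 = 0
  rw [mat_mul]; ext i j; fin_cases i <;> fin_cases j <;> simp [mat])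

theorem iA_iC (v : L.V) (o : DD) : iA L v * iC L o = 0 := Subtype.ext (by
  show mat (v : DD) 0 0 0 0 * mat 0 0 0 0 o = 0
  rw [mat_mul]; ext i j; fin_cases i <;> fin_cases j <;> simp [mat])

theorem iC_iA (v : L.V) (o : DD) : iC L o * iA L v = 0 := Subtype.ext (by
  show mat 0 0 0 0 o * mat (v : DD) 0 0 0 0 = 0
  rw [mat_mul]; ext i j; fin_cases i <;> fin_cases j <;> simp [mat])

theorem iB_iC (v : L.O) (o : DD) : iB L v * iC L o = 0 := Subtype.ext (by
  show mat 0 (v : DD) 0 0 0 * mat 0 0 0 0 o = 0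
  rw [mat_mul]; ext i j; fin_cases i <;> fin_cases j <;> simp [mat])

theorem iC_iB (v : L.O) (o : DD) : iC L o * iB L v = 0 := Subtype.ext (by
  show mat 0 0 0 0 o * mat 0 (v : DD) 0 0 0 = 0
  rw [mat_mul]; ext i j; fin_cases i <;> fin_cases j <;> simp [mat])

theorem tA_iB (o : L.O) : tA L * iB L o = 0 := Subtype.ext (by
  show mat 0 0 1 0 0 * mat 0 (o : DD) 0 0 0 = 0
  rw [mat_mul]; ext i j; fin_cases i <;> fin_cases j <;> simp [mat])

theorem tA_iC (o : DD) : tA L * iC L o = 0 := Subtype.ext (by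
  show mat 0 0 1 0 0 * mat 0 0 0 0 o = 0
  rw [mat_mul]; ext i j; fin_cases i <;> fin_cases j <;> simp [mat])

theorem tB_iA (o : L.V) : tB L * iA L o = 0 := Subtype.ext (by
  show mat 0 0 0 1 0 * mat (o : DD) 0 0 0 0 = 0
  rw [mat_mul]; ext i j; fin_cases i <;> fin_cases j <;> simp [mat])

theorem tB_iC (o : DD) : tB L * iC L o = 0 := Subtype.ext (by
  show mat 0 0 0 1 0 * mat 0 0 0 0 o = 0
  rw [mat_mul]; ext i j; fin_cases i <;> fin_cases j <;> simp [mat])

/-- every element of `Lam L` -/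
theorem eq_sum (m : Lam L) : ∃ (v : L.V) (o : L.O) (a b c : DD),
    m = iA L v + iB L o + iC L a * tA L + iC L b * tB L + iC L c := by
  obtain ⟨m, h1, h2, h3, h4, h5, h6⟩ := m
  refine ⟨⟨m 0 0, h1⟩, ⟨m 1 1, h2⟩, m 2 0, m 2 1, m 2 2, Subtype.ext ?_⟩
  show m = mat (m 0 0) 0 0 0 0 + mat 0 (m 1 1) 0 0 0 + mat 0 0 0 0 (m 2 0) * mat 0 0 1 0 0 +
    mat 0 0 0 0 (m 2 1) * mat 0 0 0 1 0 + mat 0 0 0 0 (m 2 2)
  rw [mat_mul, mat_mul, mat_add, mat_add, mat_add, mat_add]
  ext i j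
  fin_cases i <;> fin_cases j <;> simp [mat, h3, h4, h5, h6]

end Lam

/-! ### components of `Lam`-modules -/

section Comp

variable {DD : Type u} [Ring DD] (L : Line DD)
variable (Y : Type*) [AddCommGroup Y] [Module (Lam L) Y]

/-- the `V`-component -/
abbrev cA : AddSubgroup Y := Cmp (iA L) Y
/-- the `O`-component -/
abbrev cB : AddSubgroup Y := Cmp (iB L) Y
/-- the `DD`-component -/
abbrev cC : AddSubgroup Y := Cmp (iC L) Y

variable {Y}

/-- the arrow `A → C` -/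
def al : cA L Y →ₛₗ[L.V.subtype] cC L Y where
  toFun y := ⟨tA L • (y : Y), by rw [mem_Cmp, smul_smul, iC_tA]⟩
  map_add' x y := Subtype.ext (smul_add _ _ _)
  map_smul' s y := Subtype.ext (by
    show tA L • (iA L s • (y : Y)) = iC L (s : DD) • tA L • (y : Y)
    rw [smul_smul, smul_smul, tA_iA])

/-- the arrow `B → C` -/
def be : cB L Y →ₛₗ[L.O.subtype] cC L Y where
  toFun y := ⟨tB L • (y : Y), by rw [mem_Cmp, smul_smul, iC_tB]⟩
  map_add' x y := Subtype.ext (smul_add _ _ _)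
  map_smul' s y := Subtype.ext (by
    show tB L • (iB L s • (y : Y)) = iC L (s : DD) • tB L • (y : Y)
    rw [smul_smul, smul_smul, tB_iB])

@[simp] theorem coe_al (y : cA L Y) : ((al L y : cC L Y) : Y) = tA L • (y : Y) := rfl
@[simp] theorem coe_be (y : cB L Y) : ((be L y : cC L Y) : Y) = tB L • (y : Y) := rfl

variable {Z : Type*} [AddCommGroup Z] [Module (Lam L) Z]

theorem al_map (f : Y →ₗ[Lam L] Z) (y : cA L Y) :
    al L (Cmap (iA L) f y) = Cmap (iC L) f (al L y) :=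
  Subtype.ext (by rw [coe_al, coe_Cmap, coe_Cmap, coe_al, map_smul])

theorem be_map (f : Y →ₗ[Lam L] Z) (y : cB L Y) :
    be L (Cmap (iB L) f y) = Cmap (iC L) f (be L y) :=
  Subtype.ext (by rw [coe_be, coe_Cmap, coe_Cmap, coe_be, map_smul])

/-- decomposition into components -/
theorem eq_comp (y : Y) : y = (Cpr (iA L) y : Y) + (Cpr (iB L) y : Y) + (Cpr (iC L) y : Y) := by
  rw [coe_Cpr, coe_Cpr, coe_Cpr, ← add_smul, ← add_smul, one_eq, one_smul]

theorem comp_ext {x y : Y} (hA : Cpr (iA L) x = Cpr (iA L) y) (hB : Cpr (iB L) x = Cpr (iB L) y)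
    (hC : Cpr (iC L) x = Cpr (iC L) y) : x = y := by
  rw [eq_comp L x, eq_comp L y, hA, hB, hC]

theorem smul_A_A (v : L.V) (y : Y) : iA L v • (y : Y) = (v • Cpr (iA L) y : cA L Y) := by
  rw [coe_smul_Cmp, coe_Cpr, smul_smul, ← map_mul, mul_one]

theorem iA_smul_B (v : L.V) (y : cB L Y) : iA L v • (y : Y) = 0 := by
  rw [← one_smul_Cmp (iB L) y, smul_smul, iA_iB, zero_smul]
theorem iA_smul_C (v : L.V) (y : cC L Y) : iA L v • (y : Y) = 0 := by
  rw [← one_smul_Cmp (iC L) y, smul_smul, iA_iC, zero_smul]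
theorem iB_smul_A (v : L.O) (y : cA L Y) : iB L v • (y : Y) = 0 := by
  rw [← one_smul_Cmp (iA L) y, smul_smul, iB_iA, zero_smul]
theorem iB_smul_C (v : L.O) (y : cC L Y) : iB L v • (y : Y) = 0 := by
  rw [← one_smul_Cmp (iC L) y, smul_smul, iB_iC, zero_smul]
theorem iC_smul_A (v : DD) (y : cA L Y) : iC L v • (y : Y) = 0 := by
  rw [← one_smul_Cmp (iA L) y, smul_smul, iC_iA, zero_smul]
theorem iC_smul_B (v : DD) (y : cB L Y) : iC L v • (y : Y) = 0 := by
  rw [← one_smul_Cmp (iB L) y, smul_smul, iC_iB, zero_smul]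
theorem tA_smul_B (y : cB L Y) : tA L • (y : Y) = 0 := by
  rw [← one_smul_Cmp (iB L) y, smul_smul, tA_iB, zero_smul]
theorem tA_smul_C (y : cC L Y) : tA L • (y : Y) = 0 := by
  rw [← one_smul_Cmp (iC L) y, smul_smul, tA_iC, zero_smul]
theorem tB_smul_A (y : cA L Y) : tB L • (y : Y) = 0 := by
  rw [← one_smul_Cmp (iA L) y, smul_smul, tB_iA, zero_smul]
theorem tB_smul_C (y : cC L Y) : tB L • (y : Y) = 0 := by
  rw [← one_smul_Cmp (iC L) y, smul_smul, tB_iC, zero_smul]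

/-- additive maps commuting with the generators of `Lam` are linear -/
def mkLin (f : Y →+ Z) (hA : ∀ v y, f (iA L v • y) = iA L v • f y)
    (hB : ∀ v y, f (iB L v • y) = iB L v • f y) (hC : ∀ v y, f (iC L v • y) = iC L v • f y)
    (ha : ∀ y, f (tA L • y) = tA L • f y) (hb : ∀ y, f (tB L • y) = tB L • f y) :
    Y →ₗ[Lam L] Z where
  toFun := f
  map_add' := f.map_add
  map_smul' := fun m y => by
    obtain ⟨v, o, a, b, c, rfl⟩ := eq_sum L m
    simp only [add_smul, mul_smul, map_add, hA, hB, hC, ha, hb, RingHom.id_apply]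

@[simp] theorem mkLin_apply (f : Y →+ Z) (hA hB hC ha hb) (y : Y) :
    mkLin L f hA hB hC ha hb y = f y := rfl

/-- a linear map from component maps -/
def ofComp (fA : cA L Y →ₗ[L.V] cA L Z) (fB : cB L Y →ₗ[L.O] cB L Z) (fC : cC L Y →ₗ[DD] cC L Z)
    (ha : ∀ y, fC (al L y) = al L (fA y)) (hb : ∀ y, fC (be L y) = be L (fB y)) :
    Y →ₗ[Lam L] Z :=
  mkLin L
    ((cA L Z).subtype.comp (fA.toAddMonoidHom.comp (Cpr (iA L))) +
      (cB L Z).subtype.comp (fB.toAddMonoidHom.comp (Cpr (iB L))) +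
      (cC L Z).subtype.comp (fC.toAddMonoidHom.comp (Cpr (iC L))))
    (fun v y => by
      have h1 : Cpr (iA L) (iA L v • y) = v • Cpr (iA L) y := Subtype.ext (by
        rw [coe_Cpr, coe_smul_Cmp, coe_Cpr, smul_smul, smul_smul, ← map_mul, ← map_mul, one_mul,
          mul_one])
      have h2 : Cpr (iB L) (iA L v • y) = 0 := Subtype.ext (by
        rw [coe_Cpr, smul_smul, iB_iA, zero_smul]; rfl)
      have h3 : Cpr (iC L) (iA L v • y) = 0 := Subtype.ext (by
        rw [coe_Cpr, smul_smul, iC_iA, zero_smul]; rfl)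
      simp only [AddMonoidHom.add_apply, AddMonoidHom.comp_apply, h1, h2, h3, map_zero, add_zero,
        smul_add, LinearMap.toAddMonoidHom_coe, map_smul, AddSubgroup.coe_subtype, coe_smul_Cmp,
        iA_smul_B, iA_smul_C, ZeroMemClass.coe_zero])
    (fun v y => by
      have h1 : Cpr (iB L) (iB L v • y) = v • Cpr (iB L) y := Subtype.ext (by
        rw [coe_Cpr, coe_smul_Cmp, coe_Cpr, smul_smul, smul_smul, ← map_mul, ← map_mul, one_mul,
          mul_one])
      have h2 : Cpr (iA L) (iB L v • y) = 0 := Subtype.ext (by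
        rw [coe_Cpr, smul_smul, iA_iB, zero_smul]; rfl)
      have h3 : Cpr (iC L) (iB L v • y) = 0 := Subtype.ext (by
        rw [coe_Cpr, smul_smul, iC_iB, zero_smul]; rfl)
      simp only [AddMonoidHom.add_apply, AddMonoidHom.comp_apply, h1, h2, h3, map_zero, add_zero,
        zero_add, smul_add, LinearMap.toAddMonoidHom_coe, map_smul, AddSubgroup.coe_subtype,
        coe_smul_Cmp, iB_smul_A, iB_smul_C, ZeroMemClass.coe_zero])
    (fun v y => by
      have h1 : Cpr (iC L) (iC L v • y) = v • Cpr (iC L) y := Subtype.ext (by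
        rw [coe_Cpr, coe_smul_Cmp, coe_Cpr, smul_smul, smul_smul, ← map_mul, ← map_mul, one_mul,
          mul_one])
      have h2 : Cpr (iA L) (iC L v • y) = 0 := Subtype.ext (by
        rw [coe_Cpr, smul_smul, iA_iC, zero_smul]; rfl)
      have h3 : Cpr (iB L) (iC L v • y) = 0 := Subtype.ext (by
        rw [coe_Cpr, smul_smul, iB_iC, zero_smul]; rfl)
      simp only [AddMonoidHom.add_apply, AddMonoidHom.comp_apply, h1, h2, h3, map_zero, add_zero,
        zero_add, smul_add, LinearMap.toAddMonoidHom_coe, map_smul, AddSubgroup.coe_subtype,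
        coe_smul_Cmp, iC_smul_A, iC_smul_B, ZeroMemClass.coe_zero])
    (fun y => by
      have h1 : Cpr (iC L) (tA L • y) = al L (Cpr (iA L) y) := Subtype.ext (by
        rw [coe_Cpr, coe_al, coe_Cpr, smul_smul, smul_smul, iC_tA, tA_iA_one])
      have h2 : Cpr (iA L) (tA L • y) = 0 := Subtype.ext (by
        rw [coe_Cpr, smul_smul, ← iC_tA, ← mul_assoc, iA_iC, zero_mul, zero_smul]; rfl)
      have h3 : Cpr (iB L) (tA L • y) = 0 := Subtype.ext (by
        rw [coe_Cpr, smul_smul, ← iC_tA, ← mul_assoc, iB_iC, zero_mul, zero_smul]; rfl)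
      simp only [AddMonoidHom.add_apply, AddMonoidHom.comp_apply, h1, h2, h3, map_zero, add_zero,
        zero_add, smul_add, LinearMap.toAddMonoidHom_coe, AddSubgroup.coe_subtype, ha, coe_al,
        tA_smul_B, tA_smul_C, ZeroMemClass.coe_zero])
    (fun y => by
      have h1 : Cpr (iC L) (tB L • y) = be L (Cpr (iB L) y) := Subtype.ext (by
        rw [coe_Cpr, coe_be, coe_Cpr, smul_smul, smul_smul, iC_tB, tB_iB_one])
      have h2 : Cpr (iA L) (tB L • y) = 0 := Subtype.ext (by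
        rw [coe_Cpr, smul_smul, ← iC_tB, ← mul_assoc, iA_iC, zero_mul, zero_smul]; rfl)
      have h3 : Cpr (iB L) (tB L • y) = 0 := Subtype.ext (by
        rw [coe_Cpr, smul_smul, ← iC_tB, ← mul_assoc, iB_iC, zero_mul, zero_smul]; rfl)
      simp only [AddMonoidHom.add_apply, AddMonoidHom.comp_apply, h1, h2, h3, map_zero, add_zero,
        zero_add, smul_add, LinearMap.toAddMonoidHom_coe, AddSubgroup.coe_subtype, hb, coe_be,
        tB_smul_A, tB_smul_C, ZeroMemClass.coe_zero])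

end Comp

end Crest.Agent.R181.VA
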