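import Crest.Agent.R181.VA980d
import Crest.Agent.R181.MF459a
import Crest.Agent.R181.SF459a

/-! R181, V-chain, V2a (A4): the part `(A, 0, C)` of a triple, the projective module `P0`, good
triples. -/

set_option autoImplicit false
set_option linter.unusedSectionVars false

open MulOpposite

namespace Crest.Agent.R181.VA

open LK V868

universe u

section AC

variable {DD : Type u} [Ring DD] (L : Line DD)
variable (Y : Type*) [AddCommGroup Y] [Module (Lam L) Y]

theorem iB_one_mul (m : Lam L) : ∃ o : L.O, iB L 1 * m = iB L o * iB L 1 := by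
  obtain ⟨v, o, a, b, c, rfl⟩ := eq_sum L m
  refine ⟨o, ?_⟩
  rw [mul_add, mul_add, mul_add, mul_add, iB_iA, ← mul_assoc, iB_iC, zero_mul, ← mul_assoc, iB_iC,
    zero_mul, iB_iC, ← map_mul, ← map_mul, one_mul, mul_one, zero_add, add_zero, add_zero, add_zero]

theorem iB_one_iB_one : iB L 1 * iB L 1 = iB L 1 := by rw [← map_mul, one_mul]

/-- the part `(A, 0, C)` of a triple `(A, B, C)` -/
def AC : Submodule (Lam L) Y where
  carrier := {y | iB L 1 • y = 0}
  add_mem' := fun {a b} ha hb => by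
    have ha' : iB L 1 • a = 0 := ha
    have hb' : iB L 1 • b = 0 := hb
    show iB L 1 • (a + b) = 0
    rw [smul_add, ha', hb', add_zero]
  zero_mem' := smul_zero _
  smul_mem' := fun m y hy => by
    have hy' : iB L 1 • y = 0 := hy
    obtain ⟨o, ho⟩ := iB_one_mul L m
    show iB L 1 • m • y = 0
    rw [smul_smul, ho, mul_smul, hy', smul_zero]

variable {Y}

theorem mem_AC {y : Y} : y ∈ AC L Y ↔ iB L 1 • y = 0 := Iff.rfl

/-- the projection `Y → AC Y` -/
def acpr (y : Y) : AC L Y := ⟨y - iB L 1 • y, by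
  rw [mem_AC, smul_sub, smul_smul, iB_one_iB_one, sub_self]⟩

@[simp] theorem coe_acpr (y : Y) : (acpr L y : Y) = y - iB L 1 • y := rfl

variable {Z X : Type*} [AddCommGroup Z] [Module (Lam L) Z] [AddCommGroup X] [Module (Lam L) X]

/-- functoriality of `AC` -/
def ACmap (f : Y →ₗ[Lam L] Z) : AC L Y →ₗ[Lam L] AC L Z where
  toFun y := ⟨f y, by
    have h : iB L 1 • (y : Y) = 0 := y.2
    rw [mem_AC, ← map_smul, h, map_zero]⟩
  map_add' x y := Subtype.ext (map_add f _ _)
  map_smul' c y := Subtype.ext (map_smul f _ _)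

@[simp] theorem coe_ACmap (f : Y →ₗ[Lam L] Z) (y : AC L Y) : (ACmap L f y : Z) = f y := rfl

theorem ACmap_injective {f : Y →ₗ[Lam L] Z} (hf : Function.Injective f) :
    Function.Injective (ACmap L f) := fun _ _ h => Subtype.ext (hf (congrArg Subtype.val h))

theorem ACmap_surjective {f : Y →ₗ[Lam L] Z} (hf : Function.Surjective f) :
    Function.Surjective (ACmap L f) := by
  rintro ⟨z, hz⟩
  obtain ⟨y, rfl⟩ := hf z
  refine ⟨acpr L y, Subtype.ext ?_⟩
  rw [mem_AC] at hz
  rw [coe_ACmap, coe_acpr, map_sub, map_smul, hz, sub_zero]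

theorem ACmap_exact {f : Y →ₗ[Lam L] Z} {g : Z →ₗ[Lam L] X} (h : Function.Exact f g) :
    Function.Exact (ACmap L f) (ACmap L g) := by
  rintro ⟨z, hz⟩
  constructor
  · intro h1
    have h2 : g z = 0 := congrArg Subtype.val h1
    obtain ⟨y, rfl⟩ := (h _).1 h2
    refine ⟨acpr L y, Subtype.ext ?_⟩
    rw [mem_AC] at hz
    rw [coe_ACmap, coe_acpr, map_sub, map_smul, hz, sub_zero]
  · rintro ⟨y, h1⟩
    rw [← h1]
    exact Subtype.ext (h.apply_apply_eq_zero _)

/-- `AC` of an isomorphism -/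
def ACequiv (e : Y ≃ₗ[Lam L] Z) : AC L Y ≃ₗ[Lam L] AC L Z :=
  { ACmap L e.toLinearMap with
    invFun := ACmap L e.symm.toLinearMap
    left_inv := fun _ => Subtype.ext (e.symm_apply_apply _)
    right_inv := fun _ => Subtype.ext (e.apply_symm_apply _) }

/-- `AC` of a power -/
def ACpi (κ : Type*) : AC L (κ → Y) ≃ₗ[Lam L] (κ → AC L Y) where
  toFun y j := ⟨(y : κ → Y) j, congrFun y.2 j⟩
  invFun z := ⟨fun j => (z j : Y), funext fun j => (z j).2⟩
  map_add' _ _ := rfl
  map_smul' _ _ := rfl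
  left_inv _ := rfl
  right_inv _ := rfl

/-- `AC` of a product -/
def ACprod : AC L (Y × Z) ≃ₗ[Lam L] (AC L Y × AC L Z) where
  toFun y := (⟨(y : Y × Z).1, congrArg Prod.fst y.2⟩, ⟨(y : Y × Z).2, congrArg Prod.snd y.2⟩)
  invFun z := ⟨((z.1 : Y), (z.2 : Z)), Prod.ext z.1.2 z.2.2⟩
  map_add' _ _ := rfl
  map_smul' _ _ := rfl
  left_inv _ := rfl
  right_inv _ := rfl

/-- `AC` of a kernel -/
def ACker (f : Y →ₗ[Lam L] Z) : AC L (LinearMap.ker f) ≃ₗ[Lam L] LinearMap.ker (ACmap L f) where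
  toFun y := ⟨⟨((y : LinearMap.ker f) : Y), congrArg Subtype.val y.2⟩,
    Subtype.ext (y : LinearMap.ker f).2⟩
  invFun z := ⟨⟨((z : AC L Y) : Y), congrArg Subtype.val z.2⟩, Subtype.ext (z : AC L Y).2⟩
  map_add' _ _ := rfl
  map_smul' _ _ := rfl
  left_inv _ := rfl
  right_inv _ := rfl

/-- `AC` of a concrete triple -/
def ACtri {C : Type*} [AddCommGroup C] [Module DD C] {A : Submodule L.V C} {B : Submodule L.O C}
    {D : Submodule DD C} {hA : ∀ a ∈ A, a ∈ D} {hB : ∀ b ∈ B, b ∈ D}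
    {hB' : ∀ b ∈ (⊥ : Submodule L.O C), b ∈ D} :
    AC L (tri A B D hA hB) ≃ₗ[Lam L] tri A ⊥ D hA hB' where
  toFun y := ⟨((y : tri A B D hA hB) : Tr L C), (y : tri A B D hA hB).2.1, by
    have h : iB L 1 • ((y : tri A B D hA hB) : Tr L C) = 0 := congrArg Subtype.val y.2
    rw [Tr_iB] at h
    have h2 := congrArg (fun z : C × C × C => z.2.1) h
    simp only [OneMemClass.coe_one, one_smul] at h2
    rw [Submodule.mem_bot]; exact h2, (y : tri A B D hA hB).2.2.2⟩
  invFun z := ⟨⟨(z : Tr L C), z.2.1, by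
    have h := (Submodule.mem_bot L.O).1 z.2.2.1
    rw [h]; exact B.zero_mem, z.2.2.2⟩, by
    have h := (Submodule.mem_bot L.O).1 z.2.2.1
    rw [mem_AC]
    apply Subtype.ext
    show iB L 1 • (z : Tr L C) = 0
    rw [Tr_iB, h, smul_zero]; rfl⟩
  map_add' _ _ := rfl
  map_smul' _ _ := rfl
  left_inv _ := rfl
  right_inv _ := rfl

/-- `AC (OO(1)) = P0` -/
def ACTT : AC L (TT L) ≃ₗ[Lam L] P0 L := ACtri L

/-- `AC (OO(-m)) = P0` -/
def ACOO (m : ℕ) : AC L (OO L m) ≃ₗ[Lam L] P0 L := ACtri L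

end AC

/-! ### `P0` is projective with endomorphism ring `V` -/

section P0

variable {DD : Type u} [Ring DD] (L : Line DD)

/-- a triple of elements -/
def T3 {C : Type*} (a b c : C) : Tr L C := ((a, b, c) : C × C × C)

/-- the generator of `P0` -/
def gP : P0 L := ⟨((1, 0, 0) : DD × DD × DD), (mem_P0 L).2 ⟨L.V.one_mem, rfl⟩⟩

theorem eq_smul_gP (y : P0 L) : y =
    (iA L ⟨(y : Tr L DD).1, ((mem_P0 L).1 y.2).1⟩ + iC L (y : Tr L DD).2.2 * tA L) • gP L := by
  apply Subtype.ext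
  show (y : Tr L DD) = (_ + _) • T3 L (1 : DD) 0 0
  rw [add_smul, mul_smul, Tr_iA, Tr_tA, Tr_iC]
  refine Tr_ext L ?_ ?_ ?_
  · show _ = (y : Tr L DD).1 • (1 : DD) + 0
    rw [add_zero, smul_eq_mul, mul_one]
  · show _ = (0 : DD) + 0
    rw [add_zero]; exact ((mem_P0 L).1 y.2).2
  · show _ = (0 : DD) + (y : Tr L DD).2.2 • (1 : DD)
    rw [zero_add, smul_eq_mul, mul_one]

theorem gP_mem : gP L ∈ cA L (P0 L) := by
  rw [mem_Cmp]
  apply Subtype.ext
  show iA L 1 • T3 L (1 : DD) 0 0 = _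
  rw [Tr_iA]
  show (((1 : DD) • (1 : DD), 0, 0) : DD × DD × DD) = (1, 0, 0)
  rw [one_smul]

theorem P0_hom_ext {Y : Type*} [AddCommGroup Y] [Module (Lam L) Y] {f g : P0 L →ₗ[Lam L] Y}
    (h : f (gP L) = g (gP L)) : f = g := by
  ext y
  rw [eq_smul_gP L y, map_smul, map_smul, h]

/-- maps out of `P0` -/
def homP {Y : Type*} [AddCommGroup Y] [Module (Lam L) Y] (a : cA L Y) : P0 L →ₗ[Lam L] Y :=
  mkLin L
    { toFun := fun y => iA L ⟨(y : Tr L DD).1, ((mem_P0 L).1 y.2).1⟩ • (a : Y) +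
        iC L (y : Tr L DD).2.2 • tA L • (a : Y)
      map_zero' := by
        have h : (⟨((0 : P0 L) : Tr L DD).1, ((mem_P0 L).1 (0 : P0 L).2).1⟩ : L.V) = 0 := rfl
        rw [h, map_zero, zero_smul]
        show 0 + iC L 0 • tA L • (a : Y) = 0
        rw [map_zero, zero_smul, add_zero]
      map_add' := fun x y => by
        have h : (⟨((x + y : P0 L) : Tr L DD).1, ((mem_P0 L).1 (x + y).2).1⟩ : L.V) =
          ⟨(x : Tr L DD).1, ((mem_P0 L).1 x.2).1⟩ + ⟨(y : Tr L DD).1, ((mem_P0 L).1 y.2).1⟩ := rfl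
        rw [h, map_add, add_smul]
        show _ + iC L ((x : Tr L DD).2.2 + (y : Tr L DD).2.2) • tA L • (a : Y) = _
        rw [map_add, add_smul]
        abel }
    (fun v y => by
      show iA L ⟨((iA L v • y : P0 L) : Tr L DD).1, _⟩ • (a : Y) +
        iC L ((iA L v • y : P0 L) : Tr L DD).2.2 • tA L • (a : Y) = iA L v • (_ + _)
      have h1 : (⟨((iA L v • y : P0 L) : Tr L DD).1, ((mem_P0 L).1 (iA L v • y).2).1⟩ : L.V) =
          v * ⟨(y : Tr L DD).1, ((mem_P0 L).1 y.2).1⟩ := Subtype.ext (by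
        show (iA L v • (y : Tr L DD)).1 = _
        rw [Tr_iA]; rfl)
      have h2 : ((iA L v • y : P0 L) : Tr L DD).2.2 = 0 := by
        show (iA L v • (y : Tr L DD)).2.2 = _
        rw [Tr_iA]
      rw [h1, h2, map_mul, mul_smul, map_zero, zero_smul, smul_add, smul_smul (iA L v) (iC L _),
        iA_iC, zero_smul])
    (fun v y => by
      show iA L ⟨((iB L v • y : P0 L) : Tr L DD).1, _⟩ • (a : Y) +
        iC L ((iB L v • y : P0 L) : Tr L DD).2.2 • tA L • (a : Y) = iB L v • (_ + _)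
      have h1 : (⟨((iB L v • y : P0 L) : Tr L DD).1, ((mem_P0 L).1 (iB L v • y).2).1⟩ : L.V) =
          0 := Subtype.ext (by
        show (iB L v • (y : Tr L DD)).1 = _
        rw [Tr_iB]; rfl)
      have h2 : ((iB L v • y : P0 L) : Tr L DD).2.2 = 0 := by
        show (iB L v • (y : Tr L DD)).2.2 = _
        rw [Tr_iB]
      rw [h1, h2, map_zero, zero_smul, map_zero, zero_smul, smul_add, smul_smul (iB L v) (iC L _),
        smul_smul (iB L v) (iA L _), iB_iC, iB_iA, zero_smul, zero_smul])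
    (fun v y => by
      show iA L ⟨((iC L v • y : P0 L) : Tr L DD).1, _⟩ • (a : Y) +
        iC L ((iC L v • y : P0 L) : Tr L DD).2.2 • tA L • (a : Y) = iC L v • (_ + _)
      have h1 : (⟨((iC L v • y : P0 L) : Tr L DD).1, ((mem_P0 L).1 (iC L v • y).2).1⟩ : L.V) =
          0 := Subtype.ext (by
        show (iC L v • (y : Tr L DD)).1 = _
        rw [Tr_iC]; rfl)
      have h2 : ((iC L v • y : P0 L) : Tr L DD).2.2 = v * (y : Tr L DD).2.2 := by
        show (iC L v • (y : Tr L DD)).2.2 = _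
        rw [Tr_iC]; rfl
      rw [h1, h2, map_zero, zero_smul, map_mul, mul_smul, smul_add, smul_smul (iC L v) (iA L _),
        iC_iA, zero_smul])
    (fun y => by
      show iA L ⟨((tA L • y : P0 L) : Tr L DD).1, _⟩ • (a : Y) +
        iC L ((tA L • y : P0 L) : Tr L DD).2.2 • tA L • (a : Y) = tA L • (_ + _)
      have h1 : (⟨((tA L • y : P0 L) : Tr L DD).1, ((mem_P0 L).1 (tA L • y).2).1⟩ : L.V) =
          0 := Subtype.ext (by
        show (tA L • (y : Tr L DD)).1 = _
        rw [Tr_tA]; rfl)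
      have h2 : ((tA L • y : P0 L) : Tr L DD).2.2 = (y : Tr L DD).1 := by
        show (tA L • (y : Tr L DD)).2.2 = _
        rw [Tr_tA]
      rw [h1, h2, map_zero, zero_smul, smul_add, smul_smul (tA L) (iA L _), tA_iA,
        smul_smul (tA L) (iC L _), tA_iC, zero_smul, mul_smul, zero_add, add_zero])
    (fun y => by
      show iA L ⟨((tB L • y : P0 L) : Tr L DD).1, _⟩ • (a : Y) +
        iC L ((tB L • y : P0 L) : Tr L DD).2.2 • tA L • (a : Y) = tB L • (_ + _)
      have h1 : (⟨((tB L • y : P0 L) : Tr L DD).1, ((mem_P0 L).1 (tB L • y).2).1⟩ : L.V) =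
          0 := Subtype.ext (by
        show (tB L • (y : Tr L DD)).1 = _
        rw [Tr_tB]; rfl)
      have h2 : ((tB L • y : P0 L) : Tr L DD).2.2 = 0 := by
        show (tB L • (y : Tr L DD)).2.2 = _
        rw [Tr_tB]; exact ((mem_P0 L).1 y.2).2
      rw [h1, h2, map_zero, zero_smul, map_zero, zero_smul, smul_add, smul_smul (tB L) (iC L _),
        smul_smul (tB L) (iA L _), tB_iC, tB_iA, zero_smul, zero_smul])

theorem homP_gP {Y : Type*} [AddCommGroup Y] [Module (Lam L) Y] (a : cA L Y) :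
    homP L a (gP L) = a := by
  show iA L 1 • (a : Y) + iC L 0 • tA L • (a : Y) = a
  rw [map_zero, zero_smul, add_zero, one_smul_Cmp]

theorem homP_apply {Y : Type*} [AddCommGroup Y] [Module (Lam L) Y] (a : cA L Y) (y : P0 L) :
    homP L a y = iA L ⟨(y : Tr L DD).1, ((mem_P0 L).1 y.2).1⟩ • (a : Y) +
        iC L (y : Tr L DD).2.2 • tA L • (a : Y) := rfl

theorem map_gP_mem {Y : Type*} [AddCommGroup Y] [Module (Lam L) Y] (f : P0 L →ₗ[Lam L] Y) :
    f (gP L) ∈ cA L Y := by
  rw [mem_Cmp, ← map_smul]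
  exact congrArg f (gP_mem L)

instance projective_P0 : Module.Projective (Lam L) (P0 L) := by
  apply Module.Projective.of_lifting_property
  intro M N _ _ _ _ f g hf
  obtain ⟨m, hm⟩ := Cmap_surjective (iA L) hf ⟨g (gP L), map_gP_mem L g⟩
  refine ⟨homP L m, P0_hom_ext L ?_⟩
  rw [LinearMap.comp_apply, homP_gP]
  exact congrArg Subtype.val hm

instance finite_P0 : Module.Finite (Lam L) (P0 L) :=
  Module.Finite.of_surjective (LinearMap.toSpanSingleton (Lam L) (P0 L) (gP L)) (fun y =>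
    ⟨_, (eq_smul_gP L y).symm⟩)

/-- right multiplication by an element of `V` -/
def rV (v : L.V) : P0 L →ₗ[Lam L] P0 L where
  toFun y := ⟨op (v : DD) • (y : Tr L DD), by
    have h := (mem_P0 L).1 y.2
    rw [mem_P0]
    exact ⟨L.V.mul_mem h.1 v.2, by
      show (y : Tr L DD).2.1 * v = 0
      rw [h.2, zero_mul]⟩⟩
  map_add' x y := Subtype.ext (smul_add _ _ _)
  map_smul' m y := Subtype.ext (smul_comm m (op (v : DD)) (y : Tr L DD)).symm

theorem coe_rV_gP (v : L.V) : ((rV L v (gP L) : P0 L) : Tr L DD) = (((v : DD), 0, 0) : DD × DD × DD) := by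
  show ((1 * (v : DD), 0 * (v : DD), 0 * (v : DD)) : DD × DD × DD) = _
  rw [one_mul, zero_mul]

/-- the endomorphism ring of `P0` -/
noncomputable def endP : (L.V)ᵐᵒᵖ ≃+* Module.End (Lam L) (P0 L) :=
  RingEquiv.ofBijective
    ({ toFun := fun v => rV L (unop v)
       map_one' := LinearMap.ext fun y => Subtype.ext (one_smul DDᵐᵒᵖ (y : Tr L DD))
       map_mul' := fun v w => LinearMap.ext fun y => Subtype.ext (by
         show op (((unop w : L.V) : DD) * ((unop v : L.V) : DD)) • (y : Tr L DD) = _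
         rw [op_mul, mul_smul]; rfl)
       map_zero' := LinearMap.ext fun y => Subtype.ext (zero_smul DDᵐᵒᵖ (y : Tr L DD))
       map_add' := fun v w => LinearMap.ext fun y => Subtype.ext (by
         show op (((unop v : L.V) : DD) + ((unop w : L.V) : DD)) • (y : Tr L DD) = _
         rw [op_add, add_smul]; rfl) } : (L.V)ᵐᵒᵖ →+* Module.End (Lam L) (P0 L))
    ⟨by
      intro v w h
      have h1 : rV L (unop v) (gP L) = rV L (unop w) (gP L) := LinearMap.congr_fun h (gP L)
      have h2 := congrArg (fun z : P0 L => (z : Tr L DD).1) h1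
      simp only [coe_rV_gP] at h2
      exact unop_injective (Subtype.ext h2), by
      intro f
      have h1 := (mem_P0 L).1 (f (gP L)).2
      have h3 : iA L 1 • ((f (gP L) : P0 L) : Tr L DD) = ((f (gP L) : P0 L) : Tr L DD) :=
        congrArg Subtype.val (map_gP_mem L f)
      rw [Tr_iA] at h3
      refine ⟨op ⟨_, h1.1⟩, P0_hom_ext L (Subtype.ext ?_)⟩
      show ((rV L ⟨_, h1.1⟩ (gP L) : P0 L) : Tr L DD) = _
      rw [coe_rV_gP]
      have h4 : (0 : DD) = ((f (gP L) : P0 L) : Tr L DD).2.2 :=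
        congrArg (fun z : Tr L DD => z.2.2) h3
      exact Tr_ext L rfl h1.2.symm h4⟩

/-- direct summands of powers of `P0` are stably `P0`-free -/
theorem sumFree_P0 (hV : ∀ (Q : Type u) [AddCommGroup Q] [Module L.V Q], Module.Finite L.V Q →
      Module.Projective L.V Q → FR.StFree L.V Q) : PR.SumFree (Lam L) (P0 L) :=
  SF.sumFree (endP L) hV

end P0

end Crest.Agent.R181.VA
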