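import Crest.Agent.R181.VA980e

/-! R181, V-chain, V2a (A4): good triples. -/

set_option autoImplicit false
set_option linter.unusedSectionVars false

open MulOpposite

namespace Crest.Agent.R181.VA

open LK V868

universe u

section

variable {DD : Type u} [Ring DD] (L : Line DD)

/-- the properties of good triples which are stable under extensions -/
structure PreGood (Z : Type u) [AddCommGroup Z] [Module (Lam L) Z] : Prop where
  fin : Module.Finite L.O (cB L Z)
  tor : ∀ c : cC L Z, ∃ (m : ℕ) (b : cB L Z), be L b = L.p ^ m • c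
  ffr : PR.FFR (Lam L) (P0 L) (AC L Z)

/-- good triples: the input of Step 5 -/
structure Good (Z : Type u) [AddCommGroup Z] [Module (Lam L) Z] : Prop extends PreGood L Z where
  inj : Function.Injective (be L : cB L Z → cC L Z)

variable {L}
variable {X Y Z : Type u} [AddCommGroup X] [Module (Lam L) X] [AddCommGroup Y] [Module (Lam L) Y]
  [AddCommGroup Z] [Module (Lam L) Z]

theorem tor_of_surj {f : Y →ₗ[Lam L] Z} (hf : Function.Surjective f)
    (h : ∀ c : cC L Y, ∃ (m : ℕ) (b : cB L Y), be L b = L.p ^ m • c) :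
    ∀ c : cC L Z, ∃ (m : ℕ) (b : cB L Z), be L b = L.p ^ m • c := by
  intro c
  obtain ⟨c', rfl⟩ := Cmap_surjective (iC L) hf c
  obtain ⟨m, b, hb⟩ := h c'
  exact ⟨m, Cmap (iB L) f b, by rw [be_map, hb, map_smul]⟩

theorem fin_of_surj {f : Y →ₗ[Lam L] Z} (hf : Function.Surjective f)
    (h : Module.Finite L.O (cB L Y)) : Module.Finite L.O (cB L Z) :=
  Module.Finite.of_surjective (Cmap (iB L) f) (Cmap_surjective (iB L) hf)

theorem inj_of_inj {f : Y →ₗ[Lam L] Z} (hf : Function.Injective f)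
    (h : Function.Injective (be L : cB L Z → cC L Z)) :
    Function.Injective (be L : cB L Y → cC L Y) := by
  intro a b hab
  apply Cmap_injective (iB L) hf
  apply h
  rw [be_map, be_map, hab]

/-- larger exponents -/
theorem tor_mono {m n : ℕ} (hmn : m ≤ n) {c : cC L Z} {b : cB L Z} (hb : be L b = L.p ^ m • c) :
    ∃ b' : cB L Z, be L b' = L.p ^ n • c := by
  obtain ⟨k, rfl⟩ := Nat.exists_eq_add_of_le hmn
  refine ⟨(⟨L.p, L.pO⟩ : L.O) ^ k • b, ?_⟩
  rw [map_smulₛₗ, hb, smul_smul]
  congr 1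
  show (L.p ^ k : DD) * L.p ^ m = _
  rw [← pow_add, add_comm]

theorem PreGood.iso (e : Y ≃ₗ[Lam L] Z) (h : PreGood L Y) : PreGood L Z where
  fin := fin_of_surj e.surjective h.fin
  tor := tor_of_surj e.surjective h.tor
  ffr := h.ffr.of_equiv (ACequiv L e)

theorem PreGood.ext {i : X →ₗ[Lam L] Y} {p : Y →ₗ[Lam L] Z} (h : SES i p) (hX : PreGood L X)
    (hZ : PreGood L Z) : PreGood L Y where
  fin := by
    haveI := hX.fin
    haveI := hZ.fin
    exact Module.Finite.of_exact (Cmap_exact (iB L) (SES.exact h)) (Cmap_surjective (iB L) h.surj)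
  tor := by
    intro c
    obtain ⟨m, b, hb⟩ := hZ.tor (Cmap (iC L) p c)
    obtain ⟨b', rfl⟩ := Cmap_surjective (iB L) h.surj b
    have h1 : Cmap (iC L) p (L.p ^ m • c - be L b') = 0 := by
      rw [map_sub, map_smul, ← hb, be_map, sub_self]
    obtain ⟨c', hc'⟩ := (Cmap_exact (iC L) (SES.exact h) _).1 h1
    obtain ⟨k, a, ha⟩ := hX.tor c'
    refine ⟨k + m, Cmap (iB L) i a + (⟨L.p, L.pO⟩ : L.O) ^ k • b', ?_⟩
    rw [map_add, be_map, ha, map_smul, hc', map_smulₛₗ, smul_sub, smul_smul, ← pow_add]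
    show _ - _ + (L.p ^ k : DD) • be L b' = _
    rw [sub_add_cancel]
  ffr := PR.FFR.mid (ACmap_injective L h.inj) (ACmap_surjective L h.surj)
    (ACmap_exact L (SES.exact h)) hX.ffr hZ.ffr

theorem PreGood.of_subsingleton (h : Subsingleton Y) : PreGood L Y where
  fin := by
    haveI : Subsingleton (cB L Y) := ⟨fun a b => Subtype.ext (Subsingleton.elim _ _)⟩
    infer_instance
  tor := fun c => ⟨0, 0, Subtype.ext (Subsingleton.elim _ _)⟩
  ffr := by
    haveI : Subsingleton (AC L Y) := ⟨fun a b => Subtype.ext (Subsingleton.elim _ _)⟩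
    exact PR.FFR.of_subsingleton

theorem PreGood.pi (h : PreGood L Y) : ∀ r : ℕ, PreGood L (Fin r → Y)
  | 0 => PreGood.of_subsingleton inferInstance
  | r + 1 => by
    have ih := PreGood.pi h r
    refine PreGood.ext (X := Y) (Y := Fin (r + 1) → Y) (Z := Fin r → Y)
      (i := LinearMap.single (Lam L) (fun _ : Fin (r + 1) => Y) 0)
      (p := { toFun := fun v j => v j.succ
              map_add' := fun _ _ => rfl
              map_smul' := fun _ _ => rfl }) ⟨?_, ?_, ?_⟩ h ih
    · intro a b h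
      simpa using congrFun h 0
    · intro v
      exact ⟨Fin.cons 0 v, by funext j; simp⟩
    · intro v
      constructor
      · intro hv
        refine ⟨v 0, ?_⟩
        funext j
        refine Fin.cases ?_ (fun j => ?_) j
        · simp
        · have := congrFun hv j
          simpa using this.symm
      · rintro ⟨a, rfl⟩
        funext j
        simp

/-- `AC` takes `Θ`-resolutions to `P0`-resolutions -/
theorem res_AC : ∀ {n : ℕ} {Y : Type u} [AddCommGroup Y] [Module (Lam L) Y],
    PR.Res (Lam L) (TT L) n Y → PR.Res (Lam L) (P0 L) n (AC L Y)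
  | 0, Y, _, _, ⟨k, ⟨e⟩⟩ => ⟨k, ⟨(ACequiv L e).trans ((ACpi L (Fin k)).trans
      (LinearEquiv.piCongrRight fun _ => ACTT L))⟩⟩
  | n + 1, Y, _, _, ⟨k, f, hf, h⟩ =>
      PR.Res.of_surj (N := AC L (Fin k → TT L))
        ((ACpi L (Fin k)).trans (LinearEquiv.piCongrRight fun _ => ACTT L))
        (ACmap L f) (ACmap_surjective L hf) ((res_AC h).of_equiv (ACker L f))

/-! ### the standard triples -/

theorem tor_tri {C : Type*} [AddCommGroup C] [Module DD C] {A : Submodule L.V C}
    {B : Submodule L.O C} {D : Submodule DD C} {hA : ∀ a ∈ A, a ∈ D} {hB : ∀ b ∈ B, b ∈ D}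
    (h : ∀ d ∈ D, ∃ m : ℕ, L.p ^ m • d ∈ B) :
    ∀ c : cC L (tri A B D hA hB), ∃ (m : ℕ) (b : cB L (tri A B D hA hB)),
      be L b = L.p ^ m • c := by
  intro c
  obtain ⟨m, hm⟩ := h _ (cC_tri c).2
  refine ⟨m, cB_tri.symm ⟨L.p ^ m • (cC_tri c : C), hm⟩, ?_⟩
  rw [be_cB_tri_symm]
  apply cC_tri.injective
  rw [LinearEquiv.apply_symm_apply, map_smul]
  rfl

theorem tor_TT : ∀ c : cC L (TT L), ∃ (m : ℕ) (b : cB L (TT L)), be L b = L.p ^ m • c :=
  tor_tri (fun d _ => by
    obtain ⟨m, hm⟩ := L.exh d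
    exact ⟨m, L.O.mul_mem L.pO hm⟩)

theorem fin_TT : Module.Finite L.O (cB L (TT L)) := by
  let f : L.O →ₗ[L.O] Ox L :=
    { toFun := fun o => ⟨L.x * o, by
        rw [mem_Ox, ← mul_assoc, L.px, one_mul]; exact o.2⟩
      map_add' := fun a b => Subtype.ext (mul_add _ _ _)
      map_smul' := fun a b => Subtype.ext (by
        show L.x * ((a : DD) * b) = a * (L.x * b)
        rw [← mul_assoc, ← mul_assoc, L.xc]) }
  have hf : Function.Surjective f := by
    rintro ⟨y, hy⟩
    refine ⟨⟨L.p * y, hy⟩, Subtype.ext ?_⟩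
    show L.x * (L.p * y) = y
    rw [← mul_assoc, L.xp, one_mul]
  exact Module.Finite.of_surjective (cB_tri.symm.toLinearMap.comp f)
    ((cB_tri (L := L)).symm.surjective.comp hf)

theorem tor_pi {κ : Type} [Fintype κ]
    (h : ∀ c : cC L Y, ∃ (m : ℕ) (b : cB L Y), be L b = L.p ^ m • c) :
    ∀ c : cC L (κ → Y), ∃ (m : ℕ) (b : cB L (κ → Y)), be L b = L.p ^ m • c := by
  intro c
  choose m b hb using fun j => h (Cpi (iC L) κ c j)
  have h1 : ∀ j, ∃ b' : cB L Y, be L b' = L.p ^ (Finset.univ.sup m) • Cpi (iC L) κ c j := fun j =>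
    tor_mono (Finset.le_sup (Finset.mem_univ j)) (hb j)
  choose b' hb' using h1
  refine ⟨Finset.univ.sup m, (Cpi (iB L) κ).symm b', ?_⟩
  apply (Cpi (iC L) κ).injective
  rw [map_smul]
  funext j
  rw [Pi.smul_apply, ← hb' j]
  rfl

theorem fin_pi {κ : Type} [Fintype κ] (h : Module.Finite L.O (cB L Y)) :
    Module.Finite L.O (cB L (κ → Y)) :=
  Module.Finite.equiv (Cpi (iB L) κ).symm

/-- objects `Θ ⊗ M` are pre-good -/
theorem preGood_of_memTH [IsNoetherianRing (EE L)] (hF : Flat (Lam L) (EE L) (TT L))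
    (hE : ∀ (M : Type u) [AddCommGroup M] [Module (EE L) M], Module.Finite (EE L) M →
      FR.FFR (EE L) M) (hY : memTH (Lam L) (EE L) (TT L) Y) : PreGood L Y := by
  obtain ⟨n, hn⟩ := MF.ffr_of_memTH (Lam L) (TT L) hF hE hY
  obtain ⟨ι, κ, _, _, C, ⟨e⟩⟩ := hY
  have hs : Function.Surjective (e.symm.toLinearMap.comp
      (LinearMap.range (mR (Lam L) (TT L) C)).mkQ) :=
    e.symm.surjective.comp (Submodule.mkQ_surjective _)
  exact ⟨fin_of_surj hs (fin_pi fin_TT), tor_of_surj hs (tor_pi tor_TT), n, res_AC hn⟩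

theorem preGood_of_filt [IsNoetherianRing (EE L)] (hF : Flat (Lam L) (EE L) (TT L))
    (hH : Full (Lam L) (EE L) (TT L))
    (hE : ∀ (M : Type u) [AddCommGroup M] [Module (EE L) M], Module.Finite (EE L) M →
      FR.FFR (EE L) M) (hY : (thClass hF hH).filt.mem Y) : PreGood L Y := by
  refine filt_induction (thClass hF hH) (fun M _ _ => PreGood L M) ?_ ?_ ?_ hY
  · intro M _ _ h; exact PreGood.of_subsingleton h
  · intro M _ _ h; exact preGood_of_memTH hF hE h
  · intro A M B _ _ _ _ _ _ i p h hA hB; exact PreGood.ext h hA hB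

theorem preGood_OO (m : ℕ) : PreGood L (OO L m) where
  fin := by
    let f : L.O →ₗ[L.O] Op L m :=
      { toFun := fun o => ⟨L.p ^ m * o, o, o.2, rfl⟩
        map_add' := fun a b => Subtype.ext (mul_add _ _ _)
        map_smul' := fun a b => Subtype.ext (by
          show L.p ^ m * ((a : DD) * b) = a * (L.p ^ m * b)
          rw [← mul_assoc, ← mul_assoc,
            (Commute.pow_left (show Commute L.p (a : DD) from L.pc a) m).eq]) }
    have hf : Function.Surjective f := by
      rintro ⟨y, o, ho, rfl⟩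
      exact ⟨⟨o, ho⟩, rfl⟩
    exact Module.Finite.of_surjective (cB_tri.symm.toLinearMap.comp f)
      ((cB_tri (L := L)).symm.surjective.comp hf)
  tor := tor_tri (fun d _ => by
    obtain ⟨k, hk⟩ := L.exh d
    exact ⟨m + k, _, hk, by rw [pow_add, smul_eq_mul, mul_assoc]⟩)
  ffr := PR.FFR.of_equiv (ACOO L m).symm PR.FFR.self

theorem inj_tri {C : Type*} [AddCommGroup C] [Module DD C] {A : Submodule L.V C}
    {B : Submodule L.O C} {D : Submodule DD C} {hA : ∀ a ∈ A, a ∈ D} {hB : ∀ b ∈ B, b ∈ D} :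
    Function.Injective (be L : cB L (tri A B D hA hB) → cC L (tri A B D hA hB)) := by
  intro a b hab
  apply cB_tri.injective
  apply Subtype.ext
  rw [← coe_cC_tri_be, ← coe_cC_tri_be, hab]

theorem inj_pi {κ : Type*} {Y : Type*} [AddCommGroup Y] [Module (Lam L) Y]
    (h : Function.Injective (be L : cB L Y → cC L Y)) :
    Function.Injective (be L : cB L (κ → Y) → cC L (κ → Y)) := by
  intro a b hab
  apply (Cpi (iB L) κ).injective
  funext j
  apply h
  exact congrFun (congrArg (Cpi (iC L) κ) hab) j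

/-! ### direct summands -/

/-- the two parts of a module under an idempotent endomorphism -/
noncomputable def splitE {R : Type*} [Ring R] {M : Type*} [AddCommGroup M] [Module R M]
    (N : Submodule R M) (e : M →ₗ[R] M) (he : ∀ y, e (e y) = e y) (hN : ∀ y ∈ N, e y ∈ N) :
    N ≃ₗ[R] (N.map e) × ↥(N ⊓ LinearMap.ker e) where
  toFun y := (⟨e y, y, y.2, rfl⟩, ⟨y - e y, N.sub_mem y.2 (hN _ y.2), by
    show e ((y : M) - e y) = 0
    rw [map_sub, he, sub_self]⟩)
  invFun z := ⟨(z.1 : M) + (z.2 : M), N.add_mem (by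
    obtain ⟨y, hy, h⟩ := z.1.2
    rw [← h]; exact hN y hy) z.2.2.1⟩
  map_add' x y := by
    refine Prod.ext (Subtype.ext (map_add e _ _)) (Subtype.ext ?_)
    show ((x : M) + y) - e ((x : M) + y) = (x - e x) + (y - e y)
    rw [map_add]; abel
  map_smul' c x := by
    refine Prod.ext (Subtype.ext (map_smul e _ _)) (Subtype.ext ?_)
    show (c • (x : M)) - e (c • (x : M)) = c • ((x : M) - e x)
    rw [map_smul, smul_sub]
  left_inv y := Subtype.ext (by
    show e (y : M) + ((y : M) - e y) = y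
    abel)
  right_inv z := by
    obtain ⟨⟨a, ha⟩, ⟨b, hb⟩⟩ := z
    have h1 : e a = a := by
      obtain ⟨y, _, h⟩ := ha
      have h' : e y = a := h
      rw [← h', he]
    have h2 : e b = 0 := hb.2
    refine Prod.ext (Subtype.ext ?_) (Subtype.ext ?_)
    · show e (a + b) = a
      rw [map_add, h1, h2, add_zero]
    · show a + b - e (a + b) = b
      rw [map_add, h1, h2]; abel

theorem good_summand (hV : ∀ (Q : Type u) [AddCommGroup Q] [Module L.V Q], Module.Finite L.V Q →
      Module.Projective L.V Q → FR.StFree L.V Q)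
    {N : Submodule (Lam L) Y} (hN : Good L N) (e : Y →ₗ[Lam L] Y) (he : ∀ y, e (e y) = e y)
    (heN : ∀ y ∈ N, e y ∈ N) : Good L (N.map e) := by
  let s := splitE N e he heN
  have hs : Function.Surjective ((LinearMap.fst (Lam L) (N.map e)
      ↥(N ⊓ LinearMap.ker e)).comp s.toLinearMap) := fun x => ⟨s.symm (x, 0), by simp⟩
  have hi : Function.Injective (Submodule.inclusion (show N.map e ≤ N by
      rintro _ ⟨y, hy, rfl⟩; exact heN y hy)) := Submodule.inclusion_injective _
  exact
    { fin := fin_of_surj hs hN.fin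
      tor := tor_of_surj hs hN.tor
      ffr := PR.FFR.of_summand (sumFree_P0 L hV)
        (hN.ffr.of_equiv ((ACequiv L s).trans (ACprod L)))
      inj := inj_of_inj hi hN.inj }

end

end Crest.Agent.R181.VA
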