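import Crest.Agent.R181.RN598a

/-!
R181 (helper279), block B9: the cyclic block, algebra.

* `prod_sub`: `∏_{p < n} (X - om ^ p * Y) = X ^ n - Y ^ n` for commuting `X`, `Y` and a central
  "primitive root of unity" `om`.
* `blk_pow`: `(blk om y e) ^ n = scalar (y ^ n + ∏_{p < n} e p)`.
-/

set_option autoImplicit false
set_option linter.unusedSectionVars false

namespace Crest.Agent.R181.PO

open UR

/-- `om` comes from a primitive `n`-th root of unity of a commutative domain. -/
def Rt {A : Type} [Ring A] (n : ℕ) (om : A) : Prop :=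
  ∃ (K : Type) (_ : CommRing K) (_ : IsDomain K) (f : K →+* A) (z : K), f z = om ∧
    IsPrimitiveRoot z n

theorem Rt.map {A B : Type} [Ring A] [Ring B] {n : ℕ} {om : A} (h : Rt n om) (g : A →+* B) :
    Rt n (g om) := by
  obtain ⟨K, _, _, f, z, h1, h2⟩ := h
  exact ⟨K, inferInstance, inferInstance, g.comp f, z, by rw [← h1]; rfl, h2⟩

theorem Rt.pow {A : Type} [Ring A] {n : ℕ} {om : A} (h : Rt n om) : om ^ n = 1 := by
  obtain ⟨K, _, _, f, z, rfl, h2⟩ := h
  rw [← map_pow, h2.pow_eq_one, map_one]

/-- one may take a domain with central image -/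
theorem Rt.central {A : Type} [Ring A] {n : ℕ} {om : A} (h : Rt n om) (hc : ∀ x, Commute om x) :
    ∃ (K : Type) (_ : CommRing K) (_ : IsDomain K) (_ : Algebra K A) (z : K),
      algebraMap K A z = om ∧ IsPrimitiveRoot z n := by
  obtain ⟨K, _, _, f, z, h1, h2⟩ := h
  let K0 : Subalgebra ℤ K := Algebra.adjoin ℤ {z}
  let z0 : K0 := ⟨z, Algebra.subset_adjoin rfl⟩
  have hz0 : IsPrimitiveRoot z0 n :=
    IsPrimitiveRoot.of_map_of_injective (f := K0.val) h2 Subtype.val_injective
  let f0 : K0 →+* A := f.comp K0.val.toRingHom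
  have hf0 : ∀ (c : K0) (x : A), f0 c * x = x * f0 c := by
    rintro ⟨c, hc'⟩ x
    show f c * x = x * f c
    induction hc' using Algebra.adjoin_induction with
    | mem c hc1 =>
      rw [Set.mem_singleton_iff] at hc1
      subst hc1
      rw [h1]
      exact hc x
    | algebraMap k =>
      rw [show algebraMap ℤ K k = (k : K) from rfl, map_intCast]
      exact Int.cast_commute k x
    | add c d _ _ h3 h4 => rw [map_add, add_mul, mul_add, h3, h4]
    | mul c d _ _ h3 h4 => rw [map_mul, mul_assoc, h4, ← mul_assoc, h3, mul_assoc]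
  refine ⟨K0, inferInstance, inferInstance, RingHom.toAlgebra' f0 hf0, z0, h1, hz0⟩

theorem prod_range_list {M : Type*} [CommMonoid M] (n : ℕ) (g : ℕ → M) :
    ((List.range n).map g).prod = ∏ p ∈ Finset.range n, g p := by
  induction n with
  | zero => simp
  | succ n ih => rw [List.range_succ, List.map_append, List.prod_append, ih,
      Finset.prod_range_succ]; simp

/-- `∏_{p < n} (X - om ^ p * Y) = X ^ n - Y ^ n` -/
theorem prod_sub {A : Type} [Ring A] {n : ℕ} (hn : 0 < n) {om : A} (h : Rt n om)
    (hc : ∀ x, Commute om x) {X Y : A} (hXY : Commute X Y) :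
    ((List.range n).map (fun p => X - om ^ p * Y)).prod = X ^ n - Y ^ n := by
  obtain ⟨K, _, _, _, z, h1, h2⟩ := h.central hc
  -- the identity in `K[T][X]`
  have h3 : (Polynomial.X ^ n - Polynomial.C ((Polynomial.X : Polynomial K) ^ n)) =
      ∏ i ∈ Finset.range n, (Polynomial.X - Polynomial.C ((Polynomial.C z) ^ i * Polynomial.X)) :=
    X_pow_sub_C_eq_prod (R := Polynomial K) (h2.map_of_injective Polynomial.C_injective) hn rfl
  -- a commutative subalgebra
  let S : Subalgebra K A := Algebra.adjoin K {X, Y}
  let _ : CommRing S := Algebra.adjoinCommRingOfComm K (s := {X, Y}) (by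
    rintro a (rfl | rfl) b (rfl | rfl)
    · rfl
    · exact hXY.eq
    · exact hXY.eq.symm
    · rfl)
  let x : S := ⟨X, Algebra.subset_adjoin (by simp)⟩
  let y : S := ⟨Y, Algebra.subset_adjoin (by simp)⟩
  let e : Polynomial (Polynomial K) →+* S :=
    Polynomial.eval₂RingHom (Polynomial.eval₂RingHom (algebraMap K S) y) x
  have h4 := congrArg e h3
  have e1 : ∀ q : Polynomial K, e (Polynomial.C q) =
    Polynomial.eval₂RingHom (algebraMap K S) y q := fun q => Polynomial.eval₂_C _ _
  have e2 : e Polynomial.X = x := Polynomial.eval₂_X _ _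
  have h5 : e (Polynomial.X ^ n - Polynomial.C ((Polynomial.X : Polynomial K) ^ n)) =
      x ^ n - y ^ n := by
    rw [map_sub, e1, map_pow, e2, map_pow]
    simp
  have h6 : e (∏ i ∈ Finset.range n,
      (Polynomial.X - Polynomial.C ((Polynomial.C z) ^ i * Polynomial.X))) =
      ∏ i ∈ Finset.range n, (x - (algebraMap K S z) ^ i * y) := by
    rw [map_prod]
    refine Finset.prod_congr rfl fun i _ => ?_
    rw [map_sub, e1, e2, map_mul, map_pow]
    simp
  rw [h5, h6, ← prod_range_list] at h4
  have h7 := congrArg S.subtype h4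
  rw [map_list_prod, List.map_map] at h7
  have h8 : S.subtype (x ^ n - y ^ n) = X ^ n - Y ^ n := by
    rw [map_sub, map_pow, map_pow]; rfl
  rw [h8] at h7
  rw [h7]
  congr 1
  refine List.map_congr_left fun p _ => ?_
  show _ = S.subtype (x - algebraMap K S z ^ p * y)
  rw [map_sub, map_mul, map_pow, ← h1]
  rfl

section Blk

variable {A : Type} [Ring A]

theorem mul_rot {n : ℕ} (e : ℕ → A) (he : ∀ p q, Commute (e p) (e q)) (p : ℕ) :
    ((List.range n).map (fun j => e ((p + j) % n))).prod = ((List.range n).map e).prod := by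
  have h1 : (List.range n).map (fun j => e ((p + j) % n)) = ((List.range n).rotate p).map e := by
    apply List.ext_getElem
    · simp
    · intro j hj hj'
      simp [List.getElem_rotate, add_comm]
  rw [h1]
  refine List.Perm.prod_eq' ((List.rotate_perm _ _).map e) ?_
  rw [List.pairwise_map]
  exact List.pairwise_iff_getElem.2 fun i j _ _ _ => he _ _

variable {n : ℕ} [NeZero n] (om y : A) (e : ℕ → A)

/-- a factor, entrywise -/
theorem blk_sub_apply (hn : om ^ n = 1) (k : ℕ) (p q : Fin n) (hp : (p : ℕ) = k % n) :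
    (blk (n := n) om y e - Matrix.scalar (Fin n) (om ^ k * y)) p q =
      if q = p + 1 then e p else 0 := by
  have h1 : om ^ k = om ^ (p : ℕ) := by
    rw [hp]
    conv_lhs => rw [← Nat.div_add_mod k n, pow_add, pow_mul, hn, one_pow, one_mul]
  rw [Matrix.sub_apply, Matrix.scalar_apply, Matrix.diagonal_apply, blk, h1]
  by_cases h : q = p
  · subst h; simp
  · have h' : p ≠ q := fun h' => h h'.symm
    rw [if_neg h, if_neg h', zero_add, sub_zero]

/-- the product of the factors, row by row -/
theorem row_prod (hn : om ^ n = 1) (p : Fin n) (k : ℕ)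
    (q : Fin n) :
    (((List.range k).map (fun j => blk (n := n) om y e -
      Matrix.scalar (Fin n) (om ^ ((p : ℕ) + j) * y))).prod) p q =
      if (q : ℕ) = ((p : ℕ) + k) % n then ((List.range k).map (fun j => e (((p : ℕ) + j) % n))).prod
        else 0 := by
  induction k generalizing q with
  | zero =>
    simp only [List.range_zero, List.map_nil, List.prod_nil, add_zero, Nat.mod_eq_of_lt p.2]
    rw [Matrix.one_apply]
    by_cases h : p = q
    · rw [if_pos h, if_pos (by rw [h])]
    · rw [if_neg h, if_neg (fun h' => h (Fin.ext h'.symm))]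
  | succ k ih =>
    rw [List.range_succ, List.map_append, List.prod_append, Matrix.mul_apply, List.map_append,
      List.prod_append]
    simp only [List.map_cons, List.map_nil, List.prod_cons, List.prod_nil, mul_one]
    have hpos : 0 < n := Nat.pos_of_ne_zero (NeZero.ne n)
    let t0 : Fin n := ⟨((p : ℕ) + k) % n, Nat.mod_lt _ hpos⟩
    rw [Finset.sum_eq_single t0]
    · rw [ih, if_pos rfl, blk_sub_apply om y e hn ((p : ℕ) + k) t0 q rfl]
      have h1 : q = t0 + 1 ↔ (q : ℕ) = ((p : ℕ) + (k + 1)) % n := by
        rw [Fin.ext_iff, Fin.val_add]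
        have : ((t0 : Fin n) : ℕ) = ((p : ℕ) + k) % n := rfl
        rw [this, Fin.val_one', ← Nat.add_mod, add_assoc]
      by_cases h : q = t0 + 1
      · rw [if_pos h, if_pos (h1.1 h)]
      · rw [if_neg h, if_neg (fun h' => h (h1.2 h')), mul_zero]
    · intro t _ ht
      rw [ih, if_neg (fun h' => ht (Fin.ext h')), zero_mul]
    · intro h; exact absurd (Finset.mem_univ _) h

/-- **The power of the cyclic block.** -/
theorem blk_pow (hR : Rt n om) (hom : ∀ x, Commute om x) (hye : ∀ p, Commute y (e p))
    (he : ∀ p q, Commute (e p) (e q)) :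
    (blk (n := n) om y e) ^ n =
      Matrix.scalar (Fin n) (y ^ n + ((List.range n).map e).prod) := by
  have hpos : 0 < n := Nat.pos_of_ne_zero (NeZero.ne n)
  have hn := hR.pow
  -- `blk` commutes with `y`
  have hcy : Commute (blk (n := n) om y e) (Matrix.scalar (Fin n) y) := by
    ext p q
    rw [Matrix.scalar_apply, Matrix.mul_diagonal, Matrix.diagonal_mul, blk, add_mul, mul_add]
    congr 1
    · split_ifs
      · exact ((hom y).pow_left _).mul_left (Commute.refl y)
      · simp
    · split_ifs
      · exact (hye _).symm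
      · simp
  have hR' : Rt n (Matrix.scalar (Fin n) om) := hR.map (Matrix.scalar (Fin n))
  have hom' : ∀ x, Commute (Matrix.scalar (Fin n) om) x :=
    fun x => Matrix.scalar_commute om (fun r => hom r) x
  have key : ∀ p q : Fin n, ((blk (n := n) om y e) ^ n - (Matrix.scalar (Fin n) y) ^ n) p q =
      (Matrix.scalar (Fin n) (((List.range n).map e).prod)) p q := by
    intro p q
    have h1 := prod_sub hpos hR' hom' (X := blk (n := n) om y e)
      (Y := Matrix.scalar (Fin n) (om ^ (p : ℕ) * y)) (by
        rw [map_mul, map_pow]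
        exact ((hom' _).symm.pow_right _).mul_right hcy)
    have h2 : (Matrix.scalar (Fin n) (om ^ (p : ℕ) * y)) ^ n = (Matrix.scalar (Fin n) y) ^ n := by
      rw [map_mul, Commute.mul_pow, ← map_pow, ← pow_mul, mul_comm, pow_mul, hn, one_pow, map_one,
        one_mul]
      rw [map_pow]
      exact (hom' _).pow_left _
    have h3 : (List.range n).map (fun j => blk (n := n) om y e -
        Matrix.scalar (Fin n) om ^ j * Matrix.scalar (Fin n) (om ^ (p : ℕ) * y)) =
        (List.range n).map (fun j => blk (n := n) om y e -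
          Matrix.scalar (Fin n) (om ^ ((p : ℕ) + j) * y)) := by
      refine List.map_congr_left fun j _ => ?_
      rw [← map_pow, ← map_mul, ← mul_assoc, ← pow_add, add_comm]
    rw [h2, h3] at h1
    rw [← h1, row_prod om y e hn p n q, Nat.add_mod_right, Nat.mod_eq_of_lt p.2, mul_rot e he,
      Matrix.scalar_apply, Matrix.diagonal_apply]
    by_cases h : p = q
    · rw [if_pos h, if_pos (by rw [h])]
    · rw [if_neg h, if_neg (fun h' => h (Fin.ext h'.symm))]
  have h4 : (blk (n := n) om y e) ^ n - (Matrix.scalar (Fin n) y) ^ n =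
      Matrix.scalar (Fin n) (((List.range n).map e).prod) := by
    ext p q; exact key p q
  rw [map_add, map_pow, ← h4]
  abel

end Blk

end Crest.Agent.R181.PO
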