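import Crest.Agent.R181.VAL279a

/-!
R181 (helper279), block B9: the value theorem.
-/

set_option autoImplicit false
set_option linter.unusedSectionVars false

namespace Crest.Agent.R181.PO

open UR AddMonoidAlgebra

section central

variable {B ν : Type} [Ring B]

theorem cst_central {c : B} (hc : ∀ y, Commute c y) (x : PA B ν) : Commute (cst ν c) x := by
  induction x using AddMonoidAlgebra.induction_linear with
  | zero => exact Commute.zero_right _
  | add x y hx hy => exact hx.add_right hy
  | single α b =>
    show cst ν c * single α b = single α b * cst ν c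
    rw [cst_apply, single_mul_single, single_mul_single, zero_add, add_zero, (hc b).eq]

theorem single_one_comm (α : ν →₀ ℕ) (x : PA B ν) : Commute (single α (1 : B) : PA B ν) x := by
  induction x using AddMonoidAlgebra.induction_linear with
  | zero => exact Commute.zero_right _
  | add x y hx hy => exact hx.add_right hy
  | single β b =>
    show (single α 1 : PA B ν) * single β b = single β b * single α 1
    rw [single_mul_single, single_mul_single, add_comm, one_mul, mul_one]

variable [Fintype ν]

theorem lf_central {v : ν → B} (hv : ∀ u y, Commute (v u) y) (x : PA B ν) : Commute (lf v) x := by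
  rw [lf_eq]
  exact Commute.sum_left _ _ _ fun u _ => (cst_central (hv u) x).mul_left (var_comm u x)

theorem lf_smul (c : B) (w : ν → B) : lf (fun u => c * w u) = cst ν c * lf w := by
  rw [lf_eq, lf_eq, Finset.mul_sum]
  refine Finset.sum_congr rfl fun u _ => ?_
  rw [map_mul, mul_assoc]

theorem lf_sub (w w' : ν → B) : lf (fun u => w u - w' u) = lf w - lf w' := by
  rw [lf_eq, lf_eq, lf_eq, ← Finset.sum_sub_distrib]
  refine Finset.sum_congr rfl fun u _ => ?_
  rw [map_sub, sub_mul]

theorem lf_zero : lf (fun _ : ν => (0 : B)) = 0 := by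
  rw [lf_eq]; simp

end central

section PM

variable {B ν m : Type} [Ring B] [Fintype m] [DecidableEq m]

/-- Polynomials with matrix coefficients are matrices of polynomials. -/
noncomputable def PM : PA (Matrix m m B) ν →+* Matrix m m (PA B ν) :=
  liftNCRingHom (cst ν : B →+* PA B ν).mapMatrix
    ((Matrix.scalar m : PA B ν →+* Matrix m m (PA B ν)).toMonoidHom.comp (of B (ν →₀ ℕ)))
    (fun x α => (Matrix.scalar_commute (single α.toAdd (1 : B) : PA B ν)
      (fun r => single_one_comm _ r) _).symm)

theorem PM_single (α : ν →₀ ℕ) (M : Matrix m m B) :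
    PM (single α M) = Matrix.of fun p q => (single α (M p q) : PA B ν) := by
  have h : PM (single α M) = (cst ν : B →+* PA B ν).mapMatrix M *
      Matrix.scalar m (single α (1 : B)) := by
    unfold PM
    exact liftNCRingHom_single ..
  rw [h]
  apply Matrix.ext
  intro p q
  rw [Matrix.scalar_apply, Matrix.mul_diagonal]
  show cst ν (M p q) * single α 1 = single α (M p q)
  rw [cst_apply, single_mul_single, zero_add, mul_one]

theorem PM_coeff (f : PA (Matrix m m B) ν) (p q : m) (α : ν →₀ ℕ) :
    (PM f p q).coeff α = f.coeff α p q := by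
  classical
  induction f using AddMonoidAlgebra.induction_linear with
  | zero => rw [map_zero]; rfl
  | add x y hx hy =>
    rw [map_add, Matrix.add_apply, coeff_add, Finsupp.add_apply, hx, hy, coeff_add,
      Finsupp.add_apply, Matrix.add_apply]
  | single β M =>
    rw [PM_single, Matrix.of_apply, coeff_single, coeff_single, Finsupp.single_apply,
      Finsupp.single_apply]
    split_ifs <;> rfl

theorem PM_injective : Function.Injective (PM : PA (Matrix m m B) ν →+* Matrix m m (PA B ν)) := by
  intro f g h
  ext α p q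
  rw [← PM_coeff, h, PM_coeff]

theorem PM_mp_scalar (g : PA B ν) : PM (mp ν (Matrix.scalar m) g) = Matrix.scalar m g := by
  ext p q α
  rw [PM_coeff, mp_coeff, Matrix.scalar_apply, Matrix.scalar_apply, Matrix.diagonal_apply,
    Matrix.diagonal_apply]
  split_ifs <;> rfl

variable [Fintype ν]

theorem PM_lf (W : ν → Matrix m m B) :
    PM (lf W) = Matrix.of fun p q => lf (fun u => W u p q) := by
  unfold lf
  rw [map_sum]
  apply Matrix.ext
  intro p q
  rw [Matrix.sum_apply, Matrix.of_apply]
  refine Finset.sum_congr rfl fun u _ => ?_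
  rw [PM_single, Matrix.of_apply]

theorem PM_lf_blk {n : ℕ} [NeZero n] (om : B) (y : ν → B) (e : ℕ → ν → B) :
    PM (lf (fun u => blk (n := n) om (y u) (fun p => e p u))) =
      blk (cst ν om) (lf y) (fun p => lf (e p)) := by
  rw [PM_lf]
  apply Matrix.ext
  intro p q
  rw [Matrix.of_apply]
  simp only [blk]
  have h1 : lf (fun u => (if q = p then om ^ (p : ℕ) * y u else 0) +
      (if q = p + 1 then e p u else 0)) =
      lf (fun u => if q = p then om ^ (p : ℕ) * y u else 0) +
      lf (fun u => if q = p + 1 then e p u else 0) := lf_add _ _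
  rw [h1]
  refine congrArg₂ (· + ·) ?_ ?_
  · split_ifs
    · rw [lf_smul, map_pow]
    · exact lf_zero
  · split_ifs
    · rfl
    · exact lf_zero

theorem lf_blk_pow {n N : ℕ} [NeZero n] (hN : n = N) {om : B} {y : ν → B} {e : ℕ → ν → B}
    (hR : Rt N om) (hom : ∀ x, Commute om x) (hye : ∀ p, Commute (lf y) (lf (e p)))
    (he : ∀ p q, Commute (lf (e p)) (lf (e q))) :
    lf (fun u => blk (n := n) om (y u) (fun p => e p u)) ^ N =
      mp ν (Matrix.scalar (Fin n)) (lf y ^ N + ((List.range N).map (fun p => lf (e p))).prod) := by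
  subst hN
  apply PM_injective
  rw [map_pow, PM_lf_blk, PM_mp_scalar]
  exact blk_pow _ _ _ (hR.map (cst ν)) (fun x => cst_central hom x) hye he

theorem scalar_comm_blk {A : Type} [Ring A] {n : ℕ} [NeZero n] {om x y : A} {e : ℕ → A}
    (h1 : Commute x om) (h2 : Commute x y) (h3 : ∀ p, Commute x (e p)) :
    Commute (Matrix.scalar (Fin n) x) (blk (n := n) om y e) := by
  ext p q
  rw [Matrix.scalar_apply, Matrix.mul_diagonal, Matrix.diagonal_mul, blk, add_mul, mul_add]
  congr 1
  · split_ifs
    · exact ((h1.pow_right _).mul_right h2)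
    · simp
  · split_ifs
    · exact h3 _
    · simp

theorem comm_lf_blk {n : ℕ} [NeZero n] {om : B} {y : ν → B} {e : ℕ → ν → B} {x : PA B ν}
    (hom : ∀ x, Commute om x) (h2 : Commute x (lf y)) (h3 : ∀ p, Commute x (lf (e p))) :
    Commute (mp ν (Matrix.scalar (Fin n)) x)
      (lf (fun u => blk (n := n) om (y u) (fun p => e p u))) := by
  apply PM_injective
  rw [map_mul, map_mul, PM_lf_blk, PM_mp_scalar]
  exact scalar_comm_blk (cst_central hom x).symm h2 h3

end PM

section St

variable {I ι ν : Type} [DecidableEq I] [Fintype ν] (a : I → ℕ)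

/-- The commutation properties of a state. -/
structure Com {B : Type} [Ring B] (S : St I ι ν B) : Prop where
  om : ∀ i y, Commute (S.om i) y
  th : ∀ i l y, Commute (S.th i l) y
  tl : ∀ l y, Commute (S.tl l) y
  vec : ∀ k u y, Commute (S.vec k u) y
  WW : ∀ i j, Commute (lf (S.W i)) (lf (S.W j))
  WW0 : ∀ i j, Commute (lf (S.W i)) (lf (S.W0 j))
  W0W0 : ∀ i j, Commute (lf (S.W0 i)) (lf (S.W0 j))

/-- The `om i` come from primitive roots of unity. -/
def Root {B : Type} [Ring B] (S : St I ι ν B) : Prop :=
  ∃ (K : Type) (_ : CommRing K) (_ : IsDomain K) (f : K →+* B) (z : I → K),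
    (∀ i, S.om i = f (z i)) ∧ ∀ i, IsPrimitiveRoot (z i) (a i)

variable {a}

theorem Root.rt {B : Type} [Ring B] {S : St I ι ν B} (h : Root a S) (i : I) :
    Rt (a i) (S.om i) := by
  obtain ⟨K, _, _, f, z, h1, h2⟩ := h
  exact ⟨K, inferInstance, inferInstance, f, z i, (h1 i).symm, h2 i⟩

theorem Root.run {B : Type} [Ring B] {S : St I ι ν B} (h : Root a S) (s : Stp I ι) :
    Root a (run a s S) := by
  obtain ⟨K, _, _, f, z, h1, h2⟩ := h
  exact ⟨K, inferInstance, inferInstance, (Matrix.scalar (Sz a s)).comp f, z,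
    fun i => by
      show Matrix.scalar (Sz a s) (S.om i) = Matrix.scalar (Sz a s) (f (z i))
      rw [h1], h2⟩

variable {B : Type} [Ring B]

theorem lf_ent_mono (i : I) (k : ℕ → ι) (S : St I ι ν B) (p : ℕ) :
    lf (fun u => ent a (Stp.mono i k) S p u) = lf (S.vec (k p)) := rfl

theorem lf_ent_pair (i l : I) (S : St I ι ν B) (p : ℕ) :
    lf (fun u => ent a (Stp.pair i l) S p u) = (if p = a i - 1 then cst ν (S.th i l) else 1) *
      (cst ν (S.tl l) * lf (S.W l) - cst ν (S.om i) ^ (p + 1) * lf (S.W0 l)) := by
  show lf (fun u => (if p = a i - 1 then S.th i l else 1) *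
      (S.tl l * S.W l u - S.om i ^ (p + 1) * S.W0 l u)) = _
  rw [lf_smul, lf_sub, lf_smul, lf_smul, map_pow]
  congr 1
  split_ifs
  · rfl
  · exact map_one _

theorem Com.comm_ent {S : St I ι ν B} (h : Com S) (s : Stp I ι) (p : ℕ) {x : PA B ν}
    (h1 : ∀ j, Commute x (lf (S.W j))) (h2 : ∀ j, Commute x (lf (S.W0 j))) :
    Commute x (lf (fun u => ent a s S p u)) := by
  cases s with
  | mono i k =>
    rw [lf_ent_mono]
    exact (lf_central (h.vec (k p)) x).symm
  | pair i l =>
    rw [lf_ent_pair]
    refine Commute.mul_right ?_ (Commute.sub_right ?_ ?_)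
    · split_ifs
      · exact (cst_central (h.th i l) x).symm
      · exact Commute.one_right x
    · exact (cst_central (h.tl l) x).symm.mul_right (h1 l)
    · exact ((cst_central (h.om i) x).symm.pow_right _).mul_right (h2 l)

theorem lf_run_W_of_ne (s : Stp I ι) (S : St I ι ν B) {i : I} (h : i ≠ s.op) :
    lf ((run a s S).W i) = mp ν (Matrix.scalar (Sz a s)) (lf (S.W i)) := by
  rw [mp_lf]
  congr 1
  funext u
  exact run_W_of_ne a s S i h u

theorem lf_run_W0 (s : Stp I ι) (S : St I ι ν B) (i : I) :
    lf ((run a s S).W0 i) = mp ν (Matrix.scalar (Sz a s)) (lf (S.W0 i)) := by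
  rw [mp_lf]
  rfl

theorem lf_run_W_self (s : Stp I ι) (S : St I ι ν B) :
    lf ((run a s S).W s.op) = lf (fun u => blk (n := a s.op - 1 + 1) (S.om s.op) (S.W s.op u)
      (fun p => ent a s S p u)) := by
  congr 1
  funext u
  exact run_W_self a s S u

theorem Com.run {S : St I ι ν B} (h : Com S) (s : Stp I ι) : Com (run a s S) := by
  have hsc : ∀ {x : B} (_ : ∀ y, Commute x y) (y : Matrix (Sz a s) (Sz a s) B),
      Commute (Matrix.scalar (Sz a s) x) y := fun hx y => Matrix.scalar_commute _ (fun r => hx r) y
  -- everything from below commutes with the new point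
  have key : ∀ x : PA B ν, (∀ j, Commute x (lf (S.W j))) → (∀ j, Commute x (lf (S.W0 j))) →
      ∀ i, Commute (mp ν (Matrix.scalar (Sz a s)) x) (lf ((PO.run a s S).W i)) := by
    intro x h1 h2 i
    by_cases hi : i = s.op
    · subst hi
      rw [lf_run_W_self]
      exact comm_lf_blk (h.om _) (h1 _) (fun p => h.comm_ent s p h1 h2)
    · rw [lf_run_W_of_ne s S hi]
      exact (h1 i).map _
  refine ⟨fun i y => hsc (h.om i) y, fun i l y => hsc (h.th i l) y, fun l y => hsc (h.tl l) y,
    fun k u y => hsc (h.vec k u) y, fun i j => ?_, fun i j => ?_, fun i j => ?_⟩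
  · by_cases hi : i = s.op
    · by_cases hj : j = s.op
      · rw [hi, hj]
      · rw [lf_run_W_of_ne s S hj]
        exact (key _ (fun l => h.WW j l) (fun l => h.WW0 j l) i).symm
    · rw [lf_run_W_of_ne s S hi]
      exact key _ (fun l => h.WW i l) (fun l => h.WW0 i l) j
  · rw [lf_run_W0]
    exact (key _ (fun l => (h.WW0 l j).symm) (fun l => h.W0W0 j l) i).symm
  · rw [lf_run_W0, lf_run_W0]
    exact (h.W0W0 i j).map _

theorem Com.fin {S : St I ι ν B} (h : Com S) (Ls : List (Stp I ι)) : Com (fin a Ls S) := by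
  induction Ls generalizing B with
  | nil => exact h
  | cons s Ls ih => exact ih (h.run s)

variable (a) in
/-- The value of a step. -/
noncomputable def sval (s : Stp I ι) (S : St I ι ν B) : PA B ν :=
  ((List.range (a s.op)).map (fun p => lf (fun u => ent a s S p u))).prod

/-- one step -/
theorem lf_run_pow {S : St I ι ν B} (h : Com S) (hR : Root a S) (s : Stp I ι)
    (ha : 0 < a s.op) : lf ((run a s S).W s.op) ^ a s.op =
      mp ν (Matrix.scalar (Sz a s)) (lf (S.W s.op) ^ a s.op + sval a s S) := by
  rw [lf_run_W_self]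
  exact lf_blk_pow (n := a s.op - 1 + 1) (by omega) (hR.rt _) (h.om _)
    (fun p => h.comm_ent s p (fun j => h.WW _ j) (fun j => h.WW0 _ j))
    (fun p q => h.comm_ent s q (fun j => (h.comm_ent s p (fun l => h.WW j l)
      (fun l => h.WW0 j l)).symm) (fun j => (h.comm_ent s p (fun l => (h.WW0 l j).symm)
      (fun l => h.W0W0 j l)).symm))

/-- the value of a pair step -/
theorem sval_pair {S : St I ι ν B} (h : Com S) (hR : Root a S) (i l : I) (ha : 0 < a i) :
    sval a (Stp.pair i l) S = cst ν (S.th i l * S.tl l ^ a i) * lf (S.W l) ^ a i -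
      cst ν (S.th i l) * lf (S.W0 l) ^ a i := by
  have hth : ∀ x, Commute (cst ν (S.th i l)) x := fun x => cst_central (h.th i l) x
  have htl : ∀ x, Commute (cst ν (S.tl l)) x := fun x => cst_central (h.tl l) x
  have hom : ∀ x, Commute (cst ν (S.om i)) x := fun x => cst_central (h.om i) x
  set X := cst ν (S.tl l) * lf (S.W l) with hX
  set Y := cst ν (S.om i) * lf (S.W0 l) with hY
  have hXY : Commute X Y := by
    refine Commute.mul_left (htl _) (Commute.mul_right (hom _).symm (h.WW0 l l))
  have h1 := prod_sub ha ((hR.rt i).map (cst ν)) hom hXY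
  have h2 : ∀ n : ℕ, 0 < n → ∀ F : ℕ → PA B ν,
      ((List.range n).map (fun p => (if p = n - 1 then cst ν (S.th i l) else 1) * F p)).prod =
      cst ν (S.th i l) * ((List.range n).map F).prod := by
    intro n hn F
    obtain ⟨n, rfl⟩ : ∃ m, n = m + 1 := ⟨n - 1, by omega⟩
    rw [List.range_succ, List.map_append, List.map_append, List.prod_append, List.prod_append]
    simp only [List.map_cons, List.map_nil, List.prod_cons, List.prod_nil, mul_one,
      Nat.add_sub_cancel, if_true]
    have h3 : (List.range n).map (fun p => (if p = n then cst ν (S.th i l) else 1) * F p) =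
        (List.range n).map F := by
      refine List.map_congr_left fun p hp => ?_
      rw [List.mem_range] at hp
      rw [if_neg (by omega), one_mul]
    rw [h3, ← mul_assoc, ← mul_assoc, (hth _).eq]
  have h3 : sval a (Stp.pair i l) S = cst ν (S.th i l) *
      ((List.range (a i)).map (fun p => X - cst ν (S.om i) ^ p * Y)).prod := by
    rw [← h2 (a i) ha]
    unfold sval
    rw [Stp.op_pair]
    congr 1
    refine List.map_congr_left fun p _ => ?_
    rw [lf_ent_pair, hX, hY, pow_succ, mul_assoc]
  have h4 : X ^ a i = cst ν (S.tl l ^ a i) * lf (S.W l) ^ a i := by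
    rw [hX, (htl _).mul_pow, ← map_pow]
  have h5 : Y ^ a i = lf (S.W0 l) ^ a i := by
    rw [hY, (hom _).mul_pow, ← map_pow, (hR.rt i).pow, map_one, one_mul]
  rw [h3, h1, mul_sub, h4, h5, map_mul, mul_assoc]

end St

end Crest.Agent.R181.PO
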