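import Crest.Agent.R181.VAL279b

/-!
R181 (helper279), block B9: the value theorem.
-/

set_option autoImplicit false
set_option linter.unusedSectionVars false

namespace Crest.Agent.R181.PO

open UR AddMonoidAlgebra

section

variable {I ι ν : Type} [DecidableEq I] [Fintype ν] {a : I → ℕ}

theorem sc_cons {B : Type} [Ring B] (s : Stp I ι) (Ls : List (Stp I ι)) (x : PA B ν) :
    mp ν (sc a (s :: Ls)) x = mp ν (sc a Ls) (mp ν (Matrix.scalar (Sz a s)) x) := by
  rw [mp_comp]
  rfl

theorem lf_fin_W (Ls : List (Stp I ι)) (i : I) (h : ∀ s ∈ Ls, i ≠ s.op) {B : Type} [Ring B]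
    (S : St I ι ν B) : lf ((fin a Ls S).W i) = mp ν (sc a Ls) (lf (S.W i)) := by
  rw [mp_lf]
  congr 1
  funext u
  exact fin_W a Ls i h S u

/-- the value of a later step does not change -/
theorem sval_run {B : Type} [Ring B] (s s' : Stp I ι)
    (h : ∀ i l, s' = Stp.pair i l → l ≠ s.op) (S : St I ι ν B) :
    sval a s' (run a s S) = mp ν (Matrix.scalar (Sz a s)) (sval a s' S) := by
  unfold sval
  rw [map_list_prod, List.map_map]
  congr 1
  refine List.map_congr_left fun p _ => ?_
  rw [Function.comp_apply, mp_lf]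
  congr 1
  funext u
  cases s' with
  | mono i k => rfl
  | pair i l =>
    simp only [ent]
    rw [run_W_of_ne a s S l (h i l rfl)]
    show (if p = a i - 1 then Matrix.scalar (Sz a s) (S.th i l) else 1) *
      (Matrix.scalar (Sz a s) (S.tl l) * Matrix.scalar (Sz a s) (S.W l u) -
        Matrix.scalar (Sz a s) (S.om i) ^ (p + 1) * Matrix.scalar (Sz a s) (S.W0 l u)) = _
    rw [map_mul, map_sub, map_mul, map_mul, map_pow]
    split_ifs
    · rfl
    · rw [map_one]

/-- the steps of one operator -/
theorem lf_fin_pow (i : I) (hi : 0 < a i) (Ls2 : List (Stp I ι)) (h2 : ∀ s ∈ Ls2, i ≠ s.op)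
    (Ls1 : List (Stp I ι)) (h1 : ∀ s ∈ Ls1, s.op = i) (h1' : ∀ j l, Stp.pair j l ∈ Ls1 → l ≠ i) :
    ∀ {B : Type} [Ring B] {S : St I ι ν B}, Com S → Root a S →
    lf ((fin a (Ls1 ++ Ls2) S).W i) ^ a i =
      mp ν (sc a (Ls1 ++ Ls2)) (lf (S.W i) ^ a i + (Ls1.map (fun s => sval a s S)).sum) := by
  induction Ls1 with
  | nil =>
    intro B _ S _ _
    rw [List.nil_append, lf_fin_W Ls2 i h2, List.map_nil, List.sum_nil, add_zero, map_pow]
  | cons s Ls1 ih =>
    intro B _ S hC hR
    have hs : s.op = i := h1 s List.mem_cons_self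
    have h3 := ih (fun s' hs' => h1 s' (List.mem_cons_of_mem _ hs'))
      (fun j l hl => h1' j l (List.mem_cons_of_mem _ hl)) (hC.run s) (hR.run s)
    have h4 : ∀ j, s.op = j → 0 < a j → lf ((run a s S).W j) ^ a j =
        mp ν (Matrix.scalar (Sz a s)) (lf (S.W j) ^ a j + sval a s S) := by
      rintro _ rfl h
      exact lf_run_pow hC hR s h
    have h4 := h4 i hs hi
    have h5 : (Ls1.map (fun s' => sval a s' (run a s S))).sum =
        mp ν (Matrix.scalar (Sz a s)) (Ls1.map (fun s' => sval a s' S)).sum := by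
      rw [map_list_sum, List.map_map]
      congr 1
      refine List.map_congr_left fun s' hs' => ?_
      refine sval_run s s' (fun j l hjl => ?_) S
      rw [hs]
      exact h1' j l (List.mem_cons_of_mem _ (hjl ▸ hs'))
    rw [h4, h5, ← map_add] at h3
    rw [List.cons_append, sc_cons, List.map_cons, List.sum_cons, ← add_assoc]
    exact h3

theorem value1 (i : I) (hi : 0 < a i) (ks : List (ℕ → ι)) (ls : List I) (hls : ∀ l ∈ ls, l ≠ i)
    (post : List (Stp I ι)) (hpost : ∀ s ∈ post, i ≠ s.op ∧ ∀ l ∈ ls, l ≠ s.op)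
    (pre : List (Stp I ι)) (hpre : ∀ s ∈ pre, i ≠ s.op) :
    ∀ {B : Type} [Ring B] {S : St I ι ν B} (q : PA B ν), Com S → Root a S → S.W i = S.W0 i →
    lf (S.W0 i) ^ a i = q + (ls.map (fun l => cst ν (S.th i l) * lf (S.W0 l) ^ a i)).sum →
    lf ((fin a (pre ++ ((ks.map (Stp.mono i) ++ ls.map (Stp.pair i)) ++ post)) S).W i) ^ a i =
      mp ν (sc a (pre ++ ((ks.map (Stp.mono i) ++ ls.map (Stp.pair i)) ++ post)))
        (q + (ks.map (fun k => ((List.range (a i)).map (fun p => lf (S.vec (k p)))).prod)).sum) +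
      (ls.map (fun l => cst ν (sc a (pre ++ ((ks.map (Stp.mono i) ++ ls.map (Stp.pair i)) ++ post))
        (S.th i l * S.tl l ^ a i)) *
          lf ((fin a (pre ++ ((ks.map (Stp.mono i) ++ ls.map (Stp.pair i)) ++ post)) S).W l) ^
            a i)).sum := by
  induction pre with
  | nil =>
    intro B _ S q hC hR hW h0
    have h3 := lf_fin_pow i hi post (fun s hs => (hpost s hs).1)
      (ks.map (Stp.mono i) ++ ls.map (Stp.pair i)) (fun s hs => by
        rcases List.mem_append.1 hs with h | h
        · obtain ⟨k, _, rfl⟩ := List.mem_map.1 h; rfl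
        · obtain ⟨l, _, rfl⟩ := List.mem_map.1 h; rfl) (fun j l hl => by
        rcases List.mem_append.1 hl with h | h
        · obtain ⟨k, _, hk⟩ := List.mem_map.1 h; cases hk
        · obtain ⟨l', hl', hk⟩ := List.mem_map.1 h
          cases hk
          exact hls l hl') hC hR
    rw [List.nil_append]
    rw [h3, hW, h0]
    have h4 : ∀ l ∈ ls, lf ((fin a ((ks.map (Stp.mono i) ++ ls.map (Stp.pair i)) ++ post) S).W l) =
        mp ν (sc a ((ks.map (Stp.mono i) ++ ls.map (Stp.pair i)) ++ post)) (lf (S.W l)) := by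
      intro l hl
      refine lf_fin_W _ l (fun s hs => ?_) S
      rcases List.mem_append.1 hs with h | h
      · rcases List.mem_append.1 h with h | h
        · obtain ⟨k, _, rfl⟩ := List.mem_map.1 h; exact hls l hl
        · obtain ⟨k, _, rfl⟩ := List.mem_map.1 h; exact hls l hl
      · exact (hpost s h).2 l hl
    have h5 : (ls.map (fun l => cst ν (sc a ((ks.map (Stp.mono i) ++ ls.map (Stp.pair i)) ++ post)
        (S.th i l * S.tl l ^ a i)) *
          lf ((fin a ((ks.map (Stp.mono i) ++ ls.map (Stp.pair i)) ++ post) S).W l) ^ a i)).sum =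
        mp ν (sc a ((ks.map (Stp.mono i) ++ ls.map (Stp.pair i)) ++ post))
          (ls.map (fun l => cst ν (S.th i l * S.tl l ^ a i) * lf (S.W l) ^ a i)).sum := by
      rw [map_list_sum, List.map_map]
      congr 1
      refine List.map_congr_left fun l hl => ?_
      rw [h4 l hl, Function.comp_apply, map_mul (mp ν _), map_pow (mp ν _), mp_cst]
    rw [h5, ← map_add]
    congr 1
    rw [List.map_append, List.sum_append, List.map_map, List.map_map]
    have h6 : (ls.map ((fun s => sval a s S) ∘ Stp.pair i)).sum =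
        (ls.map (fun l => cst ν (S.th i l * S.tl l ^ a i) * lf (S.W l) ^ a i)).sum -
          (ls.map (fun l => cst ν (S.th i l) * lf (S.W0 l) ^ a i)).sum := by
      clear h5 h4 h3 h0 hpost
      induction ls with
      | nil => simp
      | cons l ls ih =>
        rw [List.map_cons, List.sum_cons, ih (fun l' hl' => hls l' (List.mem_cons_of_mem _ hl')),
          Function.comp_apply, sval_pair hC hR i l hi, List.map_cons, List.sum_cons, List.map_cons,
          List.sum_cons]
        abel
    rw [h6]
    have h7 : ks.map ((fun s => sval a s S) ∘ Stp.mono i) =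
        ks.map (fun k => ((List.range (a i)).map (fun p => lf (S.vec (k p)))).prod) := rfl
    rw [h7]
    abel
  | cons s pre ih =>
    intro B _ S q hC hR hW h0
    have hs : i ≠ s.op := hpre s List.mem_cons_self
    have h3 := ih (fun s' hs' => hpre s' (List.mem_cons_of_mem _ hs'))
      (mp ν (Matrix.scalar (Sz a s)) q) (hC.run s) (hR.run s) (by
        funext u
        rw [run_W_of_ne a s S i hs, hW]
        rfl) (by
        rw [lf_run_W0, ← map_pow, h0, map_add, map_list_sum, List.map_map]
        congr 2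
        refine List.map_congr_left fun l _ => ?_
        rw [Function.comp_apply, map_mul, map_pow, mp_cst, lf_run_W0]
        rfl)
    have h4 : (ks.map (fun k => ((List.range (a i)).map
        (fun p => lf ((run a s S).vec (k p)))).prod)).sum = mp ν (Matrix.scalar (Sz a s))
        (ks.map (fun k => ((List.range (a i)).map (fun p => lf (S.vec (k p)))).prod)).sum := by
      rw [map_list_sum, List.map_map]
      congr 1
      refine List.map_congr_left fun k _ => ?_
      rw [Function.comp_apply, map_list_prod, List.map_map]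
      congr 1
      refine List.map_congr_left fun p _ => ?_
      rw [Function.comp_apply, mp_lf]
      rfl
    have h5 : ∀ l, (run a s S).th i l * (run a s S).tl l ^ a i =
        Matrix.scalar (Sz a s) (S.th i l * S.tl l ^ a i) := by
      intro l
      rw [map_mul, map_pow]
      rfl
    simp only [h5] at h3
    rw [h4, ← map_add] at h3
    rw [List.cons_append, sc_cons]
    exact h3

/-- **The value theorem.** -/
theorem value [LinearOrder I] {B : Type} [Ring B] {S : St I ι ν B} (hC : Com S) (hR : Root a S)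
    (ha : ∀ i, 1 ≤ a i) (ml : I → List (ℕ → ι)) (pl : I → List I) (ops : List I)
    (hops : ops.Pairwise (fun x y => y < x)) (hpl : ∀ i, ∀ l ∈ pl i, i < l)
    (q : I → PA B ν) (hW : S.W = S.W0)
    (h0 : ∀ i ∈ ops, lf (S.W0 i) ^ a i =
      q i + ((pl i).map (fun l => cst ν (S.th i l) * lf (S.W0 l) ^ a i)).sum) :
    ∀ i ∈ ops, lf ((fin a (allSteps ml pl ops) S).W i) ^ a i =
      mp ν (sc a (allSteps ml pl ops)) (q i + ((ml i).map (fun k =>
        ((List.range (a i)).map (fun p => lf (S.vec (k p)))).prod)).sum) +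
      ((pl i).map (fun l => cst ν (sc a (allSteps ml pl ops) (S.th i l * S.tl l ^ a i)) *
        lf ((fin a (allSteps ml pl ops) S).W l) ^ a i)).sum := by
  intro i hi
  obtain ⟨pre, post, rfl⟩ := List.append_of_mem hi
  have h1 : allSteps ml pl (pre ++ i :: post) = allSteps ml pl pre ++
      (((ml i).map (Stp.mono i) ++ (pl i).map (Stp.pair i)) ++ allSteps ml pl post) := by
    unfold allSteps
    rw [List.flatMap_append, List.flatMap_cons]
    rfl
  have hop : ∀ (ops : List I), ∀ s ∈ allSteps ml pl ops, s.op ∈ ops := by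
    intro ops s hs
    unfold allSteps at hs
    rw [List.mem_flatMap] at hs
    obtain ⟨j, hj, hs⟩ := hs
    rcases List.mem_append.1 hs with h | h
    · obtain ⟨k, _, rfl⟩ := List.mem_map.1 h; exact hj
    · obtain ⟨k, _, rfl⟩ := List.mem_map.1 h; exact hj
  rw [List.pairwise_append] at hops
  obtain ⟨-, h2, h3⟩ := hops
  rw [List.pairwise_cons] at h2
  rw [h1]
  exact value1 i (ha i) (ml i) (pl i) (fun l hl => (hpl i l hl).ne') (allSteps ml pl post)
    (fun s hs => ⟨(h2.1 _ (hop _ s hs)).ne', fun l hl =>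
      ((h2.1 _ (hop _ s hs)).trans (hpl i l hl)).ne'⟩) (allSteps ml pl pre)
    (fun s hs => (h3 _ (hop _ s hs) _ List.mem_cons_self).ne) (q i) hC hR (by rw [hW]) (h0 i hi)

end

end Crest.Agent.R181.PO
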