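import Mathlib

/-!
R181, V-chain, block V2b (helper789): noncommutative snake lemma, column-finite matrices and the
functors `Fr X = (right-free module with left T-action) ⊗ X`.
-/

set_option autoImplicit false

namespace Crest.Agent.R181.VB

universe u

/-! ### snake lemma over a noncommutative ring -/

section snake

variable {T : Type*} [Ring T] {X' X X'' Z' Z Z'' : Type*}
  [AddCommGroup X'] [Module T X'] [AddCommGroup X] [Module T X] [AddCommGroup X'']
  [Module T X''] [AddCommGroup Z'] [Module T Z'] [AddCommGroup Z] [Module T Z]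
  [AddCommGroup Z''] [Module T Z'']

/-- a map of short exact sequences -/
structure SES2 (i : X' →ₗ[T] X) (q : X →ₗ[T] X'') (j : Z' →ₗ[T] Z) (r : Z →ₗ[T] Z'')
    (d' : X' →ₗ[T] Z') (d : X →ₗ[T] Z) (d'' : X'' →ₗ[T] Z'') : Prop where
  i_inj : Function.Injective i
  q_surj : Function.Surjective q
  ex : Function.Exact i q
  j_inj : Function.Injective j
  r_surj : Function.Surjective r
  ex' : Function.Exact j r
  c1 : ∀ x, d (i x) = j (d' x)
  c2 : ∀ x, d'' (q x) = r (d x)

variable {i : X' →ₗ[T] X} {q : X →ₗ[T] X''} {j : Z' →ₗ[T] Z} {r : Z →ₗ[T] Z''}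
  {d' : X' →ₗ[T] Z'} {d : X →ₗ[T] Z} {d'' : X'' →ₗ[T] Z''}

namespace SES2

/-- `{x | d x ∈ j Z'}` -/
def S (_h : SES2 i q j r d' d d'') : Submodule T X := (LinearMap.range j).comap d

theorem mem_S (h : SES2 i q j r d' d d'') {x : X} : x ∈ h.S ↔ ∃ z, j z = d x := Iff.rfl

/-- `S → ker d''` -/
def toKer (h : SES2 i q j r d' d d'') : h.S →ₗ[T] LinearMap.ker d'' :=
  (q.comp h.S.subtype).codRestrict _ (by
    rintro ⟨x, z, hz⟩
    rw [LinearMap.mem_ker]
    simp only [LinearMap.comp_apply, Submodule.subtype_apply]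
    rw [h.c2, ← hz]
    exact h.ex'.apply_apply_eq_zero z)

theorem toKer_apply (h : SES2 i q j r d' d d'') (x : h.S) :
    ((h.toKer x : LinearMap.ker d'') : X'') = q x := rfl

theorem toKer_surjective (h : SES2 i q j r d' d d'') : Function.Surjective h.toKer := by
  rintro ⟨x, hx⟩
  obtain ⟨y, rfl⟩ := h.q_surj x
  rw [LinearMap.mem_ker, h.c2] at hx
  exact ⟨⟨y, (h.ex' _).1 hx⟩, rfl⟩

/-- `S → coker d'` -/
noncomputable def toCoker (h : SES2 i q j r d' d d'') : h.S →ₗ[T] (Z' ⧸ LinearMap.range d') :=
  (LinearMap.range d').mkQ.comp ((LinearEquiv.ofInjective j h.j_inj).symm.toLinearMap.comp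
    ((d.comp h.S.subtype).codRestrict (LinearMap.range j) (fun x => x.2)))

theorem toCoker_apply (h : SES2 i q j r d' d d'') (x : h.S) (z : Z') (hz : j z = d x) :
    h.toCoker x = (LinearMap.range d').mkQ z := by
  simp only [toCoker, LinearMap.comp_apply]
  congr 1
  rw [LinearEquiv.coe_coe, LinearEquiv.symm_apply_eq]
  apply Subtype.ext
  exact hz.symm

theorem ker_toKer_le (h : SES2 i q j r d' d d'') :
    LinearMap.ker h.toKer ≤ LinearMap.ker h.toCoker := by
  rintro ⟨x, z, hz⟩ hx
  rw [LinearMap.mem_ker] at hx ⊢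
  have h1 : q x = 0 := congrArg Subtype.val hx
  obtain ⟨x', rfl⟩ := (h.ex _).1 h1
  rw [h.toCoker_apply _ (d' x') (h.c1 x').symm]
  simp

/-- the connecting map -/
noncomputable def δ (h : SES2 i q j r d' d d'') :
    LinearMap.ker d'' →ₗ[T] (Z' ⧸ LinearMap.range d') :=
  ((LinearMap.ker h.toKer).liftQ h.toCoker h.ker_toKer_le).comp
    (h.toKer.quotKerEquivOfSurjective h.toKer_surjective).symm.toLinearMap

theorem δ_apply (h : SES2 i q j r d' d d'') (x : X) (z : Z') (hz : j z = d x)
    (hq : d'' (q x) = 0) :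
    h.δ ⟨q x, hq⟩ = (LinearMap.range d').mkQ z := by
  have h1 : (h.toKer.quotKerEquivOfSurjective h.toKer_surjective).symm ⟨q x, hq⟩ =
      Submodule.Quotient.mk ⟨x, ⟨z, hz⟩⟩ := by
    rw [LinearEquiv.symm_apply_eq]
    rfl
  simp only [δ, LinearMap.comp_apply, LinearEquiv.coe_coe]
  rw [h1]
  simp only [Submodule.liftQ_apply]
  exact h.toCoker_apply _ z hz

/-- `coker d' → coker d` -/
def cokerMap (h : SES2 i q j r d' d d'') :
    (Z' ⧸ LinearMap.range d') →ₗ[T] (Z ⧸ LinearMap.range d) :=
  Submodule.mapQ _ _ j (by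
    rintro _ ⟨x, rfl⟩
    exact ⟨i x, h.c1 x⟩)

/-- `coker d → coker d''` -/
def cokerMap' (h : SES2 i q j r d' d d'') :
    (Z ⧸ LinearMap.range d) →ₗ[T] (Z'' ⧸ LinearMap.range d'') :=
  Submodule.mapQ _ _ r (by
    rintro _ ⟨x, rfl⟩
    exact ⟨q x, h.c2 x⟩)

/-- `ker d' → ker d` -/
def kerMap (h : SES2 i q j r d' d d'') : LinearMap.ker d' →ₗ[T] LinearMap.ker d :=
  (i.comp (LinearMap.ker d').subtype).codRestrict _ (by
    rintro ⟨x, hx⟩
    rw [LinearMap.mem_ker] at hx ⊢
    simp [h.c1, hx])

/-- `ker d → ker d''` -/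
def kerMap' (h : SES2 i q j r d' d d'') : LinearMap.ker d →ₗ[T] LinearMap.ker d'' :=
  (q.comp (LinearMap.ker d).subtype).codRestrict _ (by
    rintro ⟨x, hx⟩
    rw [LinearMap.mem_ker] at hx ⊢
    simp [h.c2, hx])

theorem kerMap_injective (h : SES2 i q j r d' d d'') : Function.Injective h.kerMap := by
  intro a b hab
  exact Subtype.ext (h.i_inj (congrArg Subtype.val hab))

theorem exact_ker (h : SES2 i q j r d' d d'') : Function.Exact h.kerMap h.kerMap' := by
  rintro ⟨x, hx⟩
  constructor
  · intro hq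
    have h1 : q x = 0 := congrArg Subtype.val hq
    obtain ⟨x', rfl⟩ := (h.ex _).1 h1
    rw [LinearMap.mem_ker, h.c1] at hx
    exact ⟨⟨x', h.j_inj (by rw [hx, map_zero])⟩, rfl⟩
  · rintro ⟨⟨y, hy⟩, hyx⟩
    have h1 : i y = x := congrArg Subtype.val hyx
    apply Subtype.ext
    change q x = 0
    rw [← h1]; exact h.ex.apply_apply_eq_zero y

theorem exact_δ_left (h : SES2 i q j r d' d d'') : Function.Exact h.kerMap' h.δ := by
  rintro ⟨x'', hx''⟩
  constructor
  · intro h0
    obtain ⟨x, rfl⟩ := h.q_surj x''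
    have h1 : r (d x) = 0 := by rw [← h.c2]; exact hx''
    obtain ⟨z, hz⟩ := (h.ex' _).1 h1
    rw [h.δ_apply x z hz hx'', Submodule.mkQ_apply, Submodule.Quotient.mk_eq_zero] at h0
    obtain ⟨x', rfl⟩ := h0
    refine ⟨⟨x - i x', ?_⟩, ?_⟩
    · rw [LinearMap.mem_ker, map_sub, h.c1, hz, sub_self]
    · apply Subtype.ext
      change q (x - i x') = q x
      rw [map_sub, h.ex.apply_apply_eq_zero, sub_zero]
  · rintro ⟨⟨x, hx⟩, hxx⟩
    have h1 : q x = x'' := congrArg Subtype.val hxx
    subst h1
    rw [LinearMap.mem_ker] at hx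
    rw [h.δ_apply x 0 (by rw [hx, map_zero]) hx'', map_zero]

theorem exact_δ_right (h : SES2 i q j r d' d d'') : Function.Exact h.δ h.cokerMap := by
  intro z
  obtain ⟨z, rfl⟩ := Submodule.mkQ_surjective _ z
  constructor
  · intro h0
    have h1 : j z ∈ LinearMap.range d := by
      rw [← Submodule.Quotient.mk_eq_zero]
      exact h0
    obtain ⟨x, hx⟩ := h1
    have h2 : d'' (q x) = 0 := by rw [h.c2, hx]; exact h.ex'.apply_apply_eq_zero z
    exact ⟨⟨q x, h2⟩, h.δ_apply x z hx.symm h2⟩
  · rintro ⟨⟨x'', hx''⟩, hx⟩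
    obtain ⟨x, rfl⟩ := h.q_surj x''
    have h1 : r (d x) = 0 := by rw [← h.c2]; exact hx''
    obtain ⟨z', hz'⟩ := (h.ex' _).1 h1
    rw [h.δ_apply x z' hz' hx''] at hx
    rw [← hx]
    change (Submodule.mkQ (LinearMap.range d)) (j z') = 0
    rw [hz', Submodule.mkQ_apply, Submodule.Quotient.mk_eq_zero]
    exact ⟨x, rfl⟩

theorem exact_coker (h : SES2 i q j r d' d d'') : Function.Exact h.cokerMap h.cokerMap' := by
  intro z
  obtain ⟨z, rfl⟩ := Submodule.mkQ_surjective _ z
  constructor
  · intro h0
    have h1 : r z ∈ LinearMap.range d'' := by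
      rw [← Submodule.Quotient.mk_eq_zero]
      exact h0
    obtain ⟨x'', hx⟩ := h1
    obtain ⟨x, rfl⟩ := h.q_surj x''
    have h2 : r (z - d x) = 0 := by rw [map_sub, ← h.c2, hx, sub_self]
    obtain ⟨z', hz'⟩ := (h.ex' _).1 h2
    refine ⟨(LinearMap.range d').mkQ z', ?_⟩
    change (Submodule.mkQ (LinearMap.range d)) (j z') = Submodule.mkQ _ z
    rw [hz', map_sub]
    have : (LinearMap.range d).mkQ (d x) = 0 := by
      rw [Submodule.mkQ_apply, Submodule.Quotient.mk_eq_zero]; exact ⟨x, rfl⟩
    rw [this, sub_zero]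
  · rintro ⟨z', hz'⟩
    obtain ⟨z', rfl⟩ := Submodule.mkQ_surjective _ z'
    rw [← hz']
    change (Submodule.mkQ (LinearMap.range d'')) (r (j z')) = 0
    rw [h.ex'.apply_apply_eq_zero, map_zero]

theorem cokerMap'_surjective (h : SES2 i q j r d' d d'') : Function.Surjective h.cokerMap' := by
  intro z
  obtain ⟨z, rfl⟩ := Submodule.mkQ_surjective _ z
  obtain ⟨y, rfl⟩ := h.r_surj z
  exact ⟨(LinearMap.range d).mkQ y, rfl⟩

theorem cokerMap_injective (h : SES2 i q j r d' d d'') (h0 : Function.Injective d'') :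
    Function.Injective h.cokerMap := by
  rw [injective_iff_map_eq_zero]
  intro z hz
  obtain ⟨⟨x, hx⟩, rfl⟩ := (h.exact_δ_right z).1 hz
  have : x = 0 := h0 (by rw [map_zero]; exact hx)
  subst this
  exact map_zero _

theorem δ_injective (h : SES2 i q j r d' d d'') (h0 : Function.Injective d) :
    Function.Injective h.δ := by
  rw [injective_iff_map_eq_zero]
  intro z hz
  obtain ⟨⟨x, hx⟩, rfl⟩ := (h.exact_δ_left z).1 hz
  have : x = 0 := h0 (by rw [map_zero]; exact hx)
  subst this
  exact map_zero _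

theorem injective_of (h : SES2 i q j r d' d d'') (h0 : Function.Injective d) :
    Function.Injective d' := by
  intro a b hab
  apply h.i_inj
  apply h0
  rw [h.c1, h.c1, hab]

end SES2

end snake

/-! ### column-finite matrices -/

section cols

variable {W : Type*} {R : Type*} [Ring R]

/-- `x ↦ c x` for a column `c` -/
noncomputable def col {X : Type*} [AddCommGroup X] [Module R X] (c : W →₀ R) : X →+ (W →₀ X) where
  toFun x := c.mapRange (fun r => r • x) (zero_smul R x)
  map_zero' := by ext w; simp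
  map_add' x y := by ext w; simp

@[simp] theorem col_apply {X : Type*} [AddCommGroup X] [Module R X] (c : W →₀ R) (x : X) (w : W) :
    col c x w = c w • x := rfl

theorem col_add {X : Type*} [AddCommGroup X] [Module R X] (c c' : W →₀ R) (x : X) :
    col (c + c') x = col c x + col c' x := by
  ext w; simp [add_smul]

/-- the action of a column-finite matrix -/
noncomputable def act {X : Type*} [AddCommGroup X] [Module R X] (m : W → (W →₀ R)) :
    (W →₀ X) →+ (W →₀ X) :=
  Finsupp.liftAddHom fun w => col (m w)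

@[simp] theorem act_single {X : Type*} [AddCommGroup X] [Module R X] (m : W → (W →₀ R)) (w : W)
    (x : X) : act m (Finsupp.single w x) = col (m w) x := by
  simp [act]

theorem act_one {X : Type*} [AddCommGroup X] [Module R X] (f : W →₀ X) :
    act (fun w => Finsupp.single w (1 : R)) f = f := by
  classical
  induction f using Finsupp.induction_linear with
  | zero => simp
  | add f g hf hg => rw [map_add, hf, hg]
  | single w x =>
    rw [act_single]
    ext w'
    rw [col_apply, Finsupp.single_apply, Finsupp.single_apply]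
    split_ifs <;> simp

/-- product of column-finite matrices -/
noncomputable def cmul (m n : W → (W →₀ R)) : W → (W →₀ R) := fun w => act m (n w)

theorem act_col {X : Type*} [AddCommGroup X] [Module R X] (m : W → (W →₀ R)) (c : W →₀ R)
    (x : X) : act m (col c x) = col (act m c) x := by
  induction c using Finsupp.induction_linear with
  | zero =>
    have : col (0 : W →₀ R) x = 0 := by ext w; simp
    rw [this, map_zero, map_zero, this]
  | add f g hf hg => rw [col_add, map_add, hf, hg, map_add, col_add]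
  | single w r =>
    have h1 : col (Finsupp.single w r) x = Finsupp.single w (r • x) := by
      classical
      ext w'
      rw [col_apply, Finsupp.single_apply, Finsupp.single_apply]
      split_ifs <;> simp
    rw [h1, act_single, act_single]
    ext w'
    simp [mul_smul]

theorem act_cmul {X : Type*} [AddCommGroup X] [Module R X] (m n : W → (W →₀ R)) (f : W →₀ X) :
    act (cmul m n) f = act m (act n f) := by
  induction f using Finsupp.induction_linear with
  | zero => simp
  | add f g hf hg => simp only [map_add, hf, hg]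
  | single w x => rw [act_single, act_single, act_col, cmul]

theorem act_add {X : Type*} [AddCommGroup X] [Module R X] (m n : W → (W →₀ R)) (f : W →₀ X) :
    act (fun w => m w + n w) f = act m f + act n f := by
  induction f using Finsupp.induction_linear with
  | zero => simp
  | add f g hf hg => simp only [map_add, hf, hg]; abel
  | single w x => simp only [act_single, col_add]

/-- `act` commutes with `R`-linear maps -/
theorem act_map {X Y : Type*} [AddCommGroup X] [Module R X] [AddCommGroup Y] [Module R Y]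
    (m : W → (W →₀ R)) (g : X →ₗ[R] Y) (f : W →₀ X) :
    act m (f.mapRange g (map_zero g)) = (act m f).mapRange g (map_zero g) := by
  induction f using Finsupp.induction_linear with
  | zero => simp
  | add f f' hf hf' =>
    rw [Finsupp.mapRange_add (fun a b => map_add g a b), map_add, map_add, hf, hf',
      Finsupp.mapRange_add (fun a b => map_add g a b)]
  | single w x =>
    rw [Finsupp.mapRange_single, act_single, act_single]
    ext w'
    simp

/-- a left `T`-action on the free right `R`-module on `W` -/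
structure Rep (T : Type*) [Ring T] (R : Type*) [Ring R] (W : Type*) where
  m : T → W → (W →₀ R)
  m_one : ∀ w, m 1 w = Finsupp.single w 1
  m_add : ∀ s t w, m (s + t) w = m s w + m t w
  m_mul : ∀ s t w, m (s * t) w = act (m s) (m t w)

end cols

section Fr

variable {T : Type*} [Ring T] {R : Type*} [Ring R] {W : Type*}

/-- `Fr ρ X = (right free module on W) ⊗_R X` with its left `T`-action -/
def Fr (_ρ : Rep T R W) (X : Type*) [AddCommGroup X] : Type _ := W →₀ X

noncomputable instance (ρ : Rep T R W) (X : Type*) [AddCommGroup X] : AddCommGroup (Fr ρ X) :=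
  inferInstanceAs (AddCommGroup (W →₀ X))

theorem Rep.m_zero (ρ : Rep T R W) (w : W) : ρ.m 0 w = 0 := by
  have := ρ.m_add 0 0 w
  rw [add_zero] at this
  simpa using this

noncomputable instance (ρ : Rep T R W) (X : Type*) [AddCommGroup X] [Module R X] :
    Module T (Fr ρ X) where
  smul t f := act (ρ.m t) f
  one_smul f := by
    change act (ρ.m 1) f = f
    have : ρ.m 1 = fun w => Finsupp.single w 1 := funext ρ.m_one
    rw [this]
    exact act_one f
  mul_smul s t f := by
    change act (ρ.m (s * t)) f = act (ρ.m s) (act (ρ.m t) f)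
    have : ρ.m (s * t) = cmul (ρ.m s) (ρ.m t) := funext (ρ.m_mul s t)
    rw [this]
    exact act_cmul (ρ.m s) (ρ.m t) (f : W →₀ X)
  smul_zero t := map_zero (act (ρ.m t))
  smul_add t f g := map_add (act (ρ.m t)) f g
  add_smul s t f := by
    change act (ρ.m (s + t)) f = act (ρ.m s) f + act (ρ.m t) f
    have : ρ.m (s + t) = fun w => ρ.m s w + ρ.m t w := funext (ρ.m_add s t)
    rw [this]
    exact act_add (ρ.m s) (ρ.m t) (f : W →₀ X)
  zero_smul f := by
    change act (ρ.m 0) f = 0
    have h1 : ρ.m 0 = fun w => ρ.m 0 w + ρ.m 0 w := by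
      funext w; simp [ρ.m_zero]
    have h2 := act_add (ρ.m 0) (ρ.m 0) (f : W →₀ X)
    rw [← h1] at h2
    simpa using h2

variable (ρ : Rep T R W)

theorem Fr.smul_def {X : Type*} [AddCommGroup X] [Module R X] (t : T) (f : Fr ρ X) :
    t • f = (act (ρ.m t) (f : W →₀ X) : W →₀ X) := rfl

/-- functoriality -/
noncomputable def Fr.map {X Y : Type*} [AddCommGroup X] [Module R X] [AddCommGroup Y] [Module R Y]
    (g : X →ₗ[R] Y) : Fr ρ X →ₗ[T] Fr ρ Y where
  toFun f := Finsupp.mapRange g (map_zero g) f
  map_add' f f' := Finsupp.mapRange_add (fun a b => map_add g a b) f f'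
  map_smul' t f := (act_map (ρ.m t) g f).symm

/-- coordinates -/
def Fr.co {X : Type*} [AddCommGroup X] (f : Fr ρ X) : W →₀ X := f

/-- element from coordinates -/
def Fr.mk {X : Type*} [AddCommGroup X] (f : W →₀ X) : Fr ρ X := f

theorem Fr.map_apply {X Y : Type*} [AddCommGroup X] [Module R X] [AddCommGroup Y] [Module R Y]
    (g : X →ₗ[R] Y) (f : Fr ρ X) (w : W) :
    (Fr.co ρ (Fr.map ρ g f)) w = g ((Fr.co ρ f) w) := rfl

theorem Fr.map_injective {X Y : Type*} [AddCommGroup X] [Module R X] [AddCommGroup Y] [Module R Y]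
    (g : X →ₗ[R] Y) (hg : Function.Injective g) : Function.Injective (Fr.map ρ g) := by
  intro a b hab
  refine Finsupp.ext fun w => hg ?_
  exact DFunLike.congr_fun (F := W →₀ Y) hab w

theorem Fr.map_surjective {X Y : Type*} [AddCommGroup X] [Module R X] [AddCommGroup Y]
    [Module R Y] (g : X →ₗ[R] Y) (hg : Function.Surjective g) :
    Function.Surjective (Fr.map ρ g) :=
  Finsupp.mapRange_surjective g (map_zero g) hg

theorem Fr.map_exact {X Y Z : Type*} [AddCommGroup X] [Module R X] [AddCommGroup Y] [Module R Y]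
    [AddCommGroup Z] [Module R Z] (g : X →ₗ[R] Y) (h : Y →ₗ[R] Z) (hgh : Function.Exact g h) :
    Function.Exact (Fr.map ρ g) (Fr.map ρ h) := by
  classical
  intro f
  constructor
  · intro hf
    have h1 : ∀ w, ∃ x, g x = (Fr.co ρ f) w := fun w =>
      (hgh _).1 (DFunLike.congr_fun (F := W →₀ Z) hf w)
    choose x hx using h1
    refine ⟨Finsupp.onFinset (Fr.co ρ f).support
      (fun w => if (Fr.co ρ f) w = 0 then 0 else x w) (fun w hw => ?_), ?_⟩
    · rw [Finsupp.mem_support_iff]
      intro h0
      simp [h0] at hw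
    · refine Finsupp.ext fun w => ?_
      change g (if (Fr.co ρ f) w = 0 then 0 else x w) = (Fr.co ρ f) w
      split_ifs with h0
      · rw [map_zero, h0]
      · exact hx w
  · rintro ⟨x, rfl⟩
    refine Finsupp.ext fun w => ?_
    exact hgh.apply_apply_eq_zero _

end Fr

end Crest.Agent.R181.VB
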