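import Crest.Agent.R181.VB789c
import Crest.Agent.R181.FR459a

/-!
R181, V-chain, block V2b (helper789): plain triples `A -al→ C ←be- B` and `Psi0`, `Psi1`.
-/

set_option autoImplicit false

namespace Crest.Agent.R181.VB

open V868

universe u

variable {DD : Type u} [Ring DD] {L : Line DD} {T : Type u} [Ring T] {U : UnivT L T} (R : RB U)

section lin

variable (S : Subring DD) {A C C' : Type u} [AddCommGroup A] [Module S A] [AddCommGroup C]
  [Module DD C] [AddCommGroup C'] [Module DD C']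

/-- a semilinear map over the inclusion of a subring as a linear map over the subring -/
def lin (al : A →ₛₗ[S.subtype] C) : A →ₗ[S] C where
  toFun := al
  map_add' := map_add al
  map_smul' s a := by rw [map_smulₛₗ]; rfl

@[simp] theorem lin_apply (al : A →ₛₗ[S.subtype] C) (a : A) : lin S al a = al a := rfl

/-- restriction of scalars to a subring -/
def res (f : C →ₗ[DD] C') : C →ₗ[S] C' where
  toFun := f
  map_add' := map_add f
  map_smul' s c := map_smul f (s : DD) c

@[simp] theorem res_apply (f : C →ₗ[DD] C') (c : C) : res S f c = f c := rfl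

end lin

theorem _root_.Crest.Agent.R181.V868.Line.ppow_comm (L : Line DD) (k : ℕ) (d : DD) :
    L.p ^ k * d = d * L.p ^ k := by
  induction k with
  | zero => simp
  | succ k ih => rw [pow_succ, mul_assoc, L.pc, ← mul_assoc, ih, mul_assoc]

theorem _root_.Crest.Agent.R181.V868.Line.xpow_comm (L : Line DD) (k : ℕ) (d : DD) :
    L.x ^ k * d = d * L.x ^ k := by
  induction k with
  | zero => simp
  | succ k ih => rw [pow_succ, mul_assoc, L.xc, ← mul_assoc, ih, mul_assoc]

theorem _root_.Crest.Agent.R181.V868.Line.xp_pow (L : Line DD) (k : ℕ) :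
    L.x ^ k * L.p ^ k = 1 := by
  induction k with
  | zero => simp
  | succ k ih => rw [pow_succ, pow_succ', mul_assoc, ← mul_assoc L.x, L.xp, one_mul, ih]

section pmul

variable {B C : Type u} [AddCommGroup B] [Module L.O B] [AddCommGroup C] [Module DD C]

/-- `p^k • be` -/
def pmul (k : ℕ) (be : B →ₛₗ[L.O.subtype] C) : B →ₗ[L.O] C where
  toFun y := L.p ^ k • be y
  map_add' a b := by rw [map_add, smul_add]
  map_smul' o y := by
    rw [map_smulₛₗ, RingHom.id_apply]
    change L.p ^ k • (o : DD) • be y = (o : DD) • L.p ^ k • be y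
    rw [smul_smul, smul_smul, L.ppow_comm]

@[simp] theorem pmul_apply (k : ℕ) (be : B →ₛₗ[L.O.subtype] C) (y : B) :
    pmul k be y = L.p ^ k • be y := rfl

end pmul

section delta

variable {A B C : Type u} [AddCommGroup A] [Module L.V A] [AddCommGroup B] [Module L.O B]
  [AddCommGroup C] [Module DD C]

/-- the two term complex of a plain triple -/
noncomputable def delta (al : A →ₛₗ[L.V.subtype] C) (be : B →ₛₗ[L.O.subtype] C) :
    (Fr R.ρV A × Fr R.ρO B) →ₗ[T] Fr R.ρV C :=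
  (Fr.map R.ρV (lin L.V al)).coprod ((R.cmp C).comp (Fr.map R.ρO (pmul 2 be)))

/-- `Psi⁰` -/
abbrev Psi0 (al : A →ₛₗ[L.V.subtype] C) (be : B →ₛₗ[L.O.subtype] C) : Type u :=
  LinearMap.ker (delta R al be)

/-- `Psi¹` -/
abbrev Psi1 (al : A →ₛₗ[L.V.subtype] C) (be : B →ₛₗ[L.O.subtype] C) : Type u :=
  Fr R.ρV C ⧸ LinearMap.range (delta R al be)

end delta

section maps

variable {A B C A' B' C' A'' B'' C'' : Type u} [AddCommGroup A] [Module L.V A] [AddCommGroup B]
  [Module L.O B] [AddCommGroup C] [Module DD C] [AddCommGroup A'] [Module L.V A']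
  [AddCommGroup B'] [Module L.O B'] [AddCommGroup C'] [Module DD C'] [AddCommGroup A'']
  [Module L.V A''] [AddCommGroup B''] [Module L.O B''] [AddCommGroup C''] [Module DD C'']
  {al : A →ₛₗ[L.V.subtype] C} {be : B →ₛₗ[L.O.subtype] C}
  {al' : A' →ₛₗ[L.V.subtype] C'} {be' : B' →ₛₗ[L.O.subtype] C'}
  {al'' : A'' →ₛₗ[L.V.subtype] C''} {be'' : B'' →ₛₗ[L.O.subtype] C''}

theorem cmp_map (f : C →ₗ[DD] C') (y : Fr R.ρO C) :
    R.cmp C' (Fr.map R.ρO (res L.O f) y) = Fr.map R.ρV (res L.V f) (R.cmp C y) :=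
  act_map R.P f y

/-- a morphism of plain triples commutes with `delta` -/
theorem delta_map (fA : A →ₗ[L.V] A') (fB : B →ₗ[L.O] B') (fC : C →ₗ[DD] C')
    (hA : ∀ a, al' (fA a) = fC (al a)) (hB : ∀ b, be' (fB b) = fC (be b))
    (y : Fr R.ρV A × Fr R.ρO B) :
    delta R al' be' ((Fr.map R.ρV fA).prodMap (Fr.map R.ρO fB) y) =
      Fr.map R.ρV (res L.V fC) (delta R al be y) := by
  obtain ⟨a, b⟩ := y
  simp only [delta, LinearMap.coprod_apply, LinearMap.prodMap_apply, LinearMap.comp_apply, map_add]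
  rw [← cmp_map]
  congr 1
  · refine Finsupp.ext fun w => ?_
    exact hA _
  · congr 1
    refine Finsupp.ext fun w => ?_
    change L.p ^ 2 • be' (fB _) = fC (L.p ^ 2 • be _)
    rw [hB, map_smul]

/-- short exact sequences of plain triples -/
structure TS (al' : A' →ₛₗ[L.V.subtype] C') (be' : B' →ₛₗ[L.O.subtype] C')
    (al : A →ₛₗ[L.V.subtype] C) (be : B →ₛₗ[L.O.subtype] C)
    (al'' : A'' →ₛₗ[L.V.subtype] C'') (be'' : B'' →ₛₗ[L.O.subtype] C'')
    (fA : A' →ₗ[L.V] A) (fB : B' →ₗ[L.O] B) (fC : C' →ₗ[DD] C)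
    (gA : A →ₗ[L.V] A'') (gB : B →ₗ[L.O] B'') (gC : C →ₗ[DD] C'') : Prop where
  fA_inj : Function.Injective fA
  fB_inj : Function.Injective fB
  fC_inj : Function.Injective fC
  gA_surj : Function.Surjective gA
  gB_surj : Function.Surjective gB
  gC_surj : Function.Surjective gC
  exA : Function.Exact fA gA
  exB : Function.Exact fB gB
  exC : Function.Exact fC gC
  fal : ∀ a, al (fA a) = fC (al' a)
  fbe : ∀ b, be (fB b) = fC (be' b)
  gal : ∀ a, al'' (gA a) = gC (al a)
  gbe : ∀ b, be'' (gB b) = gC (be b)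

variable {fA : A' →ₗ[L.V] A} {fB : B' →ₗ[L.O] B} {fC : C' →ₗ[DD] C}
    {gA : A →ₗ[L.V] A''} {gB : B →ₗ[L.O] B''} {gC : C →ₗ[DD] C''}

/-- the snake diagram of a short exact sequence of plain triples -/
theorem TS.ses (h : TS al' be' al be al'' be'' fA fB fC gA gB gC) :
    SES2 ((Fr.map R.ρV fA).prodMap (Fr.map R.ρO fB)) ((Fr.map R.ρV gA).prodMap (Fr.map R.ρO gB))
      (Fr.map R.ρV (res L.V fC)) (Fr.map R.ρV (res L.V gC)) (delta R al' be') (delta R al be)
      (delta R al'' be'') where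
  i_inj := by
    rintro ⟨a, b⟩ ⟨c, d⟩ h1
    have h2 := congrArg Prod.fst h1
    have h3 := congrArg Prod.snd h1
    exact Prod.ext (Fr.map_injective R.ρV fA h.fA_inj h2) (Fr.map_injective R.ρO fB h.fB_inj h3)
  q_surj := by
    rintro ⟨a, b⟩
    obtain ⟨a', ha'⟩ := Fr.map_surjective R.ρV gA h.gA_surj a
    obtain ⟨b', hb'⟩ := Fr.map_surjective R.ρO gB h.gB_surj b
    exact ⟨(a', b'), Prod.ext ha' hb'⟩
  ex := by
    rintro ⟨a, b⟩
    constructor
    · intro h1
      obtain ⟨a', ha'⟩ := (Fr.map_exact R.ρV fA gA h.exA a).1 (congrArg Prod.fst h1)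
      obtain ⟨b', hb'⟩ := (Fr.map_exact R.ρO fB gB h.exB b).1 (congrArg Prod.snd h1)
      exact ⟨(a', b'), Prod.ext ha' hb'⟩
    · rintro ⟨⟨a', b'⟩, h1⟩
      rw [← h1]
      exact Prod.ext ((Fr.map_exact R.ρV fA gA h.exA).apply_apply_eq_zero a')
        ((Fr.map_exact R.ρO fB gB h.exB).apply_apply_eq_zero b')
  j_inj := Fr.map_injective R.ρV _ h.fC_inj
  r_surj := Fr.map_surjective R.ρV _ h.gC_surj
  ex' := Fr.map_exact R.ρV (res L.V fC) (res L.V gC) h.exC
  c1 := fun y => delta_map R fA fB fC h.fal h.fbe y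
  c2 := fun y => delta_map R gA gB gC h.gal h.gbe y

/-- `Psi¹` of a morphism of plain triples -/
noncomputable def psi1Map (fA : A →ₗ[L.V] A') (fB : B →ₗ[L.O] B') (fC : C →ₗ[DD] C')
    (hA : ∀ a, al' (fA a) = fC (al a)) (hB : ∀ b, be' (fB b) = fC (be b)) :
    Psi1 R al be →ₗ[T] Psi1 R al' be' :=
  Submodule.mapQ _ _ (Fr.map R.ρV (res L.V fC)) (by
    rintro _ ⟨y, rfl⟩
    exact ⟨(Fr.map R.ρV fA).prodMap (Fr.map R.ρO fB) y, delta_map R fA fB fC hA hB y⟩)

theorem psi1Map_mk (fA : A →ₗ[L.V] A') (fB : B →ₗ[L.O] B') (fC : C →ₗ[DD] C')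
    (hA : ∀ a, al' (fA a) = fC (al a)) (hB : ∀ b, be' (fB b) = fC (be b)) (z : Fr R.ρV C) :
    psi1Map R fA fB fC hA hB ((LinearMap.range (delta R al be)).mkQ z) =
      (LinearMap.range (delta R al' be')).mkQ (Fr.map R.ρV (res L.V fC) z) := rfl

/-- extension of triples with bijective `delta` -/
theorem TS.bij (h : TS al' be' al be al'' be'' fA fB fC gA gB gC)
    (h1 : Function.Bijective (delta R al' be')) (h2 : Function.Bijective (delta R al'' be'')) :
    Function.Bijective (delta R al be) := by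
  have s := h.ses R
  constructor
  · rw [injective_iff_map_eq_zero]
    intro y hy
    have h3 := s.c2 y
    rw [hy, map_zero] at h3
    have h4 := h2.1 (h3.trans (map_zero _).symm)
    obtain ⟨y', rfl⟩ := (s.ex y).1 h4
    rw [s.c1] at hy
    have h5 := s.j_inj (hy.trans (map_zero _).symm)
    have h6 := h1.1 (h5.trans (map_zero _).symm)
    rw [h6, map_zero]
  · intro z
    obtain ⟨y'', hy''⟩ := h2.2 (Fr.map R.ρV (res L.V gC) z)
    obtain ⟨y, rfl⟩ := s.q_surj y''
    have h3 : Fr.map R.ρV (res L.V gC) (z - delta R al be y) = 0 := by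
      rw [map_sub, ← s.c2, hy'', sub_self]
    obtain ⟨z', hz'⟩ := (s.ex' _).1 h3
    obtain ⟨y', rfl⟩ := h1.2 z'
    rw [← s.c1] at hz'
    exact ⟨_ + y, by rw [map_add, hz', sub_add_cancel]⟩

/-- cokernels: `X₀ → X → X'' → 0` exact, `delta` of `X₀` surjective, of `X` bijective -/
theorem bij_coker (fA : A' →ₗ[L.V] A) (fB : B' →ₗ[L.O] B) (fC : C' →ₗ[DD] C)
    (gA : A →ₗ[L.V] A'') (gB : B →ₗ[L.O] B'') (gC : C →ₗ[DD] C'')
    (gA_surj : Function.Surjective gA) (gB_surj : Function.Surjective gB)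
    (gC_surj : Function.Surjective gC)
    (exA : Function.Exact fA gA) (exB : Function.Exact fB gB) (exC : Function.Exact fC gC)
    (fal : ∀ a, al (fA a) = fC (al' a)) (fbe : ∀ b, be (fB b) = fC (be' b))
    (gal : ∀ a, al'' (gA a) = gC (al a)) (gbe : ∀ b, be'' (gB b) = gC (be b))
    (h1 : Function.Surjective (delta R al' be')) (h2 : Function.Bijective (delta R al be)) :
    Function.Bijective (delta R al'' be'') := by
  have c1 := delta_map R fA fB fC fal fbe
  have c2 := delta_map R gA gB gC gal gbe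
  constructor
  · rw [injective_iff_map_eq_zero]
    rintro ⟨a'', b''⟩ hy
    obtain ⟨a, rfl⟩ := Fr.map_surjective R.ρV gA gA_surj a''
    obtain ⟨b, rfl⟩ := Fr.map_surjective R.ρO gB gB_surj b''
    have h3 := c2 (a, b)
    have h4 : delta R al'' be'' (((Fr.map R.ρV gA).prodMap (Fr.map R.ρO gB)) (a, b)) = 0 := hy
    rw [h4] at h3
    obtain ⟨z', hz'⟩ := (Fr.map_exact R.ρV (res L.V fC) (res L.V gC) exC _).1 h3.symm
    obtain ⟨y', rfl⟩ := h1 z'
    rw [← c1] at hz'
    have h5 := h2.1 hz'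
    have h6 : a = Fr.map R.ρV fA y'.1 := (congrArg Prod.fst h5).symm
    have h7 : b = Fr.map R.ρO fB y'.2 := (congrArg Prod.snd h5).symm
    refine Prod.ext ?_ ?_
    · change Fr.map R.ρV gA a = 0
      rw [h6]; exact (Fr.map_exact R.ρV fA gA exA).apply_apply_eq_zero _
    · change Fr.map R.ρO gB b = 0
      rw [h7]; exact (Fr.map_exact R.ρO fB gB exB).apply_apply_eq_zero _
  · intro z''
    obtain ⟨z, rfl⟩ := Fr.map_surjective R.ρV (res L.V gC) gC_surj z''
    obtain ⟨y, rfl⟩ := h2.2 z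
    exact ⟨_, c2 y⟩

end maps

section tors

variable {A B C : Type u} [AddCommGroup A] [Module L.V A] [AddCommGroup B] [Module L.O B]
  [AddCommGroup C] [Module DD C]

/-- `Psi⁰(0, τ, 0) = Fr' τ` -/
noncomputable def psi0Tors (al : A →ₛₗ[L.V.subtype] C) (be : B →ₛₗ[L.O.subtype] C)
    [Subsingleton A] [Subsingleton C] : Psi0 R al be ≃ₗ[T] Fr R.ρO B := by
  have : Subsingleton (Fr R.ρV C) := ⟨fun f g => Finsupp.ext fun w => Subsingleton.elim _ _⟩
  have : Subsingleton (Fr R.ρV A) := ⟨fun f g => Finsupp.ext fun w => Subsingleton.elim _ _⟩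
  refine LinearEquiv.ofBijective ((LinearMap.snd T _ _).comp (LinearMap.ker (delta R al be)).subtype)
    ⟨?_, ?_⟩
  · rintro ⟨⟨a, b⟩, h⟩ ⟨⟨a', b'⟩, h'⟩ hab
    exact Subtype.ext (Prod.ext (Subsingleton.elim _ _) hab)
  · intro b
    exact ⟨⟨(0, b), Subsingleton.elim _ _⟩, rfl⟩

theorem psi1_subsingleton (al : A →ₛₗ[L.V.subtype] C) (be : B →ₛₗ[L.O.subtype] C)
    [Subsingleton C] : Subsingleton (Psi1 R al be) := by
  have : Subsingleton (Fr R.ρV C) := ⟨fun f g => Finsupp.ext fun w => Subsingleton.elim _ _⟩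
  infer_instance

end tors

end Crest.Agent.R181.VB
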