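import Crest.Agent.R181.VB789f

/-!
R181, V-chain, block V2b (helper789): finite powers, multiplication `mu_1`, `Psi¹` of a summand.
-/

set_option autoImplicit false
set_option linter.unusedSectionVars false

namespace Crest.Agent.R181.VB

open V868

universe u

variable {DD : Type u} [Ring DD] {L : Line DD} {T : Type u} [Ring T] {U : UnivT L T} (R : RB U)

section pi

variable {ι : Type} [Fintype ι]
variable {A B C : Type u} [AddCommGroup A] [Module L.V A] [AddCommGroup B] [Module L.O B]
  [AddCommGroup C] [Module DD C]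

/-- the power of a semilinear map -/
def piS (ι : Type) {S : Subring DD} {A C : Type u} [AddCommGroup A] [Module S A] [AddCommGroup C]
    [Module DD C] (al : A →ₛₗ[S.subtype] C) : (ι → A) →ₛₗ[S.subtype] (ι → C) where
  toFun f i := al (f i)
  map_add' f g := by funext i; exact map_add al _ _
  map_smul' s f := by funext i; exact map_smulₛₗ al _ _

@[simp] theorem piS_apply {S : Subring DD} {A C : Type u} [AddCommGroup A] [Module S A]
    [AddCommGroup C] [Module DD C] (al : A →ₛₗ[S.subtype] C) (f : ι → A) (i : ι) :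
    piS ι al f i = al (f i) := rfl

variable (al : A →ₛₗ[L.V.subtype] C) (be : B →ₛₗ[L.O.subtype] C)

theorem delta_pi_injective (h : Function.Injective (delta R al be)) :
    Function.Injective (delta R (piS ι al) (piS ι be)) := by
  rw [injective_iff_map_eq_zero]
  rintro ⟨a, b⟩ hy
  have h1 : ∀ i, (Fr.map R.ρV (LinearMap.proj i : (ι → A) →ₗ[L.V] A) a,
      Fr.map R.ρO (LinearMap.proj i : (ι → B) →ₗ[L.O] B) b) = 0 := by
    intro i
    have h2 := delta_map R (al := piS ι al) (be := piS ι be) (al' := al) (be' := be)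
      (LinearMap.proj i : (ι → A) →ₗ[L.V] A) (LinearMap.proj i : (ι → B) →ₗ[L.O] B)
      (LinearMap.proj i : (ι → C) →ₗ[DD] C) (fun _ => rfl) (fun _ => rfl) (a, b)
    rw [hy, map_zero] at h2
    exact h (h2.trans (map_zero _).symm)
  refine Prod.ext ?_ ?_
  · refine Finsupp.ext fun w => ?_
    funext i
    exact DFunLike.congr_fun (F := R.W →₀ A) (congrArg Prod.fst (h1 i)) w
  · refine Finsupp.ext fun w => ?_
    funext i
    exact DFunLike.congr_fun (F := R.W →₀ B) (congrArg Prod.snd (h1 i)) w

theorem proj_comm {S : Subring DD} {A C : Type u} [AddCommGroup A] [Module S A]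
    [AddCommGroup C] [Module DD C] (al : A →ₛₗ[S.subtype] C) (i : ι) (a : ι → A) :
    al ((LinearMap.proj i : (ι → A) →ₗ[S] A) a) =
      (LinearMap.proj i : (ι → C) →ₗ[DD] C) (piS ι al a) := rfl

theorem single_comm [DecidableEq ι] {S : Subring DD} {A C : Type u} [AddCommGroup A] [Module S A]
    [AddCommGroup C] [Module DD C] (al : A →ₛₗ[S.subtype] C) (i : ι) (a : A) :
    piS ι al ((LinearMap.single S (fun _ => A) i) a) =
      (LinearMap.single DD (fun _ => C) i) (al a) := by
  funext j
  rw [piS_apply]
  simp only [LinearMap.coe_single]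
  by_cases h : j = i
  · subst h; simp
  · rw [Pi.single_eq_of_ne h, Pi.single_eq_of_ne h, map_zero]

/-- `Psi¹` of a power, one projection -/
noncomputable def psi1ProjI (i : ι) : Psi1 R (piS ι al) (piS ι be) →ₗ[T] Psi1 R al be :=
  psi1Map R (LinearMap.proj i : (ι → A) →ₗ[L.V] A)
    (LinearMap.proj i : (ι → B) →ₗ[L.O] B) (LinearMap.proj i : (ι → C) →ₗ[DD] C)
    (proj_comm al i) (proj_comm be i)

theorem psi1ProjI_mk (i : ι) (z : Fr R.ρV (ι → C)) :
    psi1ProjI R al be i ((LinearMap.range (delta R (piS ι al) (piS ι be))).mkQ z) =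
      (LinearMap.range (delta R al be)).mkQ
        (Fr.map R.ρV (res L.V (LinearMap.proj i : (ι → C) →ₗ[DD] C)) z) := rfl

/-- `Psi¹` of a power, projections -/
noncomputable def psi1Proj : Psi1 R (piS ι al) (piS ι be) →ₗ[T] (ι → Psi1 R al be) :=
  LinearMap.pi fun i => psi1ProjI R al be i

variable [DecidableEq ι]

/-- `Psi¹` of a power, inclusions -/
noncomputable def psi1Single (i : ι) : Psi1 R al be →ₗ[T] Psi1 R (piS ι al) (piS ι be) :=
  psi1Map R (LinearMap.single L.V (fun _ => A) i) (LinearMap.single L.O (fun _ => B) i)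
    (LinearMap.single DD (fun _ => C) i) (single_comm al i) (single_comm be i)

theorem psi1Single_mk (i : ι) (z : Fr R.ρV C) :
    psi1Single R al be i ((LinearMap.range (delta R al be)).mkQ z) =
      (LinearMap.range (delta R (piS ι al) (piS ι be))).mkQ
        (Fr.map R.ρV (res L.V (LinearMap.single DD (fun _ => C) i)) z) := rfl

/-- `Psi¹` commutes with finite powers -/
noncomputable def psi1Pi : Psi1 R (piS ι al) (piS ι be) ≃ₗ[T] (ι → Psi1 R al be) :=
  LinearEquiv.ofBijective (psi1Proj R al be) (by
    have hs : ∀ y : ι → Psi1 R al be,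
        psi1Proj R al be (∑ i, psi1Single R al be i (y i)) = y := by
      intro y
      funext j
      rw [map_sum, Finset.sum_apply, Finset.sum_eq_single j]
      · obtain ⟨z, hz⟩ := Submodule.mkQ_surjective _ (y j)
        rw [← hz, psi1Single_mk, psi1Proj, LinearMap.pi_apply, psi1ProjI_mk]
        congr 1
        refine Finsupp.ext fun w => ?_
        change (Pi.single j ((Fr.co R.ρV z) w) : ι → C) j = (Fr.co R.ρV z) w
        simp
      · intro i _ hij
        obtain ⟨z, hz⟩ := Submodule.mkQ_surjective _ (y i)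
        rw [← hz, psi1Single_mk, psi1Proj, LinearMap.pi_apply, psi1ProjI_mk]
        have : Fr.map R.ρV (res L.V (LinearMap.proj j : (ι → C) →ₗ[DD] C))
            (Fr.map R.ρV (res L.V (LinearMap.single DD (fun _ => C) i)) z) = 0 := by
          refine Finsupp.ext fun w => ?_
          change (Pi.single i ((Fr.co R.ρV z) w) : ι → C) j = 0
          exact Pi.single_eq_of_ne (Ne.symm hij) _
        rw [this, map_zero]
      · intro h; exact absurd (Finset.mem_univ _) h
    have hi : ∀ x : Psi1 R (piS ι al) (piS ι be),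
        ∑ i, psi1Single R al be i (psi1Proj R al be x i) = x := by
      intro x
      obtain ⟨z, rfl⟩ := Submodule.mkQ_surjective _ x
      have h1 : ∀ i, psi1Single R al be i (psi1Proj R al be
          ((LinearMap.range (delta R (piS ι al) (piS ι be))).mkQ z) i) =
          (LinearMap.range (delta R (piS ι al) (piS ι be))).mkQ
            (Fr.map R.ρV (res L.V (LinearMap.single DD (fun _ => C) i))
              (Fr.map R.ρV (res L.V (LinearMap.proj i : (ι → C) →ₗ[DD] C)) z)) := by
        intro i
        rw [psi1Proj, LinearMap.pi_apply, psi1ProjI_mk, psi1Single_mk]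
      rw [Finset.sum_congr rfl fun i _ => h1 i, ← map_sum]
      congr 1
      refine Finsupp.ext fun w => ?_
      have h2 : ∀ s : Finset ι, Fr.co R.ρV (∑ i ∈ s,
          (Fr.map R.ρV (res L.V (LinearMap.single DD (fun _ => C) i))
              (Fr.map R.ρV (res L.V (LinearMap.proj i : (ι → C) →ₗ[DD] C)) z))) w =
          ∑ i ∈ s, (Pi.single i ((Fr.co R.ρV z) w i) : ι → C) := by
        intro s
        induction s using Finset.induction_on with
        | empty => rfl
        | insert a s ha ih =>
          rw [Finset.sum_insert ha, Finset.sum_insert ha, ← ih]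
          rfl
      refine (h2 Finset.univ).trans ?_
      rw [Finset.univ_sum_single]
      rfl
    refine ⟨fun x y h => ?_, fun y => ⟨_, hs y⟩⟩
    rw [← hi x, ← hi y, h])

theorem delta_pi_bijective (h : Function.Bijective (delta R al be)) :
    Function.Bijective (delta R (piS ι al) (piS ι be)) := by
  refine ⟨delta_pi_injective R al be h.1, ?_⟩
  have h1 : Subsingleton (Psi1 R al be) := by
    rw [Submodule.Quotient.subsingleton_iff, LinearMap.range_eq_top]
    exact h.2
  have h2 : Subsingleton (Psi1 R (piS ι al) (piS ι be)) := (psi1Pi R al be).injective.subsingleton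
  rw [Submodule.Quotient.subsingleton_iff, LinearMap.range_eq_top] at h2
  exact h2

omit [DecidableEq ι] in
/-- `Psi¹(OO(-m)^ι)` is free -/
theorem ffr_OO (m : ℕ) : FR.FFR T (Psi1 R (piS ι (alV L)) (piS ι (beP L m))) := by
  classical
  have e1 := (psi1Pi R (ι := ι) (alV L) (beP L m)).trans
    (LinearEquiv.piCongrRight fun _ : ι => (psiPEquiv R m (L := L)).symm)
  have e2 : (ι → Fin (m + 1) → T) ≃ₗ[T] (Fin (Fintype.card (ι × Fin (m + 1))) → T) :=
    (LinearEquiv.curry T T ι (Fin (m + 1))).symm.trans
      (LinearEquiv.funCongrLeft T T (Fintype.equivFin (ι × Fin (m + 1))).symm)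
  exact FR.FFR.of_equiv (e1.trans e2).symm (FR.FFR.of_free _)

end pi

section mu

variable {C : Type u} [AddCommGroup C] [Module DD C]

/-- `f ↦ ∑ c_w φ(f_w)` -/
noncomputable def evC (c : R.W → LaurentSeries T) (φ : C →+ LaurentSeries T) :
    (R.W →₀ C) →+ LaurentSeries T :=
  Finsupp.liftAddHom fun w => (AddMonoidHom.mulLeft (c w)).comp φ

@[simp] theorem evC_single (c : R.W → LaurentSeries T) (φ : C →+ LaurentSeries T) (w : R.W)
    (y : C) : evC R c φ (Finsupp.single w y) = c w * φ y := by
  simp [evC]

variable (φ : C →+ LaurentSeries T) (hφ : ∀ (d : DD) (y : C), φ (d • y) = U.Θ d * φ y)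

include hφ

theorem evC_col (c : R.W → LaurentSeries T) (m : R.W →₀ DD) (y : C) :
    evC R c φ (col m y) = evm U.Θ c m * φ y := by
  induction m using Finsupp.induction_linear with
  | zero =>
    have : col (0 : R.W →₀ DD) y = 0 := by ext w; simp
    rw [this]; simp
  | add f g hf hg => rw [col_add, map_add, hf, hg, map_add, add_mul]
  | single w d =>
    have : col (Finsupp.single w d) y = Finsupp.single w (d • y) := by
      classical
      ext w'
      rw [col_apply, Finsupp.single_apply, Finsupp.single_apply]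
      split_ifs <;> simp
    rw [this, evC_single, evm_single, hφ, mul_assoc]

theorem evC_act (c : R.W → LaurentSeries T) (m : R.W → (R.W →₀ DD)) (f : R.W →₀ C) :
    evC R c φ (act m f) = evC R (fun w => evm U.Θ c (m w)) φ f := by
  induction f using Finsupp.induction_linear with
  | zero => simp
  | add f g hf hg => rw [map_add, map_add, map_add, hf, hg]
  | single w y => rw [act_single, evC_single, evC_col R φ hφ]

omit hφ in
theorem mul_evC (c : R.W → LaurentSeries T) (k : LaurentSeries T) (f : R.W →₀ C) :
    k * evC R c φ f = evC R (fun w => k * c w) φ f := by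
  induction f using Finsupp.induction_linear with
  | zero => simp
  | add f g hf hg => rw [map_add, map_add, mul_add, hf, hg]
  | single w y => rw [evC_single, evC_single, mul_assoc]

theorem evC_smul (t : T) (f : Fr R.ρV C) :
    evC R R.b φ (Fr.co R.ρV (t • f)) = HahnSeries.C t * evC R R.b φ (Fr.co R.ρV f) := by
  change evC R R.b φ (act (R.mV t) (Fr.co R.ρV f)) = _
  rw [act_up L.V, evC_act R φ hφ, mul_evC]
  congr 1
  have : (fun w => evm U.Θ R.b (up L.V (R.mV t w))) = fun w => HahnSeries.C t * R.b w :=
    funext fun w => R.mV_spec t w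
  rw [this]

/-- `f ↦` coefficient of `π` in `∑ b_w φ(f_w)` -/
noncomputable def mu0 : Fr R.ρV C →ₗ[T] T where
  toFun f := (evC R R.b φ (Fr.co R.ρV f)).coeff 1
  map_add' f g := by
    have : Fr.co R.ρV (f + g) = Fr.co R.ρV f + Fr.co R.ρV g := rfl
    rw [this, map_add, HahnSeries.coeff_add]
  map_smul' t f := by
    rw [evC_smul R φ hφ, coeff_C_mul]
    rfl

theorem mu0_apply (f : Fr R.ρV C) :
    mu0 R φ hφ f = (evC R R.b φ (Fr.co R.ρV f)).coeff 1 := rfl

variable {A B : Type u} [AddCommGroup A] [Module L.V A] [AddCommGroup B] [Module L.O B]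
  (al : A →ₛₗ[L.V.subtype] C) (be : B →ₛₗ[L.O.subtype] C)
  (hA : ∀ a, Aff (φ (al a))) (hB : ∀ b, Inf (φ (be b)))

include hA hB in
theorem mu0_delta (y : Fr R.ρV A × Fr R.ρO B) : mu0 R φ hφ (delta R al be y) = 0 := by
  obtain ⟨a, b⟩ := y
  have h1 : delta R al be (a, b) = Fr.map R.ρV (lin L.V al) a +
      R.cmp C (Fr.map R.ρO (pmul 2 be) b) := rfl
  rw [h1, map_add]
  have h2 : mu0 R φ hφ (Fr.map R.ρV (lin L.V al) a) = 0 := by
    have h3 : ∀ f : R.W →₀ A, Aff (evC R R.b φ (f.mapRange (lin L.V al) (map_zero _))) := by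
      intro f
      induction f using Finsupp.induction_linear with
      | zero => intro n _; simp
      | add f g hf hg =>
        rw [Finsupp.mapRange_add (fun a b => map_add (lin L.V al) a b), map_add]
        exact hf.add hg
      | single w y =>
        rw [Finsupp.mapRange_single, evC_single]
        exact (R.b_aff w).mul (hA y)
    exact h3 (Fr.co R.ρV a) 1 one_pos
  have h4 : mu0 R φ hφ (R.cmp C (Fr.map R.ρO (pmul 2 be) b)) = 0 := by
    have h5 : ∀ f : R.W →₀ B, Inf (HahnSeries.single (-2) 1 *
        evC R R.b' φ (f.mapRange (pmul 2 be) (map_zero _))) := by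
      intro f
      induction f using Finsupp.induction_linear with
      | zero => intro n _; simp
      | add f g hf hg =>
        rw [Finsupp.mapRange_add (fun a b => map_add (pmul 2 be) a b), map_add, mul_add]
        exact hf.add hg
      | single w y =>
        rw [Finsupp.mapRange_single, evC_single, pmul_apply, hφ, ΘPpow]
        have h6 : (HahnSeries.single (-2 : ℤ) (1 : T)) *
            (R.b' w * (HahnSeries.single ((2 : ℕ) : ℤ) 1 * φ (be y))) = R.b' w * φ (be y) := by
          ext n
          rw [coeff_sing_mul]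
          have h7 : R.b' w * (HahnSeries.single ((2 : ℕ) : ℤ) 1 * φ (be y)) =
              (R.b' w * φ (be y)) * HahnSeries.single ((2 : ℕ) : ℤ) 1 := by
            have h8 : (HahnSeries.single ((2 : ℕ) : ℤ) (1 : T)) * φ (be y) =
                φ (be y) * HahnSeries.single ((2 : ℕ) : ℤ) 1 := by
              ext n; rw [coeff_sing_mul, coeff_mul_sing]
            rw [h8, mul_assoc]
          rw [h7, coeff_mul_sing]
          congr 1
          push_cast
          ring
        rw [h6]
        exact Inf.mul (R.inf w) (hB y)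
    have h9 := h5 (Fr.co R.ρO b) (-1) (by norm_num)
    rw [coeff_sing_mul] at h9
    have h10 : Fr.co R.ρV (R.cmp C (Fr.map R.ρO (pmul 2 be) b)) =
        act R.P ((Fr.co R.ρO b).mapRange (pmul 2 be) (map_zero _)) := rfl
    rw [mu0_apply, h10, evC_act R φ hφ]
    exact h9
  rw [h2, h4, add_zero]

/-- `mu_1 : Psi¹ → T` -/
noncomputable def mu1 : Psi1 R al be →ₗ[T] T :=
  (LinearMap.range (delta R al be)).liftQ (mu0 R φ hφ) (by
    rintro _ ⟨y, rfl⟩
    exact mu0_delta R φ hφ al be hA hB y)

theorem mu1_mk (f : Fr R.ρV C) :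
    mu1 R φ hφ al be hA hB ((LinearMap.range (delta R al be)).mkQ f) = mu0 R φ hφ f := rfl

end mu

end Crest.Agent.R181.VB
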