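import Crest.Agent.R181.VB789g

/-!
R181, V-chain, block V2b (helper789): `Psi¹` of a summand `Q = Z e` is `T^r E` (Step 4).
-/

set_option autoImplicit false
set_option linter.unusedSectionVars false

namespace Crest.Agent.R181.VB

open V868

universe u

variable {DD : Type u} [Ring DD] {L : Line DD} {T : Type u} [Ring T] {U : UnivT L T} (R : RB U)

section TS

variable {A B C A' B' C' A'' B'' C'' : Type u} [AddCommGroup A] [Module L.V A] [AddCommGroup B]
  [Module L.O B] [AddCommGroup C] [Module DD C] [AddCommGroup A'] [Module L.V A']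
  [AddCommGroup B'] [Module L.O B'] [AddCommGroup C'] [Module DD C'] [AddCommGroup A'']
  [Module L.V A''] [AddCommGroup B''] [Module L.O B''] [AddCommGroup C''] [Module DD C'']
  {al : A →ₛₗ[L.V.subtype] C} {be : B →ₛₗ[L.O.subtype] C}
  {al' : A' →ₛₗ[L.V.subtype] C'} {be' : B' →ₛₗ[L.O.subtype] C'}
  {al'' : A'' →ₛₗ[L.V.subtype] C''} {be'' : B'' →ₛₗ[L.O.subtype] C''}
  {fA : A' →ₗ[L.V] A} {fB : B' →ₗ[L.O] B} {fC : C' →ₗ[DD] C}
    {gA : A →ₗ[L.V] A''} {gB : B →ₗ[L.O] B''} {gC : C →ₗ[DD] C''}

/-- if `delta''` is bijective then `Psi¹` of the sub and of the middle agree -/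
theorem TS.psi1_bijective (h : TS al' be' al be al'' be'' fA fB fC gA gB gC)
    (h2 : Function.Bijective (delta R al'' be'')) :
    Function.Bijective (psi1Map R (al := al') (be := be') (al' := al) (be' := be)
      fA fB fC h.fal h.fbe) := by
  have s := h.ses R
  constructor
  · exact s.cokerMap_injective h2.1
  · intro z
    apply (s.exact_coker z).1
    have : Subsingleton (Psi1 R al'' be'') := by
      rw [Submodule.Quotient.subsingleton_iff, LinearMap.range_eq_top]
      exact h2.2
    exact Subsingleton.elim _ _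

theorem TS.delta_injective (h : TS al' be' al be al'' be'' fA fB fC gA gB gC)
    (h1 : Function.Injective (delta R al' be')) (h2 : Function.Injective (delta R al'' be'')) :
    Function.Injective (delta R al be) := by
  have s := h.ses R
  rw [injective_iff_map_eq_zero]
  intro y hy
  have h3 := s.c2 y
  rw [hy, map_zero] at h3
  have h4 := h2 (h3.trans (map_zero _).symm)
  obtain ⟨y', rfl⟩ := (s.ex y).1 h4
  rw [s.c1] at hy
  have h5 := s.j_inj (hy.trans (map_zero _).symm)
  have h6 := h1 (h5.trans (map_zero _).symm)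
  rw [h6, map_zero]

/-- sub-triples inherit injectivity of `delta` -/
theorem delta_injective_of_sub (fA : A' →ₗ[L.V] A) (fB : B' →ₗ[L.O] B) (fC : C' →ₗ[DD] C)
    (hfA : Function.Injective fA) (hfB : Function.Injective fB)
    (hA : ∀ a, al (fA a) = fC (al' a)) (hB : ∀ b, be (fB b) = fC (be' b))
    (h : Function.Injective (delta R al be)) : Function.Injective (delta R al' be') := by
  rw [injective_iff_map_eq_zero]
  rintro ⟨a, b⟩ hy
  have h1 := delta_map R fA fB fC hA hB (a, b)
  rw [hy, map_zero] at h1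
  have h2 := h (h1.trans (map_zero _).symm)
  have h3 : Fr.map R.ρV fA a = 0 := congrArg Prod.fst h2
  have h4 : Fr.map R.ρO fB b = 0 := congrArg Prod.snd h2
  exact Prod.ext (Fr.map_injective R.ρV fA hfA (h3.trans (map_zero _).symm))
    (Fr.map_injective R.ρO fB hfB (h4.trans (map_zero _).symm))

end TS

section evCmap

variable {C C' : Type u} [AddCommGroup C] [Module DD C] [AddCommGroup C'] [Module DD C']

theorem evC_map (c : R.W → LaurentSeries T) (φ : C' →+ LaurentSeries T) (g : C →ₗ[DD] C')
    (f : Fr R.ρV C) :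
    evC R c φ (Fr.co R.ρV (Fr.map R.ρV (res L.V g) f)) =
      evC R c (φ.comp (g : C →+ C')) (Fr.co R.ρV f) := by
  have h : ∀ f : R.W →₀ C, evC R c φ (f.mapRange (res L.V g) (map_zero _)) =
      evC R c (φ.comp (g : C →+ C')) f := by
    intro f
    induction f using Finsupp.induction_linear with
    | zero => simp
    | add f f' hf hf' =>
      rw [Finsupp.mapRange_add (fun a b => map_add (res L.V g) a b), map_add, map_add, hf, hf']
    | single w y => rw [Finsupp.mapRange_single, evC_single, evC_single]; rfl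
  exact h (Fr.co R.ρV f)

end evCmap

section main

variable {ι : Type} [Fintype ι] [DecidableEq ι]
variable {A B C A1 B1 C1 : Type u} [AddCommGroup A] [Module L.V A] [AddCommGroup B]
  [Module L.O B] [AddCommGroup C] [Module DD C] [AddCommGroup A1] [Module L.V A1]
  [AddCommGroup B1] [Module L.O B1] [AddCommGroup C1] [Module DD C1]
  (al : A →ₛₗ[L.V.subtype] C) (be : B →ₛₗ[L.O.subtype] C)
  (al1 : A1 →ₛₗ[L.V.subtype] C1) (be1 : B1 →ₛₗ[L.O.subtype] C1)

/-- **Step 4.**  `Z = (A, B, C)` with coordinates `φ i : C → T((π))`, a map `OO^ι → Z` inducing an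
isomorphism on `Psi¹`, and a direct summand `Q = (A1, B1, C1)` of `Z` such that the projector is
right multiplication with the matrix `E`: then `Psi¹ Q = T^ι E`. -/
theorem psi1_summand
    (φ : ι → C →+ LaurentSeries T) (hφ : ∀ i (d : DD) (y : C), φ i (d • y) = U.Θ d * φ i y)
    (hA : ∀ i a, Aff (φ i (al a))) (hB : ∀ i b, Inf (φ i (be b)))
    (fA : (ι → L.V) →ₗ[L.V] A) (fB : (ι → L.O) →ₗ[L.O] B) (fC : (ι → DD) →ₗ[DD] C)
    (fal : ∀ a, al (fA a) = fC (piS ι (alV L) a)) (fbe : ∀ b, be (fB b) = fC (piS ι (beP L 0) b))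
    (hf : Function.Bijective (psi1Map R (al := piS ι (alV L)) (be := piS ι (beP L 0))
      (al' := al) (be' := be) fA fB fC fal fbe))
    (hfφ : ∀ i j, φ i (fC (Pi.single j 1)) = if i = j then 1 else 0)
    (iA : A1 →ₗ[L.V] A) (iB : B1 →ₗ[L.O] B) (iC : C1 →ₗ[DD] C)
    (ial : ∀ a, al (iA a) = iC (al1 a)) (ibe : ∀ b, be (iB b) = iC (be1 b))
    (rA : A →ₗ[L.V] A1) (rB : B →ₗ[L.O] B1) (rC : C →ₗ[DD] C1)
    (ral : ∀ a, al1 (rA a) = rC (al a)) (rbe : ∀ b, be1 (rB b) = rC (be b))
    (hriC : ∀ c, rC (iC c) = c)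
    (E : Matrix ι ι T)
    (hE : ∀ i c, φ i (iC (rC c)) = ∑ j, φ j c * HahnSeries.C (E j i)) :
    Nonempty (Psi1 R al1 be1 ≃ₗ[T] LinearMap.range (Matrix.vecMulLinear E)) := by
  classical
  let mu : Psi1 R al be →ₗ[T] (ι → T) :=
    LinearMap.pi fun i => mu1 R (φ i) (hφ i) al be (hA i) (hB i)
  let F := psi1Map R (al := piS ι (alV L)) (be := piS ι (beP L 0)) (al' := al) (be' := be)
    fA fB fC fal fbe
  -- the standard parametrisation of `Psi¹(OO^ι)`
  let G : (ι → T) → Psi1 R (piS ι (alV L)) (piS ι (beP L 0)) := fun t =>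
    ∑ j, psi1Single R (alV L) (beP L 0) j (toPsiP R 0 fun _ => t j)
  have hGF : ∀ t, mu (F (G t)) = t := by
    intro t
    funext i
    simp only [mu, LinearMap.pi_apply, G, map_sum]
    rw [Finset.sum_eq_single i]
    · rw [toPsiP_apply, psi1Single_mk]
      change mu0 R (φ i) (hφ i) _ = _
      rw [mu0_apply, evC_map, evC_map]
      have h1 : (∑ k : Fin (0 + 1), (fun _ => t i : Fin (0 + 1) → T) k • pk R (k + 1) :
          Fr R.ρV DD) = t i • pk R 1 := by simp
      rw [h1, evC_smul R _ (fun d y => by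
        change φ i (fC _) = _
        change φ i (fC (Pi.single i (d * y))) = U.Θ d * φ i (fC (Pi.single i y))
        rw [← hφ, ← map_smul]
        congr 2
        funext j
        by_cases h : j = i
        · subst h; simp
        · simp [h])]
      rw [coeff_C_mul]
      have h2 : Fr.co R.ρV (pk R 1) = Finsupp.single R.w0 (L.p ^ 1) := rfl
      rw [h2, evC_single, R.b_w0, one_mul]
      change t i * (φ i (fC (Pi.single i (L.p ^ 1)))).coeff 1 = t i
      have h3 : (Pi.single i (L.p ^ 1) : ι → DD) = L.p ^ 1 • Pi.single i 1 := by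
        funext j
        by_cases h : j = i
        · subst h; simp
        · simp [h]
      rw [h3, map_smul, hφ, hfφ, if_pos rfl, ΘPpow, mul_one]
      simp
    · intro j _ hij
      rw [toPsiP_apply, psi1Single_mk]
      change mu0 R (φ i) (hφ i) _ = _
      rw [mu0_apply, evC_map, evC_map]
      have h1 : (∑ k : Fin (0 + 1), (fun _ => t j : Fin (0 + 1) → T) k • pk R (k + 1) :
          Fr R.ρV DD) = t j • pk R 1 := by simp
      rw [h1, evC_smul R _ (fun d y => by
        change φ i (fC (Pi.single j (d * y))) = U.Θ d * φ i (fC (Pi.single j y))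
        rw [← hφ, ← map_smul]
        congr 2
        funext k
        by_cases h : k = j
        · subst h; simp
        · simp [h])]
      rw [coeff_C_mul]
      have h2 : Fr.co R.ρV (pk R 1) = Finsupp.single R.w0 (L.p ^ 1) := rfl
      rw [h2, evC_single, R.b_w0, one_mul]
      change t j * (φ i (fC (Pi.single j (L.p ^ 1)))).coeff 1 = 0
      have h3 : (Pi.single j (L.p ^ 1) : ι → DD) = L.p ^ 1 • Pi.single j 1 := by
        funext k
        by_cases h : k = j
        · subst h; simp
        · simp [h]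
      rw [h3, map_smul, hφ, hfφ, if_neg (Ne.symm hij), mul_zero]
      simp
    · intro h; exact absurd (Finset.mem_univ _) h
  have hGs : Function.Surjective G := by
    intro z
    let y : ι → Psi1 R (alV L) (beP L 0) := psi1Pi R (alV L) (beP L 0) z
    have h1 : ∀ j, ∃ t : T, toPsiP R 0 (L := L) (fun _ => t) = y j := by
      intro j
      obtain ⟨t, ht⟩ := (toPsiP_bijective R 0 (L := L)).2 (y j)
      refine ⟨t 0, ?_⟩
      rw [← ht]
      congr 1
      funext k
      have hk : k = 0 := Fin.ext (by omega)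
      rw [hk]
    choose t ht using h1
    refine ⟨t, ?_⟩
    apply (psi1Pi R (alV L) (beP L 0)).injective
    change psi1Proj R (alV L) (beP L 0) (∑ j, psi1Single R (alV L) (beP L 0) j
      (toPsiP R 0 fun _ => t j)) = y
    simp only [ht]
    -- `psi1Proj ∘ ∑ psi1Single = id`
    funext j
    rw [map_sum, Finset.sum_apply, Finset.sum_eq_single j]
    · obtain ⟨z, hz⟩ := Submodule.mkQ_surjective _ (y j)
      rw [← hz, psi1Single_mk, psi1Proj, LinearMap.pi_apply, psi1ProjI_mk]
      congr 1
      refine Finsupp.ext fun w => ?_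
      change (Pi.single j ((Fr.co R.ρV z) w) : ι → DD) j = (Fr.co R.ρV z) w
      simp
    · intro i _ hij
      obtain ⟨z, hz⟩ := Submodule.mkQ_surjective _ (y i)
      rw [← hz, psi1Single_mk, psi1Proj, LinearMap.pi_apply, psi1ProjI_mk]
      have : Fr.map R.ρV (res L.V (LinearMap.proj j : (ι → DD) →ₗ[DD] DD))
          (Fr.map R.ρV (res L.V (LinearMap.single DD (fun _ => DD) i)) z) = 0 := by
        refine Finsupp.ext fun w => ?_
        change (Pi.single i ((Fr.co R.ρV z) w) : ι → DD) j = 0
        exact Pi.single_eq_of_ne (Ne.symm hij) _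
      rw [this, map_zero]
    · intro h; exact absurd (Finset.mem_univ _) h
  have hmu : Function.Bijective mu := by
    constructor
    · intro y y' h
      obtain ⟨z, rfl⟩ := hf.2 y
      obtain ⟨z', rfl⟩ := hf.2 y'
      obtain ⟨t, rfl⟩ := hGs z
      obtain ⟨t', rfl⟩ := hGs z'
      have h1 : mu (F (G t)) = mu (F (G t')) := h
      rw [hGF, hGF] at h1
      rw [h1]
    · intro t; exact ⟨F (G t), hGF t⟩
  -- the projector
  let I := psi1Map R (al := al1) (be := be1) (al' := al) (be' := be) iA iB iC ial ibe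
  let Q := psi1Map R (al := al) (be := be) (al' := al1) (be' := be1) rA rB rC ral rbe
  have hQI : ∀ y, Q (I y) = y := by
    intro y
    obtain ⟨z, rfl⟩ := Submodule.mkQ_surjective _ y
    change (LinearMap.range (delta R al1 be1)).mkQ (Fr.map R.ρV (res L.V rC)
      (Fr.map R.ρV (res L.V iC) z)) = _
    congr 1
    refine Finsupp.ext fun w => ?_
    exact hriC _
  have hmuE : ∀ y, mu (I (Q y)) = Matrix.vecMul (mu y) E := by
    intro y
    obtain ⟨z, rfl⟩ := Submodule.mkQ_surjective _ y
    funext i
    change mu0 R (φ i) (hφ i) (Fr.map R.ρV (res L.V iC) (Fr.map R.ρV (res L.V rC) z)) =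
      ∑ j, mu0 R (φ j) (hφ j) z * E j i
    rw [mu0_apply, evC_map, evC_map]
    have h1 : ∀ f : R.W →₀ C, evC R R.b (((φ i).comp (iC : C1 →+ C)).comp (rC : C →+ C1)) f =
        ∑ j, evC R R.b (φ j) f * HahnSeries.C (E j i) := by
      intro f
      induction f using Finsupp.induction_linear with
      | zero => simp
      | add f g hf hg =>
        rw [map_add, hf, hg, ← Finset.sum_add_distrib]
        exact Finset.sum_congr rfl fun j _ => by rw [map_add, add_mul]
      | single w y =>
        rw [evC_single]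
        change R.b w * φ i (iC (rC y)) = _
        rw [hE, Finset.mul_sum]
        exact Finset.sum_congr rfl fun j _ => by rw [evC_single, mul_assoc]
    have h2 : ∀ (s : Finset ι) (g : ι → LaurentSeries T),
        (∑ j ∈ s, g j).coeff 1 = ∑ j ∈ s, (g j).coeff 1 := by
      intro s g
      induction s using Finset.induction_on with
      | empty => simp
      | insert a s ha ih => rw [Finset.sum_insert ha, Finset.sum_insert ha, HahnSeries.coeff_add, ih]
    rw [h1, h2]
    refine Finset.sum_congr rfl fun j _ => ?_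
    rw [mu0_apply, HahnSeries.C_apply, HahnSeries.coeff_mul_single_zero]
  have hI : Function.Injective (mu.comp I) := by
    intro y y' h
    have h1 := hmu.1 h
    rw [← hQI y, ← hQI y', h1]
  have hr : LinearMap.range (mu.comp I) = LinearMap.range (Matrix.vecMulLinear E) := by
    apply le_antisymm
    · rintro _ ⟨y, rfl⟩
      refine ⟨mu (I y), ?_⟩
      rw [Matrix.vecMulLinear_apply, ← hmuE, hQI]
      rfl
    · rintro _ ⟨v, rfl⟩
      obtain ⟨y, rfl⟩ := hmu.2 v
      exact ⟨Q y, hmuE y⟩
  exact ⟨(LinearEquiv.ofInjective (mu.comp I) hI).trans (LinearEquiv.ofEq _ _ hr)⟩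

end main

end Crest.Agent.R181.VB
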