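import Crest.Agent.R181.FR459a

/-!
# R181, V-chain, V2c (1): pairs `A → C` with a finite free resolution

`σ : V →+* D`; a pair is a `σ`-semilinear map `α : A → C`.  `RR σ n α` says that the pair has a
resolution of length `n` by pairs `V^ι → D^ι`, exact in both components.
Extensions, Schanuel, direct summands.
-/

set_option autoImplicit false

namespace Crest.Agent.R181.VC

open FR

universe u

section Generic

variable {R : Type u} [Ring R] {A B C : Type u} [AddCommGroup A] [Module R A] [AddCommGroup B]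
  [Module R B] [AddCommGroup C] [Module R C]

variable {ι κ : Type} [Fintype ι] [Fintype κ]

/-- linear combinations of a finite tuple -/
noncomputable abbrev lc (R : Type u) [Ring R] {A : Type u} [AddCommGroup A] [Module R A] {ι : Type}
    [Fintype ι] (a : ι → A) : (ι → R) →ₗ[R] A := Fintype.linearCombination R a

theorem lc_apply (a : ι → A) (v : ι → R) : lc R a v = ∑ i, v i • a i := rfl

theorem lc_sum (a : ι → A) (b : κ → A) (v : ι ⊕ κ → R) :
    lc R (Sum.elim a b) v = lc R a (fun i => v (Sum.inl i)) + lc R b (fun j => v (Sum.inr j)) := by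
  simp [lc_apply, Fintype.sum_sum_type]

theorem lc_comp (f : A →ₗ[R] B) (a : ι → A) (v : ι → R) :
    lc R (fun i => f (a i)) v = f (lc R a v) := by
  simp [lc_apply, map_sum]

/-- horseshoe: surjectivity of the combined cover -/
theorem horse_surj {f : A →ₗ[R] B} {g : B →ₗ[R] C} (hfg : Function.Exact f g) (a : ι → A)
    (b : κ → B) (ha : Function.Surjective (lc R a))
    (hc : Function.Surjective (lc R (fun j => g (b j)))) :
    Function.Surjective (lc R (Sum.elim (fun i => f (a i)) b)) := by
  intro y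
  obtain ⟨v, hv⟩ := hc (g y)
  have h1 : g (y - lc R b v) = 0 := by
    rw [map_sub, ← lc_comp, hv, sub_self]
  obtain ⟨x, hx⟩ := (hfg _).mp h1
  obtain ⟨w, rfl⟩ := ha x
  refine ⟨Sum.elim w v, ?_⟩
  rw [lc_sum]
  simp only [Sum.elim_inl, Sum.elim_inr]
  rw [lc_comp, hx]
  abel

theorem horse_inj {f : A →ₗ[R] B} {g : B →ₗ[R] C} (hf : Function.Injective f)
    (hfg : Function.Exact f g) (a : ι → A)
    (b : κ → B) (ha : Function.Injective (lc R a))
    (hc : Function.Injective (lc R (fun j => g (b j)))) :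
    Function.Injective (lc R (Sum.elim (fun i => f (a i)) b)) := by
  rw [injective_iff_map_eq_zero]
  intro v hv
  rw [lc_sum, lc_comp] at hv
  have h1 : (fun j => v (Sum.inr j)) = 0 := by
    apply hc
    rw [lc_comp, map_zero]
    have := congrArg g hv
    rw [map_add, hfg.apply_apply_eq_zero, zero_add, map_zero] at this
    exact this
  rw [h1, map_zero, add_zero] at hv
  have h2 : (fun i => v (Sum.inl i)) = 0 := by
    apply ha
    apply hf
    rw [hv, map_zero, map_zero]
  funext x
  rcases x with i | j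
  · exact congrFun h2 i
  · exact congrFun h1 j

/-- kernel of the first cover into the kernel of the combined one -/
noncomputable def hi (f : A →ₗ[R] B) (a : ι → A) (b : κ → B) :
    LinearMap.ker (lc R a) →ₗ[R] LinearMap.ker (lc R (Sum.elim (fun i => f (a i)) b)) :=
  LinearMap.codRestrict _
    (({ toFun := fun v => Sum.elim v 0
        map_add' := fun v w => by funext x; rcases x with i | j <;> simp
        map_smul' := fun r v => by funext x; rcases x with i | j <;> simp } :
        (ι → R) →ₗ[R] (ι ⊕ κ → R)).comp (LinearMap.ker (lc R a)).subtype) (by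
    intro x
    rw [LinearMap.mem_ker]
    show lc R (Sum.elim (fun i => f (a i)) b) (Sum.elim (x : ι → R) 0) = 0
    rw [lc_sum]
    simp only [Sum.elim_inl, Sum.elim_inr]
    rw [lc_comp, LinearMap.mem_ker.mp x.2, map_zero, zero_add]
    exact map_zero _)

@[simp] theorem hi_coe (f : A →ₗ[R] B) (a : ι → A) (b : κ → B) (x : LinearMap.ker (lc R a)) :
    ((hi f a b x : _) : ι ⊕ κ → R) = Sum.elim (x : ι → R) 0 := rfl

/-- kernel of the combined cover onto the kernel of the second one -/
noncomputable def hp {f : A →ₗ[R] B} {g : B →ₗ[R] C} (hfg : Function.Exact f g)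
    (a : ι → A) (b : κ → B) :
    LinearMap.ker (lc R (Sum.elim (fun i => f (a i)) b)) →ₗ[R]
      LinearMap.ker (lc R (fun j => g (b j))) :=
  LinearMap.codRestrict _
    ((LinearMap.funLeft R R (Sum.inr : κ → ι ⊕ κ)).comp
      (LinearMap.ker (lc R (Sum.elim (fun i => f (a i)) b))).subtype) (by
    rintro ⟨x, hx⟩
    rw [LinearMap.mem_ker]
    show lc R (fun j => g (b j)) (fun j => x (Sum.inr j)) = 0
    rw [LinearMap.mem_ker, lc_sum, lc_comp] at hx
    rw [lc_comp]
    have := congrArg g hx
    rw [map_add, hfg.apply_apply_eq_zero, zero_add, map_zero] at this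
    exact this)

@[simp] theorem hp_coe {f : A →ₗ[R] B} {g : B →ₗ[R] C} (hfg : Function.Exact f g)
    (a : ι → A) (b : κ → B) (x : LinearMap.ker (lc R (Sum.elim (fun i => f (a i)) b))) :
    ((hp hfg a b x : _) : κ → R) = fun j => (x : ι ⊕ κ → R) (Sum.inr j) := rfl

theorem hi_inj (f : A →ₗ[R] B) (a : ι → A) (b : κ → B) : Function.Injective (hi f a b) := by
  intro x y hxy
  apply Subtype.ext
  funext i
  have h1 := congrArg Subtype.val hxy
  simp only [hi_coe] at h1
  exact congrFun h1 (Sum.inl i)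

theorem hp_surj {f : A →ₗ[R] B} {g : B →ₗ[R] C} (hfg : Function.Exact f g)
    (a : ι → A) (b : κ → B) (ha : Function.Surjective (lc R a)) :
    Function.Surjective (hp hfg a b) := by
  rintro ⟨v, hv⟩
  rw [LinearMap.mem_ker, lc_comp] at hv
  obtain ⟨x, hx⟩ := (hfg _).mp hv
  obtain ⟨w, rfl⟩ := ha x
  refine ⟨⟨Sum.elim (-w) v, ?_⟩, ?_⟩
  · rw [LinearMap.mem_ker, lc_sum]
    simp only [Sum.elim_inl, Sum.elim_inr]
    rw [lc_comp]
    show f (lc R a (fun i => (-w) i)) + _ = 0
    have : (fun i => (-w) i) = -w := rfl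
    rw [this, map_neg, map_neg, hx]
    exact neg_add_cancel _
  · apply Subtype.ext
    rfl

theorem hi_hp_exact {f : A →ₗ[R] B} {g : B →ₗ[R] C} (hf : Function.Injective f)
    (hfg : Function.Exact f g) (a : ι → A) (b : κ → B) :
    Function.Exact (hi f a b) (hp hfg a b) := by
  rintro ⟨x, hx⟩
  constructor
  · intro h
    have h1 : (fun j => x (Sum.inr j)) = 0 := congrArg Subtype.val h
    rw [LinearMap.mem_ker, lc_sum, lc_comp, h1, map_zero, add_zero] at hx
    have h2 : lc R a (fun i => x (Sum.inl i)) = 0 := hf (by rw [hx, map_zero])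
    refine ⟨⟨fun i => x (Sum.inl i), h2⟩, ?_⟩
    apply Subtype.ext
    funext y
    rcases y with i | j
    · rfl
    · exact (congrFun h1 j).symm
  · rintro ⟨z, hz⟩
    apply Subtype.ext
    funext j
    have h1 := congrArg Subtype.val hz
    exact (congrFun h1 (Sum.inr j)).symm

theorem exact_conj {B' C' : Type u} [AddCommGroup B'] [Module R B'] [AddCommGroup C'] [Module R C']
    {f : A →ₗ[R] B} {g : B →ₗ[R] C} (e : B ≃ₗ[R] B') (k : C ≃ₗ[R] C') (h : Function.Exact f g) :
    Function.Exact (e.toLinearMap.comp f)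
      (k.toLinearMap.comp (g.comp e.symm.toLinearMap)) := by
  intro x
  constructor
  · intro hx
    have h2 : g (e.symm x) = 0 := by
      apply k.injective
      rw [map_zero]; exact hx
    obtain ⟨y, hy⟩ := (h _).mp h2
    refine ⟨y, ?_⟩
    show e (f y) = x
    rw [hy]; simp
  · rintro ⟨y, hy⟩
    have h2 : f y = e.symm x := by
      apply e.injective
      rw [LinearEquiv.apply_symm_apply]; exact hy
    have h3 := (h _).mpr ⟨y, h2⟩
    show k (g (e.symm x)) = 0
    rw [h3, map_zero]

theorem surj_conj {B' C' : Type u} [AddCommGroup B'] [Module R B'] [AddCommGroup C'] [Module R C']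
    {g : B →ₗ[R] C} (e : B ≃ₗ[R] B') (k : C ≃ₗ[R] C') (h : Function.Surjective g) :
    Function.Surjective (k.toLinearMap.comp (g.comp e.symm.toLinearMap)) := by
  intro x
  obtain ⟨y, hy⟩ := h (k.symm x)
  refine ⟨e y, ?_⟩
  show k (g (e.symm (e y))) = x
  rw [LinearEquiv.symm_apply_apply, hy, LinearEquiv.apply_symm_apply]

end Generic

section Pairs

variable {V D : Type u} [Ring V] [Ring D] (σ : V →+* D)

/-- coordinatewise `σ` -/
def cσ (ι : Type) : (ι → V) →ₛₗ[σ] (ι → D) where
  toFun v i := σ (v i)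
  map_add' v w := by funext i; simp
  map_smul' r v := by funext i; simp

@[simp] theorem cσ_apply (ι : Type) (v : ι → V) (i : ι) : cσ σ ι v i = σ (v i) := rfl

variable {σ}

section

variable {A B C A' C' : Type u} [AddCommGroup A] [Module V A] [AddCommGroup C] [Module D C]
  [AddCommGroup A'] [Module V A'] [AddCommGroup C'] [Module D C']

theorem lc_cσ {ι : Type} [Fintype ι] (α : A →ₛₗ[σ] C) (a : ι → A) (v : ι → V) :
    lc D (fun i => α (a i)) (cσ σ ι v) = α (lc V a v) := by
  simp [lc_apply, map_sum, map_smulₛₗ]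

/-- the pair of kernels -/
def kmap {ι : Type} [Fintype ι] (α : A →ₛₗ[σ] C) (a : ι → A) :
    LinearMap.ker (lc V a) →ₛₗ[σ] LinearMap.ker (lc D (fun i => α (a i))) where
  toFun v := ⟨cσ σ ι (v : ι → V), by
    rw [LinearMap.mem_ker, lc_cσ, LinearMap.mem_ker.mp v.2, map_zero]⟩
  map_add' v w := by
    apply Subtype.ext
    exact map_add (cσ σ ι) _ _
  map_smul' r v := by
    apply Subtype.ext
    exact (cσ σ ι).map_smulₛₗ r _

@[simp] theorem kmap_coe {ι : Type} [Fintype ι] (α : A →ₛₗ[σ] C) (a : ι → A)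
    (v : LinearMap.ker (lc V a)) : ((kmap α a v : _) : ι → D) = cσ σ ι (v : ι → V) := rfl

/-- product of two pairs -/
def pmap (α : A →ₛₗ[σ] C) (α' : A' →ₛₗ[σ] C') : (A × A') →ₛₗ[σ] (C × C') where
  toFun x := (α x.1, α' x.2)
  map_add' x y := by simp
  map_smul' r x := by
    ext
    · simp [map_smulₛₗ]
    · simp [map_smulₛₗ]

@[simp] theorem pmap_apply (α : A →ₛₗ[σ] C) (α' : A' →ₛₗ[σ] C') (x : A × A') :
    pmap α α' x = (α x.1, α' x.2) := rfl

end

/-- finite free resolutions of pairs -/
def RR : ℕ → ∀ {A C : Type u} [AddCommGroup A] [Module V A] [AddCommGroup C] [Module D C],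
    (A →ₛₗ[σ] C) → Prop
  | 0, A, C, _, _, _, _, α => ∃ (ι : Type) (_ : Fintype ι) (a : ι → A),
      Function.Bijective (lc V a) ∧ Function.Bijective (lc D (fun i => α (a i)))
  | n + 1, A, C, _, _, _, _, α => ∃ (ι : Type) (_ : Fintype ι) (a : ι → A),
      Function.Surjective (lc V a) ∧ Function.Surjective (lc D (fun i => α (a i))) ∧
        RR n (kmap α a)

/-- the pair `A → C` has a finite free resolution -/
def PFF {A C : Type u} [AddCommGroup A] [Module V A] [AddCommGroup C] [Module D C]
    (α : A →ₛₗ[σ] C) : Prop := ∃ n, RR n α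

theorem RR.of_equiv : ∀ {n : ℕ} {A C A' C' : Type u} [AddCommGroup A] [Module V A]
    [AddCommGroup C] [Module D C] [AddCommGroup A'] [Module V A'] [AddCommGroup C'] [Module D C']
    {α : A →ₛₗ[σ] C} {α' : A' →ₛₗ[σ] C'} (e : A ≃ₗ[V] A') (g : C ≃ₗ[D] C')
    (_ : ∀ a, g (α a) = α' (e a)), RR n α → RR n α'
  | 0, A, C, A', C', _, _, _, _, _, _, _, _, α, α', e, g, h, ⟨ι, _, a, h1, h2⟩ => by
    refine ⟨ι, inferInstance, fun i => e (a i), ?_, ?_⟩
    · have : ⇑(lc V (fun i => e (a i))) = e ∘ (lc V a) := by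
        funext v
        exact lc_comp e.toLinearMap a v
      rw [this]
      exact e.bijective.comp h1
    · have : ⇑(lc D (fun i => α' (e (a i)))) = g ∘ (lc D (fun i => α (a i))) := by
        funext v
        simp only [← h]
        exact lc_comp g.toLinearMap _ v
      rw [this]
      exact g.bijective.comp h2
  | n + 1, A, C, A', C', _, _, _, _, _, _, _, _, α, α', e, g, h, ⟨ι, _, a, h1, h2, h3⟩ => by
    have e1 : ⇑(lc V (fun i => e (a i))) = e ∘ (lc V a) := by
      funext v
      exact lc_comp e.toLinearMap a v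
    have e2 : ⇑(lc D (fun i => α' (e (a i)))) = g ∘ (lc D (fun i => α (a i))) := by
      funext v
      simp only [← h]
      exact lc_comp g.toLinearMap _ v
    refine ⟨ι, inferInstance, fun i => e (a i), ?_, ?_, ?_⟩
    · rw [e1]
      exact e.surjective.comp h1
    · rw [e2]
      exact g.surjective.comp h2
    · have k1 : LinearMap.ker (lc V a) = LinearMap.ker (lc V (fun i => e (a i))) := by
        ext v
        rw [LinearMap.mem_ker, LinearMap.mem_ker, e1]
        exact (e.map_eq_zero_iff).symm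
      have k2 : LinearMap.ker (lc D (fun i => α (a i))) =
          LinearMap.ker (lc D (fun i => α' (e (a i)))) := by
        ext v
        rw [LinearMap.mem_ker, LinearMap.mem_ker, e2]
        exact (g.map_eq_zero_iff).symm
      exact RR.of_equiv (LinearEquiv.ofEq _ _ k1) (LinearEquiv.ofEq _ _ k2) (fun _ => rfl) h3

theorem RR.of_subsingleton : ∀ (n : ℕ) {A C : Type u} [AddCommGroup A] [Module V A]
    [AddCommGroup C] [Module D C] (α : A →ₛₗ[σ] C) [Subsingleton A] [Subsingleton C], RR n α
  | 0, A, C, _, _, _, _, α, _, _ => by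
    refine ⟨Empty, inferInstance, Empty.elim, ?_, ?_⟩
    · exact ⟨fun _ _ _ => Subsingleton.elim _ _, fun x => ⟨0, Subsingleton.elim _ _⟩⟩
    · exact ⟨fun _ _ _ => Subsingleton.elim _ _, fun x => ⟨0, Subsingleton.elim _ _⟩⟩
  | n + 1, A, C, _, _, _, _, α, _, _ => by
    refine ⟨Empty, inferInstance, Empty.elim, ?_, ?_, ?_⟩
    · exact fun x => ⟨0, Subsingleton.elim _ _⟩
    · exact fun x => ⟨0, Subsingleton.elim _ _⟩
    · exact RR.of_subsingleton n _

theorem RR.succ : ∀ {n : ℕ} {A C : Type u} [AddCommGroup A] [Module V A]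
    [AddCommGroup C] [Module D C] {α : A →ₛₗ[σ] C}, RR n α → RR (n + 1) α
  | 0, A, C, _, _, _, _, α, ⟨ι, _, a, h1, h2⟩ => by
    refine ⟨ι, inferInstance, a, h1.2, h2.2, ?_⟩
    have : Subsingleton (LinearMap.ker (lc V a)) := by
      rw [LinearMap.ker_eq_bot.mpr h1.1]; infer_instance
    have : Subsingleton (LinearMap.ker (lc D (fun i => α (a i)))) := by
      rw [LinearMap.ker_eq_bot.mpr h2.1]; infer_instance
    exact RR.of_subsingleton 0 _
  | n + 1, A, C, _, _, _, _, α, ⟨ι, _, a, h1, h2, h3⟩ =>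
    ⟨ι, inferInstance, a, h1, h2, RR.succ h3⟩

theorem RR.mono {n m : ℕ} (hnm : n ≤ m) {A C : Type u} [AddCommGroup A] [Module V A]
    [AddCommGroup C] [Module D C] {α : A →ₛₗ[σ] C} (h : RR n α) : RR m α := by
  induction m, hnm using Nat.le_induction with
  | base => exact h
  | succ m _ ih => exact ih.succ

theorem lc_single {R : Type u} [Ring R] {ι : Type} [Fintype ι] [DecidableEq ι] (v : ι → R) :
    lc R (fun i => (Pi.single i 1 : ι → R)) v = v := by
  rw [lc_apply]
  funext j
  simp [Finset.sum_apply, Pi.single_apply]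

theorem RR.of_free (n : ℕ) (ι : Type) [Fintype ι] : RR n (cσ σ ι) := by
  classical
  have h0 : RR 0 (cσ σ ι) := by
    refine ⟨ι, inferInstance, fun i => Pi.single i 1, ?_, ?_⟩
    · have : ⇑(lc V (fun i => (Pi.single i 1 : ι → V))) = id := by
        funext v; exact lc_single v
      rw [this]; exact Function.bijective_id
    · have h1 : (fun i => cσ σ ι (Pi.single i 1)) = fun i => (Pi.single i 1 : ι → D) := by
        funext i j
        rw [cσ_apply]
        by_cases h : j = i
        · subst h; simp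
        · simp [h]
      have : ⇑(lc D (fun i => (cσ σ ι (Pi.single i 1)))) = id := by
        rw [h1]
        funext v; exact lc_single v
      rw [this]; exact Function.bijective_id
  exact h0.mono (Nat.zero_le _)

/-- the horseshoe lemma for pairs -/
theorem RR.mid : ∀ {n : ℕ} {A B C A' B' C' : Type u} [AddCommGroup A] [Module V A]
    [AddCommGroup B] [Module V B] [AddCommGroup C] [Module V C] [AddCommGroup A'] [Module D A']
    [AddCommGroup B'] [Module D B'] [AddCommGroup C'] [Module D C']
    {α : A →ₛₗ[σ] A'} {β : B →ₛₗ[σ] B'} {γ : C →ₛₗ[σ] C'}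
    {f : A →ₗ[V] B} {g : B →ₗ[V] C} {f' : A' →ₗ[D] B'} {g' : B' →ₗ[D] C'}
    (_ : ∀ a, f' (α a) = β (f a)) (_ : ∀ b, g' (β b) = γ (g b))
    (_ : Function.Injective f) (_ : Function.Surjective g) (_ : Function.Exact f g)
    (_ : Function.Injective f') (_ : Function.Surjective g') (_ : Function.Exact f' g'),
    RR n α → RR n γ → RR n β
  | 0, A, B, C, A', B', C', _, _, _, _, _, _, _, _, _, _, _, _, α, β, γ, f, g, f', g', hf, hg,
      f1, g1, e1, f2, g2, e2, ⟨ι, _, a, a1, a2⟩, ⟨κ, _, c, c1, c2⟩ => by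
    choose b hb using fun j => g1 (c j)
    have hc : (fun j => g (b j)) = c := funext hb
    have hc' : (fun j => g' (β (b j))) = fun j => γ (c j) := by
      funext j; rw [hg, hb]
    have hα : (fun i => β (f (a i))) = fun i => f' (α (a i)) := by
      funext i; rw [hf]
    have hx : (fun x => β (Sum.elim (fun i => f (a i)) b x)) =
        Sum.elim (fun i => f' (α (a i))) (fun j => β (b j)) := by
      funext x
      rcases x with i | j
      · exact congrFun hα i
      · rfl
    refine ⟨ι ⊕ κ, inferInstance, Sum.elim (fun i => f (a i)) b, ⟨?_, ?_⟩, ?_, ?_⟩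
    · exact horse_inj f1 e1 a b a1.1 (by rw [hc]; exact c1.1)
    · exact horse_surj e1 a b a1.2 (by rw [hc]; exact c1.2)
    · rw [hx]
      exact horse_inj f2 e2 (fun i => α (a i)) (fun j => β (b j)) a2.1 (by rw [hc']; exact c2.1)
    · rw [hx]
      exact horse_surj e2 (fun i => α (a i)) (fun j => β (b j)) a2.2 (by rw [hc']; exact c2.2)
  | n + 1, A, B, C, A', B', C', _, _, _, _, _, _, _, _, _, _, _, _, α, β, γ, f, g, f', g', hf, hg,
      f1, g1, e1, f2, g2, e2, ⟨ι, _, a, a1, a2, a3⟩, ⟨κ, _, c, c1, c2, c3⟩ => by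
    choose b hb using fun j => g1 (c j)
    have hc : (fun j => g (b j)) = c := funext hb
    have hc' : (fun j => g' (β (b j))) = fun j => γ (c j) := by
      funext j; rw [hg, hb]
    have hx : (fun x => β (Sum.elim (fun i => f (a i)) b x)) =
        Sum.elim (fun i => f' (α (a i))) (fun j => β (b j)) := by
      funext x
      rcases x with i | j
      · exact (hf _).symm
      · rfl
    subst hc
    refine ⟨ι ⊕ κ, inferInstance, Sum.elim (fun i => f (a i)) b, ?_, ?_, ?_⟩
    · exact horse_surj e1 a b a1 c1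
    · rw [hx]
      exact horse_surj e2 (fun i => α (a i)) (fun j => β (b j)) a2 (by rw [hc']; exact c2)
    · have k2 : LinearMap.ker (lc D (Sum.elim (fun i => f' (α (a i))) (fun j => β (b j)))) =
          LinearMap.ker (lc D (fun x => β (Sum.elim (fun i => f (a i)) b x))) := by
        rw [hx]
      have k3 : LinearMap.ker (lc D (fun j => g' (β (b j)))) =
          LinearMap.ker (lc D (fun j => γ (g (b j)))) := by
        rw [hc']
      refine RR.mid (f := hi f a b) (g := hp e1 a b)
        (f' := (LinearEquiv.ofEq _ _ k2).toLinearMap.comp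
          (hi f' (fun i => α (a i)) (fun j => β (b j))))
        (g' := (LinearEquiv.ofEq _ _ k3).toLinearMap.comp
          ((hp e2 (fun i => α (a i)) (fun j => β (b j))).comp
          (LinearEquiv.ofEq _ _ k2).symm.toLinearMap))
        ?_ ?_ (hi_inj _ _ _) (hp_surj _ _ _ a1) (hi_hp_exact f1 e1 a b) ?_ ?_ ?_ a3 c3
      · intro x
        apply Subtype.ext
        funext y
        rcases y with i | j
        · rfl
        · exact (map_zero σ).symm
      · intro x
        apply Subtype.ext
        rfl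
      · exact (LinearEquiv.ofEq _ _ k2).injective.comp
          (hi_inj f' (fun i => α (a i)) (fun j => β (b j)))
      · exact surj_conj _ _ (hp_surj e2 (fun i => α (a i)) (fun j => β (b j)) a2)
      · exact exact_conj _ _ (hi_hp_exact f2 e2 (fun i => α (a i)) (fun j => β (b j)))

section

variable {A B C A' B' C' : Type u} [AddCommGroup A] [Module V A] [AddCommGroup B] [Module V B]
  [AddCommGroup C] [Module V C] [AddCommGroup A'] [Module D A'] [AddCommGroup B'] [Module D B']
  [AddCommGroup C'] [Module D C']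

theorem RR.prod {n : ℕ} {α : A →ₛₗ[σ] A'} {γ : C →ₛₗ[σ] C'} (ha : RR n α) (hc : RR n γ) :
    RR n (pmap α γ) := by
  refine RR.mid (f := LinearMap.inl V A C) (g := LinearMap.snd V A C)
    (f' := LinearMap.inl D A' C') (g' := LinearMap.snd D A' C') ?_ ?_ LinearMap.inl_injective
    LinearMap.snd_surjective ?_ LinearMap.inl_injective LinearMap.snd_surjective ?_ ha hc
  · intro a
    show (α a, 0) = (α a, γ 0)
    rw [map_zero]
  · intro b
    rfl
  · exact Function.Exact.inl_snd
  · exact Function.Exact.inl_snd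

theorem PFF.mid {α : A →ₛₗ[σ] A'} {β : B →ₛₗ[σ] B'} {γ : C →ₛₗ[σ] C'}
    {f : A →ₗ[V] B} {g : B →ₗ[V] C} {f' : A' →ₗ[D] B'} {g' : B' →ₗ[D] C'}
    (h1 : ∀ a, f' (α a) = β (f a)) (h2 : ∀ b, g' (β b) = γ (g b))
    (h3 : Function.Injective f) (h4 : Function.Surjective g) (h5 : Function.Exact f g)
    (h6 : Function.Injective f') (h7 : Function.Surjective g') (h8 : Function.Exact f' g')
    (ha : PFF α) (hc : PFF γ) : PFF β := by
  obtain ⟨n, hn⟩ := ha
  obtain ⟨m, hm⟩ := hc
  exact ⟨max n m, RR.mid h1 h2 h3 h4 h5 h6 h7 h8 (hn.mono (le_max_left _ _))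
    (hm.mono (le_max_right _ _))⟩

theorem PFF.of_equiv {α : A →ₛₗ[σ] A'} {β : B →ₛₗ[σ] B'} (e : A ≃ₗ[V] B) (g : A' ≃ₗ[D] B')
    (h : ∀ a, g (α a) = β (e a)) (ha : PFF α) : PFF β := by
  obtain ⟨n, hn⟩ := ha
  exact ⟨n, hn.of_equiv e g h⟩

theorem PFF.of_free (ι : Type) [Fintype ι] : PFF (cσ σ ι) := ⟨0, RR.of_free 0 ι⟩

theorem PFF.of_subsingleton (α : A →ₛₗ[σ] A') [Subsingleton A] [Subsingleton A'] : PFF α :=
  ⟨0, RR.of_subsingleton 0 α⟩

/-- the pair of kernels, general form -/
def kmap' {ι : Type} [Fintype ι] (α : A →ₛₗ[σ] A') (a : ι → A) (c : ι → A')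
    (h : ∀ i, α (a i) = c i) : LinearMap.ker (lc V a) →ₛₗ[σ] LinearMap.ker (lc D c) where
  toFun v := ⟨cσ σ ι (v : ι → V), by
    obtain rfl : (fun i => α (a i)) = c := funext h
    rw [LinearMap.mem_ker, lc_cσ, LinearMap.mem_ker.mp v.2, map_zero]⟩
  map_add' v w := by
    apply Subtype.ext
    exact map_add (cσ σ ι) _ _
  map_smul' r v := by
    apply Subtype.ext
    exact (cσ σ ι).map_smulₛₗ r _

theorem RR.kmap'_iff {n : ℕ} {ι : Type} [Fintype ι] (α : A →ₛₗ[σ] A') (a : ι → A) (c : ι → A')
    (h : ∀ i, α (a i) = c i) : RR n (kmap' α a c h) ↔ RR n (kmap α a) := by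
  obtain rfl : (fun i => α (a i)) = c := funext h
  exact Iff.rfl

end

section Schanuel

variable {R M : Type u} [Ring R] [AddCommGroup M] [Module R M] {ι κ : Type} [Fintype ι] [Fintype κ]

/-- kernel of an enlarged cover -/
noncomputable def sch (a : ι → M) (b : κ → M) (x : κ → (ι → R)) (hx : ∀ k, lc R a (x k) = b k) :
    (LinearMap.ker (lc R a) × (κ → R)) ≃ₗ[R] LinearMap.ker (lc R (Sum.elim a b)) where
  toFun u := ⟨Sum.elim ((u.1 : ι → R) - lc R x u.2) u.2, by
    rw [LinearMap.mem_ker, lc_sum]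
    simp only [Sum.elim_inl, Sum.elim_inr]
    have h1 : (fun i => ((u.1 : ι → R) - lc R x u.2) i) = (u.1 : ι → R) - lc R x u.2 := rfl
    have h2 : lc R a (lc R x u.2) = lc R b u.2 := by
      rw [← lc_comp]
      congr 2
      funext k
      exact hx k
    rw [map_sub, LinearMap.mem_ker.mp u.1.2, h2]
    abel⟩
  map_add' u w := by
    apply Subtype.ext
    funext y
    rcases y with i | j
    · simp only [Prod.fst_add, Prod.snd_add, map_add]
      simp
      abel
    · simp
  map_smul' r u := by
    apply Subtype.ext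
    funext y
    rcases y with i | j
    · simp only [Prod.smul_fst, Prod.smul_snd, map_smul]
      simp [mul_sub]
    · simp
  invFun w := (⟨(fun i => (w : ι ⊕ κ → R) (Sum.inl i)) +
      lc R x (fun j => (w : ι ⊕ κ → R) (Sum.inr j)), by
    rw [LinearMap.mem_ker, map_add]
    have h2 : lc R a (lc R x (fun j => (w : ι ⊕ κ → R) (Sum.inr j))) =
        lc R b (fun j => (w : ι ⊕ κ → R) (Sum.inr j)) := by
      rw [← lc_comp]
      congr 2
      funext k
      exact hx k
    rw [h2, ← lc_sum]
    exact w.2⟩, fun j => (w : ι ⊕ κ → R) (Sum.inr j))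
  left_inv u := by
    refine Prod.ext (Subtype.ext ?_) rfl
    funext i
    simp
  right_inv w := by
    apply Subtype.ext
    funext y
    rcases y with i | j
    · simp
    · rfl

@[simp] theorem sch_coe (a : ι → M) (b : κ → M) (x : κ → (ι → R)) (hx : ∀ k, lc R a (x k) = b k)
    (u : LinearMap.ker (lc R a) × (κ → R)) : ((sch a b x hx u : _) : ι ⊕ κ → R) =
      Sum.elim ((u.1 : ι → R) - lc R x u.2) u.2 := rfl

/-- swapping -/
noncomputable def swp (a : ι → M) (b : κ → M) :
    LinearMap.ker (lc R (Sum.elim a b)) ≃ₗ[R] LinearMap.ker (lc R (Sum.elim b a)) where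
  toFun w := ⟨fun y => (w : ι ⊕ κ → R) y.swap, by
    have h := LinearMap.mem_ker.mp w.2
    rw [lc_sum] at h
    rw [LinearMap.mem_ker, lc_sum]
    rw [add_comm]
    exact h⟩
  map_add' u w := rfl
  map_smul' r w := rfl
  invFun w := ⟨fun y => (w : κ ⊕ ι → R) y.swap, by
    have h := LinearMap.mem_ker.mp w.2
    rw [lc_sum] at h
    rw [LinearMap.mem_ker, lc_sum]
    rw [add_comm]
    exact h⟩
  left_inv w := by
    apply Subtype.ext
    funext y
    simp
  right_inv w := by
    apply Subtype.ext
    funext y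
    simp

/-- kernel of a product cover -/
noncomputable def kprod {N : Type u} [AddCommGroup N] [Module R N] (a : ι → M) (b : κ → N) :
    LinearMap.ker (lc R (Sum.elim (fun i => (a i, (0 : N))) (fun j => ((0 : M), b j)))) ≃ₗ[R]
      (LinearMap.ker (lc R a) × LinearMap.ker (lc R b)) where
  toFun w := (⟨fun i => (w : ι ⊕ κ → R) (Sum.inl i), by
      have h := LinearMap.mem_ker.mp w.2
      rw [lc_sum] at h
      have h1 := congrArg Prod.fst h
      simp only [lc_apply, Prod.fst_add, Prod.fst_sum, Prod.smul_fst, smul_zero,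
        Finset.sum_const_zero, add_zero, Prod.fst_zero] at h1
      exact h1⟩, ⟨fun j => (w : ι ⊕ κ → R) (Sum.inr j), by
      have h := LinearMap.mem_ker.mp w.2
      rw [lc_sum] at h
      have h1 := congrArg Prod.snd h
      simp only [lc_apply, Prod.snd_add, Prod.snd_sum, Prod.smul_snd, smul_zero,
        Finset.sum_const_zero, zero_add, Prod.snd_zero] at h1
      exact h1⟩)
  map_add' u w := rfl
  map_smul' r w := rfl
  invFun w := ⟨Sum.elim (w.1 : ι → R) (w.2 : κ → R), by
    rw [LinearMap.mem_ker, lc_sum]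
    have h1 : lc R a (w.1 : ι → R) = 0 := w.1.2
    have h2 : lc R b (w.2 : κ → R) = 0 := w.2.2
    rw [lc_apply] at h1 h2
    refine Prod.ext ?_ ?_
    · simp only [lc_apply, Prod.fst_add, Prod.fst_sum, Prod.smul_fst, smul_zero,
        Finset.sum_const_zero, add_zero, Prod.fst_zero, Sum.elim_inl]
      exact h1
    · simp only [lc_apply, Prod.snd_add, Prod.snd_sum, Prod.smul_snd, smul_zero,
        Finset.sum_const_zero, zero_add, Prod.snd_zero, Sum.elim_inr]
      exact h2⟩
  left_inv w := by
    apply Subtype.ext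
    funext y
    rcases y with i | j <;> rfl
  right_inv w := rfl

end Schanuel

section

variable {A B C A' B' C' : Type u} [AddCommGroup A] [Module V A] [AddCommGroup B] [Module V B]
  [AddCommGroup C] [Module V C] [AddCommGroup A'] [Module D A'] [AddCommGroup B'] [Module D B']
  [AddCommGroup C'] [Module D C']

variable {ι κ : Type} [Fintype ι] [Fintype κ]

theorem RR.enlarge {n : ℕ} {α : A →ₛₗ[σ] A'} {a : ι → A} (b : κ → A)
    (ha : Function.Surjective (lc V a)) :
    RR n (pmap (kmap α a) (cσ σ κ)) ↔ RR n (kmap α (Sum.elim a b)) := by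
  choose x hx using fun k => ha (b k)
  have hx' : ∀ k, lc D (fun i => α (a i)) (cσ σ ι (x k)) = α (b k) := fun k => by
    rw [lc_cσ, hx]
  rw [← RR.kmap'_iff α (Sum.elim a b) (Sum.elim (fun i => α (a i)) (fun j => α (b j)))
    (fun y => by rcases y with i | j <;> rfl)]
  have key : ∀ u : LinearMap.ker (lc V a) × (κ → V),
      sch (fun i => α (a i)) (fun j => α (b j)) (fun k => cσ σ ι (x k)) hx'
        (pmap (kmap α a) (cσ σ κ) u) =
      kmap' α (Sum.elim a b) (Sum.elim (fun i => α (a i)) (fun j => α (b j)))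
        (fun y => by rcases y with i | j <;> rfl) (sch a b x hx u) := by
    intro u
    apply Subtype.ext
    rw [sch_coe]
    show _ = cσ σ (ι ⊕ κ) (Sum.elim ((u.1 : ι → V) - lc V x u.2) u.2)
    simp only [pmap_apply, kmap_coe]
    rw [lc_cσ (cσ σ ι) x u.2]
    funext y
    rcases y with i | j
    · simp
    · simp
  constructor
  · intro h
    exact h.of_equiv (sch a b x hx) (sch _ _ _ hx') key
  · intro h
    refine h.of_equiv (sch a b x hx).symm (sch _ _ _ hx').symm ?_
    intro w
    obtain ⟨u, rfl⟩ := (sch a b x hx).surjective w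
    rw [← key, LinearEquiv.symm_apply_apply, LinearEquiv.symm_apply_apply]

theorem RR.swap {n : ℕ} {α : A →ₛₗ[σ] A'} {a : ι → A} {b : κ → A}
    (h : RR n (kmap α (Sum.elim a b))) : RR n (kmap α (Sum.elim b a)) := by
  rw [← RR.kmap'_iff α (Sum.elim a b) (Sum.elim (fun i => α (a i)) (fun j => α (b j)))
    (fun y => by rcases y with i | j <;> rfl)] at h
  rw [← RR.kmap'_iff α (Sum.elim b a) (Sum.elim (fun j => α (b j)) (fun i => α (a i)))
    (fun y => by rcases y with i | j <;> rfl)]
  exact h.of_equiv (swp a b) (swp _ _) (fun _ => rfl)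

/-- Schanuel: two covers -/
theorem RR.other_cover {n : ℕ} {α : A →ₛₗ[σ] A'} {a : ι → A} {b : κ → A}
    (ha : Function.Surjective (lc V a)) (hb : Function.Surjective (lc V b))
    (h : RR n (kmap α a)) : RR n (pmap (kmap α b) (cσ σ ι)) := by
  rw [RR.enlarge a hb]
  apply RR.swap
  rw [← RR.enlarge b ha]
  exact h.prod (RR.of_free n κ)

end

end Pairs

end Crest.Agent.R181.VC
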