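import Crest.Agent.R181.VC889a

/-!
# R181, V-chain, V2c (2): quotients and direct summands of pairs with finite free resolutions

`IsInd i`: `i : M → N` is the universal semilinear map (`N = S ⊗_R M`).
-/

set_option autoImplicit false

namespace Crest.Agent.R181.VC

open FR

universe u

section Ind

variable {R S : Type u} [Ring R] [Ring S] {τ : R →+* S}

/-- `N` is the induced module of `M` -/
def IsInd {M N : Type u} [AddCommGroup M] [Module R M] [AddCommGroup N] [Module S N]
    (i : M →ₛₗ[τ] N) : Prop :=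
  Submodule.span S (Set.range i) = ⊤ ∧
    ∀ (X : Type u) [AddCommGroup X] [Module S X] (ψ : M →ₛₗ[τ] X),
      ∃ χ : N →ₗ[S] X, ∀ m, χ (i m) = ψ m

variable {M N M' N' : Type u} [AddCommGroup M] [Module R M] [AddCommGroup N] [Module S N]
  [AddCommGroup M'] [Module R M'] [AddCommGroup N'] [Module S N']

theorem IsInd.ext {i : M →ₛₗ[τ] N} (h : IsInd i) {X : Type u} [AddCommGroup X] [Module S X]
    {f g : N →ₗ[S] X} (hfg : ∀ m, f (i m) = g (i m)) : f = g := by
  apply LinearMap.ext_on_range h.1
  exact hfg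

theorem IsInd.equiv {i : M →ₛₗ[τ] N} {j : M' →ₛₗ[τ] N'} (hi : IsInd i) (hj : IsInd j)
    (e : M ≃ₗ[R] M') : ∃ g : N ≃ₗ[S] N', ∀ m, g (i m) = j (e m) := by
  obtain ⟨f, hf⟩ := hi.2 N' (j.comp e.toLinearMap)
  obtain ⟨g, hg⟩ := hj.2 N (i.comp e.symm.toLinearMap)
  have hf' : ∀ m, f (i m) = j (e m) := hf
  have hg' : ∀ m, g (j m) = i (e.symm m) := hg
  refine ⟨LinearEquiv.ofLinear f g ?_ ?_, hf'⟩
  · apply hj.ext
    intro m
    simp [hg', hf']
  · apply hi.ext
    intro m
    simp [hg', hf']

theorem IsInd.of_equiv {i : M →ₛₗ[τ] N} {j : M' →ₛₗ[τ] N'} (hi : IsInd i)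
    (e : M ≃ₗ[R] M') (g : N ≃ₗ[S] N') (h : ∀ m, g (i m) = j (e m)) : IsInd j := by
  constructor
  · rw [eq_top_iff]
    rintro x -
    have h1 : g.symm x ∈ Submodule.span S (Set.range i) := by rw [hi.1]; trivial
    have h2 : g (g.symm x) ∈ (Submodule.span S (Set.range i)).map g.toLinearMap :=
      Submodule.mem_map_of_mem h1
    rw [LinearEquiv.apply_symm_apply, Submodule.map_span] at h2
    refine Submodule.span_mono ?_ h2
    rintro _ ⟨_, ⟨m, rfl⟩, rfl⟩
    exact ⟨e m, (h m).symm⟩
  · intro X _ _ ψ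
    obtain ⟨χ, hχ⟩ := hi.2 X (ψ.comp e.toLinearMap)
    refine ⟨χ.comp g.symm.toLinearMap, fun m => ?_⟩
    obtain ⟨m, rfl⟩ := e.surjective m
    rw [← h]
    simpa using hχ m

theorem IsInd.free (ι : Type) [Fintype ι] : IsInd (cσ τ ι) := by
  classical
  have hs : ∀ i : ι, cσ τ ι (Pi.single i 1) = Pi.single i 1 := by
    intro i
    funext j
    rw [cσ_apply]
    by_cases h : j = i
    · subst h; simp
    · simp [h]
  constructor
  · rw [eq_top_iff]
    rintro x -
    have h1 := lc_single x
    rw [← h1, lc_apply]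
    refine Submodule.sum_mem _ fun i _ => Submodule.smul_mem _ _ (Submodule.subset_span ?_)
    exact ⟨Pi.single i 1, hs i⟩
  · intro X _ _ ψ
    refine ⟨lc S (fun i => ψ (Pi.single i 1)), fun m => ?_⟩
    rw [lc_cσ, lc_single]

/-- a factor of an induced pair is induced -/
theorem IsInd.fst {α : M →ₛₗ[τ] N} {β : M' →ₛₗ[τ] N'} (h : IsInd (pmap α β)) : IsInd α := by
  constructor
  · rw [eq_top_iff]
    rintro x -
    have h1 : ((x, 0) : N × N') ∈ Submodule.span S (Set.range (pmap α β)) := by
      rw [h.1]; trivial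
    have h2 := Submodule.mem_map_of_mem (f := LinearMap.fst S N N') h1
    rw [Submodule.map_span] at h2
    refine Submodule.span_mono ?_ h2
    rintro _ ⟨_, ⟨m, rfl⟩, rfl⟩
    exact ⟨m.1, rfl⟩
  · intro X _ _ ψ
    obtain ⟨χ, hχ⟩ := h.2 X (ψ.comp (LinearMap.fst R M M'))
    refine ⟨χ.comp (LinearMap.inl S N N'), fun m => ?_⟩
    have := hχ (m, 0)
    simpa using this

theorem IsInd.prod {α : M →ₛₗ[τ] N} {β : M' →ₛₗ[τ] N'} (h : IsInd α) (h' : IsInd β) :
    IsInd (pmap α β) := by
  constructor
  · rw [eq_top_iff]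
    rintro ⟨x, y⟩ -
    have h1 : ((x, 0) : N × N') ∈ Submodule.span S (Set.range (pmap α β)) := by
      have h2 : x ∈ Submodule.span S (Set.range α) := by rw [h.1]; trivial
      have h3 := Submodule.mem_map_of_mem (f := LinearMap.inl S N N') h2
      rw [Submodule.map_span] at h3
      refine Submodule.span_mono ?_ h3
      rintro _ ⟨_, ⟨m, rfl⟩, rfl⟩
      exact ⟨(m, 0), by simp⟩
    have h1' : ((0, y) : N × N') ∈ Submodule.span S (Set.range (pmap α β)) := by
      have h2 : y ∈ Submodule.span S (Set.range β) := by rw [h'.1]; trivial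
      have h3 := Submodule.mem_map_of_mem (f := LinearMap.inr S N N') h2
      rw [Submodule.map_span] at h3
      refine Submodule.span_mono ?_ h3
      rintro _ ⟨_, ⟨m, rfl⟩, rfl⟩
      exact ⟨(0, m), by simp⟩
    have := Submodule.add_mem _ h1 h1'
    simpa using this
  · intro X _ _ ψ
    obtain ⟨χ, hχ⟩ := h.2 X (ψ.comp (LinearMap.inl R M M'))
    obtain ⟨χ', hχ'⟩ := h'.2 X (ψ.comp (LinearMap.inr R M M'))
    refine ⟨χ.coprod χ', fun m => ?_⟩
    have e1 : χ (α m.1) = ψ (m.1, 0) := hχ m.1
    have e2 : χ' (β m.2) = ψ (0, m.2) := hχ' m.2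
    rw [pmap_apply, LinearMap.coprod_apply]
    show χ (α m.1) + χ' (β m.2) = ψ m
    rw [e1, e2, ← map_add]
    simp

end Ind

section Right

variable {R : Type u} [Ring R] {A B C : Type u} [AddCommGroup A] [Module R A] [AddCommGroup B]
  [Module R B] [AddCommGroup C] [Module R C] {ι : Type} [Fintype ι]

/-- inclusion of kernels of covers -/
noncomputable def ri (g : B →ₗ[R] C) (b : ι → B) :
    LinearMap.ker (lc R b) →ₗ[R] LinearMap.ker (lc R (fun i => g (b i))) :=
  Submodule.inclusion (fun v hv => by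
    rw [LinearMap.mem_ker, lc_comp, LinearMap.mem_ker.mp hv, map_zero])

theorem ri_inj (g : B →ₗ[R] C) (b : ι → B) : Function.Injective (ri g b) :=
  Submodule.inclusion_injective _

/-- the kernel of the cover of `C` maps to `A` -/
noncomputable def rp {f : A →ₗ[R] B} {g : B →ₗ[R] C} (hf : Function.Injective f)
    (hfg : Function.Exact f g) (b : ι → B) : LinearMap.ker (lc R (fun i => g (b i))) →ₗ[R] A :=
  (LinearEquiv.ofInjective f hf).symm.toLinearMap.comp
    (LinearMap.codRestrict (LinearMap.range f) ((lc R b).comp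
      (LinearMap.ker (lc R (fun i => g (b i)))).subtype) (fun x => (hfg _).mp (by
        show g (lc R b (x : ι → R)) = 0
        rw [← lc_comp]
        exact x.2)))

theorem rp_spec {f : A →ₗ[R] B} {g : B →ₗ[R] C} (hf : Function.Injective f)
    (hfg : Function.Exact f g) (b : ι → B) (x : LinearMap.ker (lc R (fun i => g (b i)))) :
    f (rp hf hfg b x) = lc R b (x : ι → R) := by
  have h1 : ((LinearEquiv.ofInjective f hf) (rp hf hfg b x) : B) = f (rp hf hfg b x) := rfl
  rw [← h1]
  unfold rp
  rw [LinearMap.comp_apply, LinearEquiv.coe_coe, LinearEquiv.apply_symm_apply]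
  rfl

theorem rp_surj {f : A →ₗ[R] B} {g : B →ₗ[R] C} (hf : Function.Injective f)
    (hfg : Function.Exact f g) (b : ι → B) (hb : Function.Surjective (lc R b)) :
    Function.Surjective (rp hf hfg b) := by
  intro a
  obtain ⟨v, hv⟩ := hb (f a)
  refine ⟨⟨v, ?_⟩, ?_⟩
  · rw [LinearMap.mem_ker, lc_comp, hv]
    exact hfg.apply_apply_eq_zero a
  · apply hf
    rw [rp_spec]
    exact hv

theorem ri_rp_exact {f : A →ₗ[R] B} {g : B →ₗ[R] C} (hf : Function.Injective f)
    (hfg : Function.Exact f g) (b : ι → B) : Function.Exact (ri g b) (rp hf hfg b) := by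
  intro x
  constructor
  · intro h
    have h1 := rp_spec hf hfg b x
    rw [h, map_zero] at h1
    exact ⟨⟨x, h1.symm⟩, rfl⟩
  · rintro ⟨z, rfl⟩
    apply hf
    rw [rp_spec, map_zero]
    exact z.2

end Right

section

variable {V D : Type u} [Ring V] [Ring D] {σ : V →+* D}

variable {A B C A' B' C' : Type u} [AddCommGroup A] [Module V A] [AddCommGroup B] [Module V B]
  [AddCommGroup C] [Module V C] [AddCommGroup A'] [Module D A'] [AddCommGroup B'] [Module D B']
  [AddCommGroup C'] [Module D C']

variable {ι κ : Type} [Fintype ι] [Fintype κ]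

theorem RR.zero_iff {α : A →ₛₗ[σ] A'} : RR 0 α ↔ ∃ (ι : Type) (_ : Fintype ι)
    (e : (ι → V) ≃ₗ[V] A) (g : (ι → D) ≃ₗ[D] A'), ∀ v, g (cσ σ ι v) = α (e v) := by
  constructor
  · rintro ⟨ι, _, a, h1, h2⟩
    exact ⟨ι, inferInstance, LinearEquiv.ofBijective (lc V a) h1,
      LinearEquiv.ofBijective (lc D fun i => α (a i)) h2, fun v => lc_cσ α a v⟩
  · rintro ⟨ι, _, e, g, h⟩
    exact (RR.of_free 0 ι).of_equiv e g h

theorem RR.isInd : ∀ {n : ℕ} {A A' : Type u} [AddCommGroup A] [Module V A] [AddCommGroup A']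
    [Module D A'] {α : A →ₛₗ[σ] A'}, RR n α → IsInd α
  | 0, A, A', _, _, _, _, α, h => by
    obtain ⟨ι, _, e, g, h⟩ := RR.zero_iff.mp h
    exact (IsInd.free ι).of_equiv e g h
  | n + 1, A, A', _, _, _, _, α, ⟨ι, _, a, h1, h2, h3⟩ => by
    have hk := RR.isInd h3
    constructor
    · rw [eq_top_iff]
      rintro x -
      obtain ⟨v, rfl⟩ := h2 x
      rw [lc_apply]
      exact Submodule.sum_mem _ fun i _ => Submodule.smul_mem _ _ (Submodule.subset_span ⟨a i, rfl⟩)
    · intro X _ _ ψ
      -- the map `D^ι → X` kills the kernel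
      have hker : ∀ w : LinearMap.ker (lc D (fun i => α (a i))),
          lc D (fun i => ψ (a i)) (w : ι → D) = 0 := by
        intro w
        have h4 : (lc D (fun i => ψ (a i))).comp
            (LinearMap.ker (lc D (fun i => α (a i)))).subtype = 0 := by
          apply hk.ext
          intro m
          show lc D (fun i => ψ (a i)) (cσ σ ι (m : ι → V)) = 0
          rw [lc_cσ, LinearMap.mem_ker.mp m.2, map_zero]
        exact LinearMap.congr_fun h4 w
      have hle : LinearMap.ker (lc D (fun i => α (a i))) ≤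
          LinearMap.ker (lc D (fun i => ψ (a i))) := fun w hw => hker ⟨w, hw⟩
      let q : A' →ₗ[D] X :=
        ((LinearMap.ker (lc D (fun i => α (a i)))).liftQ (lc D (fun i => ψ (a i))) hle).comp
          (LinearMap.quotKerEquivOfSurjective (lc D (fun i => α (a i))) h2).symm.toLinearMap
      have hq : ∀ v, q (lc D (fun i => α (a i)) v) = lc D (fun i => ψ (a i)) v := by
        intro v
        have : (LinearMap.quotKerEquivOfSurjective (lc D (fun i => α (a i))) h2).symm
            (lc D (fun i => α (a i)) v) =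
            (LinearMap.ker (lc D (fun i => α (a i)))).mkQ v := by
          rw [LinearEquiv.symm_apply_eq]
          rfl
        show ((LinearMap.ker (lc D (fun i => α (a i)))).liftQ (lc D (fun i => ψ (a i))) hle)
          ((LinearMap.quotKerEquivOfSurjective (lc D (fun i => α (a i))) h2).symm
            (lc D (fun i => α (a i)) v)) = _
        rw [this]
        exact Submodule.liftQ_apply _ _ _
      refine ⟨q, fun m => ?_⟩
      obtain ⟨v, rfl⟩ := h1 m
      rw [← lc_cσ, hq, lc_cσ]

theorem PFF.isInd {α : A →ₛₗ[σ] A'} (h : PFF α) : IsInd α := by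
  obtain ⟨n, h⟩ := h
  exact h.isInd

/-- 2-of-3, right term -/
theorem PFF.right {α : A →ₛₗ[σ] A'} {β : B →ₛₗ[σ] B'} {γ : C →ₛₗ[σ] C'}
    {f : A →ₗ[V] B} {g : B →ₗ[V] C} {f' : A' →ₗ[D] B'} {g' : B' →ₗ[D] C'}
    (h1 : ∀ a, f' (α a) = β (f a)) (h2 : ∀ b, g' (β b) = γ (g b))
    (h3 : Function.Injective f) (h4 : Function.Surjective g) (h5 : Function.Exact f g)
    (h6 : Function.Injective f') (h7 : Function.Surjective g') (h8 : Function.Exact f' g')
    (ha : PFF α) (hb : PFF β) : PFF γ := by
  obtain ⟨n, hb⟩ := hb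
  obtain ⟨ι, _, b, b1, b2, b3⟩ := hb.succ
  have hc : (fun i => g' (β (b i))) = fun i => γ (g (b i)) := by
    funext i; rw [h2]
  have s1 : Function.Surjective (lc V (fun i => g (b i))) := by
    have : ⇑(lc V (fun i => g (b i))) = g ∘ lc V b := by funext v; exact lc_comp g b v
    rw [this]; exact h4.comp b1
  have s2 : Function.Surjective (lc D (fun i => g' (β (b i)))) := by
    have : ⇑(lc D (fun i => g' (β (b i)))) = g' ∘ lc D (fun i => β (b i)) := by
      funext v; exact lc_comp g' _ v
    rw [this]; exact h7.comp b2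
  have key : PFF (kmap' γ (fun i => g (b i)) (fun i => g' (β (b i))) (fun i => (h2 _).symm)) := by
    -- `0 → ker(B) → ker(C) → A → 0`
    refine PFF.mid (α := kmap β b) (γ := α)
      (f := ri g b) (g := rp h3 h5 b) (f' := ri g' (fun i => β (b i)))
      (g' := rp h6 h8 (fun i => β (b i)))
      ?_ ?_ (ri_inj _ _) (rp_surj _ _ _ b1) (ri_rp_exact _ _ _) (ri_inj _ _) (rp_surj _ _ _ b2)
      (ri_rp_exact _ _ _) ⟨n, b3⟩ ha
    · intro x; rfl
    · intro x
      apply h6
      rw [rp_spec, h1, rp_spec]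
      exact lc_cσ β b (x : ι → V)
  obtain ⟨m, hm⟩ := key
  rw [RR.kmap'_iff] at hm
  exact ⟨m + 1, ι, inferInstance, fun i => g (b i), s1, by rw [← hc]; exact s2, hm⟩

/-- cancelling a free factor -/
theorem PFF.cancel {α : A →ₛₗ[σ] A'} (h : PFF (pmap α (cσ σ κ))) : PFF α := by
  refine PFF.right (α := cσ σ κ) (β := pmap α (cσ σ κ)) (γ := α)
    (f := LinearMap.inr V A (κ → V)) (g := LinearMap.fst V A (κ → V))
    (f' := LinearMap.inr D A' (κ → D)) (g' := LinearMap.fst D A' (κ → D)) ?_ ?_
    LinearMap.inr_injective LinearMap.fst_surjective Function.Exact.inr_fst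
    LinearMap.inr_injective LinearMap.fst_surjective Function.Exact.inr_fst (PFF.of_free κ) h
  · intro a
    show (0, cσ σ κ a) = (α 0, cσ σ κ a)
    rw [map_zero]
  · intro b; rfl

/-- every f.g. projective module is stably free -/
def PSF (V : Type u) [Ring V] : Prop :=
  ∀ (P : Type u) [AddCommGroup P] [Module V P], Module.Finite V P → Module.Projective V P →
    StFree V P

/-- **direct summands** -/
theorem PFF.of_fst_aux (SF : PSF V) : ∀ (n : ℕ) {A C A' C' : Type u} [AddCommGroup A] [Module V A]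
    [AddCommGroup C] [Module V C] [AddCommGroup A'] [Module D A'] [AddCommGroup C'] [Module D C']
    {α : A →ₛₗ[σ] A'} {γ : C →ₛₗ[σ] C'}, RR n (pmap α γ) → PFF α
  | 0, A, C, A', C', _, _, _, _, _, _, _, _, α, γ, h => by
    have hi : IsInd α := h.isInd.fst
    obtain ⟨ι, _, e, g, h⟩ := RR.zero_iff.mp h
    -- `A` is finitely generated projective
    have hfin : Module.Finite V A :=
      Module.Finite.of_surjective ((LinearMap.fst V A C).comp e.toLinearMap)
        (Prod.fst_surjective.comp e.surjective)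
    have hproj : Module.Projective V A := by
      refine Module.Projective.of_split (e.symm.toLinearMap.comp (LinearMap.inl V A C))
        ((LinearMap.fst V A C).comp e.toLinearMap) ?_
      ext x
      simp
    obtain ⟨m, n, ⟨θ⟩⟩ := SF A hfin hproj
    obtain ⟨g', hg'⟩ := (hi.prod (IsInd.free (τ := σ) (Fin m))).equiv (IsInd.free (Fin n)) θ
    apply PFF.cancel (κ := Fin m)
    refine ⟨0, (RR.of_free (σ := σ) 0 (Fin n)).of_equiv θ.symm g'.symm ?_⟩
    intro v
    rw [LinearEquiv.symm_apply_eq, hg', LinearEquiv.apply_symm_apply]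
  | n + 1, A, C, A', C', _, _, _, _, _, _, _, _, α, γ, ⟨ι, _, z, z1, z2, z3⟩ => by
    -- covers of the factors
    set a : ι → A := fun i => (z i).1 with ha
    set c : ι → C := fun i => (z i).2 with hc
    have a1 : Function.Surjective (lc V a) := by
      have : ⇑(lc V a) = Prod.fst ∘ lc V z := by
        funext v; exact lc_comp (LinearMap.fst V A C) z v
      rw [this]; exact Prod.fst_surjective.comp z1
    have c1 : Function.Surjective (lc V c) := by
      have : ⇑(lc V c) = Prod.snd ∘ lc V z := by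
        funext v; exact lc_comp (LinearMap.snd V A C) z v
      rw [this]; exact Prod.snd_surjective.comp z1
    have a2 : Function.Surjective (lc D (fun i => α (a i))) := by
      have : ⇑(lc D (fun i => α (a i))) = Prod.fst ∘ lc D (fun i => pmap α γ (z i)) := by
        funext v; exact lc_comp (LinearMap.fst D A' C') (fun i => pmap α γ (z i)) v
      rw [this]; exact Prod.fst_surjective.comp z2
    set p : ι ⊕ ι → A × C := Sum.elim (fun i => (a i, (0 : C))) (fun j => ((0 : A), c j)) with hp
    have p1 : Function.Surjective (lc V p) := by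
      rintro ⟨x, y⟩
      obtain ⟨v, hv⟩ := a1 x
      obtain ⟨w, hw⟩ := c1 y
      refine ⟨Sum.elim v w, ?_⟩
      rw [hp, lc_sum]
      have e1 : lc V (fun i => (a i, (0 : C))) v = (x, 0) := by
        have := lc_comp (LinearMap.inl V A C) a v
        rw [hv] at this
        exact this
      have e2 : lc V (fun i => ((0 : A), c i)) w = (0, y) := by
        have := lc_comp (LinearMap.inr V A C) c w
        rw [hw] at this
        exact this
      show lc V (fun i => (a i, (0 : C))) v + lc V (fun i => ((0 : A), c i)) w = _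
      rw [e1, e2]
      simp
    have h1 : RR n (pmap (kmap (pmap α γ) p) (cσ σ ι)) := RR.other_cover z1 p1 z3
    -- the kernel of the product cover
    have hp' : ∀ y, pmap α γ (p y) =
        Sum.elim (fun i => (α (a i), (0 : C'))) (fun j => ((0 : A'), γ (c j))) y := by
      intro y
      rcases y with i | j
      · show (α (a i), γ 0) = _
        rw [map_zero]; rfl
      · show (α 0, γ (c j)) = _
        rw [map_zero]; rfl
    have h2 : RR n (pmap (kmap' (pmap α γ) p _ hp') (cσ σ ι)) := by
      have : (fun i => pmap α γ (p i)) = Sum.elim (fun i => (α (a i), (0 : C')))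
        (fun j => ((0 : A'), γ (c j))) := funext hp'
      revert hp'
      rw [← this]
      intro _
      exact h1
    have h3 : RR n (pmap (kmap α a) (pmap (kmap γ c) (cσ σ ι))) := by
      refine h2.of_equiv
        (((kprod a c).prodCongr (LinearEquiv.refl V (ι → V))).trans (LinearEquiv.prodAssoc V _ _ _))
        (((kprod (fun i => α (a i)) (fun j => γ (c j))).prodCongr
          (LinearEquiv.refl D (ι → D))).trans (LinearEquiv.prodAssoc D _ _ _)) ?_
      intro x
      rfl
    obtain ⟨m, hm⟩ := PFF.of_fst_aux SF n h3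
    exact ⟨m + 1, ι, inferInstance, a, a1, a2, hm⟩

/-- **a direct summand of a pair with a finite free resolution has a finite free resolution**, if
the f.g. projective `V`-modules are stably free -/
theorem PFF.of_fst (SF : PSF V) {α : A →ₛₗ[σ] A'} {γ : C →ₛₗ[σ] C'} (h : PFF (pmap α γ)) :
    PFF α := by
  obtain ⟨n, h⟩ := h
  exact PFF.of_fst_aux SF n h

end

end Crest.Agent.R181.VC
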