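import Crest.Agent.R181.VC889c
import Crest.Agent.R181.VA980e

/-!
# R181, V-chain, V2c (4): Step 5 for modules over the triangular ring

`PR.Res (Lam L) (P0 L) n M` implies `RR n` of the pair `cA L M → cC L M`; Step 5 for 980's good
`Lam L`-modules.
-/

set_option autoImplicit false

namespace Crest.Agent.R181.VC

open FR V868 VB VA

universe u

section Ker

variable {R S : Type*} [Ring R] [Ring S] (ι : S →ₙ+* R)
variable {Y Z : Type*} [AddCommGroup Y] [Module R Y] [AddCommGroup Z] [Module R Z]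

/-- components of a kernel -/
def Cker (f : Y →ₗ[R] Z) : Cmp ι (LinearMap.ker f) ≃ₗ[S] LinearMap.ker (Cmap ι f) where
  toFun y := ⟨⟨((y : LinearMap.ker f) : Y), congrArg Subtype.val y.2⟩,
    Subtype.ext (y : LinearMap.ker f).2⟩
  invFun z := ⟨⟨((z : Cmp ι Y) : Y), congrArg Subtype.val z.2⟩, Subtype.ext (z : Cmp ι Y).2⟩
  map_add' _ _ := rfl
  map_smul' _ _ := rfl
  left_inv _ := rfl
  right_inv _ := rfl

/-- kernels of conjugate maps -/
def kerEquiv {X Y Z : Type*} [AddCommGroup X] [Module R X] [AddCommGroup Y] [Module R Y]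
    [AddCommGroup Z] [Module R Z] (e : X ≃ₗ[R] Y) (g : X →ₗ[R] Z) (f : Y →ₗ[R] Z)
    (h : ∀ x, g x = f (e x)) : LinearMap.ker g ≃ₗ[R] LinearMap.ker f where
  toFun x := ⟨e x, by rw [LinearMap.mem_ker, ← h]; exact x.2⟩
  invFun y := ⟨e.symm y, by rw [LinearMap.mem_ker, h, e.apply_symm_apply]; exact y.2⟩
  map_add' _ _ := Subtype.ext (map_add e _ _)
  map_smul' _ _ := Subtype.ext (map_smul e _ _)
  left_inv x := Subtype.ext (e.symm_apply_apply _)
  right_inv x := Subtype.ext (e.apply_symm_apply _)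

end Ker

theorem RR.mk {V D : Type u} [Ring V] [Ring D] {σ : V →+* D} {A C : Type u} [AddCommGroup A]
    [Module V A] [AddCommGroup C] [Module D C] {α : A →ₛₗ[σ] C} {n : ℕ} {ι : Type} [Fintype ι]
    (a : ι → A) (h1 : Function.Surjective (lc V a))
    (h2 : Function.Surjective (lc D (fun i => α (a i)))) (h3 : RR n (kmap α a)) : RR (n + 1) α :=
  ⟨ι, inferInstance, a, h1, h2, h3⟩

theorem RR.mk_zero {V D : Type u} [Ring V] [Ring D] {σ : V →+* D} {A C : Type u} [AddCommGroup A]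
    [Module V A] [AddCommGroup C] [Module D C] {α : A →ₛₗ[σ] C} {ι : Type} [Fintype ι]
    (e : (ι → V) ≃ₗ[V] A) (g : (ι → D) ≃ₗ[D] C) (h : ∀ v, g (cσ σ ι v) = α (e v)) : RR 0 α :=
  (RR.of_free 0 ι).of_equiv e g h

section Conv

variable {DD : Type u} [Ring DD] {L : Line DD}

/-- the `V`-component of a power of `P0` -/
def qA (k : ℕ) : cA L (Fin k → P0 L) ≃ₗ[L.V] (Fin k → L.V) where
  toFun y i := ⟨(((y : Fin k → P0 L) i : P0 L) : Tr L DD).1, ((mem_P0 L).1 ((y : Fin k → P0 L) i).2).1⟩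
  invFun v := ⟨fun i => ⟨T3 L ((v i : L.V) : DD) 0 0, (mem_P0 L).2 ⟨(v i).2, rfl⟩⟩, by
    rw [mem_Cmp]
    funext i
    apply Subtype.ext
    show iA L 1 • T3 L ((v i : L.V) : DD) 0 0 = T3 L ((v i : L.V) : DD) 0 0
    rw [Tr_iA]
    show T3 L (((1 : L.V) : DD) • ((v i : L.V) : DD)) 0 0 = _
    rw [OneMemClass.coe_one, one_smul]⟩
  map_add' _ _ := rfl
  map_smul' v y := by
    funext i
    apply Subtype.ext
    show (iA L v • (((y : Fin k → P0 L) i : P0 L) : Tr L DD)).1 = _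
    rw [Tr_iA]; rfl
  left_inv y := by
    apply Subtype.ext
    funext i
    apply Subtype.ext
    have h : iA L 1 • (((y : Fin k → P0 L) i : P0 L) : Tr L DD) =
        (((y : Fin k → P0 L) i : P0 L) : Tr L DD) :=
      congrArg Subtype.val (congrFun y.2 i)
    rw [Tr_iA] at h
    show T3 L ((((y : Fin k → P0 L) i : P0 L) : Tr L DD).1) 0 0 = _
    have e1 := congrArg (fun z : Tr L DD => z.2.1) h
    have e2 := congrArg (fun z : Tr L DD => z.2.2) h
    exact Tr_ext L rfl e1 e2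
  right_inv v := rfl

/-- the `DD`-component of a power of `P0` -/
def qC (k : ℕ) : cC L (Fin k → P0 L) ≃ₗ[DD] (Fin k → DD) where
  toFun y i := (((y : Fin k → P0 L) i : P0 L) : Tr L DD).2.2
  invFun v := ⟨fun i => ⟨T3 L 0 0 (v i), (mem_P0 L).2 ⟨L.V.zero_mem, rfl⟩⟩, by
    rw [mem_Cmp]
    funext i
    apply Subtype.ext
    show iC L 1 • T3 L 0 0 (v i) = T3 L 0 0 (v i)
    rw [Tr_iC]
    show T3 L 0 0 ((1 : DD) • (v i)) = _
    rw [one_smul]⟩
  map_add' _ _ := rfl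
  map_smul' v y := by
    funext i
    show (iC L v • (((y : Fin k → P0 L) i : P0 L) : Tr L DD)).2.2 = _
    rw [Tr_iC]; rfl
  left_inv y := by
    apply Subtype.ext
    funext i
    apply Subtype.ext
    have h : iC L 1 • (((y : Fin k → P0 L) i : P0 L) : Tr L DD) =
        (((y : Fin k → P0 L) i : P0 L) : Tr L DD) :=
      congrArg Subtype.val (congrFun y.2 i)
    rw [Tr_iC] at h
    show T3 L 0 0 ((((y : Fin k → P0 L) i : P0 L) : Tr L DD).2.2) = _
    have e1 := congrArg (fun z : Tr L DD => z.1) h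
    have e2 := congrArg (fun z : Tr L DD => z.2.1) h
    exact Tr_ext L e1 e2 rfl
  right_inv v := rfl

theorem qC_al (k : ℕ) (y : cA L (Fin k → P0 L)) :
    qC k (al L y) = cσ L.V.subtype (Fin k) (qA k y) := by
  funext i
  show (tA L • (((y : Fin k → P0 L) i : P0 L) : Tr L DD)).2.2 = _
  rw [Tr_tA]; rfl

variable {M : Type u} [AddCommGroup M] [Module (Lam L) M]

/-- images of the generators -/
noncomputable def gens {k : ℕ} (f : (Fin k → P0 L) →ₗ[Lam L] M) (i : Fin k) : cA L M :=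
  ⟨f (Pi.single i (gP L)), map_gP_mem L (f.comp (LinearMap.single (Lam L) (fun _ => P0 L) i))⟩

theorem f_apply {k : ℕ} (f : (Fin k → P0 L) →ₗ[Lam L] M) (y : Fin k → P0 L) :
    f y = ∑ i, homP L (gens f i) (y i) := by
  have h1 : y = ∑ i, Pi.single i (y i) := (Finset.univ_sum_single y).symm
  conv_lhs => rw [h1, map_sum]
  refine Finset.sum_congr rfl fun i _ => ?_
  have h2 : f.comp (LinearMap.single (Lam L) (fun _ => P0 L) i) = homP L (gens f i) := by
    apply P0_hom_ext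
    rw [homP_gP]
    rfl
  rw [← h2]
  rfl

theorem Cmap_A {k : ℕ} (f : (Fin k → P0 L) →ₗ[Lam L] M) (y : cA L (Fin k → P0 L)) :
    Cmap (iA L) f y = lc L.V (gens f) (qA k y) := by
  apply Subtype.ext
  rw [coe_Cmap, f_apply, lc_apply, AddSubgroup.val_finsetSum]
  refine Finset.sum_congr rfl fun i _ => ?_
  rw [homP_apply]
  have h : iA L 1 • (((y : Fin k → P0 L) i : P0 L) : Tr L DD) =
        (((y : Fin k → P0 L) i : P0 L) : Tr L DD) :=
      congrArg Subtype.val (congrFun y.2 i)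
  rw [Tr_iA] at h
  have h2 : (0 : DD) = (((y : Fin k → P0 L) i : P0 L) : Tr L DD).2.2 :=
    congrArg (fun z : Tr L DD => z.2.2) h
  rw [← h2, map_zero, zero_smul, add_zero]
  rfl

theorem Cmap_C {k : ℕ} (f : (Fin k → P0 L) →ₗ[Lam L] M) (y : cC L (Fin k → P0 L)) :
    Cmap (iC L) f y = lc DD (fun i => al L (gens f i)) (qC k y) := by
  apply Subtype.ext
  rw [coe_Cmap, f_apply, lc_apply, AddSubgroup.val_finsetSum]
  refine Finset.sum_congr rfl fun i _ => ?_
  rw [homP_apply]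
  have h : iC L 1 • (((y : Fin k → P0 L) i : P0 L) : Tr L DD) =
        (((y : Fin k → P0 L) i : P0 L) : Tr L DD) :=
      congrArg Subtype.val (congrFun y.2 i)
  rw [Tr_iC] at h
  have h2 : (0 : DD) = (((y : Fin k → P0 L) i : P0 L) : Tr L DD).1 :=
    congrArg (fun z : Tr L DD => z.1) h
  have h3 : (⟨(((y : Fin k → P0 L) i : P0 L) : Tr L DD).1,
    ((mem_P0 L).1 ((y : Fin k → P0 L) i).2).1⟩ : L.V) = 0 := Subtype.ext h2.symm
  rw [h3, map_zero, zero_smul, zero_add]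
  rfl

theorem rr_base {k : ℕ} (e : M ≃ₗ[Lam L] (Fin k → P0 L)) :
    RR 0 (al L : cA L M →ₛₗ[L.V.subtype] cC L M) := by
  refine RR.mk_zero ((qA k).symm.trans (Cequiv (iA L) e.symm))
    ((qC k).symm.trans (Cequiv (iC L) e.symm)) ?_
  intro v
  obtain ⟨y, rfl⟩ := (qA k).surjective v
  rw [← qC_al]
  simp only [LinearEquiv.trans_apply, LinearEquiv.symm_apply_apply]
  exact (al_map L e.symm.toLinearMap y).symm

/-- the `V`-component of a kernel -/
noncomputable def kA {k : ℕ} (f : (Fin k → P0 L) →ₗ[Lam L] M) :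
    cA L (LinearMap.ker f) ≃ₗ[L.V] LinearMap.ker (lc L.V (gens f)) :=
  (Cker (iA L) f).trans (kerEquiv (qA k) (Cmap (iA L) f) (lc L.V (gens f)) (Cmap_A f))

/-- the `DD`-component of a kernel -/
noncomputable def kC {k : ℕ} (f : (Fin k → P0 L) →ₗ[Lam L] M) :
    cC L (LinearMap.ker f) ≃ₗ[DD] LinearMap.ker (lc DD fun i => al L (gens f i)) :=
  (Cker (iC L) f).trans (kerEquiv (qC k) (Cmap (iC L) f) (lc DD fun i => al L (gens f i))
    (Cmap_C f))

theorem kA_coe {k : ℕ} (f : (Fin k → P0 L) →ₗ[Lam L] M) (y : cA L (LinearMap.ker f)) :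
    ((kA f y : LinearMap.ker (lc L.V (gens f))) : Fin k → L.V) =
      qA k (Cmap (iA L) (LinearMap.ker f).subtype y) := rfl

theorem kC_coe {k : ℕ} (f : (Fin k → P0 L) →ₗ[Lam L] M) (y : cC L (LinearMap.ker f)) :
    ((kC f y : LinearMap.ker (lc DD fun i => al L (gens f i))) : Fin k → DD) =
      qC k (Cmap (iC L) (LinearMap.ker f).subtype y) := rfl

theorem kC_al {k : ℕ} (f : (Fin k → P0 L) →ₗ[Lam L] M) (y : cA L (LinearMap.ker f)) :
    kC f (al L y) = kmap (al L) (gens f) (kA f y) := by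
  apply Subtype.ext
  rw [kC_coe, ← al_map, qC_al, kmap_coe, kA_coe]

theorem lcA_surj {k : ℕ} (f : (Fin k → P0 L) →ₗ[Lam L] M) (hf : Function.Surjective f) :
    Function.Surjective (lc L.V (gens f)) := by
  intro a
  obtain ⟨y, hy⟩ := Cmap_surjective (iA L) hf a
  exact ⟨qA k y, (Cmap_A f y).symm.trans hy⟩

theorem lcC_surj {k : ℕ} (f : (Fin k → P0 L) →ₗ[Lam L] M) (hf : Function.Surjective f) :
    Function.Surjective (lc DD fun i => al L (gens f i)) := by
  intro a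
  obtain ⟨y, hy⟩ := Cmap_surjective (iC L) hf a
  exact ⟨qC k y, (Cmap_C f y).symm.trans hy⟩

theorem rr_ker {n k : ℕ} (f : (Fin k → P0 L) →ₗ[Lam L] M)
    (ih : RR n (al L : cA L (LinearMap.ker f) →ₛₗ[L.V.subtype] cC L (LinearMap.ker f))) :
    RR n (kmap (al L) (gens f)) := ih.of_equiv (kA f) (kC f) (kC_al f)

theorem rr_succ {n k : ℕ} (f : (Fin k → P0 L) →ₗ[Lam L] M) (hf : Function.Surjective f)
    (ih : RR n (al L : cA L (LinearMap.ker f) →ₛₗ[L.V.subtype] cC L (LinearMap.ker f))) :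
    RR (n + 1) (al L : cA L M →ₛₗ[L.V.subtype] cC L M) :=
  RR.mk (gens f) (lcA_surj f hf) (lcC_surj f hf) (rr_ker f ih)

/-- 980's resolutions by powers of `P0` give resolutions of pairs -/
theorem rr_of_res (n : ℕ) : ∀ {M : Type u} [AddCommGroup M] [Module (Lam L) M],
    PR.Res (Lam L) (P0 L) n M → RR n (al L : cA L M →ₛₗ[L.V.subtype] cC L M) := by
  induction n with
  | zero =>
    intro M _ _ h
    obtain ⟨k, ⟨e⟩⟩ := h
    exact rr_base e
  | succ n ih =>
    intro M _ _ h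
    obtain ⟨k, f, hf, h⟩ := h
    exact rr_succ f hf (ih h)

theorem exA (m : M) (h0 : iB L 1 • m = 0) (h : iA L 1 • m = m) :
    ∃ y : cA L (AC L M), ((y : AC L M) : M) = m :=
  ⟨⟨⟨m, h0⟩, Subtype.ext h⟩, rfl⟩

theorem exC (m : M) (h0 : iB L 1 • m = 0) (h : iC L 1 • m = m) :
    ∃ y : cC L (AC L M), ((y : AC L M) : M) = m :=
  ⟨⟨⟨m, h0⟩, Subtype.ext h⟩, rfl⟩

theorem acA_bij : Function.Bijective (Cmap (iA L) (AC L M).subtype) := by
  refine ⟨Cmap_injective _ (Submodule.injective_subtype _), fun a => ?_⟩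
  obtain ⟨y, hy⟩ := exA (a : M) (iB_smul_A L 1 a) a.2
  refine ⟨y, Subtype.ext ?_⟩
  rw [coe_Cmap]
  exact hy

theorem acC_bij : Function.Bijective (Cmap (iC L) (AC L M).subtype) := by
  refine ⟨Cmap_injective _ (Submodule.injective_subtype _), fun a => ?_⟩
  obtain ⟨y, hy⟩ := exC (a : M) (iB_smul_C L 1 a) a.2
  refine ⟨y, Subtype.ext ?_⟩
  rw [coe_Cmap]
  exact hy

theorem pff_of_ffr (h : PR.FFR (Lam L) (P0 L) (AC L M)) :
    PFF (al L : cA L M →ₛₗ[L.V.subtype] cC L M) := by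
  obtain ⟨n, h⟩ := h
  exact ⟨n, (rr_of_res n h).of_equiv (LinearEquiv.ofBijective _ acA_bij)
    (LinearEquiv.ofBijective _ acC_bij) (fun a => (al_map L (AC L M).subtype a).symm)⟩

variable {T : Type u} [Ring T] {U : UnivT L T} (R : RB U)

/-- **Step 5** for `Lam L`-modules -/
theorem step5_Lam [IsNoetherianRing L.O]
    (hT : ∀ (B : Type u) [AddCommGroup B] [Module L.O B], Module.Finite L.O B →
      (∃ s : ℕ, ∀ b : B, pO L ^ s • b = 0) → FFR T (Fr R.ρO B))
    (Z : Type u) [AddCommGroup Z] [Module (Lam L) Z] (h1 : Module.Finite L.O (cB L Z))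
    (h2 : Function.Injective (be L : cB L Z →ₛₗ[L.O.subtype] cC L Z))
    (h3 : ∀ c : cC L Z, ∃ (m : ℕ) (b : cB L Z), be L b = L.p ^ m • c)
    (h4 : PR.FFR (Lam L) (P0 L) (AC L Z))
    (h5 : Function.Injective (delta R (al L : cA L Z →ₛₗ[L.V.subtype] cC L Z) (be L))) :
    FFR T (Psi1 R (al L : cA L Z →ₛₗ[L.V.subtype] cC L Z) (be L)) := by
  obtain ⟨n, h⟩ := pff_of_ffr h4
  exact step5 R hT n _ _ h h1 h2 h3 h5

end Conv

end Crest.Agent.R181.VC
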