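import Crest.Agent.R181.TW825b
import Crest.Agent.R181.OR836c
import Crest.Agent.R181.BM553a
import Crest.Agent.R181.UT773b

/-!
R181, V-chain (helper836): V1 over 825's `Chain`, part a.

* `Qs_Ql`: 396's substituted forms `Qs (d.Ql (i+1) lam) g α β` are 825's `d.Ql i lam'`.
* `datOf s σ lam hNT`: the data `RO.Dat` of the ring `O` for `T = Y.U lam`, `Δ = PA Y.D σ`,
  `S = V^∞`.
-/

set_option autoImplicit false

namespace Crest.Agent.R181.VP

open AddMonoidAlgebra Crest.Agent.R181.UR Crest.Agent.R181.TW Crest.Agent.R181.RO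
open Crest.Agent.R181.OR Crest.Agent.R181.UT Crest.Agent.R181.BM
open scoped Polynomial

noncomputable instance instDecEqVr (i : ℕ) : DecidableEq (Vr i) := Classical.decEq _

set_option linter.unusedSectionVars false

section Ql

variable {F I : Type} [Field F] [Fintype I] {n : ℕ} {d : TW.Dat F I n}

theorem subL_rename {L L' : Type} [CommRing L] [CommRing L'] {σ₀ σ₁ σ₂ : Type} [Fintype σ₀]
    [Fintype σ₁] [Fintype σ₂] (g : L →+* L')
    (X : σ₁ → σ₂ → L') (e : σ₀ → σ₁) (x : MvPolynomial σ₀ L) :
    subL g X (MvPolynomial.rename e x) = subL g (fun v => X (e v)) x := by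
  have h : (subL g X).comp (MvPolynomial.rename e : MvPolynomial σ₀ L →ₐ[L] MvPolynomial σ₁ L).toRingHom
      = subL g (fun v => X (e v)) := by
    apply MvPolynomial.ringHom_ext
    · intro c
      simp [subL_C]
    · intro v
      simp [subL_X]
  exact RingHom.congr_fun h x

theorem subL_rename_some {L L' : Type} [CommRing L] [CommRing L'] {i : ℕ} (g : L →+* L')
    (α β : L') (t : Fin n) :
    subL g (Xm α β) (MvPolynomial.rename some (MvPolynomial.rename some (vars L i t))) =
      MvPolynomial.rename some (vars L' i t) := by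
  rw [subL_rename, subL_rename]
  by_cases ht : (t : ℕ) < i
  · obtain ⟨v, hv, hv'⟩ := vars_of_lt L i t ht
    obtain ⟨u, hu, hu'⟩ := vars_of_lt L' i t ht
    have huv : u = v := idx_injective i (by rw [hu, hv])
    subst huv
    rw [hv', hu', subL_X, MvPolynomial.rename_X]
    rw [Finset.sum_eq_single (some u)]
    · simp [Xm]
    · intro b _ hb
      rcases b with _ | b
      · simp [Xm]
      · have : ¬ u = b := fun h => hb (by rw [h])
        simp [Xm, this]
    · simp
  · rw [vars_eq_zero L i t (by omega), vars_eq_zero L' i t (by omega), map_zero, map_zero]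

theorem subL_lvars {L L' : Type} [CommRing L] [CommRing L'] {i : ℕ} (g : L →+* L')
    (α β : L') (lam : Fin n → L) (t : Fin n) :
    subL g (Xm α β) (lvars (i + 1) lam t) =
      lvars i (fun t => if (t : ℕ) = i then β else g (lam t) * α) t := by
  unfold lvars
  beta_reduce
  rcases lt_trichotomy (t : ℕ) i with h | h | h
  · rw [if_pos (by omega), if_pos h, vars, if_neg (by omega)]
    exact subL_rename_some g α β t
  · rw [if_pos (by omega), if_neg (by omega), vars, if_pos h, if_pos h, MvPolynomial.rename_X,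
      subL_X]
    exact sum_Xs_some_none α β
  · rw [if_neg (by omega), if_neg (by omega), if_neg (by omega), map_mul, subL_C, subL_X,
      sum_Xs_none, map_mul, mul_assoc]

theorem subL_aeval {L L' : Type} [CommRing L] [Algebra F L] [CommRing L'] [Algebra F L']
    {σ₁ σ₂ τ : Type} [Fintype σ₁] [Fintype σ₂] (g : L →+* L')
    (hg : ∀ c : F, g (algebraMap F L c) = algebraMap F L' c) (X : σ₁ → σ₂ → L')
    (y : τ → MvPolynomial σ₁ L) (p : MvPolynomial τ F) :
    subL g X (MvPolynomial.aeval y p) = MvPolynomial.aeval (fun t => subL g X (y t)) p := by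
  induction p using MvPolynomial.induction_on with
  | C c =>
    rw [MvPolynomial.algHom_C, MvPolynomial.algHom_C]
    show subL g X (MvPolynomial.C (algebraMap F L c)) = MvPolynomial.C (algebraMap F L' c)
    rw [subL_C, hg]
  | add p q hp hq => rw [map_add, map_add, map_add, hp, hq]
  | mul_X p i hp => rw [map_mul, map_mul, map_mul, hp, MvPolynomial.aeval_X, MvPolynomial.aeval_X]

variable (d) in
/-- 396's forms at level `i` are 825's forms -/
theorem Qs_Ql {L L' : Type} [CommRing L] [Algebra F L] [CommRing L'] [Algebra F L'] {i : ℕ}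
    (g : L →+* L') (hg : ∀ c : F, g (algebraMap F L c) = algebraMap F L' c) (α β : L')
    (lam : Fin n → L) :
    Qs (d.Ql (i + 1) lam) g α β =
      d.Ql i (fun t => if (t : ℕ) = i then β else g (lam t) * α) := by
  funext l
  show subL g (Xm α β) (MvPolynomial.aeval (lvars (i + 1) lam) (d.Q l)) = _
  rw [subL_aeval g hg, Dat.Ql]
  congr 2
  funext t
  exact subL_lvars g α β lam t

end Ql

section step

variable {F I : Type} [Field F] [Fintype I] {n : ℕ} {d : TW.Dat F I n} {i : ℕ}
  {X : Lvl d i} {Y : Lvl d (i + 1)} (s : Step X Y)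

/-- `D_i → D_{i+1}` -/
noncomputable def kap : X.D →+* Y.D := s.φ.comp (iD d.a d.th (d.Ql i (dl F i)) X.w)

theorem hkap (l : I) (v : Vr i) : Y.w l (some v) = kap s (X.w l v) := (s.hw l (some v)).symm

theorem hkapF (c : F) : kap s (algebraMap F X.D c) = algebraMap F Y.D c := by
  show s.φ (iD _ _ _ _ (algebraMap F X.D c)) = _
  rw [iD_base]
  exact s.alg c

theorem φ_eta (l : I) : s.φ (eta d.a d.th (d.Ql i (dl F i)) X.w l) = Y.w l none := s.hw l none

theorem univ_φ : Univ s.φ 0 := by
  intro A _ ψ _ hψ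
  obtain ⟨f, hf⟩ := s.univ.lift ψ hψ
  exact ⟨f, hf, fun g hg => s.univ.ext g f (hg.trans hf.symm)⟩

/-- all rings `Y.U lam`, `lam` in `F`, are nonzero (598's PO) -/
def NT {j : ℕ} (Y : Lvl d j) : Prop := ∀ lam : Fin n → F, Nontrivial (Y.U lam)

variable {σ : Type} [Fintype σ] (lam : Fin n → MvPolynomial σ F)

theorem red : Red (I := I) (Polynomial.evalRingHom (0 : MvPolynomial σ F)) (d.Ql i (dl F i))
    (Qs (d.Ql (i + 1) lam) (Polynomial.C : MvPolynomial σ F →+* (MvPolynomial σ F)[X])
      Polynomial.X 1) where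
  gF c := by
    show Polynomial.eval 0 (Polynomial.C (MvPolynomial.C c)) = _
    rw [Polynomial.eval_C]
  gQ l := by
    have h1 := congrFun (Qs_Ql d (i := i) (Polynomial.C : MvPolynomial σ F →+* (MvPolynomial σ F)[X])
      (fun c => rfl) Polynomial.X 1 lam) l
    have h2 := d.map_Ql (L := F) (L' := MvPolynomial σ F)
      (MvPolynomial.C : F →+* MvPolynomial σ F) (fun c => rfl) i (dl F i) l
    have h3 := d.map_Ql (Polynomial.evalRingHom (0 : MvPolynomial σ F)) (fun c => by
        show Polynomial.eval 0 (Polynomial.C (MvPolynomial.C c)) = _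
        rw [Polynomial.eval_C]
        rfl) i (fun t : Fin n => if (t : ℕ) = i then 1 else Polynomial.C (lam t) * Polynomial.X) l
    refine (congrArg (MvPolynomial.map (Polynomial.evalRingHom (0 : MvPolynomial σ F))) h1).trans
      (h3.trans (Eq.trans ?_ h2.symm))
    congr 1
    funext t
    simp only [dl]
    split_ifs <;> simp

/-- `V^∞ → D_{i+1} ⊗ L` -/
noncomputable def dlt : Vinf d.a d.th (d.Ql (i + 1) lam) X.w →+* PA Y.D σ :=
  (UR.mp σ s.φ).comp (alpha (isU_U d.a d.th _ X.w) (isU_U d.a d.th (d.Ql i (dl F i)) X.w) (red lam))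

theorem dlt_iD (x : X.D) : dlt s lam (iD d.a d.th _ X.w x) = cst σ (kap s x) := by
  rw [dlt, RingHom.comp_apply, alpha_ρ, mp_cst]
  rfl

theorem dlt_iL (x : (MvPolynomial σ F)[X]) : dlt s lam (iL d.a d.th _ X.w x) =
    UR.mp σ (algebraMap F Y.D) (Polynomial.eval 0 x) := by
  rw [dlt, RingHom.comp_apply, alpha_l]
  show UR.mp σ s.φ (UR.mp σ (iL d.a d.th (d.Ql i (dl F i)) X.w) (Polynomial.eval 0 x)) = _
  rw [mp_comp]
  congr 1
  congr 1
  exact RingHom.ext s.alg

theorem dlt_eta (l : I) : dlt s lam (eta d.a d.th _ X.w l) = cst σ (Y.w l none) := by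
  rw [dlt, RingHom.comp_apply, alpha_η, mp_cst, φ_eta]

theorem dz_mp {w : I → Vr (i + 1) → Y.D} (x : MvPolynomial σ F) :
    dz d.a d.th (d.Ql (i + 1) lam) w (UR.mp σ (algebraMap F Y.D) x) =
      iL d.a d.th (d.Ql (i + 1) lam) w x := by
  have h : ((dz d.a d.th (d.Ql (i + 1) lam) w).comp (UR.mp σ (algebraMap F Y.D)) :
      MvPolynomial σ F →+* _) = iL d.a d.th (d.Ql (i + 1) lam) w := by
    apply MvPolynomial.ringHom_ext
    · intro c
      have : UR.mp σ (algebraMap F Y.D) (MvPolynomial.C c) = cst σ (algebraMap F Y.D c) :=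
        mp_C (σ := σ) (algebraMap F Y.D) c
      rw [RingHom.comp_apply, this, dz_cst, iD_base]
      rfl
    · intro v
      have : UR.mp σ (algebraMap F Y.D) (MvPolynomial.X v) = var Y.D v :=
        mp_X (σ := σ) (algebraMap F Y.D) v
      rw [RingHom.comp_apply, this, dz_var]
  exact RingHom.congr_fun h x

/-- **the data of the ring `O`** -/
theorem datOf [Infinite F] (hNT : NT Y) :
    RO.Dat (jinf d.a d.th (Q := d.Ql (i + 1) lam) (hkap s) (hkapF s)) (dlt s lam)
      (dz d.a d.th (d.Ql (i + 1) lam) Y.w) (iL d.a d.th _ X.w Polynomial.X) where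
  jp := (isChain_jinf d.a d.th (Q := d.Ql (i + 1) lam) (hkap s) (hkapF s)).X
  dp := by rw [dlt_iL, Polynomial.eval_X, map_zero]
  univ := univ_alpha _ _ _ (univ_φ s)
    (fun x => ⟨Polynomial.C x, by simp⟩)
    (fun x hx => by
      have h : Polynomial.X ∣ x := by
        rw [Polynomial.X_dvd_iff, Polynomial.coeff_zero_eq_eval_zero]
        exact hx
      exact h)
  inj := by
    apply dz_injective
    intro p
    have : Qev (d.Ql (i + 1) lam) p = d.Ql (i + 1) (fun t => MvPolynomial.eval p (lam t)) := by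
      funext l
      exact d.map_Ql (MvPolynomial.eval p) (fun c => by
        rw [MvPolynomial.algebraMap_eq, MvPolynomial.eval_C]; rfl) (i + 1) lam l
    rw [this]
    exact hNT _
  comp := by
    have hj := isChain_jinf d.a d.th (Q := d.Ql (i + 1) lam) (hkap s) (hkapF s)
    intro z
    refine generation d.a d.th _ X.w (fun z => dz d.a d.th (d.Ql (i + 1) lam) Y.w (dlt s lam z) =
      PowerSeries.constantCoeff (jinf d.a d.th (Q := d.Ql (i + 1) lam) (hkap s) (hkapF s) z))
      ?_ ?_ ?_ ?_ ?_ z
    · intro x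
      rw [dlt_iD, dz_cst, hj.D]
      simp
    · intro x
      rw [dlt_iL, dz_mp]
      induction x using Polynomial.induction_on with
      | C c => rw [Polynomial.eval_C, hj.L]; simp
      | add x y hx hy => rw [Polynomial.eval_add, map_add, map_add, map_add, map_add, hx, hy]
      | monomial m c _ =>
        rw [pow_succ, ← mul_assoc, map_mul, map_mul, hj.X]
        simp
    · intro l
      rw [dlt_eta, dz_cst, hj.E]
      simp
    · intro x y hx hy; rw [map_add, map_add, map_add, map_add, hx, hy]
    · intro x y hx hy; rw [map_mul, map_mul, map_mul, map_mul, hx, hy]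

end step

end Crest.Agent.R181.VP
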