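import Crest.Agent.R181.VP836c
import Crest.Agent.R181.CU735e
import Crest.Agent.R181.RO789b
import Crest.Agent.R181.TW825d
import Crest.Agent.R181.FFR776d

/-!
R181, V-chain (helper836): V1 over 825's `Chain`, part d: completeness and separation of `O` inside
`DD`, the residue map, stable freeness of `V` from 825's form; general facts for 495's `V2abs`.
-/

set_option autoImplicit false
set_option linter.unusedSectionVars false

namespace Crest.Agent.R181.VP

open AddMonoidAlgebra Crest.Agent.R181.UR Crest.Agent.R181.TW Crest.Agent.R181.RO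
open Crest.Agent.R181.OR Crest.Agent.R181.UT Crest.Agent.R181.BM
open scoped Polynomial

section abstr

universe u

variable {T S Δ : Type u} [Ring T] [Ring S] [Ring Δ]
variable {j : S →+* PowerSeries T} {δ : S →+* Δ} {i : Δ →+* T} {p : S}

/-- `⋂ π^n O = 0` -/
theorem hsep_DD (h : RO.Dat j δ i p) (d : DD h) (hd : ∀ n : ℕ, ∃ o ∈ OD h, d = pD h ^ n * o) :
    d = 0 := by
  apply Subtype.ext
  ext k
  rw [Subring.coe_zero, HahnSeries.coeff_zero]
  obtain ⟨o, ho, rfl⟩ := hd (k + 1).toNat
  rw [coeff_pD_pow_mul]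
  apply (mem_OD_iff_coeff h).1 ho
  omega

/-- `O` is complete -/
theorem hsum_DD (h : RO.Dat j δ i p) (a : ℕ → DD h) (ha : ∀ n, a n ∈ OD h) :
    ∃ s ∈ OD h, ∀ N : ℕ, ∃ r ∈ OD h,
      s = ∑ n ∈ Finset.range N, pD h ^ n * a n + pD h ^ N * r := by
  choose a' ha' using fun n => toOD_surjective h ⟨a n, ha n⟩
  obtain ⟨s, hs⟩ := RO.exists_sum h a'
  have hp : ∀ n : ℕ, ((toOD h (RO.pi h ^ n) : OD h) : DD h) = pD h ^ n := by
    intro n
    rw [map_pow, toOD_pi]
    rfl
  refine ⟨(toOD h s : OD h), (toOD h s).2, fun N => ?_⟩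
  obtain ⟨r, hr⟩ := hs N
  refine ⟨(toOD h r : OD h), (toOD h r).2, ?_⟩
  rw [hr, map_add, map_sum, map_mul]
  push_cast
  rw [hp]
  congr 1
  refine Finset.sum_congr rfl fun n _ => ?_
  rw [map_mul]
  push_cast
  rw [hp, ha']

end abstr

section V

variable {F I : Type} [Field F] [Fintype I] {n : ℕ} {d : TW.Dat F I n} {i : ℕ}
  {X : Lvl d i}

/-- stable freeness over `V'` in 396's form from 825's form -/
theorem allSF_Vp {σ : Type} [Fintype σ] (lam : Fin n → MvPolynomial σ F)
    (h : AllSF (X.U (fun t : Fin n => if (t : ℕ) = i then Polynomial.X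
      else Polynomial.C (lam t)))) :
    AllSF (Vp d.a d.th (d.Ql (i + 1) lam) X.w) := by
  have h1 : Qs (d.Ql (i + 1) lam) (Polynomial.C : MvPolynomial σ F →+* (MvPolynomial σ F)[X])
      1 Polynomial.X = d.Ql i (fun t : Fin n => if (t : ℕ) = i then Polynomial.X
        else Polynomial.C (lam t)) := by
    rw [Qs_Ql d (i := i) (Polynomial.C : MvPolynomial σ F →+* (MvPolynomial σ F)[X])
      (fun c => rfl) 1 Polynomial.X lam]
    congr 1
    funext t
    rw [mul_one]
  have key : ∀ (Q' : I → MvPolynomial (Option (Vr i)) (MvPolynomial σ F)[X]),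
      Q' = d.Ql i (fun t : Fin n => if (t : ℕ) = i then Polynomial.X
        else Polynomial.C (lam t)) → AllSF (U d.a d.th Q' X.w) := by
    rintro _ rfl
    exact h
  exact key _ h1

theorem allFFR_PA (D σ : Type) [DivisionRing D] [Fintype σ] : FFR.AllFFR (PA D σ) :=
  (FFR.AllFFR.of_divisionRing D).addMonoidAlgebra σ

end V

end Crest.Agent.R181.VP
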