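import Crest.Agent.R181.VP836d

/-!
R181, V-chain (helper836): nontriviality of `Y.U lam` at the top level `n` (no condition).
-/

set_option autoImplicit false
set_option linter.unusedSectionVars false

namespace Crest.Agent.R181.VP

open AddMonoidAlgebra Crest.Agent.R181.UR Crest.Agent.R181.TW
open scoped Polynomial

variable {F I : Type} [Field F] [Fintype I] {n : ℕ} {d : TW.Dat F I n}

theorem lf_ext'_zero {A σ : Type} [Ring A] [Fintype σ] (w : I → σ → A) (l : I) :
    lf (ext' w (fun _ => (0 : A)) l) = ren A some (lf (w l)) := by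
  rw [lf, Fintype.sum_option, lf, map_sum]
  simp only [ext'_none, ext'_some, ren_single, Finsupp.mapDomain_single]
  rw [single_zero, zero_add]

theorem Ql_top (lam : Fin n → F) (l : I) :
    d.Ql n lam l = MvPolynomial.rename some (d.Qr n l) := by
  rw [Dat.Ql, Dat.Qr]
  have h : lvars n lam = fun t => MvPolynomial.rename some (vars F n t) := by
    funext t
    rw [lvars, if_pos t.2]
  rw [h]
  induction d.Q l using MvPolynomial.induction_on with
  | C c =>
    rw [MvPolynomial.algHom_C, MvPolynomial.algHom_C]
    show MvPolynomial.C c = MvPolynomial.rename some (MvPolynomial.C c)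
    rw [MvPolynomial.rename_C]
  | add p q hp hq => rw [map_add, map_add, map_add, hp, hq]
  | mul_X p i hp => rw [map_mul, map_mul, map_mul, hp, MvPolynomial.aeval_X, MvPolynomial.aeval_X]

/-- at the top level the ring `Y.U lam` is nonzero -/
theorem nt_top (Y : Lvl d n) : NT Y := by
  intro lam
  have ht : IsTuple d.a d.th (d.Ql n lam) (algebraMap F Y.D)
      (ext' (fun l v => (RingHom.id Y.D) (Y.w l v)) (fun _ => (0 : Y.D))) := by
    have h := Y.tup
    constructor
    · intro l m
      rw [lf_ext'_zero, lf_ext'_zero, ← map_mul, ← map_mul]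
      exact congrArg _ (h.comm l m)
    · intro l
      rw [Ql_top, lf_ext'_zero, ← map_pow, ← ren_mp_mv]
      have h1 := congrArg (ren Y.D some) (h.rel l)
      rw [map_add, map_sum] at h1
      refine h1.trans ?_
      congr 1
      refine Finset.sum_congr rfl fun m _ => ?_
      rw [map_mul, map_pow, lf_ext'_zero, ren_cst]
      rfl
  obtain ⟨f, -, -, -⟩ := exists_lift (a := d.a) (th := d.th) (Q := d.Ql n lam) (w := Y.w)
    (RingHom.id Y.D) (algebraMap F Y.D) (fun _ => (0 : Y.D)) (fun c => rfl)
    (fun x z => Algebra.commutes x z) (fun x l => Commute.zero_right _) ht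
  exact f.domain_nontrivial

end Crest.Agent.R181.VP
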