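import Crest.Agent.R181.VP836d
import Crest.Agent.R181.VP836e
import Crest.Agent.R181.CU735i
import Crest.Agent.R181.TW825c

/-!
R181, V-chain (helper836): V1 over 825's `Chain`, part f: `IsRes` for the residue map of the chain,
left basis, regularity of `L` at all levels, the inputs of 495's abstract V2.
-/

set_option autoImplicit false
set_option linter.unusedSectionVars false

namespace Crest.Agent.R181.VP

open AddMonoidAlgebra Crest.Agent.R181.UR Crest.Agent.R181.TW Crest.Agent.R181.RO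
open Crest.Agent.R181.OR Crest.Agent.R181.UT Crest.Agent.R181.BM
open scoped Polynomial

variable {F I : Type} [Field F] [Fintype I] {n : ℕ} {d : TW.Dat F I n} {i : ℕ}
  {X : Lvl d i} {Y : Lvl d (i + 1)}

theorem cL_eq_mp {D : Type} [Ring D] [Algebra F D] (σ : Type) [Fintype σ]
    (x : MvPolynomial σ F) : cL σ (algebraMap F D) x = UR.mp σ (algebraMap F D) x := rfl

section one

variable (s : Step X Y) {σ : Type} [Fintype σ] (lam : Fin n → MvPolynomial σ F)

theorem isRes_dlt : CU.IsRes d.a d.th (kap s) Y.w (dlt s lam) where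
  D x := dlt_iD s lam x
  L x := by
    rw [dlt_iL, Polynomial.eval_C]
    rfl
  X := by rw [dlt_iL, Polynomial.eval_X, map_zero]
  E l := dlt_eta s lam l

variable [Infinite F] (hNT : NT Y)

theorem ln_eq : ln s lam hNT = CU.lineS d.a d.th (hkap s) (hkapF s) (datOf s lam hNT) := rfl

/-- left basis of the chain step -/
noncomputable def lbLc (hX : Reg X) : V868.LB (ln s lam hNT) :=
  CU.lbL d.a d.th (hkap s) (hkapF s) (datOf s lam hNT) (isRes_dlt s lam)
    (dlt_eq_zero s lam) (hX.th lam)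

/-- right basis of the chain step -/
noncomputable def lbRc (hX : Reg X) : V868.LB (ln s lam hNT).op :=
  CU.lbR d.a d.th (hkap s) (hkapF s) (datOf s lam hNT) (isRes_dlt s lam)
    (dlt_eq_zero s lam) (hX.th lam)

end one

theorem reg_step [Infinite F] (s : Step X Y) (hNT : NT Y) (hX : Reg X) : Reg Y := by
  intro σ _ lam x hx y hy
  exact reg_of_left s lam hNT (lbLc s lam hNT hX) x hx y hy

/-- `L` is regular at all levels of the chain -/
theorem reg [LinearOrder I] [Infinite F] (hth : ∀ l m : I, ¬ l < m → d.th l m = 0)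
    (hNT : ∀ j : ℕ, j < n → ∀ Z : Lvl d j, Chain d j Z → NT Z) {i : ℕ} {X : Lvl d i}
    (c : Chain d i X) (hi : i ≤ n) : Reg X := by
  induction c with
  | base => exact reg_lvl0 hth
  | @step j Z Y c s ih =>
    rcases Nat.lt_or_ge (j + 1) n with h | h
    · exact reg_step s (hNT _ h Y (Chain.step c s)) (ih (by omega))
    · obtain rfl : j + 1 = n := le_antisymm hi h
      exact reg_step s (nt_top Y) (ih (by omega))

/-- the statement of the abstract V2 (495) -/
def V2Abs : Prop :=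
  ∀ {DD : Type} [Ring DD] (L : V868.Line DD) {T : Type} [Ring T] (_ : V868.UnivT L T)
    (_ : V868.LB L) (_ : V868.LB L.op)
    (_ : ∀ d : DD, (∀ n : ℕ, ∃ o ∈ L.O, d = L.p ^ n * o) → d = 0)
    (_ : ∀ a : ℕ → DD, (∀ n, a n ∈ L.O) → ∃ s ∈ L.O, ∀ N : ℕ, ∃ r ∈ L.O,
      s = ∑ n ∈ Finset.range N, L.p ^ n * a n + L.p ^ N * r)
    {Δ : Type} [Ring Δ] (q : L.O →+* Δ) (_ : Function.Surjective q)
    (_ : ∀ o, q o = 0 → ∃ o' ∈ L.O, (o : DD) = L.p * o') (_ : q ⟨L.p, L.pO⟩ = 0)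
    (_ : FFR.AllFFR ↥(L.V ⊓ L.O)) (_ : FFR.AllFFR Δ)
    (_ : ∃ (J : Type) (j0 : J) (c : J → DD), c j0 = 1 ∧ (∀ j, c j ∈ L.V) ∧
      (∀ v ∈ L.V, ∃ e : J →₀ DD, (∀ j, e j ∈ L.V ⊓ L.O) ∧ v = e.sum fun j r => c j * r) ∧
      ∀ e : J →₀ DD, (∀ j, e j ∈ L.V ⊓ L.O) → (e.sum fun j r => c j * r) = 0 → e = 0)
    (_ : ∃ (J : Type) (j0 : J) (c : J → DD), c j0 = 1 ∧ (∀ j, c j ∈ L.O) ∧
      (∀ o ∈ L.O, ∃ e : J →₀ DD, (∀ j, e j ∈ L.V ⊓ L.O) ∧
        ∃ o' ∈ L.O, o = (e.sum fun j r => c j * r) + L.p * o') ∧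
      ∀ e : J →₀ DD, (∀ j, e j ∈ L.V ⊓ L.O) → ∀ o' ∈ L.O,
        (e.sum fun j r => c j * r) = L.p * o' → e = 0)
    (_ : AllSF L.V), AllSF T

theorem allFFR_of_equiv {A B : Type} [Ring A] [Ring B] (e : A ≃+* B) (h : FFR.AllFFR B) :
    FFR.AllFFR A := h.congr e.symm

section two

variable [Infinite F] (s : Step X Y) (hNT : NT Y) {σ : Type} [Fintype σ]
  (lam : Fin n → MvPolynomial σ F) (hX : Reg X)

include hX in
theorem allFFR_inf : FFR.AllFFR ↥((ln s lam hNT).V ⊓ (ln s lam hNT).O) :=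
  allFFR_of_equiv (CU.EEquiv d.a d.th (hkap s) (hkapF s) (datOf s lam hNT) (isRes_dlt s lam)
    (dlt_eq_zero s lam) (hX.th lam)) (allFFR_PA X.D σ)

include hX in
theorem allSF_V (hV : AllSF (X.U (fun t : Fin n => if (t : ℕ) = i then Polynomial.X
      else Polynomial.C (lam t)))) : AllSF (ln s lam hNT).V :=
  (allSF_Vp lam hV).congr (CU.VpEquiv d.a d.th (hkap s) (hkapF s) (datOf s lam hNT)
    (dlt_eq_zero s lam) (hX.th lam))

include s hNT hX in
/-- one step -/
theorem allSF_step (habs : V2Abs) (hV : AllSF (X.U (fun t : Fin n =>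
      if (t : ℕ) = i then Polynomial.X else Polynomial.C (lam t)))) : AllSF (Y.U lam) :=
  habs (ln s lam hNT) (un s lam hNT) (lbLc s lam hNT hX) (lbRc s lam hNT hX)
    (hsep_DD (datOf s lam hNT)) (hsum_DD (datOf s lam hNT))
    (CU.qOD (datOf s lam hNT)) (CU.oData (datOf s lam hNT)).q_surj
    (fun o ho => by
      obtain ⟨o', h⟩ := (CU.oData (datOf s lam hNT)).q_ker o ho
      exact ⟨o', o'.2, h⟩) (CU.oData (datOf s lam hNT)).q_pi
    (allFFR_inf s hNT lam hX) (allFFR_PA Y.D σ)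
    (CU.hVb d.a d.th (hkap s) (hkapF s) (datOf s lam hNT) (isRes_dlt s lam)
      (dlt_eq_zero s lam) (hX.th lam))
    (CU.hOb d.a d.th (hkap s) (hkapF s) (datOf s lam hNT) (isRes_dlt s lam)
      (dlt_eq_zero s lam) (hX.th lam))
    (allSF_V s hNT lam hX hV)

end two

/-- **V2 from the abstract V2 and BM1** -/
theorem v2_of_abs [LinearOrder I] [Infinite F] (habs : V2Abs)
    (hth : ∀ l m : I, ¬ l < m → d.th l m = 0)
    (hNT : ∀ j : ℕ, j < n → ∀ Z : Lvl d j, Chain d j Z → NT Z) : V2Stmt d := by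
  intro i hi X c Y s σ _ lam hV
  exact allSF_step s (hNT _ hi Y (Chain.step c s)) lam (reg hth hNT c (by omega)) habs hV

end Crest.Agent.R181.VP
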