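import Crest.Agent.R181.VP836f
import Crest.Agent.R181.AS7

/-!
R181, V-chain (helper836): `v2_of_abs` for 279's `AS.dat`.
-/

set_option autoImplicit false

namespace Crest.Agent.R181.VP

open Crest.Agent.R181.TW

section

variable {r : ℕ} (a : Fin (r + 1) → ℕ) (f : Fin (r + 1) → MvPolynomial (Fin (r + 1)) ℂ)
  (ha : Monotone a) (ha2 : ∀ i, 2 ≤ a i) (hf : ∀ i, (f i).IsHomogeneous (a i))

instance infinite_Fld (n : ℕ) : Infinite (AS.Fld n) := inferInstance

theorem th_dat (l m : Fin r) (h : ¬ l < m) : (AS.dat a f ha ha2 hf).th l m = 0 :=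
  if_neg fun h' => h (Fin.succ_lt_succ_iff.1 h')

/-- **V2 for `AS.dat` from the abstract V2 and BM1** -/
theorem v2_dat (habs : V2Abs)
    (hNT : ∀ j : ℕ, j < r + 1 → ∀ Z : Lvl (AS.dat a f ha ha2 hf) j,
      Chain (AS.dat a f ha ha2 hf) j Z → NT Z) : V2Stmt (AS.dat a f ha ha2 hf) :=
  v2_of_abs habs (th_dat a f ha ha2 hf) hNT

end

end Crest.Agent.R181.VP
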