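import Mathlib

/-!
# R181, V-chain, block V2: matrix flatness over a subring `E` inside a big ring `K`

`FlatIn E M` (`M ⊆ K` an additive subgroup): an exact sequence of matrices over `E` stays exact on
row vectors with entries in `M`.
* `FlatIn.of_basis`: `M` right free over `E`
* `FlatIn.of_complete`: `O` complete with respect to a central `p`, `O/pO` right free over `E`
* `FlatIn.of_exhaust`: `K = ⋃ p^{-m} O`
* `pure_of_basis`, `pure_of_basis_mod`: `E^k ∩ M^i C ⊆ E^i C`
-/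

set_option autoImplicit false

namespace Crest.Agent.R181.VT

universe u

variable {K : Type u} [Ring K]

/-- matrix flatness of `M ⊆ K` over the subring `E ⊆ K` (right action) -/
def FlatIn (E : Subring K) (M : AddSubgroup K) : Prop :=
  ∀ (ι κ μ : Type) [Fintype ι] [Fintype κ] [Fintype μ] (A : Matrix ι κ E) (B : Matrix κ μ E),
    (∀ v : κ → E, Matrix.vecMul v B = 0 ↔ ∃ w : ι → E, Matrix.vecMul w A = v) →
    ∀ v : κ → K, (∀ i, v i ∈ M) → (∀ j, ∑ i, v i * (B i j : K) = 0) →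
      ∃ w : ι → K, (∀ i, w i ∈ M) ∧ ∀ j, ∑ i, w i * (A i j : K) = v j

/-- purity of `E` in `M ⊆ K` -/
def PureIn (E : Subring K) (M : AddSubgroup K) : Prop :=
  ∀ (ι κ : Type) [Fintype ι] [Fintype κ] (A : Matrix ι κ E) (v : κ → K), (∀ i, v i ∈ E) →
    ∀ w : ι → K, (∀ i, w i ∈ M) → (∀ j, ∑ i, w i * (A i j : K) = v j) →
      ∃ w' : ι → K, (∀ i, w' i ∈ E) ∧ ∀ j, ∑ i, w' i * (A i j : K) = v j

variable {E : Subring K}

theorem vecMul_coe {ι κ : Type} [Fintype ι] (A : Matrix ι κ E) (w : ι → E) (j : κ) :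
    ((Matrix.vecMul w A j : E) : K) = ∑ i, (w i : K) * (A i j : K) := by
  simp [Matrix.vecMul, dotProduct]

/-- exactness over `E`, elementwise in `K` -/
theorem exact_coe {ι κ μ : Type} [Fintype ι] [Fintype κ] [Fintype μ] {A : Matrix ι κ E}
    {B : Matrix κ μ E}
    (h : ∀ v : κ → E, Matrix.vecMul v B = 0 ↔ ∃ w : ι → E, Matrix.vecMul w A = v)
    (v : κ → K) (hv : ∀ i, v i ∈ E) (h0 : ∀ j, ∑ i, v i * (B i j : K) = 0) :
    ∃ w : ι → K, (∀ i, w i ∈ E) ∧ ∀ j, ∑ i, w i * (A i j : K) = v j := by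
  obtain ⟨w, hw⟩ := (h (fun i => ⟨v i, hv i⟩)).1 (by
    funext j
    apply Subtype.ext
    rw [vecMul_coe]
    exact h0 j)
  refine ⟨fun i => w i, fun i => (w i).2, fun j => ?_⟩
  rw [← vecMul_coe, hw]

theorem sum_smul_right {J : Type u} {ι : Type} [Fintype ι] (c : J → K) (e : ι → J →₀ K)
    (b : ι → K) :
    ((∑ i, (e i).mapRange (fun r => r * b i) (zero_mul _)).sum fun j r => c j * r) =
      ∑ i, ((e i).sum fun j r => c j * r) * b i := by
  classical
  rw [← Finsupp.sum_finsetSum_index (fun _ => mul_zero _) (fun _ _ _ => mul_add _ _ _)]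
  refine Finset.sum_congr rfl fun i _ => ?_
  rw [Finsupp.sum_mapRange_index (fun _ => mul_zero _), Finsupp.sum_mul]
  refine Finset.sum_congr rfl fun j _ => ?_
  exact (mul_assoc _ _ _).symm

theorem mapRange_sum_apply {J : Type u} {ι : Type} [Fintype ι] (e : ι → J →₀ K)
    (b : ι → K) (j : J) :
    (∑ i, (e i).mapRange (fun r => r * b i) (zero_mul _)) j = ∑ i, e i j * b i := by
  simp [Finsupp.finsetSum_apply]

/-- one step: freeness modulo `M'` -/
theorem step {M M' : AddSubgroup K} (hM' : ∀ m ∈ M', ∀ e ∈ E, m * e ∈ M') {J : Type u} (c : J → K)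
    (hc : ∀ j, ∀ e ∈ E, c j * e ∈ M)
    (span : ∀ m ∈ M, ∃ e : J →₀ K, (∀ j, e j ∈ E) ∧ m - (e.sum fun j r => c j * r) ∈ M')
    (ind : ∀ e : J →₀ K, (∀ j, e j ∈ E) → (e.sum fun j r => c j * r) ∈ M' → e = 0)
    {ι κ μ : Type} [Fintype ι] [Fintype κ] [Fintype μ] {A : Matrix ι κ E}
    {B : Matrix κ μ E}
    (hAB : ∀ v : κ → E, Matrix.vecMul v B = 0 ↔ ∃ w : ι → E, Matrix.vecMul w A = v)
    (v : κ → K) (hv : ∀ i, v i ∈ M) (h0 : ∀ j, ∑ i, v i * (B i j : K) ∈ M') :
    ∃ w : ι → K, (∀ i, w i ∈ M) ∧ ∀ j, v j - ∑ i, w i * (A i j : K) ∈ M' := by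
  classical
  choose! e he hve using span
  have hrow : ∀ j, ∀ b, ∑ i, e (v i) j * (B i b : K) = 0 := by
    intro j b
    rw [← mapRange_sum_apply (fun i => e (v i)) (fun i => (B i b : K)) j]
    have : (∑ i, (e (v i)).mapRange (fun r => r * (B i b : K)) (zero_mul _)) = 0 := by
      refine ind _ (fun j => ?_) ?_
      · rw [mapRange_sum_apply]
        exact E.sum_mem fun i _ => E.mul_mem (he _ (hv i) j) (B i b).2
      · rw [sum_smul_right]
        have h1 : ∑ i, ((e (v i)).sum fun j r => c j * r) * (B i b : K) =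
            (∑ i, v i * (B i b : K)) -
              ∑ i, (v i - (e (v i)).sum fun j r => c j * r) * (B i b : K) := by
          rw [← Finset.sum_sub_distrib]
          refine Finset.sum_congr rfl fun i _ => ?_
          rw [sub_mul]; abel
        rw [h1]
        exact M'.sub_mem (h0 b) (M'.sum_mem fun i _ => hM' _ (hve _ (hv i)) _ (B i b).2)
    rw [this]; rfl
  let S : Finset J := Finset.univ.biUnion fun i => (e (v i)).support
  have hS : ∀ i, ((e (v i)).sum fun j r => c j * r) = ∑ j ∈ S, c j * e (v i) j := by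
    intro i
    rw [Finsupp.sum_of_support_subset _ (s := S) ?_ _ (fun _ _ => mul_zero _)]
    exact Finset.subset_biUnion_of_mem (fun i => (e (v i)).support) (Finset.mem_univ i)
  have hw : ∀ j, ∃ w : ι → K, (∀ i, w i ∈ E) ∧ ∀ k, ∑ i, w i * (A i k : K) = e (v k) j := fun j =>
    exact_coe hAB (fun i => e (v i) j) (fun i => he _ (hv i) j) (hrow j)
  choose w hwE hwA using hw
  refine ⟨fun i => ∑ j ∈ S, c j * w j i, fun i => M.sum_mem fun j _ => hc j _ (hwE j i),
    fun k => ?_⟩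
  have h2 : ∑ i, (∑ j ∈ S, c j * w j i) * (A i k : K) = (e (v k)).sum fun j r => c j * r := by
    rw [hS k]
    simp only [Finset.sum_mul]
    rw [Finset.sum_comm]
    refine Finset.sum_congr rfl fun j _ => ?_
    rw [← hwA j k, Finset.mul_sum]
    exact Finset.sum_congr rfl fun i _ => mul_assoc _ _ _
  rw [h2]
  exact hve _ (hv k)

/-- right free modules are flat -/
theorem FlatIn.of_basis {M : AddSubgroup K} {J : Type u} (c : J → K)
    (hc : ∀ j, ∀ e ∈ E, c j * e ∈ M)
    (span : ∀ m ∈ M, ∃ e : J →₀ K, (∀ j, e j ∈ E) ∧ m = e.sum fun j r => c j * r)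
    (ind : ∀ e : J →₀ K, (∀ j, e j ∈ E) → (e.sum fun j r => c j * r) = 0 → e = 0) :
    FlatIn E M := by
  intro ι κ μ _ _ _ A B hAB v hv h0
  obtain ⟨w, hw, h⟩ := step (M := M) (M' := ⊥) (by
      rintro m hm e -
      rw [AddSubgroup.mem_bot] at hm ⊢
      rw [hm, zero_mul]) c hc
    (fun m hm => by
      obtain ⟨e, he, h⟩ := span m hm
      exact ⟨e, he, by rw [AddSubgroup.mem_bot, h, sub_self]⟩)
    (fun e he h => ind e he (AddSubgroup.mem_bot.1 h)) hAB v hv
    (fun j => AddSubgroup.mem_bot.2 (h0 j))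
  exact ⟨w, hw, fun j => (sub_eq_zero.1 (AddSubgroup.mem_bot.1 (h j))).symm⟩

/-- purity when `1` is in a right basis modulo `M'` -/
theorem pureIn_of_mod {M M' : AddSubgroup K} (hM' : ∀ m ∈ M', ∀ e ∈ E, m * e ∈ M') {J : Type u}
    (c : J → K) (j0 : J) (h1 : c j0 = 1)
    (span : ∀ m ∈ M, ∃ e : J →₀ K, (∀ j, e j ∈ E) ∧ m - (e.sum fun j r => c j * r) ∈ M')
    (ind : ∀ e : J →₀ K, (∀ j, e j ∈ E) → (e.sum fun j r => c j * r) ∈ M' → e = 0) :
    PureIn E M := by
  classical
  intro ι κ _ _ A v hv w hw hwv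
  choose! e he hve using span
  refine ⟨fun i => e (w i) j0, fun i => he _ (hw i) j0, fun k => ?_⟩
  -- the combination `∑ e_i A_ik - v_k` at `j0`
  have key : (∑ i, (e (w i)).mapRange (fun r => r * (A i k : K)) (zero_mul _)) -
      Finsupp.single j0 (v k) = 0 := by
    refine ind _ (fun j => ?_) ?_
    · rw [Finsupp.sub_apply, mapRange_sum_apply]
      refine E.sub_mem (E.sum_mem fun i _ => E.mul_mem (he _ (hw i) j) (A i k).2) ?_
      rw [Finsupp.single_apply]
      split_ifs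
      · exact hv k
      · exact E.zero_mem
    · rw [Finsupp.sum_sub_index (fun _ _ _ => mul_sub _ _ _), sum_smul_right,
        Finsupp.sum_single_index (mul_zero _), h1, one_mul]
      have h2 : ∑ i, ((e (w i)).sum fun j r => c j * r) * (A i k : K) =
            (∑ i, w i * (A i k : K)) -
              ∑ i, (w i - (e (w i)).sum fun j r => c j * r) * (A i k : K) := by
        rw [← Finset.sum_sub_distrib]
        refine Finset.sum_congr rfl fun i _ => ?_
        rw [sub_mul]; abel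
      rw [h2, hwv, sub_sub_cancel_left]
      exact M'.neg_mem (M'.sum_mem fun i _ => hM' _ (hve _ (hw i)) _ (A i k).2)
  have h3 := DFunLike.congr_fun key j0
  rw [Finsupp.sub_apply, mapRange_sum_apply, Finsupp.single_eq_same, Finsupp.zero_apply,
    sub_eq_zero] at h3
  exact h3

/-- purity when `1` is in a right basis -/
theorem PureIn.of_basis {M : AddSubgroup K} {J : Type u} (c : J → K) (j0 : J) (h1 : c j0 = 1)
    (span : ∀ m ∈ M, ∃ e : J →₀ K, (∀ j, e j ∈ E) ∧ m = e.sum fun j r => c j * r)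
    (ind : ∀ e : J →₀ K, (∀ j, e j ∈ E) → (e.sum fun j r => c j * r) = 0 → e = 0) :
    PureIn E M :=
  pureIn_of_mod (M := M) (M' := ⊥) (by
      rintro m hm e -
      rw [AddSubgroup.mem_bot] at hm ⊢
      rw [hm, zero_mul]) c j0 h1
    (fun m hm => by
      obtain ⟨e, he, h⟩ := span m hm
      exact ⟨e, he, by rw [AddSubgroup.mem_bot, h, sub_self]⟩)
    (fun e he h => ind e he (AddSubgroup.mem_bot.1 h))

section Complete

variable {O : Subring K} {p : K}

/-- `pO` -/
def pSub (O : Subring K) (p : K) : AddSubgroup K where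
  carrier := {m | ∃ o ∈ O, m = p * o}
  add_mem' := by
    rintro _ _ ⟨a, ha, rfl⟩ ⟨b, hb, rfl⟩
    exact ⟨a + b, O.add_mem ha hb, (mul_add _ _ _).symm⟩
  zero_mem' := ⟨0, O.zero_mem, (mul_zero _).symm⟩
  neg_mem' := by
    rintro _ ⟨a, ha, rfl⟩
    exact ⟨-a, O.neg_mem ha, (mul_neg _ _).symm⟩

theorem pSub_mul (hEO : E ≤ O) : ∀ m ∈ pSub O p, ∀ e ∈ E, m * e ∈ pSub O p := by
  rintro _ ⟨a, ha, rfl⟩ e he
  exact ⟨a * e, O.mul_mem ha (hEO he), mul_assoc _ _ _⟩

/-- purity of `E` in `O` when `1` is in a right basis of `O/pO` -/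
theorem PureIn.of_basis_mod (hEO : E ≤ O) {J : Type u} (c : J → K) (j0 : J) (h1 : c j0 = 1)
    (span : ∀ o ∈ O, ∃ e : J →₀ K, (∀ j, e j ∈ E) ∧ ∃ o' ∈ O,
      o = (e.sum fun j r => c j * r) + p * o')
    (ind : ∀ e : J →₀ K, (∀ j, e j ∈ E) → ∀ o' ∈ O, (e.sum fun j r => c j * r) = p * o' → e = 0) :
    PureIn E O.toAddSubgroup :=
  pureIn_of_mod (M := O.toAddSubgroup) (M' := pSub O p) (pSub_mul hEO) c j0 h1
    (fun m hm => by
      obtain ⟨e, he, o', ho', h⟩ := span m hm
      exact ⟨e, he, o', ho', by rw [h, add_sub_cancel_left]⟩)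
    (fun e he h => by
      obtain ⟨o', ho', h'⟩ := h
      exact ind e he o' ho' h')

/-- a complete ring whose residue ring is right free is flat -/
theorem FlatIn.of_complete (hEO : E ≤ O) (pO : p ∈ O) (pc : ∀ d, p * d = d * p)
    (preg : ∀ d, p * d = 0 → d = 0) {J : Type u} (c : J → K) (hcO : ∀ j, c j ∈ O)
    (span : ∀ o ∈ O, ∃ e : J →₀ K, (∀ j, e j ∈ E) ∧ ∃ o' ∈ O,
      o = (e.sum fun j r => c j * r) + p * o')
    (ind : ∀ e : J →₀ K, (∀ j, e j ∈ E) → ∀ o' ∈ O, (e.sum fun j r => c j * r) = p * o' → e = 0)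
    (hsum : ∀ a : ℕ → K, (∀ n, a n ∈ O) → ∃ s ∈ O, ∀ N, ∃ r ∈ O,
      s = ∑ n ∈ Finset.range N, p ^ n * a n + p ^ N * r)
    (hsep : ∀ f ∈ O, (∀ N, ∃ r ∈ O, f = p ^ N * r) → f = 0) : FlatIn E O.toAddSubgroup := by
  classical
  intro ι κ μ _ _ _ A B hAB v hv h0
  have hst : ∀ v : κ → K, (∀ i, v i ∈ O) → (∀ j, ∑ i, v i * (B i j : K) = 0) →
      ∃ (w : ι → K) (v' : κ → K), (∀ i, w i ∈ O) ∧ (∀ i, v' i ∈ O) ∧
        (∀ j, ∑ i, v' i * (B i j : K) = 0) ∧ ∀ j, v j = ∑ i, w i * (A i j : K) + p * v' j := by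
    intro v hv h0
    obtain ⟨w, hw, h⟩ := step (M := O.toAddSubgroup) (M' := pSub O p) (pSub_mul hEO) c
      (fun j e he => O.mul_mem (hcO j) (hEO he))
      (fun m hm => by
        obtain ⟨e, he, o', ho', h⟩ := span m hm
        exact ⟨e, he, o', ho', by rw [h, add_sub_cancel_left]⟩)
      (fun e he h => by
        obtain ⟨o', ho', h'⟩ := h
        exact ind e he o' ho' h') hAB v hv
      (fun j => ⟨0, O.zero_mem, by rw [h0 j, mul_zero]⟩)
    choose v' hv' hvv using h
    refine ⟨w, v', hw, hv', fun b => preg _ ?_, fun j => ?_⟩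
    · rw [Finset.mul_sum]
      have h1 : ∀ i, p * (v' i * (B i b : K)) = v i * (B i b : K) -
          (∑ k, w k * (A k i : K)) * (B i b : K) := by
        intro i
        rw [← mul_assoc, ← hvv i, sub_mul]
      simp only [h1, Finset.sum_sub_distrib, h0 b, zero_sub, neg_eq_zero]
      -- `w A B = 0`
      have h2 : ∀ k, ∑ i, (A k i : K) * (B i b : K) = 0 := by
        intro k
        have := (hAB (fun i => A k i)).2 ⟨Pi.single k 1, by simp; rfl⟩
        have h3 := congrFun this b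
        have h4 := congrArg Subtype.val h3
        rw [vecMul_coe] at h4
        exact h4
      simp only [Finset.sum_mul]
      rw [Finset.sum_comm]
      refine Finset.sum_eq_zero fun k _ => ?_
      have : ∑ i, w k * (A k i : K) * (B i b : K) = w k * ∑ i, (A k i : K) * (B i b : K) := by
        rw [Finset.mul_sum]
        exact Finset.sum_congr rfl fun i _ => mul_assoc _ _ _
      rw [this, h2, mul_zero]
    · rw [← hvv j]; abel
  choose! W V' hW hV' hVB hVA using hst
  let vs : ℕ → κ → K := fun n => V'^[n] v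
  have hvs : ∀ n, (∀ i, vs n i ∈ O) ∧ ∀ j, ∑ i, vs n i * (B i j : K) = 0 := by
    intro n
    induction n with
    | zero => exact ⟨hv, h0⟩
    | succ n ih =>
      have h1 : vs (n + 1) = V' (vs n) := Function.iterate_succ_apply' V' n v
      rw [h1]
      exact ⟨hV' _ ih.1 ih.2, hVB _ ih.1 ih.2⟩
  have hvs1 : ∀ n j, vs n j = ∑ i, W (vs n) i * (A i j : K) + p * vs (n + 1) j := by
    intro n j
    have h1 : vs (n + 1) = V' (vs n) := Function.iterate_succ_apply' V' n v
    rw [h1]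
    exact hVA _ (hvs n).1 (hvs n).2 j
  have hfin : ∀ N j, v j = ∑ n ∈ Finset.range N, p ^ n * ∑ i, W (vs n) i * (A i j : K) +
      p ^ N * vs N j := by
    intro N j
    induction N with
    | zero => simp [vs]
    | succ N ih =>
      rw [Finset.sum_range_succ, ih, pow_succ, mul_assoc, add_assoc, ← mul_add, ← hvs1 N j]
  have hs : ∀ i, ∃ s ∈ O, ∀ N, ∃ r ∈ O,
      s = ∑ n ∈ Finset.range N, p ^ n * W (vs n) i + p ^ N * r := fun i =>
    hsum (fun n => W (vs n) i) (fun n => hW _ (hvs n).1 (hvs n).2 i)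
  choose s hsO hs using hs
  refine ⟨s, hsO, fun j => ?_⟩
  have hpn : ∀ n : ℕ, ∀ d, p ^ n * d = d * p ^ n := by
    intro n d
    exact (Commute.pow_left (show Commute p d from pc d) n).eq
  have h5 : v j - ∑ i, s i * (A i j : K) = 0 := by
    refine hsep _ (O.sub_mem (hv j) (O.sum_mem fun i _ => O.mul_mem (hsO i) (hEO (A i j).2)))
      fun N => ?_
    choose r hrO hr using fun i => hs i N
    refine ⟨vs N j - ∑ i, r i * (A i j : K), O.sub_mem ((hvs N).1 j)
      (O.sum_mem fun i _ => O.mul_mem (hrO i) (hEO (A i j).2)), ?_⟩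
    rw [hfin N j, mul_sub]
    have h6 : ∑ i, s i * (A i j : K) = ∑ n ∈ Finset.range N, p ^ n * ∑ i, W (vs n) i * (A i j : K) +
        p ^ N * ∑ i, r i * (A i j : K) := by
      have h7 : ∀ i, s i * (A i j : K) = (∑ n ∈ Finset.range N, p ^ n * (W (vs n) i * (A i j : K))) +
          p ^ N * (r i * (A i j : K)) := by
        intro i
        rw [hr i, add_mul, Finset.sum_mul, mul_assoc]
        congr 1
        exact Finset.sum_congr rfl fun n _ => mul_assoc _ _ _
      simp only [h7, Finset.sum_add_distrib, ← Finset.mul_sum]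
      congr 1
      rw [Finset.sum_comm]
      exact Finset.sum_congr rfl fun n _ => (Finset.mul_sum _ _ _).symm
    rw [h6]; abel
  exact (sub_eq_zero.1 h5).symm

/-- flatness passes from `O` to `K = ⋃ p^{-m} O` -/
theorem FlatIn.of_exhaust (pc : ∀ d, p * d = d * p) {x : K} (xp : x * p = 1)
    (pO : p ∈ O) (exh : ∀ d, ∃ m : ℕ, p ^ m * d ∈ O) (h : FlatIn E O.toAddSubgroup) :
    FlatIn E (⊤ : AddSubgroup K) := by
  classical
  intro ι κ μ _ _ _ A B hAB v _ h0
  choose m hm using exh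
  let N : ℕ := Finset.univ.sup fun i => m (v i)
  have hN : ∀ i, p ^ N * v i ∈ O := by
    intro i
    have h1 : m (v i) ≤ N := Finset.le_sup (f := fun i => m (v i)) (Finset.mem_univ i)
    obtain ⟨k, hk⟩ := Nat.exists_eq_add_of_le h1
    rw [hk, add_comm, pow_add, mul_assoc]
    exact O.mul_mem (O.pow_mem pO k) (hm _)
  obtain ⟨w, hw, h2⟩ := h ι κ μ A B hAB (fun i => p ^ N * v i) hN (fun j => by
    simp only [mul_assoc, ← Finset.mul_sum, h0 j, mul_zero])
  have hxp : x ^ N * p ^ N = 1 := by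
    rw [← Commute.mul_pow, xp, one_pow]
    show x * p = p * x
    rw [pc]
  refine ⟨fun i => x ^ N * w i, fun _ => trivial, fun j => ?_⟩
  simp only [mul_assoc, ← Finset.mul_sum, h2 j]
  rw [← mul_assoc, hxp, one_mul]

/-- flatness is invariant under multiplication by a unit -/
theorem FlatIn.mul_unit {M M' : AddSubgroup K} {x p : K} (xp : x * p = 1) (px : p * x = 1)
    (h1 : ∀ m ∈ M, x * m ∈ M') (h2 : ∀ m ∈ M', p * m ∈ M) (h : FlatIn E M) : FlatIn E M' := by
  intro ι κ μ _ _ _ A B hAB v hv h0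
  obtain ⟨w, hw, h3⟩ := h ι κ μ A B hAB (fun i => p * v i) (fun i => h2 _ (hv i)) (fun j => by
    simp only [mul_assoc, ← Finset.mul_sum, h0 j, mul_zero])
  refine ⟨fun i => x * w i, fun i => h1 _ (hw i), fun j => ?_⟩
  simp only [mul_assoc, ← Finset.mul_sum, h3 j]
  rw [← mul_assoc, xp, one_mul]

end Complete

end Crest.Agent.R181.VT
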