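import Crest.Agent.R181.VT495a

/-!
# R181, V-chain, block V2: consequences of a right basis of `K/(V+O)` over `E = V ∩ O`

`full_aux`: if `a ∈ V^k`, `b ∈ O^k`, `a - b = kC` then `a ≡ g mod V^i C`, `b ≡ g mod O^i C`, `g ∈ E^k`.
`inj_V`, `inj_O`: `V^k/V^i C → K^k/K^i C` and `O^k/O^i C → K^k/K^i C` are injective.
-/

set_option autoImplicit false

namespace Crest.Agent.R181.VT

universe u

variable {K : Type u} [Ring K]

/-- right basis of `K/(V+O)` over `V ∩ O` -/
structure RG (V O : Subring K) where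
  I0 : Type u
  g0 : I0 → K
  span0 : ∀ d, ∃ c : I0 →₀ K, (∀ i, c i ∈ V ⊓ O) ∧
    ∃ v ∈ V, ∃ o ∈ O, d = v + o + c.sum (fun i e => g0 i * e)
  ind0 : ∀ c : I0 →₀ K, (∀ i, c i ∈ V ⊓ O) → ∀ v ∈ V, ∀ o ∈ O,
    c.sum (fun i e => g0 i * e) = v + o → c = 0

variable {V O : Subring K}

theorem RG.split (B : RG V O) {ι κ : Type} [Fintype ι] [Fintype κ]
    (C : Matrix ι κ ↥(V ⊓ O)) (k : ι → K)
    (hk : ∀ j, ∃ v ∈ V, ∃ o ∈ O, ∑ i, k i * (C i j : K) = v + o) :
    ∃ (v o : ι → K), (∀ i, v i ∈ V) ∧ (∀ i, o i ∈ O) ∧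
      ∀ j, ∑ i, k i * (C i j : K) = ∑ i, v i * (C i j : K) + ∑ i, o i * (C i j : K) := by
  classical
  choose c hc v hv o ho hd using B.span0
  refine ⟨fun i => v (k i), fun i => o (k i), fun i => hv _, fun i => ho _, fun j => ?_⟩
  have hCV : ∀ i j, (C i j : K) ∈ V := fun i j => (C i j).2.1
  have hCO : ∀ i j, (C i j : K) ∈ O := fun i j => (C i j).2.2
  have key : (∑ i, (c (k i)).mapRange (fun r => r * (C i j : K)) (zero_mul _)) = 0 := by
    obtain ⟨v', hv', o', ho', h⟩ := hk j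
    refine B.ind0 _ (fun x => ?_) (v' - ∑ i, v (k i) * (C i j : K))
      (V.sub_mem hv' (V.sum_mem fun i _ => V.mul_mem (hv _) (hCV i j)))
      (o' - ∑ i, o (k i) * (C i j : K))
      (O.sub_mem ho' (O.sum_mem fun i _ => O.mul_mem (ho _) (hCO i j))) ?_
    · rw [mapRange_sum_apply]
      exact Subring.sum_mem _ fun i _ => Subring.mul_mem _ (hc _ x) (C i j).2
    · rw [sum_smul_right]
      have h2 : ∀ i, ((c (k i)).sum fun x r => B.g0 x * r) * (C i j : K) =
          k i * (C i j : K) - v (k i) * (C i j : K) - o (k i) * (C i j : K) := by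
        intro i
        have h5 : k i * (C i j : K) = (v (k i) + o (k i) +
          (c (k i)).sum fun x r => B.g0 x * r) * (C i j : K) :=
          congrArg (· * (C i j : K)) (hd (k i))
        rw [h5, add_mul, add_mul]
        abel
      simp only [h2, Finset.sum_sub_distrib, h]
      abel
  have h3 := sum_smul_right B.g0 (fun i => c (k i)) (fun i => (C i j : K))
  rw [key, Finsupp.sum_zero_index] at h3
  have h4 : ∑ i, k i * (C i j : K) = ∑ i, (v (k i) * (C i j : K) + o (k i) * (C i j : K) +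
      ((c (k i)).sum fun x r => B.g0 x * r) * (C i j : K)) := by
    refine Finset.sum_congr rfl fun i _ => ?_
    have h5 : k i * (C i j : K) = (v (k i) + o (k i) +
      (c (k i)).sum fun x r => B.g0 x * r) * (C i j : K) :=
      congrArg (· * (C i j : K)) (hd (k i))
    rw [h5, add_mul, add_mul]
  rw [h4, Finset.sum_add_distrib, ← h3, add_zero, Finset.sum_add_distrib]

/-- maps out of `OO(1)` into `OO(1) ⊗ M` are elements of `M` -/
theorem RG.full_aux (B : RG V O) {ι κ : Type} [Fintype ι] [Fintype κ]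
    (C : Matrix ι κ ↥(V ⊓ O)) (a b : κ → K) (ha : ∀ j, a j ∈ V) (hb : ∀ j, b j ∈ O) (k : ι → K)
    (hk : ∀ j, a j - b j = ∑ i, k i * (C i j : K)) :
    ∃ (g : κ → ↥(V ⊓ O)) (v o : ι → K), (∀ i, v i ∈ V) ∧ (∀ i, o i ∈ O) ∧
      (∀ j, a j = g j + ∑ i, v i * (C i j : K)) ∧ (∀ j, b j = g j + ∑ i, o i * (C i j : K)) := by
  obtain ⟨v, o, hv, ho, h⟩ := B.split C k (fun j => ⟨a j, ha j, -b j, O.neg_mem (hb j), by
    rw [← hk j]; abel⟩)
  have h1 : ∀ j, a j - ∑ i, v i * (C i j : K) = b j + ∑ i, o i * (C i j : K) := by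
    intro j
    have := hk j
    rw [h j] at this
    rw [sub_eq_iff_eq_add] at this ⊢
    rw [this]; abel
  have hg : ∀ j, a j - ∑ i, v i * (C i j : K) ∈ V ⊓ O := by
    intro j
    refine ⟨V.sub_mem (ha j) (V.sum_mem fun i _ => V.mul_mem (hv i) (C i j).2.1), ?_⟩
    rw [h1 j]
    exact O.add_mem (hb j) (O.sum_mem fun i _ => O.mul_mem (ho i) (C i j).2.2)
  refine ⟨fun j => ⟨_, hg j⟩, v, fun i => - o i, hv, fun i => O.neg_mem (ho i), fun j => ?_,
    fun j => ?_⟩
  · simp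
  · show b j = (a j - ∑ i, v i * (C i j : K)) + _
    rw [h1 j]
    simp

/-- `V^k/V^i C → K^k/K^i C` is injective if `E` is pure in `O` -/
theorem RG.inj_V (B : RG V O) (hO : PureIn (V ⊓ O) O.toAddSubgroup) {ι κ : Type} [Fintype ι]
    [Fintype κ] (C : Matrix ι κ ↥(V ⊓ O)) (a : κ → K) (ha : ∀ j, a j ∈ V) (k : ι → K)
    (hk : ∀ j, a j = ∑ i, k i * (C i j : K)) :
    ∃ v : ι → K, (∀ i, v i ∈ V) ∧ ∀ j, a j = ∑ i, v i * (C i j : K) := by
  obtain ⟨g, v, o, hv, ho, h1, h2⟩ := B.full_aux C a 0 ha (fun _ => O.zero_mem) k (fun j => by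
    rw [← hk j, Pi.zero_apply, sub_zero])
  obtain ⟨w, hw, h3⟩ := hO ι κ C (fun j => (g j : K)) (fun j => (g j).2) (fun i => - o i)
    (fun i => O.neg_mem (ho i)) (fun j => by
      have := h2 j
      rw [Pi.zero_apply] at this
      simp only [neg_mul, Finset.sum_neg_distrib]
      exact (eq_neg_of_add_eq_zero_left this.symm).symm)
  refine ⟨fun i => w i + v i, fun i => V.add_mem (hw i).1 (hv i), fun j => ?_⟩
  simp only [add_mul, Finset.sum_add_distrib]
  rw [h3 j]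
  exact h1 j

/-- `O^k/O^i C → K^k/K^i C` is injective if `E` is pure in `V` -/
theorem RG.inj_O (B : RG V O) (hV : PureIn (V ⊓ O) V.toAddSubgroup) {ι κ : Type} [Fintype ι]
    [Fintype κ] (C : Matrix ι κ ↥(V ⊓ O)) (b : κ → K) (hb : ∀ j, b j ∈ O) (k : ι → K)
    (hk : ∀ j, b j = ∑ i, k i * (C i j : K)) :
    ∃ o : ι → K, (∀ i, o i ∈ O) ∧ ∀ j, b j = ∑ i, o i * (C i j : K) := by
  obtain ⟨g, v, o, hv, ho, h1, h2⟩ := B.full_aux C 0 b (fun _ => V.zero_mem) hb (fun i => - k i)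
    (fun j => by
      simp only [neg_mul, Finset.sum_neg_distrib]
      rw [← hk j, Pi.zero_apply, zero_sub])
  obtain ⟨w, hw, h3⟩ := hV ι κ C (fun j => (g j : K)) (fun j => (g j).2) (fun i => - v i)
    (fun i => V.neg_mem (hv i)) (fun j => by
      have := h1 j
      rw [Pi.zero_apply] at this
      simp only [neg_mul, Finset.sum_neg_distrib]
      exact (eq_neg_of_add_eq_zero_left this.symm).symm)
  refine ⟨fun i => w i + o i, fun i => O.add_mem (hw i).2 (ho i), fun j => ?_⟩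
  simp only [add_mul, Finset.sum_add_distrib]
  rw [h3 j]
  exact h2 j

end Crest.Agent.R181.VT
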