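import Crest.Agent.R181.VT495d
import Crest.Agent.R181.VB789e

/-!
# R181, V-chain, block V2: `Psi` on modules over the triangular ring

`dZ R Y` is 789's `delta` of the components of a `Lam L`-module `Y`; `PZ R Y` says it is bijective
(`Psi⁰ Y = Psi¹ Y = 0`).  `PZ` holds on the extension closure `W` of `{Θ ⊗_E M}`.
-/

set_option autoImplicit false
set_option linter.unusedSectionVars false

namespace Crest.Agent.R181.VT

open V868 VA VB LK MulOpposite

universe u

variable {DD : Type u} [Ring DD] {L : Line DD} {T : Type u} [Ring T] {U : UnivT L T} (R : RB U)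

section iso

variable {A B C A' B' C' : Type u} [AddCommGroup A] [Module L.V A] [AddCommGroup B]
  [Module L.O B] [AddCommGroup C] [Module DD C] [AddCommGroup A'] [Module L.V A']
  [AddCommGroup B'] [Module L.O B'] [AddCommGroup C'] [Module DD C']
  {al : A →ₛₗ[L.V.subtype] C} {be : B →ₛₗ[L.O.subtype] C}
  {al' : A' →ₛₗ[L.V.subtype] C'} {be' : B' →ₛₗ[L.O.subtype] C'}

/-- isomorphic plain triples -/
theorem delta_bij_iff (fA : A →ₗ[L.V] A') (fB : B →ₗ[L.O] B') (fC : C →ₗ[DD] C')
    (hA : ∀ a, al' (fA a) = fC (al a)) (hB : ∀ b, be' (fB b) = fC (be b))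
    (bA : Function.Bijective fA) (bB : Function.Bijective fB) (bC : Function.Bijective fC) :
    Function.Bijective (delta R al' be') ↔ Function.Bijective (delta R al be) := by
  have h1 : Function.Bijective ((Fr.map R.ρV fA).prodMap (Fr.map R.ρO fB)) := by
    rw [LinearMap.coe_prodMap]
    exact Function.Bijective.prodMap ⟨Fr.map_injective _ _ bA.1, Fr.map_surjective _ _ bA.2⟩
      ⟨Fr.map_injective _ _ bB.1, Fr.map_surjective _ _ bB.2⟩
  have h2 : Function.Bijective (Fr.map R.ρV (res L.V fC)) :=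
    ⟨Fr.map_injective _ _ bC.1, Fr.map_surjective _ _ bC.2⟩
  have h3 : (delta R al' be' : _ → _) ∘ ((Fr.map R.ρV fA).prodMap (Fr.map R.ρO fB)) =
      (Fr.map R.ρV (res L.V fC) : _ → _) ∘ (delta R al be) :=
    funext fun y => delta_map R fA fB fC hA hB y
  rw [← Function.Bijective.of_comp_iff' h2, ← h3, Function.Bijective.of_comp_iff _ h1]

end iso

section Z

variable (Y : Type u) [AddCommGroup Y] [Module (Lam L) Y]

/-- `delta` of a `Lam L`-module -/
noncomputable def dZ : (Fr R.ρV (cA L Y) × Fr R.ρO (cB L Y)) →ₗ[T] Fr R.ρV (cC L Y) :=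
  delta R (al L (Y := Y)) (be L (Y := Y))

/-- `Psi` vanishes on `Y` -/
def PZ : Prop := Function.Bijective (dZ R Y)

variable {Y}
variable {M N : Type u} [AddCommGroup M] [Module (Lam L) M] [AddCommGroup N] [Module (Lam L) N]

/-- the short exact sequence of the components -/
theorem ts_of_ses {i : M →ₗ[Lam L] Y} {p : Y →ₗ[Lam L] N} (h : SES i p) :
    TS (al L (Y := M)) (be L (Y := M)) (al L (Y := Y)) (be L (Y := Y)) (al L (Y := N))
      (be L (Y := N)) (Cmap (iA L) i) (Cmap (iB L) i) (Cmap (iC L) i) (Cmap (iA L) p)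
      (Cmap (iB L) p) (Cmap (iC L) p) where
  fA_inj := Cmap_injective _ h.inj
  fB_inj := Cmap_injective _ h.inj
  fC_inj := Cmap_injective _ h.inj
  gA_surj := Cmap_surjective _ h.surj
  gB_surj := Cmap_surjective _ h.surj
  gC_surj := Cmap_surjective _ h.surj
  exA := Cmap_exact _ (SES.exact h)
  exB := Cmap_exact _ (SES.exact h)
  exC := Cmap_exact _ (SES.exact h)
  fal := fun a => al_map L i a
  fbe := fun a => be_map L i a
  gal := fun a => al_map L p a
  gbe := fun a => be_map L p a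

theorem PZ.ext {i : M →ₗ[Lam L] Y} {p : Y →ₗ[Lam L] N} (h : SES i p) (h1 : PZ R M)
    (h2 : PZ R N) : PZ R Y :=
  (ts_of_ses h).bij R h1 h2

theorem Cmap_bijective {S : Type*} [Ring S] (ι : S →ₙ+* Lam L) (e : M ≃ₗ[Lam L] N) :
    Function.Bijective (Cmap ι e.toLinearMap) :=
  ⟨Cmap_injective _ e.injective, Cmap_surjective _ e.surjective⟩

theorem PZ.iso (e : M ≃ₗ[Lam L] N) (h : PZ R M) : PZ R N :=
  (delta_bij_iff R (Cmap (iA L) e.toLinearMap) (Cmap (iB L) e.toLinearMap)
    (Cmap (iC L) e.toLinearMap) (fun a => al_map L e.toLinearMap a)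
    (fun a => be_map L e.toLinearMap a) (Cmap_bijective _ e) (Cmap_bijective _ e)
    (Cmap_bijective _ e)).2 h

theorem PZ.of_subsingleton (h : Subsingleton Y) : PZ R Y := by
  have h1 : Subsingleton (Fr R.ρV (cA L Y)) := ⟨fun f g => Finsupp.ext fun w =>
    Subsingleton.elim _ _⟩
  have h2 : Subsingleton (Fr R.ρO (cB L Y)) := ⟨fun f g => Finsupp.ext fun w =>
    Subsingleton.elim _ _⟩
  have h3 : Subsingleton (Fr R.ρV (cC L Y)) := ⟨fun f g => Finsupp.ext fun w =>
    Subsingleton.elim _ _⟩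
  exact ⟨fun x y _ => Subsingleton.elim _ _, fun y => ⟨0, Subsingleton.elim _ _⟩⟩

/-- cokernels -/
theorem PZ.coker {f : M →ₗ[Lam L] Y} {g : Y →ₗ[Lam L] N} (hg : Function.Surjective g)
    (hfg : Function.Exact f g) (h1 : PZ R M) (h2 : PZ R Y) : PZ R N :=
  bij_coker R (Cmap (iA L) f) (Cmap (iB L) f) (Cmap (iC L) f) (Cmap (iA L) g)
      (Cmap (iB L) g) (Cmap (iC L) g) (Cmap_surjective _ hg) (Cmap_surjective _ hg)
      (Cmap_surjective _ hg) (Cmap_exact _ hfg) (Cmap_exact _ hfg) (Cmap_exact _ hfg)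
      (fun a => al_map L f a) (fun a => be_map L f a) (fun a => al_map L g a)
      (fun a => be_map L g a) h1.2 h2

theorem PZ.pow (h : PZ R Y) : ∀ k : ℕ, PZ R (Fin k → Y)
  | 0 => PZ.of_subsingleton R inferInstance
  | k + 1 => by
    let f : Y →ₗ[Lam L] (Fin (k + 1) → Y) := LinearMap.single (Lam L) (fun _ => Y) 0
    let g : (Fin (k + 1) → Y) →ₗ[Lam L] (Fin k → Y) :=
      LinearMap.pi fun i => LinearMap.proj i.succ
    refine PZ.ext R (i := f) (p := g) ⟨?_, ?_, ?_⟩ h (PZ.pow h k)
    · intro a b hab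
      have := congrFun hab 0
      simpa [f] using this
    · intro y
      exact ⟨Fin.cons 0 y, by funext i; simp [g]⟩
    · intro y
      constructor
      · intro hy
        refine ⟨y 0, ?_⟩
        funext i
        refine Fin.cases ?_ (fun i => ?_) i
        · simp [f]
        · have := congrFun hy i
          simp only [g, LinearMap.pi_apply, LinearMap.proj_apply, Pi.zero_apply] at this
          rw [this]
          simp [f]
      · rintro ⟨x, rfl⟩
        funext i
        simp [f, g]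

theorem PZ.pi (h : PZ R Y) (κ : Type) [Fintype κ] : PZ R (κ → Y) :=
  (h.pow R (Fintype.card κ)).iso R (LinearEquiv.funCongrLeft (Lam L) Y (Fintype.equivFin κ))

end Z

section Theta

/-- the `V`-component of `Θ` -/
def eA : cA L (TT L) ≃ₗ[L.V] Vs L := cA_tri

/-- the `O`-component of `Θ` -/
def eB : cB L (TT L) ≃ₗ[L.O] Ox L := cB_tri

/-- the `DD`-component of `Θ` -/
def eC : cC L (TT L) ≃ₗ[DD] (⊤ : Submodule DD DD) := cC_tri

theorem eC_al (y : cA L (TT L)) : (eC (al L y) : DD) = (eA y : DD) := coe_cC_tri_al y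

theorem eC_be (y : cB L (TT L)) : (eC (be L y) : DD) = (eB y : DD) := coe_cC_tri_be y

/-- the `V`-component of `Θ` -/
def tA' : cA L (TT L) →ₗ[L.V] L.V where
  toFun y := ⟨(eA y : DD), (eA y).2⟩
  map_add' x y := Subtype.ext (by
    show ((eA (x + y) : Vs L) : DD) = (eA x : DD) + (eA y : DD)
    rw [map_add]; rfl)
  map_smul' v y := Subtype.ext (by
    show ((eA (v • y) : Vs L) : DD) = (v : DD) * (eA y : DD)
    rw [map_smul]; rfl)

/-- the `O`-component of `Θ` -/
def tB' : cB L (TT L) →ₗ[L.O] L.O where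
  toFun y := ⟨L.p * (eB y : DD), (eB y).2⟩
  map_add' x y := Subtype.ext (by
    show L.p * ((eB (x + y) : Ox L) : DD) = L.p * (eB x : DD) + L.p * (eB y : DD)
    rw [map_add, ← mul_add]; rfl)
  map_smul' v y := Subtype.ext (by
    show L.p * ((eB (v • y) : Ox L) : DD) = (v : DD) * (L.p * (eB y : DD))
    rw [map_smul, ← mul_assoc, ← L.pc, mul_assoc]; rfl)

/-- the `DD`-component of `Θ` -/
def tC' : cC L (TT L) →ₗ[DD] DD where
  toFun y := (eC y : DD)
  map_add' x y := by
    rw [map_add]; rfl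
  map_smul' v y := by
    rw [map_smul]; rfl

theorem PZ_TT : PZ R (TT L) := by
  refine (delta_bij_iff R (al := al L (Y := TT L)) (be := be L (Y := TT L)) (al' := alV L)
    (be' := beX L) tA' tB' tC' ?_ ?_ ?_ ?_ ?_).1 (delta_theta R)
  · intro a
    exact (eC_al a).symm
  · intro b
    show L.x * (L.p * (eB b : DD)) = (eC (be L b) : DD)
    rw [eC_be, ← mul_assoc, L.xp, one_mul]
  · constructor
    · intro x y hxy
      apply (eA (L := L)).injective
      exact Subtype.ext (congrArg (Subtype.val : L.V → DD) hxy)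
    · intro v
      exact ⟨eA.symm ⟨(v : DD), v.2⟩, Subtype.ext (by
        show ((eA (eA.symm ⟨(v : DD), v.2⟩) : Vs L) : DD) = v
        rw [LinearEquiv.apply_symm_apply])⟩
  · constructor
    · intro x y hxy
      apply (eB (L := L)).injective
      have h1 : L.p * (eB x : DD) = L.p * (eB y : DD) := congrArg (Subtype.val : L.O → DD) hxy
      have h2 := congrArg (L.x * ·) h1
      simp only [← mul_assoc, L.xp, one_mul] at h2
      exact Subtype.ext h2
    · intro v
      have hv : L.x * (v : DD) ∈ Ox L := by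
        rw [mem_Ox, ← mul_assoc, L.px, one_mul]; exact v.2
      exact ⟨eB.symm ⟨L.x * (v : DD), hv⟩, Subtype.ext (by
        show L.p * ((eB (eB.symm ⟨L.x * (v : DD), hv⟩) : Ox L) : DD) = v
        rw [LinearEquiv.apply_symm_apply, ← mul_assoc, L.px, one_mul])⟩
  · constructor
    · intro x y hxy
      apply (eC (L := L)).injective
      exact Subtype.ext hxy
    · intro v
      exact ⟨(eC (L := L)).symm ⟨(v : DD), trivial⟩, by
        show ((eC ((eC (L := L)).symm ⟨(v : DD), trivial⟩) : (⊤ : Submodule DD DD)) : DD) = v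
        rw [LinearEquiv.apply_symm_apply]⟩

/-- `Psi` vanishes on `Θ ⊗_E M` -/
theorem PZ_memTH {Y : Type u} [AddCommGroup Y] [Module (Lam L) Y]
    (h : memTH (Lam L) (EE L) (TT L) Y) : PZ R Y := by
  obtain ⟨ι, κ, _, _, C, ⟨e⟩⟩ := h
  refine PZ.iso R e.symm ?_
  refine PZ.coker R (f := mR (Lam L) (TT L) C) (g := (LinearMap.range (mR (Lam L) (TT L) C)).mkQ)
    (Submodule.mkQ_surjective _) ?_ ((PZ_TT R).pi R ι) ((PZ_TT R).pi R κ)
  intro y
  rw [Submodule.mkQ_apply, Submodule.Quotient.mk_eq_zero]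
  rfl

/-- **`Psi(W) = 0`** -/
theorem PZ_filt [IsNoetherianRing (EE L)] (hF : VA.Flat (Lam L) (EE L) (TT L))
    (hH : VA.Full (Lam L) (EE L) (TT L)) {Y : Type u} [AddCommGroup Y] [Module (Lam L) Y]
    (h : (thClass hF hH).filt.mem Y) : PZ R Y :=
  filt_induction (thClass hF hH) (fun M _ _ => PZ R M)
    (fun _ _ _ h => PZ.of_subsingleton R h) (fun _ _ _ h => PZ_memTH R h)
    (fun _ _ h hA hB => PZ.ext R h hA hB) h

end Theta

end Crest.Agent.R181.VT
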