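import Crest.Agent.R181.VT495e
import Crest.Agent.R181.VB789h
import Crest.Agent.R181.VA980g

/-!
# R181, V-chain, block V2: Step 4 for modules over the triangular ring
-/

set_option autoImplicit false
set_option linter.unusedSectionVars false

namespace Crest.Agent.R181.VT

open V868 VA VB LK MulOpposite

universe u

variable {DD : Type u} [Ring DD] {L : Line DD} {T : Type u} [Ring T] {U : UnivT L T} (R : RB U)

section OOcomp

/-- `V` -/
def vsE : Vs L ≃ₗ[L.V] L.V where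
  toFun y := ⟨(y : DD), y.2⟩
  invFun v := ⟨(v : DD), v.2⟩
  map_add' _ _ := rfl
  map_smul' _ _ := rfl
  left_inv _ := rfl
  right_inv _ := rfl

/-- `O` -/
def opE : Op L 0 ≃ₗ[L.O] L.O where
  toFun y := ⟨(y : DD), (mem_Op_zero L).1 y.2⟩
  invFun v := ⟨(v : DD), (mem_Op_zero L).2 v.2⟩
  map_add' _ _ := rfl
  map_smul' _ _ := rfl
  left_inv _ := rfl
  right_inv _ := rfl

/-- components of `OO = OO(0)` -/
def aO : cA L (OO L 0) ≃ₗ[L.V] L.V := (cA_tri : _ ≃ₗ[L.V] Vs L).trans vsE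

/-- components of `OO = OO(0)` -/
def bO : cB L (OO L 0) ≃ₗ[L.O] L.O := (cB_tri : _ ≃ₗ[L.O] Op L 0).trans opE

/-- components of `OO = OO(0)` -/
def cO : cC L (OO L 0) ≃ₗ[DD] DD :=
  (cC_tri : _ ≃ₗ[DD] (⊤ : Submodule DD DD)).trans Submodule.topEquiv

theorem cO_al (y : cA L (OO L 0)) : cO (al L y) = (aO y : DD) := coe_cC_tri_al y

theorem cO_be (y : cB L (OO L 0)) : cO (be L y) = (bO y : DD) := coe_cC_tri_be y

theorem al_aO (v : L.V) : al L (aO.symm v) = cO.symm (v : DD) := by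
  apply cO.injective
  rw [cO_al, LinearEquiv.apply_symm_apply, LinearEquiv.apply_symm_apply]

theorem be_bO (v : L.O) : be L (bO.symm v) = cO.symm (v : DD) := by
  apply cO.injective
  rw [cO_be, LinearEquiv.apply_symm_apply, LinearEquiv.apply_symm_apply]

variable {r : ℕ}

/-- components of `OO^r` -/
def aOr (r : ℕ) : (Fin r → L.V) ≃ₗ[L.V] cA L (Fin r → OO L 0) :=
  (LinearEquiv.piCongrRight fun _ => aO.symm).trans (Cpi (iA L) (Fin r)).symm

/-- components of `OO^r` -/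
def bOr (r : ℕ) : (Fin r → L.O) ≃ₗ[L.O] cB L (Fin r → OO L 0) :=
  (LinearEquiv.piCongrRight fun _ => bO.symm).trans (Cpi (iB L) (Fin r)).symm

/-- components of `OO^r` -/
def cOr (r : ℕ) : (Fin r → DD) ≃ₗ[DD] cC L (Fin r → OO L 0) :=
  (LinearEquiv.piCongrRight fun _ => cO.symm).trans (Cpi (iC L) (Fin r)).symm

theorem coe_aOr (v : Fin r → L.V) (j : Fin r) :
    ((aOr r v : cA L (Fin r → OO L 0)) : Fin r → OO L 0) j = (aO.symm (v j) : cA L (OO L 0)) := rfl

theorem coe_bOr (v : Fin r → L.O) (j : Fin r) :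
    ((bOr r v : cB L (Fin r → OO L 0)) : Fin r → OO L 0) j = (bO.symm (v j) : cB L (OO L 0)) := rfl

theorem coe_cOr (v : Fin r → DD) (j : Fin r) :
    ((cOr r v : cC L (Fin r → OO L 0)) : Fin r → OO L 0) j = (cO.symm (v j) : cC L (OO L 0)) := rfl

theorem al_aOr (v : Fin r → L.V) : al L (aOr r v) = cOr r (piS (Fin r) (alV L) v) := by
  apply Subtype.ext
  funext j
  show tA L • ((aOr r v : cA L (Fin r → OO L 0)) : Fin r → OO L 0) j = _
  rw [coe_aOr, coe_cOr]
  exact congrArg Subtype.val (al_aO (v j))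

theorem be_bOr (v : Fin r → L.O) : be L (bOr r v) = cOr r (piS (Fin r) (beP L 0) v) := by
  apply Subtype.ext
  funext j
  show tB L • ((bOr r v : cB L (Fin r → OO L 0)) : Fin r → OO L 0) j = _
  rw [coe_bOr, coe_cOr]
  have h1 : (piS (Fin r) (beP L 0) v) j = (v j : DD) := by
    show L.p ^ 0 * (v j : DD) = _
    rw [pow_zero, one_mul]
  rw [h1]
  exact congrArg Subtype.val (be_bO (v j))

end OOcomp

section precomp

variable {A B C A' B' C' A'' B'' C'' A0 B0 C0 : Type u} [AddCommGroup A] [Module L.V A]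
  [AddCommGroup B]
  [Module L.O B] [AddCommGroup C] [Module DD C] [AddCommGroup A'] [Module L.V A']
  [AddCommGroup B'] [Module L.O B'] [AddCommGroup C'] [Module DD C'] [AddCommGroup A'']
  [Module L.V A''] [AddCommGroup B''] [Module L.O B''] [AddCommGroup C''] [Module DD C'']
  [AddCommGroup A0] [Module L.V A0] [AddCommGroup B0] [Module L.O B0] [AddCommGroup C0]
  [Module DD C0]
  {al : A →ₛₗ[L.V.subtype] C} {be : B →ₛₗ[L.O.subtype] C}
  {al' : A' →ₛₗ[L.V.subtype] C'} {be' : B' →ₛₗ[L.O.subtype] C'}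
  {al'' : A'' →ₛₗ[L.V.subtype] C''} {be'' : B'' →ₛₗ[L.O.subtype] C''}
  {al0 : A0 →ₛₗ[L.V.subtype] C0} {be0 : B0 →ₛₗ[L.O.subtype] C0}
  {fA : A' →ₗ[L.V] A} {fB : B' →ₗ[L.O] B} {fC : C' →ₗ[DD] C}
    {gA : A →ₗ[L.V] A''} {gB : B →ₗ[L.O] B''} {gC : C →ₗ[DD] C''}

theorem ts_precomp (h : TS al' be' al be al'' be'' fA fB fC gA gB gC) (εA : A0 ≃ₗ[L.V] A')
    (εB : B0 ≃ₗ[L.O] B') (εC : C0 ≃ₗ[DD] C') (hA : ∀ a, al' (εA a) = εC (al0 a))
    (hB : ∀ a, be' (εB a) = εC (be0 a)) :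
    TS al0 be0 al be al'' be'' (fA.comp εA.toLinearMap) (fB.comp εB.toLinearMap)
      (fC.comp εC.toLinearMap) gA gB gC where
  fA_inj := h.fA_inj.comp εA.injective
  fB_inj := h.fB_inj.comp εB.injective
  fC_inj := h.fC_inj.comp εC.injective
  gA_surj := h.gA_surj
  gB_surj := h.gB_surj
  gC_surj := h.gC_surj
  exA := by
    intro x
    rw [h.exA x]
    constructor
    · rintro ⟨y, rfl⟩
      exact ⟨εA.symm y, by simp⟩
    · rintro ⟨y, rfl⟩
      exact ⟨εA y, rfl⟩
  exB := by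
    intro x
    rw [h.exB x]
    constructor
    · rintro ⟨y, rfl⟩
      exact ⟨εB.symm y, by simp⟩
    · rintro ⟨y, rfl⟩
      exact ⟨εB y, rfl⟩
  exC := by
    intro x
    rw [h.exC x]
    constructor
    · rintro ⟨y, rfl⟩
      exact ⟨εC.symm y, by simp⟩
    · rintro ⟨y, rfl⟩
      exact ⟨εC y, rfl⟩
  fal := fun a => by
    show al (fA (εA a)) = fC (εC (al0 a))
    rw [h.fal, hA]
  fbe := fun a => by
    show be (fB (εB a)) = fC (εC (be0 a))
    rw [h.fbe, hB]
  gal := h.gal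
  gbe := h.gbe

end precomp

section Step4

variable {r : ℕ} {G : Type u} [AddCommGroup G] [Module (Lam L) G] {O : Submodule (Lam L) G}
  (eO : OO L 0 ≃ₗ[Lam L] O) {M : Submodule (Lam L) (Fin r → G)}
  (hOM : Submodule.pi Set.univ (fun _ : Fin r => O) ≤ M)

/-- `OO^r → M` -/
def FM : (Fin r → OO L 0) →ₗ[Lam L] M :=
  ((Submodule.submoduleOf (Submodule.pi Set.univ (fun _ : Fin r => O)) M).subtype).comp
    (((LinearEquiv.piCongrRight fun _ => eO).trans
      ((piEquiv O r).symm.trans (Submodule.submoduleOfEquivOfLe hOM).symm)).toLinearMap)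

theorem coe_FM (y : Fin r → OO L 0) (j : Fin r) :
    ((FM eO hOM y : M) : Fin r → G) j = (eO (y j) : G) := rfl

theorem ses_FM : SES (FM eO hOM)
    (Submodule.submoduleOf (Submodule.pi Set.univ (fun _ : Fin r => O)) M).mkQ where
  inj := (Submodule.subtype_injective _).comp (LinearEquiv.injective _)
  surj := Submodule.mkQ_surjective _
  ex := fun x => by
    rw [(SES.subtype_mkQ (Submodule.submoduleOf (Submodule.pi Set.univ
      (fun _ : Fin r => O)) M)).ex x]
    constructor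
    · rintro ⟨a, rfl⟩
      obtain ⟨b, rfl⟩ := ((LinearEquiv.piCongrRight fun _ => eO).trans
        ((piEquiv O r).symm.trans (Submodule.submoduleOfEquivOfLe hOM).symm)).surjective a
      exact ⟨b, rfl⟩
    · rintro ⟨a, rfl⟩
      exact ⟨_, rfl⟩

/-- the short exact sequence `OO^r → M → M/OO^r` of plain triples -/
theorem ts_FM : TS (piS (Fin r) (alV L)) (piS (Fin r) (beP L 0)) (al L (Y := M)) (be L (Y := M))
    (al L (Y := SQ M (Submodule.pi Set.univ (fun _ : Fin r => O))))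
    (be L (Y := SQ M (Submodule.pi Set.univ (fun _ : Fin r => O))))
    ((Cmap (iA L) (FM eO hOM)).comp (aOr r).toLinearMap)
    ((Cmap (iB L) (FM eO hOM)).comp (bOr r).toLinearMap)
    ((Cmap (iC L) (FM eO hOM)).comp (cOr r).toLinearMap)
    (Cmap (iA L) (Submodule.submoduleOf (Submodule.pi Set.univ (fun _ : Fin r => O)) M).mkQ)
    (Cmap (iB L) (Submodule.submoduleOf (Submodule.pi Set.univ (fun _ : Fin r => O)) M).mkQ)
    (Cmap (iC L) (Submodule.submoduleOf (Submodule.pi Set.univ (fun _ : Fin r => O)) M).mkQ) :=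
  ts_precomp (ts_of_ses (ses_FM eO hOM)) (aOr r) (bOr r) (cOr r) al_aOr be_bOr

include eO hOM in
/-- `Psi⁰ M = 0` -/
theorem dZ_injective
    (hPZ : PZ R (SQ M (Submodule.pi Set.univ (fun _ : Fin r => O)))) :
    Function.Injective (dZ R M) :=
  (ts_FM eO hOM).delta_injective R
    (delta_pi_injective R (alV L) (beP L 0) (delta_P_injective R 0)) hPZ.1

variable (φ : cC L G →+ LaurentSeries T) (hφ : ∀ (d : DD) (y : cC L G), φ (d • y) = U.Θ d * φ y)
  (hA : ∀ a : cA L G, Aff (φ (al L a))) (hB : ∀ b : cB L G, Inf (φ (be L b)))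
  (hφ1 : φ (Cmap (iC L) (O.subtype.comp eO.toLinearMap) (cO.symm 1)) = 1)

/-- the `i`-th coordinate on `M` -/
def prM (M : Submodule (Lam L) (Fin r → G)) (i : Fin r) : M →ₗ[Lam L] G :=
  (LinearMap.proj i).comp M.subtype

/-- `φ` of the `i`-th coordinate -/
def phiM (M : Submodule (Lam L) (Fin r → G)) (i : Fin r) : cC L M →+ LaurentSeries T :=
  φ.comp (Cmap (iC L) (prM M i)).toAddMonoidHom

/-- the projector `M → e M` -/
def eM {e : (Fin r → G) →ₗ[Lam L] (Fin r → G)} : M →ₗ[Lam L] M.map e :=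
  (e.comp M.subtype).codRestrict (M.map e) (fun y => ⟨y, y.2, rfl⟩)

/-- the inclusion `e M → M` -/
def iM {e : (Fin r → G) →ₗ[Lam L] (Fin r → G)} (heM : ∀ y ∈ M, e y ∈ M) : M.map e →ₗ[Lam L] M :=
  Submodule.inclusion (by rintro _ ⟨y, hy, rfl⟩; exact heM y hy)

theorem phiM_apply (i : Fin r) (y : cC L M) :
    phiM φ M i y = φ (Cmap (iC L) (prM M i) y) := rfl

theorem phiM_al (i : Fin r) (a : cA L M) :
    phiM φ M i (al L a) = φ (al L (Cmap (iA L) (prM M i) a)) := by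
  rw [phiM_apply, al_map]

theorem phiM_be (i : Fin r) (a : cB L M) :
    phiM φ M i (be L a) = φ (be L (Cmap (iB L) (prM M i) a)) := by
  rw [phiM_apply, be_map]

include hφ in
theorem phiM_smul (i : Fin r) (d : DD) (y : cC L M) :
    phiM φ M i (d • y) = U.Θ d * phiM φ M i y := by
  rw [phiM_apply, map_smul, hφ, phiM_apply]

/-- the third component of `OO^r → M` -/
def fCM : (Fin r → DD) →ₗ[DD] cC L M := (Cmap (iC L) (FM eO hOM)).comp (cOr r).toLinearMap

theorem prM_fCM (i : Fin r) (v : Fin r → DD) :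
    Cmap (iC L) (prM M i) (fCM eO hOM v) =
      Cmap (iC L) (O.subtype.comp eO.toLinearMap) (cO.symm (v i)) := Subtype.ext rfl

include hφ1 in
theorem phiM_fCM (i j : Fin r) :
    phiM φ M i (fCM eO hOM (Pi.single j 1)) = if i = j then 1 else 0 := by
  rw [phiM_apply, prM_fCM]
  by_cases h : i = j
  · subst h
    rw [if_pos rfl, Pi.single_eq_same, hφ1]
  · rw [if_neg h, Pi.single_eq_of_ne h, map_zero, map_zero, map_zero]

variable {e : (Fin r → G) →ₗ[Lam L] (Fin r → G)} (heM : ∀ y ∈ M, e y ∈ M)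

theorem eM_iM (he : ∀ y, e (e y) = e y) (c : M.map e) : eM (M := M) (e := e) (iM heM c) = c := by
  apply Subtype.ext
  show e (c : Fin r → G) = (c : Fin r → G)
  obtain ⟨y, _, hy⟩ := c.2
  rw [← hy, he]

theorem Cmap_eM_iM (he : ∀ y, e (e y) = e y) (c : cC L (M.map e)) :
    Cmap (iC L) (eM (M := M) (e := e)) (Cmap (iC L) (iM heM) c) = c :=
  Subtype.ext (eM_iM heM he _)

theorem phiM_iM_eM (E : Matrix (Fin r) (Fin r) T)
    (hE : ∀ (i : Fin r) (y : cC L (Fin r → G)),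
      φ (Cmap (iC L) (LinearMap.proj i) (Cmap (iC L) e y)) =
        ∑ j, φ (Cmap (iC L) (LinearMap.proj j) y) * HahnSeries.C (E j i)) (i : Fin r)
    (c : cC L M) :
    phiM φ M i (Cmap (iC L) (iM heM) (Cmap (iC L) (eM (M := M) (e := e)) c)) =
      ∑ j, phiM φ M j c * HahnSeries.C (E j i) :=
  hE i (Cmap (iC L) M.subtype c)

include hφ hA hB hφ1 hOM heM in
/-- Step 4 for modules over the triangular ring -/
theorem psi1_summand_Z
    (hPZ : PZ R (SQ M (Submodule.pi Set.univ (fun _ : Fin r => O))))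
    (he : ∀ y, e (e y) = e y)
    (E : Matrix (Fin r) (Fin r) T)
    (hE : ∀ (i : Fin r) (y : cC L (Fin r → G)),
      φ (Cmap (iC L) (LinearMap.proj i) (Cmap (iC L) e y)) =
        ∑ j, φ (Cmap (iC L) (LinearMap.proj j) y) * HahnSeries.C (E j i)) :
    Nonempty (Psi1 R (al L (Y := M.map e)) (be L (Y := M.map e)) ≃ₗ[T]
      LinearMap.range (Matrix.vecMulLinear E)) :=
  psi1_summand R (al L (Y := M)) (be L (Y := M)) (al L (Y := M.map e))
    (be L (Y := M.map e)) (phiM φ M) (phiM_smul φ hφ)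
    (fun i a => by rw [phiM_al]; exact hA _)
    (fun i a => by rw [phiM_be]; exact hB _)
    ((Cmap (iA L) (FM eO hOM)).comp (aOr r).toLinearMap)
    ((Cmap (iB L) (FM eO hOM)).comp (bOr r).toLinearMap)
    (fCM eO hOM)
    (ts_FM eO hOM).fal (ts_FM eO hOM).fbe ((ts_FM eO hOM).psi1_bijective R hPZ)
    (phiM_fCM eO hOM φ hφ1)
    (Cmap (iA L) (iM heM)) (Cmap (iB L) (iM heM)) (Cmap (iC L) (iM heM))
    (fun a => al_map L _ a) (fun a => be_map L _ a)
    (Cmap (iA L) eM) (Cmap (iB L) eM) (Cmap (iC L) eM)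
    (fun a => al_map L _ a) (fun a => be_map L _ a) (Cmap_eM_iM heM he) E
    (phiM_iM_eM φ heM E hE)

end Step4

end Crest.Agent.R181.VT
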