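import Crest.Agent.R181.VT495g
import Crest.Agent.R181.VC889c

/-!
# R181, V-chain, block V2: Step 5 for modules over the triangular ring
-/

set_option autoImplicit false
set_option linter.unusedSectionVars false

namespace Crest.Agent.R181.VT

open V868 VA VB LK VC

universe u

section gen

variable {R : Type u} [Ring R] {M N P Q : Type u} [AddCommGroup M] [Module R M] [AddCommGroup N]
  [Module R N] [AddCommGroup P] [Module R P] [AddCommGroup Q] [Module R Q]

theorem exists_ker_equiv {i : M →ₗ[R] N} (hi : Function.Injective i) {f : N →ₗ[R] Q}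
    (hex : Function.Exact i f) (ε : P ≃ₗ[R] N) {l : P →ₗ[R] Q} (hl : f.comp ε.toLinearMap = l) :
    ∃ E : M ≃ₗ[R] LinearMap.ker l, ∀ x, ((E x : LinearMap.ker l) : P) = ε.symm (i x) := by
  subst hl
  refine exists_equiv_of_range_eq (i := ε.symm.toLinearMap.comp i)
    (j := (LinearMap.ker (f.comp ε.toLinearMap)).subtype) (ε.symm.injective.comp hi)
    (Submodule.subtype_injective _) (fun x => ?_)
  constructor
  · rintro ⟨a, ha⟩
    refine ⟨⟨x, LinearMap.mem_ker.2 ((hex (ε x)).2 ⟨a, ?_⟩)⟩, rfl⟩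
    rw [← ha]
    exact (ε.apply_symm_apply _).symm
  · rintro ⟨b, rfl⟩
    obtain ⟨a, ha⟩ := (hex (ε b)).1 (LinearMap.mem_ker.1 b.2)
    refine ⟨a, ?_⟩
    show ε.symm (i a) = _
    rw [ha]
    exact ε.symm_apply_apply _

theorem bij_of_comp {f : N →ₗ[R] Q} (hf : Function.Bijective f) (ε : P ≃ₗ[R] N) {l : P →ₗ[R] Q}
    (hl : f.comp ε.toLinearMap = l) : Function.Bijective l := by
  subst hl
  exact hf.comp ε.bijective

theorem surj_of_comp {f : N →ₗ[R] Q} (hf : Function.Surjective f) (ε : P ≃ₗ[R] N)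
    {l : P →ₗ[R] Q} (hl : f.comp ε.toLinearMap = l) : Function.Surjective l := by
  subst hl
  exact hf.comp ε.surjective

end gen

section RRL

variable {DD : Type u} [Ring DD] {L : Line DD}

theorem extP {y z : P0 L} (h1 : (y : Tr L DD).1 = (z : Tr L DD).1)
    (h3 : (y : Tr L DD).2.2 = (z : Tr L DD).2.2) : y = z :=
  Subtype.ext (Prod.ext h1 (Prod.ext (((mem_P0 L).1 y.2).2.trans ((mem_P0 L).1 z.2).2.symm) h3))

/-- element `(v, 0, d)` of `P0` -/
def mkP (v : L.V) (d : DD) : P0 L := ⟨mk3 L (v : DD) 0 d, (mem_P0 L).2 ⟨v.2, rfl⟩⟩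

@[simp] theorem mkP_1 (v : L.V) (d : DD) : ((mkP v d : P0 L) : Tr L DD).1 = v := rfl
@[simp] theorem mkP_3 (v : L.V) (d : DD) : ((mkP v d : P0 L) : Tr L DD).2.2 = d := rfl

theorem coe_smul_P0 (l : Lam L) (y : P0 L) : ((l • y : P0 L) : Tr L DD) = l • (y : Tr L DD) := rfl

theorem iA_P0_3 (y : P0 L) (h : iA L 1 • y = y) : (y : Tr L DD).2.2 = 0 := by
  rw [← h, coe_smul_P0, iA_3]

theorem iC_P0_1 (y : P0 L) (h : iC L 1 • y = y) : (y : Tr L DD).1 = 0 := by
  rw [← h, coe_smul_P0, iC_1]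

/-- `V^κ = cA (P0^κ)` -/
def eAP (κ : Type) : (κ → L.V) ≃ₗ[L.V] cA L (κ → P0 L) where
  toFun v := ⟨fun i => mkP (v i) 0, by
    rw [mem_Cmp]
    funext i
    refine extP ?_ ?_
    · show (iA L 1 • ((mkP (v i) 0 : P0 L) : Tr L DD)).1 = _
      rw [iA_1]
      simp
    · show (iA L 1 • ((mkP (v i) 0 : P0 L) : Tr L DD)).2.2 = _
      rw [iA_3]
      simp⟩
  invFun y := fun i => ⟨(((y : κ → P0 L) i : P0 L) : Tr L DD).1,
    ((mem_P0 L).1 ((y : κ → P0 L) i).2).1⟩
  map_add' v w := Subtype.ext (funext fun i => extP rfl (by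
    show (0 : DD) = 0 + 0
    rw [add_zero]))
  map_smul' v w := Subtype.ext (funext fun i => extP (by
    show _ = (iA L v • ((mkP (w i) 0 : P0 L) : Tr L DD)).1
    rw [iA_1]; rfl) (by
    show _ = (iA L v • ((mkP (w i) 0 : P0 L) : Tr L DD)).2.2
    rw [iA_3]; rfl))
  left_inv v := rfl
  right_inv y := Subtype.ext (funext fun i => extP rfl (by
    have h : iA L 1 • ((y : κ → P0 L) i) = (y : κ → P0 L) i := congrFun y.2 i
    rw [iA_P0_3 _ h]
    rfl))

/-- `DD^κ = cC (P0^κ)` -/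
def eCP (κ : Type) : (κ → DD) ≃ₗ[DD] cC L (κ → P0 L) where
  toFun v := ⟨fun i => mkP 0 (v i), by
    rw [mem_Cmp]
    funext i
    refine extP ?_ ?_
    · show (iC L 1 • ((mkP 0 (v i) : P0 L) : Tr L DD)).1 = _
      rw [iC_1]
      simp
    · show (iC L 1 • ((mkP 0 (v i) : P0 L) : Tr L DD)).2.2 = _
      rw [iC_3]
      simp⟩
  invFun y := fun i => (((y : κ → P0 L) i : P0 L) : Tr L DD).2.2
  map_add' v w := Subtype.ext (funext fun i => extP (by
    show ((0 : L.V) : DD) = ((0 : L.V) : DD) + ((0 : L.V) : DD)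
    simp) rfl)
  map_smul' v w := Subtype.ext (funext fun i => extP (by
    show _ = (iC L v • ((mkP 0 (w i) : P0 L) : Tr L DD)).1
    rw [iC_1]; rfl) (by
    show _ = (iC L v • ((mkP 0 (w i) : P0 L) : Tr L DD)).2.2
    rw [iC_3]; rfl))
  left_inv v := rfl
  right_inv y := Subtype.ext (funext fun i => extP (by
    have h : iC L 1 • ((y : κ → P0 L) i) = (y : κ → P0 L) i := congrFun y.2 i
    rw [iC_P0_1 _ h]
    rfl) rfl)

/-- compatibility of the two identifications -/
theorem al_eAP {κ : Type} (v : κ → L.V) : al L (eAP κ v) = eCP κ (cσ L.V.subtype κ v) := by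
  apply Subtype.ext
  funext i
  refine extP ?_ ?_
  · show (tA L • ((mkP (v i) 0 : P0 L) : Tr L DD)).1 = _
    rw [tA_1]; rfl
  · show (tA L • ((mkP (v i) 0 : P0 L) : Tr L DD)).2.2 = _
    rw [tA_3]; rfl

theorem eCP_symm_al {κ : Type} (y : cA L (κ → P0 L)) :
    (eCP κ).symm (al L y) = cσ L.V.subtype κ ((eAP κ).symm y) := by
  rw [LinearEquiv.symm_apply_eq, ← al_eAP, LinearEquiv.apply_symm_apply]

section

variable {Y : Type u} [AddCommGroup Y] [Module (Lam L) Y] {k : ℕ}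
  (f : (Fin k → P0 L) →ₗ[Lam L] Y)

/-- the tuple attached to `P0^k → Y` -/
def tup (i : Fin k) : cA L Y := Cmap (iA L) f (eAP (Fin k) (Pi.single i 1))

theorem lcA : (Cmap (iA L) f).comp (eAP (Fin k)).toLinearMap = lc L.V (tup f) := by
  classical
  refine LinearMap.pi_ext' fun i => LinearMap.ext_ring ?_
  show Cmap (iA L) f (eAP (Fin k) (Pi.single i 1)) = Fintype.linearCombination L.V (tup f) (Pi.single i 1)
  rw [Fintype.linearCombination_apply_single, one_smul]
  rfl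

theorem lcC : (Cmap (iC L) f).comp (eCP (Fin k)).toLinearMap =
    lc DD (fun i => al L (tup f i)) := by
  classical
  refine LinearMap.pi_ext' fun i => LinearMap.ext_ring ?_
  show Cmap (iC L) f (eCP (Fin k) (Pi.single i 1)) =
    Fintype.linearCombination DD (fun i => al L (tup f i)) (Pi.single i 1)
  rw [Fintype.linearCombination_apply_single, one_smul, tup, al_map, al_eAP]
  congr 2
  funext j
  rw [cσ_apply]
  by_cases h : j = i
  · subst h; simp
  · simp [h]

end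

theorem RR_zero {Y : Type u} [AddCommGroup Y] [Module (Lam L) Y] {k : ℕ}
    (e : (Fin k → P0 L) ≃ₗ[Lam L] Y) : RR 0 (al L : cA L Y →ₛₗ[L.V.subtype] cC L Y) :=
  ⟨Fin k, inferInstance, tup e.toLinearMap,
    bij_of_comp ⟨Cmap_injective _ e.injective, Cmap_surjective _ e.surjective⟩ _
      (lcA e.toLinearMap),
    bij_of_comp ⟨Cmap_injective _ e.injective, Cmap_surjective _ e.surjective⟩ _
      (lcC e.toLinearMap)⟩

theorem RR_kmap {Y : Type u} [AddCommGroup Y] [Module (Lam L) Y] {k n : ℕ}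
    (f : (Fin k → P0 L) →ₗ[Lam L] Y)
    (h : RR n (al L : cA L (LinearMap.ker f) →ₛₗ[L.V.subtype] cC L (LinearMap.ker f))) :
    RR n (kmap (al L : cA L Y →ₛₗ[L.V.subtype] cC L Y) (tup f)) := by
  have hex : Function.Exact (LinearMap.ker f).subtype f := fun x => by
    simp [LinearMap.mem_ker]
  have hs : Function.Injective (LinearMap.ker f).subtype := Submodule.subtype_injective _
  obtain ⟨e, he⟩ := exists_ker_equiv (Cmap_injective (iA L) hs) (Cmap_exact (iA L) hex)
    (eAP (Fin k)) (lcA f)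
  obtain ⟨g, hg⟩ := exists_ker_equiv (Cmap_injective (iC L) hs) (Cmap_exact (iC L) hex)
    (eCP (Fin k)) (lcC f)
  have key : ∀ x, g (al L x) = kmap (al L : cA L Y →ₛₗ[L.V.subtype] cC L Y) (tup f) (e x) := by
    intro x
    apply Subtype.ext
    rw [kmap_coe]
    refine (hg _).trans ?_
    rw [he, ← al_map]
    exact eCP_symm_al _
  exact RR.of_equiv e g key h

theorem RR_succ {Y : Type u} [AddCommGroup Y] [Module (Lam L) Y] {k n : ℕ}
    (f : (Fin k → P0 L) →ₗ[Lam L] Y) (hf : Function.Surjective f)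
    (h : RR n (al L : cA L (LinearMap.ker f) →ₛₗ[L.V.subtype] cC L (LinearMap.ker f))) :
    RR (n + 1) (al L : cA L Y →ₛₗ[L.V.subtype] cC L Y) :=
  ⟨Fin k, inferInstance, tup f, surj_of_comp (Cmap_surjective _ hf) _ (lcA f),
    surj_of_comp (Cmap_surjective _ hf) _ (lcC f), RR_kmap f h⟩

/-- **(RRL)** -/
theorem RR_of_res : ∀ {n : ℕ} {Y : Type u} [AddCommGroup Y] [Module (Lam L) Y],
    PR.Res (Lam L) (P0 L) n Y → RR n (al L : cA L Y →ₛₗ[L.V.subtype] cC L Y)
  | 0, _, _, _, ⟨_, ⟨e⟩⟩ => RR_zero e.symm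
  | _ + 1, _, _, _, ⟨_, f, hf, h⟩ => RR_succ f hf (RR_of_res h)

/-- the pair of `AC Z` is the pair of `Z` -/
theorem RR_AC {Z : Type u} [AddCommGroup Z] [Module (Lam L) Z] {n : ℕ}
    (h : RR n (al L : cA L (AC L Z) →ₛₗ[L.V.subtype] cC L (AC L Z))) :
    RR n (al L : cA L Z →ₛₗ[L.V.subtype] cC L Z) := by
  have sA : Function.Surjective (Cmap (iA L) (AC L Z).subtype) := by
    intro z
    refine ⟨⟨⟨(z : Z), ?_⟩, ?_⟩, rfl⟩
    · rw [mem_AC, ← one_smul_Cmp (iA L) z, smul_smul, iB_iA, zero_smul]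
    · rw [mem_Cmp]
      exact Subtype.ext z.2
  have sC : Function.Surjective (Cmap (iC L) (AC L Z).subtype) := by
    intro z
    refine ⟨⟨⟨(z : Z), ?_⟩, ?_⟩, rfl⟩
    · rw [mem_AC, ← one_smul_Cmp (iC L) z, smul_smul, iB_iC, zero_smul]
    · rw [mem_Cmp]
      exact Subtype.ext z.2
  exact RR.of_equiv
    (LinearEquiv.ofBijective _ ⟨Cmap_injective _ (Submodule.subtype_injective _), sA⟩)
    (LinearEquiv.ofBijective _ ⟨Cmap_injective _ (Submodule.subtype_injective _), sC⟩)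
    (fun a => (al_map L (AC L Z).subtype a).symm) h

end RRL

section five

variable {DD : Type u} [Ring DD] {L : Line DD} {T : Type u} [Ring T] {U : UnivT L T} (R : RB U)

/-- **Step 5** for modules over the triangular ring -/
theorem step5L (hO : IsNoetherianRing L.O)
    (hT : ∀ (B : Type u) [AddCommGroup B] [Module L.O B], Module.Finite L.O B →
      (∃ s : ℕ, ∀ b : B, VB.pO L ^ s • b = 0) → FR.FFR T (Fr R.ρO B)) : Step5 R := by
  intro Z _ _ hZ hinj
  obtain ⟨n, hn⟩ := hZ.ffr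
  exact VC.step5 R hT n (al L : cA L Z →ₛₗ[L.V.subtype] cC L Z) (be L) (RR_AC (RR_of_res hn))
    hZ.fin hZ.inj hZ.tor hinj

end five

end Crest.Agent.R181.VT
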