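import Crest.Agent.R181.VT495h
import Crest.Agent.R181.VT495z

/-!
# R181, V-chain, block V2: final form
-/

set_option autoImplicit false

namespace Crest.Agent.R181.VT

open V868 VA VB

/-- **V2, abstract form** -/
theorem V2abs {DD : Type} [Ring DD] (L : Line DD) {T : Type} [Ring T] (U : UnivT L T)
    (B : LB L) (B' : LB L.op)
    (hsep : ∀ d : DD, (∀ n : ℕ, ∃ o ∈ L.O, d = L.p ^ n * o) → d = 0)
    (hsum : ∀ a : ℕ → DD, (∀ n, a n ∈ L.O) → ∃ s ∈ L.O, ∀ N : ℕ, ∃ r ∈ L.O,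
      s = ∑ n ∈ Finset.range N, L.p ^ n * a n + L.p ^ N * r)
    {Δ : Type} [Ring Δ] (q : L.O →+* Δ) (hq : Function.Surjective q)
    (hqk : ∀ o, q o = 0 → ∃ o' ∈ L.O, (o : DD) = L.p * o')
    (hqp : q ⟨L.p, L.pO⟩ = 0)
    (hE : FFR.AllFFR ↥(L.V ⊓ L.O)) (hΔ : FFR.AllFFR Δ)
    (hVb : ∃ (J : Type) (j0 : J) (c : J → DD), c j0 = 1 ∧ (∀ j, c j ∈ L.V) ∧
      (∀ v ∈ L.V, ∃ e : J →₀ DD, (∀ j, e j ∈ L.V ⊓ L.O) ∧ v = e.sum fun j r => c j * r) ∧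
      ∀ e : J →₀ DD, (∀ j, e j ∈ L.V ⊓ L.O) → (e.sum fun j r => c j * r) = 0 → e = 0)
    (hOb : ∃ (J : Type) (j0 : J) (c : J → DD), c j0 = 1 ∧ (∀ j, c j ∈ L.O) ∧
      (∀ o ∈ L.O, ∃ e : J →₀ DD, (∀ j, e j ∈ L.V ⊓ L.O) ∧
        ∃ o' ∈ L.O, o = (e.sum fun j r => c j * r) + L.p * o') ∧
      ∀ e : J →₀ DD, (∀ j, e j ∈ L.V ⊓ L.O) → ∀ o' ∈ L.O,
        (e.sum fun j r => c j * r) = L.p * o' → e = 0)
    (hV : TW.AllSF L.V) : TW.AllSF T :=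
  V2abs_of (by intro DD _ L T _ U R hO hT; exact step5L R hO hT) L U B B' hsep hsum q hq hqk hqp hE hΔ hVb hOb
    hV

end Crest.Agent.R181.VT
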